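import Mathlib

/-!
# Log-supermodular weights, FKG and shifted Ahlswede–Daykin (helper375, R161 STEP 1)

`LSM μ` : `0 ≤ μ` and `μ a * μ b ≤ μ (a ⊓ b) * μ (a ⊔ b)`.
-/

set_option autoImplicit false
set_option linter.unusedSectionVars false
set_option linter.unnecessarySeqFocus false
set_option linter.unusedVariables false

open Finset
open scoped FinsetFamily

namespace Crest.Agent.R161.Lsm375

/-- log-supermodular weight -/
def LSM {α : Type*} [Lattice α] (μ : α → ℝ) : Prop :=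
  (∀ a, 0 ≤ μ a) ∧ ∀ a b, μ a * μ b ≤ μ (a ⊓ b) * μ (a ⊔ b)

section basic
variable {α : Type*} [Lattice α] {μ ν : α → ℝ}

lemma LSM.nonneg (h : LSM μ) (a : α) : 0 ≤ μ a := h.1 a

lemma LSM.congr (h : LSM μ) (e : ∀ a, ν a = μ a) : LSM ν :=
  ⟨fun a => by rw [e]; exact h.1 a, fun a b => by simpa only [e] using h.2 a b⟩

lemma LSM.const {r : ℝ} (hr : 0 ≤ r) : LSM (fun _ : α => r) := ⟨fun _ => hr, fun _ _ => le_rfl⟩

lemma LSM.one : LSM (fun _ : α => (1 : ℝ)) := LSM.const zero_le_one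

lemma LSM.mul (h : LSM μ) (h' : LSM ν) : LSM (fun a => μ a * ν a) := by
  refine ⟨fun a => mul_nonneg (h.1 a) (h'.1 a), fun a b => ?_⟩
  calc μ a * ν a * (μ b * ν b) = (μ a * μ b) * (ν a * ν b) := by ring
    _ ≤ (μ (a ⊓ b) * μ (a ⊔ b)) * (ν (a ⊓ b) * ν (a ⊔ b)) :=
        mul_le_mul (h.2 a b) (h'.2 a b) (mul_nonneg (h'.1 a) (h'.1 b))
          (mul_nonneg (h.1 _) (h.1 _))
    _ = _ := by ring

lemma LSM.prod {κ : Type*} (s : Finset κ) {f : κ → α → ℝ} (hf : ∀ k ∈ s, LSM (f k)) :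
    LSM (fun a => ∏ k ∈ s, f k a) := by
  classical
  induction s using Finset.induction_on with
  | empty => exact LSM.one.congr (by simp)
  | insert k s hk ih =>
    refine ((hf k (Finset.mem_insert_self k s)).mul
      (ih fun j hj => hf j (Finset.mem_insert_of_mem hj))).congr fun σ => ?_
    rw [Finset.prod_insert hk]

/-- indicator of a sublattice -/
lemma LSM.ind (p : α → Prop) [DecidablePred p]
    (hp : ∀ a b, p a → p b → p (a ⊓ b) ∧ p (a ⊔ b)) :
    LSM (fun a => if p a then (1 : ℝ) else 0) := by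
  refine ⟨fun a => by dsimp only; split_ifs <;> norm_num, fun a b => ?_⟩
  dsimp only
  by_cases ha : p a
  · by_cases hb : p b
    · obtain ⟨h1, h2⟩ := hp a b ha hb
      simp [ha, hb, h1, h2]
    · simp only [hb, if_false, mul_zero]
      split_ifs <;> norm_num
  · simp only [ha, if_false, zero_mul]
    split_ifs <;> norm_num

/-- pull-back along a lattice homomorphism -/
lemma LSM.comp {β : Type*} [Lattice β] {φ : β → ℝ} (h : LSM φ) (π : α → β)
    (hi : ∀ a b, π (a ⊓ b) = π a ⊓ π b) (hs : ∀ a b, π (a ⊔ b) = π a ⊔ π b) :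
    LSM (fun a => φ (π a)) :=
  ⟨fun a => h.1 _, fun a b => by simpa only [hi, hs] using h.2 (π a) (π b)⟩

/-- any nonnegative function on a linear order is LSM -/
lemma LSM.linear {β : Type*} [LinearOrder β] {φ : β → ℝ} (h : ∀ b, 0 ≤ φ b) : LSM φ := by
  refine ⟨h, fun a b => ?_⟩
  rcases le_total a b with hab | hab
  · rw [inf_eq_left.mpr hab, sup_eq_right.mpr hab]
  · rw [inf_eq_right.mpr hab, sup_eq_left.mpr hab, mul_comm]

/-- a nonnegative function of one coordinate is LSM -/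
lemma LSM.site {S : Type*} {φ : ℤ → ℝ} (h : ∀ b, 0 ≤ φ b) (x : S) :
    LSM (fun a : S → ℤ => φ (a x)) :=
  (LSM.linear h).comp (fun a : S → ℤ => a x) (fun _ _ => rfl) (fun _ _ => rfl)

end basic

section fkg
variable {α : Type*} [DistribLattice α] [DecidableEq α]

/-- FKG on a finite subset closed under `⊓`, `⊔`; the functions are only assumed monotone on it. -/
theorem LSM.fkg_nonneg {μ : α → ℝ} (hμ : LSM μ) (B : Finset α)
    (hB : ∀ a ∈ B, ∀ b ∈ B, a ⊓ b ∈ B ∧ a ⊔ b ∈ B)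
    {f g : α → ℝ} (hf0 : ∀ a ∈ B, 0 ≤ f a) (hg0 : ∀ a ∈ B, 0 ≤ g a)
    (hf : ∀ a ∈ B, ∀ b ∈ B, a ≤ b → f a ≤ f b) (hg : ∀ a ∈ B, ∀ b ∈ B, a ≤ b → g a ≤ g b) :
    (∑ a ∈ B, μ a * f a) * (∑ a ∈ B, μ a * g a) ≤ (∑ a ∈ B, μ a) * ∑ a ∈ B, μ a * (f a * g a) := by
  classical
  set ι : α → ℝ := fun a => if a ∈ B then 1 else 0 with hι
  have key := four_functions_theorem (α := α) (β := ℝ)
    (fun a => ι a * (μ a * f a)) (fun a => ι a * (μ a * g a))
    (fun a => ι a * μ a) (fun a => ι a * (μ a * (f a * g a)))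
    (fun a => by
      by_cases h : a ∈ B
      · simpa [hι, h] using mul_nonneg (hμ.1 a) (hf0 a h)
      · simp [hι, h])
    (fun a => by
      by_cases h : a ∈ B
      · simpa [hι, h] using mul_nonneg (hμ.1 a) (hg0 a h)
      · simp [hι, h])
    (fun a => by
      by_cases h : a ∈ B
      · simpa [hι, h] using hμ.1 a
      · simp [hι, h])
    (fun a => by
      by_cases h : a ∈ B
      · simpa [hι, h] using mul_nonneg (hμ.1 a) (mul_nonneg (hf0 a h) (hg0 a h))
      · simp [hι, h])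
    (fun a b => by
      by_cases ha : a ∈ B
      · by_cases hb : b ∈ B
        · obtain ⟨h1, h2⟩ := hB a ha b hb
          simp only [hι, ha, hb, h1, h2, if_true, one_mul]
          have e1 : f a ≤ f (a ⊔ b) := hf a ha _ h2 le_sup_left
          have e2 : g b ≤ g (a ⊔ b) := hg b hb _ h2 le_sup_right
          calc μ a * f a * (μ b * g b) = (μ a * μ b) * (f a * g b) := by ring
            _ ≤ (μ (a ⊓ b) * μ (a ⊔ b)) * (f (a ⊔ b) * g (a ⊔ b)) :=
                mul_le_mul (hμ.2 a b)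
                  (mul_le_mul e1 e2 (hg0 b hb) (hf0 _ h2))
                  (mul_nonneg (hf0 a ha) (hg0 b hb)) (mul_nonneg (hμ.1 _) (hμ.1 _))
            _ = _ := by ring
        · simp only [hι, hb, if_false, zero_mul, mul_zero]
          have : 0 ≤ ι (a ⊓ b) * μ (a ⊓ b) := by
            simp only [hι]; split_ifs
            · simpa using hμ.1 _
            · simp
          by_cases h2 : a ⊔ b ∈ B
          · have h3 : 0 ≤ ι (a ⊔ b) * (μ (a ⊔ b) * (f (a ⊔ b) * g (a ⊔ b))) := by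
              simp only [hι, h2, if_true, one_mul]
              exact mul_nonneg (hμ.1 _) (mul_nonneg (hf0 _ h2) (hg0 _ h2))
            simpa [hι] using mul_nonneg this h3
          · simp [h2]
      · simp only [hι, ha, if_false, zero_mul]
        have : 0 ≤ ι (a ⊓ b) * μ (a ⊓ b) := by
          simp only [hι]; split_ifs
          · simpa using hμ.1 _
          · simp
        by_cases h2 : a ⊔ b ∈ B
        · have h3 : 0 ≤ ι (a ⊔ b) * (μ (a ⊔ b) * (f (a ⊔ b) * g (a ⊔ b))) := by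
            simp only [hι, h2, if_true, one_mul]
            exact mul_nonneg (hμ.1 _) (mul_nonneg (hf0 _ h2) (hg0 _ h2))
          simpa [hι] using mul_nonneg this h3
        · simp [h2])
    B B
  have e : ∀ φ : α → ℝ, ∑ a ∈ B, ι a * φ a = ∑ a ∈ B, φ a := fun φ =>
    Finset.sum_congr rfl fun a ha => by simp [hι, ha]
  have e1 : ∀ (φ : α → ℝ) (C : Finset α), (∀ a ∈ B, 0 ≤ φ a) →
      ∑ a ∈ C, ι a * φ a ≤ ∑ a ∈ B, φ a := by
    intro φ C hφ
    calc ∑ a ∈ C, ι a * φ a = ∑ a ∈ C ∩ B, φ a := by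
          rw [Finset.sum_inter_add_sum_sdiff C B (fun a => ι a * φ a) |>.symm]
          have h1 : ∑ a ∈ C \ B, ι a * φ a = 0 :=
            Finset.sum_eq_zero fun a ha => by
              simp only [Finset.mem_sdiff] at ha
              simp [hι, ha.2]
          rw [h1, add_zero]
          exact Finset.sum_congr rfl fun a ha => by
            simp only [Finset.mem_inter] at ha
            simp [hι, ha.2]
      _ ≤ _ := Finset.sum_le_sum_of_subset_of_nonneg Finset.inter_subset_right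
          fun a ha _ => hφ a ha
  rw [e, e] at key
  refine key.trans (mul_le_mul (e1 _ _ fun a _ => hμ.1 a)
    (e1 _ _ fun a ha => mul_nonneg (hμ.1 a) (mul_nonneg (hf0 a ha) (hg0 a ha))) ?_ ?_)
  · refine Finset.sum_nonneg fun a _ => ?_
    by_cases h : a ∈ B
    · simpa [hι, h] using mul_nonneg (hμ.1 a) (mul_nonneg (hf0 a h) (hg0 a h))
    · simp [hι, h]
  · exact Finset.sum_nonneg fun a _ => hμ.1 a

/-- FKG on a finite subset closed under `⊓`, `⊔`. -/
theorem LSM.fkg {μ : α → ℝ} (hμ : LSM μ) (B : Finset α)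
    (hB : ∀ a ∈ B, ∀ b ∈ B, a ⊓ b ∈ B ∧ a ⊔ b ∈ B)
    {f g : α → ℝ}
    (hf : ∀ a ∈ B, ∀ b ∈ B, a ≤ b → f a ≤ f b) (hg : ∀ a ∈ B, ∀ b ∈ B, a ≤ b → g a ≤ g b) :
    (∑ a ∈ B, μ a * f a) * (∑ a ∈ B, μ a * g a) ≤ (∑ a ∈ B, μ a) * ∑ a ∈ B, μ a * (f a * g a) := by
  classical
  obtain ⟨m, hm⟩ : ∃ m : ℝ, ∀ a ∈ B, 0 ≤ f a + m ∧ 0 ≤ g a + m := by
    refine ⟨∑ a ∈ B, (|f a| + |g a|), fun a ha => ?_⟩
    have h1 : |f a| + |g a| ≤ ∑ a ∈ B, (|f a| + |g a|) :=
      Finset.single_le_sum (f := fun a => |f a| + |g a|) (fun b _ => by positivity) ha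
    have h2 := neg_abs_le (f a)
    have h3 := neg_abs_le (g a)
    have h4 := abs_nonneg (f a)
    have h5 := abs_nonneg (g a)
    constructor <;> linarith
  have key := hμ.fkg_nonneg B hB (f := fun a => f a + m) (g := fun a => g a + m)
    (fun a ha => (hm a ha).1) (fun a ha => (hm a ha).2)
    (fun a ha b hb hab => by have := hf a ha b hb hab; linarith)
    (fun a ha b hb hab => by have := hg a ha b hb hab; linarith)
  have e1 : ∑ a ∈ B, μ a * (f a + m) = ∑ a ∈ B, μ a * f a + m * ∑ a ∈ B, μ a := by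
    rw [Finset.mul_sum, ← Finset.sum_add_distrib]
    exact Finset.sum_congr rfl fun a _ => by ring
  have e2 : ∑ a ∈ B, μ a * (g a + m) = ∑ a ∈ B, μ a * g a + m * ∑ a ∈ B, μ a := by
    rw [Finset.mul_sum, ← Finset.sum_add_distrib]
    exact Finset.sum_congr rfl fun a _ => by ring
  have e3 : ∑ a ∈ B, μ a * ((f a + m) * (g a + m)) = ∑ a ∈ B, μ a * (f a * g a)
      + m * ∑ a ∈ B, μ a * f a + m * ∑ a ∈ B, μ a * g a + m ^ 2 * ∑ a ∈ B, μ a := by
    rw [Finset.mul_sum, Finset.mul_sum, Finset.mul_sum, ← Finset.sum_add_distrib,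
      ← Finset.sum_add_distrib, ← Finset.sum_add_distrib]
    exact Finset.sum_congr rfl fun a _ => by ring
  rw [e1, e2, e3] at key
  nlinarith [key]

/-- Shifted Ahlswede–Daykin inequality.  `T` is an automorphism of the lattice with `a ≤ T a`
preserving `μ` (e.g. `a ↦ a + s`).  If for `a ∈ A`, `b ∈ B` one has `(T a) ⊓ b ∈ C` and
`a ⊔ T⁻¹ b ∈ D` then `μ(A) μ(B) ≤ μ(C) μ(D)`. -/
theorem LSM.shift {μ : α → ℝ} (hμ : LSM μ) (T : α ≃o α) (hT : ∀ a, μ (T a) = μ a)
    (A B C D : Finset α)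
    (hC : ∀ a ∈ A, ∀ b ∈ B, T a ⊓ b ∈ C) (hD : ∀ a ∈ A, ∀ b ∈ B, a ⊔ T.symm b ∈ D) :
    (∑ a ∈ A, μ a) * (∑ b ∈ B, μ b) ≤ (∑ a ∈ C, μ a) * ∑ b ∈ D, μ b := by
  classical
  have hT' : ∀ a, μ (T.symm a) = μ a := fun a => by
    conv_rhs => rw [← T.apply_symm_apply a]
    rw [hT]
  -- apply the four functions theorem with `b' = T⁻¹ b`
  set B' : Finset α := B.image T.symm with hB'
  have key := four_functions_theorem (α := α) (β := ℝ) μ μ μ μ (fun a => hμ.1 a) (fun a => hμ.1 a)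
    (fun a => hμ.1 a) (fun a => hμ.1 a) (fun a b => hμ.2 a b) A B'
  have e1 : ∑ a ∈ B', μ a = ∑ b ∈ B, μ b := by
    rw [hB', Finset.sum_image (fun a _ b _ h => T.symm.injective h)]
    exact Finset.sum_congr rfl fun b _ => hT' b
  rw [e1] at key
  refine key.trans (mul_le_mul ?_ ?_ (Finset.sum_nonneg fun a _ => hμ.1 a)
    (Finset.sum_nonneg fun a _ => hμ.1 a))
  · -- infs
    have hsub : (A ⊼ B').image T ⊆ C := by
      intro x hx
      simp only [Finset.mem_image, Finset.mem_infs, hB'] at hx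
      obtain ⟨y, ⟨a, ha, b', ⟨b, hb, rfl⟩, rfl⟩, rfl⟩ := hx
      have : T (a ⊓ T.symm b) = T a ⊓ b := by rw [map_inf, T.apply_symm_apply]
      rw [this]
      exact hC a ha b hb
    calc ∑ a ∈ A ⊼ B', μ a = ∑ a ∈ (A ⊼ B').image T, μ a := by
          rw [Finset.sum_image (fun a _ b _ h => T.injective h)]
          exact Finset.sum_congr rfl fun b _ => (hT b).symm
      _ ≤ _ := Finset.sum_le_sum_of_subset_of_nonneg hsub fun a _ _ => hμ.1 a
  · have hsub : (A ⊻ B') ⊆ D := by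
      intro x hx
      simp only [Finset.mem_image, Finset.mem_sups, hB'] at hx
      obtain ⟨a, ha, b', ⟨b, hb, rfl⟩, rfl⟩ := hx
      exact hD a ha b hb
    exact Finset.sum_le_sum_of_subset_of_nonneg hsub fun a _ _ => hμ.1 a

end fkg

end Crest.Agent.R161.Lsm375
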