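import Crest.Agent.R161.RP_695
import Mathlib.Analysis.InnerProductSpace.Defs

/-!
R161, STEPS 5-6 (helper695): the propagation inequality for a sesquilinear form, and for a
reflection positive state `E` on functionals of a configuration space.
-/

set_option autoImplicit false

namespace Crest.Agent.R161.RPsys695

open scoped ComplexConjugate

/-- **Propagation inequality, form version.** -/
theorem propagation_form {V : Type*} [AddCommGroup V] [Module ℂ V] (B : V → V → ℂ)
    (T : V →ₗ[ℂ] V)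
    (hadd : ∀ x y z, B (x + y) z = B x z + B y z)
    (hsmul : ∀ x y (r : ℂ), B (r • x) y = conj r * B x y)
    (hconj : ∀ x y, conj (B y x) = B x y)
    (hnn : ∀ x, 0 ≤ (B x x).re)
    (hsymm : ∀ x y, B (T x) y = B x (T y))
    (hpos : ∀ x, 0 ≤ (B x (T x)).re)
    (hbdd : ∀ x, ∃ C : ℝ, ∀ n : ℕ, (B ((T ^ n) x) ((T ^ n) x)).re ≤ C)
    (n p : ℕ) (x y : V) :
    ‖B x ((T ^ n) y)‖ ≤ (∑ j ∈ Finset.range p, (p.choose (j + 1) : ℝ) *
        ‖B x ((T ^ (n * (j + 2))) y)‖) + √(B x x).re * √(B y y).re / √(2 * p + 1) := by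
  let cd : PreInnerProductSpace.Core ℂ V :=
    { inner := B
      conj_inner_symm := fun x y => hconj x y
      re_inner_nonneg := fun x => hnn x
      add_left := fun x y z => hadd x y z
      smul_left := fun x y r => hsmul x y r }
  letI i1 : SeminormedAddCommGroup V :=
    @InnerProductSpace.Core.toSeminormedAddCommGroup ℂ V _ _ _ cd
  letI i2 : InnerProductSpace ℂ V := InnerProductSpace.ofCore cd
  have h : RP695.IsRPT T :=
    { symm := fun x y => hsymm x y
      pos := fun x => hpos x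
      bdd := fun x => by
        obtain ⟨C, hC⟩ := hbdd x
        refine ⟨√C, fun n => ?_⟩
        have e : ‖(T ^ n) x‖ = √(B ((T ^ n) x) ((T ^ n) x)).re := rfl
        rw [e]
        exact Real.sqrt_le_sqrt (hC n) }
  exact h.propagation_pow n p x y

/-- Cauchy-Schwarz, form version -/
theorem cauchy_schwarz_form {V : Type*} [AddCommGroup V] [Module ℂ V] (B : V → V → ℂ)
    (hadd : ∀ x y z, B (x + y) z = B x z + B y z)
    (hsmul : ∀ x y (r : ℂ), B (r • x) y = conj r * B x y)
    (hconj : ∀ x y, conj (B y x) = B x y)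
    (hnn : ∀ x, 0 ≤ (B x x).re) (x y : V) :
    ‖B x y‖ ≤ √(B x x).re * √(B y y).re := by
  let cd : PreInnerProductSpace.Core ℂ V :=
    { inner := B
      conj_inner_symm := fun x y => hconj x y
      re_inner_nonneg := fun x => hnn x
      add_left := fun x y z => hadd x y z
      smul_left := fun x y r => hsmul x y r }
  letI i1 : SeminormedAddCommGroup V :=
    @InnerProductSpace.Core.toSeminormedAddCommGroup ℂ V _ _ _ cd
  letI i2 : InnerProductSpace ℂ V := InnerProductSpace.ofCore cd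
  exact norm_inner_le_norm (𝕜 := ℂ) x y

/-- A reflection positive state, seen from one family of parallel reflection lines.

`Ω` configurations, `E` the state, `N` admissible (neutral, bounded, measurable) functionals,
`V` admissible functionals of one half plane (of a fixed charge), `θ` the reflection,
`τ` the translation (as maps of configurations): `F ∘ τ` lives one unit further away from the
line when `F` lives in the half plane. -/
structure RPSys (Ω : Type*) where
  /-- the state -/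
  E : (Ω → ℂ) → ℂ
  /-- admissible neutral functionals -/
  N : Submodule ℂ (Ω → ℂ)
  /-- half plane functionals -/
  V : Submodule ℂ (Ω → ℂ)
  /-- reflection -/
  θ : Ω → Ω
  /-- translation -/
  τ : Ω → Ω
  θθ : ∀ ω, θ (θ ω) = ω
  τθτ : ∀ ω, τ (θ (τ ω)) = θ ω
  mem_N : ∀ F ∈ V, ∀ G ∈ V, (fun ω => conj (F (θ ω)) * G ω) ∈ N
  mem_V : ∀ F ∈ V, (fun ω => F (τ ω)) ∈ V
  E_add : ∀ F ∈ N, ∀ G ∈ N, E (F + G) = E F + E G
  E_smul : ∀ (r : ℂ), ∀ F ∈ N, E (r • F) = r * E F
  E_conj : ∀ F ∈ V, ∀ G ∈ V, E (fun ω => conj (conj (F (θ ω)) * G ω))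
    = conj (E (fun ω => conj (F (θ ω)) * G ω))
  E_θ : ∀ F ∈ V, ∀ G ∈ V, E (fun ω => conj (F (θ ω)) * G ω)
    = E (fun ω => conj (F ω) * G (θ ω))
  E_τ : ∀ F ∈ N, E (fun ω => F (τ ω)) = E F
  rp0 : ∀ F ∈ V, 0 ≤ (E (fun ω => conj (F (θ ω)) * F ω)).re
  rp1 : ∀ F ∈ V, 0 ≤ (E (fun ω => conj (F (θ ω)) * F (τ ω))).re
  bdd : ∀ F ∈ V, ∃ C : ℝ, ∀ n : ℕ,
    (E (fun ω => conj (F (τ^[n] (θ ω))) * F (τ^[n] ω))).re ≤ C

namespace RPSys

variable {Ω : Type*} (S : RPSys Ω)

/-- the form `E[conj (F ∘ θ) G]` -/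
def B (F G : Ω → ℂ) : ℂ := S.E (fun ω => conj (F (S.θ ω)) * G ω)

lemma mem_V_iter {F : Ω → ℂ} (hF : F ∈ S.V) (n : ℕ) : (fun ω => F (S.τ^[n] ω)) ∈ S.V := by
  induction n with
  | zero => simpa using hF
  | succ n ih =>
    have := S.mem_V _ ih
    simpa [Function.iterate_succ_apply] using this

/-- translation on half plane functionals -/
def T : S.V →ₗ[ℂ] S.V where
  toFun F := ⟨fun ω => F.1 (S.τ ω), S.mem_V F.1 F.2⟩
  map_add' F G := rfl
  map_smul' r F := rfl

lemma T_pow_apply (n : ℕ) (F : S.V) : ((S.T ^ n) F).1 = fun ω => F.1 (S.τ^[n] ω) := by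
  induction n with
  | zero => rfl
  | succ n ih =>
    rw [pow_succ', Module.End.mul_apply]
    funext ω
    change ((S.T ^ n) F).1 (S.τ ω) = _
    rw [ih, Function.iterate_succ_apply]

/-- iterated translation and reflection: `τ^n θ τ^n = θ` -/
lemma iter_θ (n : ℕ) (ω : Ω) : S.τ^[n] (S.θ (S.τ^[n] ω)) = S.θ ω := by
  induction n generalizing ω with
  | zero => rfl
  | succ n ih =>
    rw [Function.iterate_succ_apply, Function.iterate_succ_apply']
    rw [← Function.iterate_succ_apply' S.τ n ω, Function.iterate_succ_apply]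
    -- τ^n (τ (θ (τ^n (τ ω)))) ; commute τ^n and τ
    rw [← Function.iterate_succ_apply, Function.iterate_succ_apply', ih, S.τθτ]

theorem propagation {F G : Ω → ℂ} (hF : F ∈ S.V) (hG : G ∈ S.V) (n p : ℕ) :
    ‖S.E (fun ω => conj (F (S.θ ω)) * G (S.τ^[n] ω))‖ ≤
      (∑ j ∈ Finset.range p, (p.choose (j + 1) : ℝ) *
        ‖S.E (fun ω => conj (F (S.θ ω)) * G (S.τ^[n * (j + 2)] ω))‖)
      + √(S.B F F).re * √(S.B G G).re / √(2 * p + 1) := by
  have key := propagation_form (V := S.V) (fun F G => S.B F.1 G.1) S.T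
    (fun x y z => by
      have := S.E_add _ (S.mem_N x.1 x.2 z.1 z.2) _ (S.mem_N y.1 y.2 z.1 z.2)
      simp only [B]
      rw [← this]
      congr 1
      funext ω
      simp [add_mul])
    (fun x y r => by
      have := S.E_smul (conj r) _ (S.mem_N x.1 x.2 y.1 y.2)
      simp only [B]
      rw [← this]
      congr 1
      funext ω
      simp [mul_assoc])
    (fun x y => by
      simp only [B]
      rw [← S.E_conj y.1 y.2 x.1 x.2, S.E_θ x.1 x.2 y.1 y.2]
      congr 1
      funext ω
      simp [mul_comm])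
    (fun x => S.rp0 x.1 x.2)
    (fun x y => by
      simp only [B]
      have h1 := S.E_τ _ (S.mem_N _ (S.T x).2 y.1 y.2)
      rw [← h1]
      congr 1
      funext ω
      change conj (x.1 (S.τ (S.θ (S.τ ω)))) * y.1 (S.τ ω) = conj (x.1 (S.θ ω)) * y.1 (S.τ ω)
      rw [S.τθτ])
    (fun x => S.rp1 x.1 x.2)
    (fun x => by
      obtain ⟨C, hC⟩ := S.bdd x.1 x.2
      refine ⟨C, fun n => ?_⟩
      simp only [B, T_pow_apply]
      exact hC n)
    n p ⟨F, hF⟩ ⟨G, hG⟩
  simpa only [B, T_pow_apply] using key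

theorem cauchy_schwarz {F G : Ω → ℂ} (hF : F ∈ S.V) (hG : G ∈ S.V) :
    ‖S.B F G‖ ≤ √(S.B F F).re * √(S.B G G).re := by
  exact cauchy_schwarz_form (V := S.V) (fun F G => S.B F.1 G.1)
    (fun x y z => by
      have := S.E_add _ (S.mem_N x.1 x.2 z.1 z.2) _ (S.mem_N y.1 y.2 z.1 z.2)
      simp only [B]
      rw [← this]
      congr 1
      funext ω
      simp [add_mul])
    (fun x y r => by
      have := S.E_smul (conj r) _ (S.mem_N x.1 x.2 y.1 y.2)
      simp only [B]
      rw [← this]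
      congr 1
      funext ω
      simp [mul_assoc])
    (fun x y => by
      simp only [B]
      rw [← S.E_conj y.1 y.2 x.1 x.2, S.E_θ x.1 x.2 y.1 y.2]
      congr 1
      funext ω
      simp [mul_comm])
    (fun x => S.rp0 x.1 x.2) ⟨F, hF⟩ ⟨G, hG⟩

end RPSys

end Crest.Agent.R161.RPsys695

namespace Crest.Agent.R161.RPsys695

open Filter Topology

/-- **Ray lemma.** `f i n` = (sup of) correlations of two groups at mutual gap `n` along a
reflection-positive direction.  If `f` satisfies the propagation inequality and tends to `0` for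
all gaps `≥ S i`, it tends to `0` for every gap `g i` with `S i ≤ K * g i`. -/
theorem ray_tendsto {ι : Type*} (l : Filter ι) (f : ι → ℕ → ℝ) (C : ℝ)
    (h0 : ∀ i n, 0 ≤ f i n)
    (hf : ∀ i n p, f i n ≤ (∑ j ∈ Finset.range p, (p.choose (j + 1) : ℝ) * f i (n * (j + 2)))
      + C / √(2 * p + 1))
    (S : ι → ℕ) (far : ∀ m : ι → ℕ, (∀ i, S i ≤ m i) → Tendsto (fun i => f i (m i)) l (𝓝 0))
    (K : ℕ) (g : ι → ℕ) (hg : ∀ i, S i ≤ K * g i) :
    Tendsto (fun i => f i (g i)) l (𝓝 0) := by
  -- step: from thresholds `S` to `2 m ≥ S`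
  have step : ∀ T : ι → ℕ,
      (∀ m : ι → ℕ, (∀ i, T i ≤ m i) → Tendsto (fun i => f i (m i)) l (𝓝 0)) →
      ∀ m : ι → ℕ, (∀ i, T i ≤ 2 * m i) → Tendsto (fun i => f i (m i)) l (𝓝 0) := by
    intro T hT m hm
    rw [Metric.tendsto_nhds]
    intro ε hε
    -- choose `p` with `C / √(2p+1) < ε/2`
    obtain ⟨p, hp⟩ : ∃ p : ℕ, C / √(2 * p + 1) < ε / 2 := by
      have h1 : Tendsto (fun p : ℕ => C / √(2 * (p : ℝ) + 1)) atTop (𝓝 0) := by
        refine Tendsto.div_atTop tendsto_const_nhds ?_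
        refine Real.tendsto_sqrt_atTop.comp ?_
        refine tendsto_atTop_add_const_right _ _ ?_
        exact (tendsto_natCast_atTop_atTop).const_mul_atTop (by norm_num)
      exact (h1.eventually_lt_const (by positivity)).exists
    have h2 : Tendsto (fun i => ∑ j ∈ Finset.range p, (p.choose (j + 1) : ℝ) *
        f i (m i * (j + 2))) l (𝓝 0) := by
      have h3 : Tendsto (fun i => ∑ j ∈ Finset.range p, (p.choose (j + 1) : ℝ) *
        f i (m i * (j + 2))) l (𝓝 (∑ j ∈ Finset.range p, (p.choose (j + 1) : ℝ) * 0)) := by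
        refine tendsto_finsetSum _ fun j _ => ?_
        refine Tendsto.const_mul _ (hT (fun i => m i * (j + 2)) fun i => (hm i).trans ?_)
        rw [mul_comm]
        exact Nat.mul_le_mul_left _ (by omega)
      simpa using h3
    filter_upwards [(Metric.tendsto_nhds.1 h2) (ε / 2) (by positivity)] with i hi
    rw [Real.dist_eq, sub_zero] at hi ⊢
    rw [abs_of_nonneg (h0 i _)]
    have h4 := hf i (m i) p
    have h5 := (abs_lt.1 hi).2
    linarith
  have iter : ∀ r : ℕ, ∀ m : ι → ℕ, (∀ i, S i ≤ 2 ^ r * m i) →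
      Tendsto (fun i => f i (m i)) l (𝓝 0) := by
    intro r
    induction r with
    | zero => intro m hm; exact far m (by simpa using hm)
    | succ r ih =>
      intro m hm
      -- thresholds `T i = ⌈S i / 2^r⌉`
      refine step (fun i => (S i + 2 ^ r - 1) / 2 ^ r) (fun m' hm' => ih m' fun i => ?_) m
        fun i => ?_
      · have h1 := hm' i
        have h2 : 0 < 2 ^ r := by positivity
        have h3 : (S i + 2 ^ r - 1) / 2 ^ r ≤ m' i := h1
        rw [Nat.div_le_iff_le_mul_add_pred h2] at h3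
        omega
      · have h1 := hm i
        have h2 : 0 < 2 ^ r := by positivity
        rw [Nat.div_le_iff_le_mul_add_pred h2]
        have h3 : 2 ^ (r + 1) * m i = 2 ^ r * (2 * m i) := by ring
        omega
  obtain ⟨r, hr⟩ : ∃ r : ℕ, K ≤ 2 ^ r := ⟨K, Nat.lt_two_pow_self.le⟩
  exact iter r g fun i => (hg i).trans (Nat.mul_le_mul_right _ hr)

end Crest.Agent.R161.RPsys695
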