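import Crest.Agent.R161.OS_369
import Crest.Agent.R161.RPsys_695

/-!
R161, STEP 6 (helper369): the polynomial bound for the bare form and for `RPSys`.
-/

set_option autoImplicit false

namespace Crest.Agent.R161.RPB369

open scoped ComplexConjugate
open Crest.Agent.R161.Ray369 Crest.Agent.R161.RPsys695

/-- Polynomial bound, form version. -/
theorem polyBound_form {V : Type*} [AddCommGroup V] [Module ℂ V] (B : V → V → ℂ)
    (T : V →ₗ[ℂ] V)
    (hadd : ∀ x y z, B (x + y) z = B x z + B y z)
    (hsmul : ∀ x y (r : ℂ), B (r • x) y = conj r * B x y)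
    (hconj : ∀ x y, conj (B y x) = B x y)
    (hnn : ∀ x, 0 ≤ (B x x).re)
    (hsymm : ∀ x y, B (T x) y = B x (T y))
    (hpos : ∀ x, 0 ≤ (B x (T x)).re)
    (hbdd : ∀ x, ∃ C : ℝ, ∀ n : ℕ, (B ((T ^ n) x) ((T ^ n) x)).re ≤ C)
    (x y : V) :
    PolyBound (fun k => B x ((T ^ k) y)) (√(B x x).re * √(B y y).re) := by
  let cd : PreInnerProductSpace.Core ℂ V :=
    { inner := B
      conj_inner_symm := fun x y => hconj x y
      re_inner_nonneg := fun x => hnn x
      add_left := fun x y z => hadd x y z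
      smul_left := fun x y r => hsmul x y r }
  letI i1 : SeminormedAddCommGroup V :=
    @InnerProductSpace.Core.toSeminormedAddCommGroup ℂ V _ _ _ cd
  letI i2 : InnerProductSpace ℂ V := InnerProductSpace.ofCore cd
  have h : RP695.IsRPT T :=
    { symm := fun x y => hsymm x y
      pos := fun x => hpos x
      bdd := fun x => by
        obtain ⟨C, hC⟩ := hbdd x
        refine ⟨√C, fun n => ?_⟩
        have e : ‖(T ^ n) x‖ = √(B ((T ^ n) x) ((T ^ n) x)).re := rfl
        rw [e]
        exact Real.sqrt_le_sqrt (hC n) }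
  exact OS369.polyBound h x y

end Crest.Agent.R161.RPB369

namespace Crest.Agent.R161.RPsys695.RPSys

open scoped ComplexConjugate
open Crest.Agent.R161.Ray369

variable {Ω : Type*} (S : RPSys Ω)

/-- **Polynomial bound for reflection positive states.** -/
theorem polyBound {F G : Ω → ℂ} (hF : F ∈ S.V) (hG : G ∈ S.V) :
    PolyBound (fun k => S.E (fun ω => conj (F (S.θ ω)) * G (S.τ^[k] ω)))
      (√(S.B F F).re * √(S.B G G).re) := by
  have key := RPB369.polyBound_form (V := S.V) (fun F G => S.B F.1 G.1) S.T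
    (fun x y z => by
      have := S.E_add _ (S.mem_N x.1 x.2 z.1 z.2) _ (S.mem_N y.1 y.2 z.1 z.2)
      simp only [B]
      rw [← this]
      congr 1
      funext ω
      simp [add_mul])
    (fun x y r => by
      have := S.E_smul (conj r) _ (S.mem_N x.1 x.2 y.1 y.2)
      simp only [B]
      rw [← this]
      congr 1
      funext ω
      simp [mul_assoc])
    (fun x y => by
      simp only [B]
      rw [← S.E_conj y.1 y.2 x.1 x.2, S.E_θ x.1 x.2 y.1 y.2]
      congr 1
      funext ω
      simp [mul_comm])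
    (fun x => S.rp0 x.1 x.2)
    (fun x y => by
      simp only [B]
      have h1 := S.E_τ _ (S.mem_N _ (S.T x).2 y.1 y.2)
      rw [← h1]
      congr 1
      funext ω
      change conj (x.1 (S.τ (S.θ (S.τ ω)))) * y.1 (S.τ ω) = conj (x.1 (S.θ ω)) * y.1 (S.τ ω)
      rw [S.τθτ])
    (fun x => S.rp1 x.1 x.2)
    (fun x => by
      obtain ⟨C, hC⟩ := S.bdd x.1 x.2
      refine ⟨C, fun n => ?_⟩
      simp only [B, T_pow_apply]
      exact hC n)
    ⟨F, hF⟩ ⟨G, hG⟩
  simpa only [B, T_pow_apply] using key

end Crest.Agent.R161.RPsys695.RPSys
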