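import Mathlib

/-!
Row 161: abstract Kramers–Wannier duality (finite types, any surface): the only input is the
exactness `range d* = (d T)^⊥` where `d* s e = s (fA e) + s (fB e)` and
`d t e = t (src e) + t (tgt e)`, `t` ranging over a subgroup `T` of admissible vertex signs.
-/

set_option autoImplicit false

namespace Crest.Agent.R161.KWabs729

open Finset

/-- Sign of an element of `ZMod 2`. -/
noncomputable def sgz (x : ZMod 2) : ℝ := if x = 0 then 1 else -1

@[simp] theorem sgz_zero : sgz 0 = 1 := by simp [sgz]
@[simp] theorem sgz_one : sgz 1 = -1 := by simp [sgz]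

theorem z2_cases (x : ZMod 2) : x = 0 ∨ x = 1 := by revert x; decide

theorem sgz_add (x y : ZMod 2) : sgz (x + y) = sgz x * sgz y := by
  rcases z2_cases x with rfl | rfl <;> rcases z2_cases y with rfl | rfl <;> simp
  rw [show (1 : ZMod 2) + 1 = 0 by decide]; simp

theorem sgz_sum {ι : Type*} (s : Finset ι) (f : ι → ZMod 2) :
    sgz (∑ i ∈ s, f i) = ∏ i ∈ s, sgz (f i) := by
  classical
  induction s using Finset.induction_on with
  | empty => simp
  | insert a s ha ih => rw [Finset.sum_insert ha, Finset.prod_insert ha, sgz_add, ih]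

/-- Character sums over a finite group. -/
theorem sum_sgz_char {G : Type*} [AddCommGroup G] (T : Finset G)
    (hadd : ∀ x ∈ T, ∀ y ∈ T, x + y ∈ T) (hneg : ∀ x ∈ T, -x ∈ T)
    (φ : G → ZMod 2) (hφ : ∀ x ∈ T, ∀ y ∈ T, φ (x + y) = φ x + φ y)
    [Decidable (∀ x ∈ T, φ x = 0)] :
    ∑ x ∈ T, sgz (φ x) = if ∀ x ∈ T, φ x = 0 then (T.card : ℝ) else 0 := by
  split_ifs with h
  · rw [Finset.sum_congr rfl (fun x hx => by rw [h x hx, sgz_zero])]
    simp
  · push Not at h
    obtain ⟨y, hy, hne⟩ := h
    have hy1 : φ y = 1 := (z2_cases (φ y)).resolve_left hne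
    have h1 : ∑ x ∈ T, sgz (φ x) = ∑ x ∈ T, sgz (φ (x + y)) := by
      symm
      apply Finset.sum_bij' (fun x _ => x + y) (fun x _ => x + -y)
      · intro x hx; exact hadd x hx y hy
      · intro x hx; exact hadd x hx (-y) (hneg y hy)
      · intro x _; simp
      · intro x _; simp
      · intro x _; rfl
    have h2 : ∑ x ∈ T, sgz (φ (x + y)) = - ∑ x ∈ T, sgz (φ x) := by
      rw [← Finset.sum_neg_distrib]
      apply Finset.sum_congr rfl
      intro x hx
      rw [hφ x hx y hy, sgz_add, hy1, sgz_one]
      ring
    linarith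

variable {E Φ V : Type*} [Fintype E] [Fintype Φ] [Fintype V] [DecidableEq E] [DecidableEq Φ]
  [DecidableEq V]

/-- Pairing of an edge cochain with the differential of a vertex function. -/
def pr (src tgt : E → V) (H : E → ZMod 2) (t : V → ZMod 2) : ZMod 2 :=
  ∑ e, H e * (t (src e) + t (tgt e))

/-- **Abstract Kramers–Wannier duality.** -/
theorem kramers_wannier (fA fB : E → Φ) (src tgt : E → V) (T : Finset (V → ZMod 2))
    (hT0 : (0 : V → ZMod 2) ∈ T)
    (hTadd : ∀ x ∈ T, ∀ y ∈ T, x + y ∈ T)
    (exact : ∀ H : E → ZMod 2, (∀ t ∈ T, pr src tgt H t = 0) →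
      ∃ s : Φ → ZMod 2, ∀ e, H e = s (fA e) + s (fB e))
    (orth : ∀ s : Φ → ZMod 2, ∀ t ∈ T, pr src tgt (fun e => s (fA e) + s (fB e)) t = 0)
    (a b : E → ℝ) :
    ∑ s : Φ → ZMod 2, ∏ e, (if s (fA e) = s (fB e) then a e else b e) =
      (((univ : Finset (Φ → ZMod 2)).filter (fun s => ∀ e, s (fA e) = s (fB e))).card : ℝ) / T.card *
        ∑ t ∈ T, ∏ e, (if t (src e) = t (tgt e) then a e + b e else a e - b e) := by
  classical
  have hneg : ∀ x ∈ T, -x ∈ T := by
    intro x hx
    have : -x = x := by
      funext v
      show -(x v) = x v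
      generalize x v = y
      revert y
      decide
    rwa [this]
  have heq : ∀ x y : ZMod 2, x = y ↔ x + y = 0 := by decide
  let w : E → ZMod 2 → ℝ := fun e x => if x = 0 then a e else b e
  let dS : (Φ → ZMod 2) → (E → ZMod 2) := fun s e => s (fA e) + s (fB e)
  have hL : ∀ s : Φ → ZMod 2, ∏ e, (if s (fA e) = s (fB e) then a e else b e) =
      ∏ e, w e (dS s e) := by
    intro s
    apply Finset.prod_congr rfl
    intro e _
    simp only [w, dS]
    by_cases h : s (fA e) = s (fB e)
    · rw [if_pos h, if_pos ((heq _ _).mp h)]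
    · rw [if_neg h, if_neg (fun h' => h ((heq _ _).mpr h'))]
  set ker : ℝ := (((univ : Finset (Φ → ZMod 2)).filter (fun s => ∀ e, s (fA e) = s (fB e))).card : ℝ)
    with hker
  -- counting fibres
  have hcard : ∀ H : E → ZMod 2, (((univ : Finset (Φ → ZMod 2)).filter (fun s => dS s = H)).card : ℝ)
      = ker / T.card * ∑ t ∈ T, sgz (pr src tgt H t) := by
    intro H
    have hTc : (T.card : ℝ) ≠ 0 := by
      have : 0 < T.card := Finset.card_pos.mpr ⟨0, hT0⟩
      exact Nat.cast_ne_zero.mpr this.ne'
    rw [sum_sgz_char T hTadd hneg (pr src tgt H) (by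
      intro x _ y _
      simp only [pr, Pi.add_apply]
      rw [← Finset.sum_add_distrib]
      apply Finset.sum_congr rfl
      intro e _
      ring)]
    split_ifs with h
    · obtain ⟨s0, hs0⟩ := exact H h
      rw [div_mul_cancel₀ _ hTc, hker]
      norm_cast
      apply Finset.card_bij' (fun s _ => s + s0) (fun s _ => s + s0)
      · intro s hs
        rw [Finset.mem_filter] at hs ⊢
        refine ⟨Finset.mem_univ _, fun e => ?_⟩
        have h1 := congrFun hs.2 e
        simp only [dS] at h1
        rw [hs0 e] at h1
        simp only [Pi.add_apply]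
        rw [heq]
        have h2 : s (fA e) + s0 (fA e) + (s (fB e) + s0 (fB e)) =
            (s (fA e) + s (fB e)) + (s0 (fA e) + s0 (fB e)) := by ring
        rw [h2, h1, ← heq]
      · intro s hs
        rw [Finset.mem_filter] at hs ⊢
        refine ⟨Finset.mem_univ _, ?_⟩
        funext e
        have h1 := hs.2 e
        rw [heq] at h1
        simp only [dS, Pi.add_apply]
        have h2 : s (fA e) + s0 (fA e) + (s (fB e) + s0 (fB e)) =
            (s (fA e) + s (fB e)) + (s0 (fA e) + s0 (fB e)) := by ring
        rw [h2, h1, zero_add, hs0 e]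
      · intro s _
        funext f
        show s f + s0 f + s0 f = s f
        generalize s f = x
        generalize s0 f = y
        revert x y
        decide
      · intro s _
        funext f
        show s f + s0 f + s0 f = s f
        generalize s f = x
        generalize s0 f = y
        revert x y
        decide
    · rw [mul_zero, Nat.cast_eq_zero, Finset.card_eq_zero, Finset.filter_eq_empty_iff]
      intro s _ hs
      apply h
      intro t ht
      rw [← hs]
      exact orth s t ht
  calc ∑ s : Φ → ZMod 2, ∏ e, (if s (fA e) = s (fB e) then a e else b e)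
      = ∑ s : Φ → ZMod 2, ∏ e, w e (dS s e) := Finset.sum_congr rfl fun s _ => hL s
    _ = ∑ H : E → ZMod 2, ∑ s ∈ (univ : Finset (Φ → ZMod 2)).filter (fun s => dS s = H),
          ∏ e, w e (dS s e) := (Finset.sum_fiberwise _ _ _).symm
    _ = ∑ H : E → ZMod 2, (((univ : Finset (Φ → ZMod 2)).filter (fun s => dS s = H)).card : ℝ) *
          ∏ e, w e (H e) := by
        apply Finset.sum_congr rfl
        intro H _
        rw [← nsmul_eq_mul, ← Finset.sum_const]
        apply Finset.sum_congr rfl
        intro s hs
        rw [(Finset.mem_filter.mp hs).2]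
    _ = ∑ H : E → ZMod 2, ker / T.card * ∑ t ∈ T, ∏ e, (sgz (H e * (t (src e) + t (tgt e))) *
          w e (H e)) := by
        apply Finset.sum_congr rfl
        intro H _
        rw [hcard, mul_assoc, Finset.sum_mul]
        congr 1
        apply Finset.sum_congr rfl
        intro t _
        rw [pr, sgz_sum, Finset.prod_mul_distrib]
    _ = ker / T.card * ∑ t ∈ T, ∑ H : E → ZMod 2, ∏ e, (sgz (H e * (t (src e) + t (tgt e))) *
          w e (H e)) := by
        rw [← Finset.mul_sum, Finset.sum_comm]
    _ = ker / T.card * ∑ t ∈ T, ∏ e, (if t (src e) = t (tgt e) then a e + b e else a e - b e) := by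
        congr 1
        apply Finset.sum_congr rfl
        intro t _
        have := Finset.prod_univ_sum (fun _ : E => (univ : Finset (ZMod 2)))
          (fun e x => sgz (x * (t (src e) + t (tgt e))) * w e x)
        rw [Fintype.piFinset_univ] at this
        rw [← this]
        apply Finset.prod_congr rfl
        intro e _
        have huniv : (univ : Finset (ZMod 2)) = {0, 1} := by decide
        rw [huniv, Finset.sum_pair (by decide)]
        simp only [zero_mul, sgz_zero, one_mul, w, if_true, one_ne_zero, if_false]
        by_cases h : t (src e) = t (tgt e)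
        · rw [if_pos h, (heq _ _).mp h, sgz_zero, one_mul]
        · rw [if_neg h]
          have h1 : t (src e) + t (tgt e) = 1 :=
            (z2_cases _).resolve_left (fun h' => h ((heq _ _).mpr h'))
          rw [h1, sgz_one]
          ring

end Crest.Agent.R161.KWabs729
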