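import Crest.Agent.R161.Dual_374

/-!
Hull lemma (helper374): the boundary of a connected face set with connected complement is connected, so a
function constant along boundary edges is constant on the whole boundary.
-/

set_option autoImplicit false

namespace Crest.Agent.R161.Hull374

open Crest.Agent.R161.Topo374 Crest.Agent.R161.Geo729 Crest.Agent.R161.Dual374 Finset

/-- boundary edge of a face set -/
def Bd (D : Set P2) (e : Edge) : Prop := (fA e ∈ D ∧ fB e ∉ D) ∨ (fA e ∉ D ∧ fB e ∈ D)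

lemma bd_compl (D : Set P2) (e : Edge) : Bd Dᶜ e ↔ Bd D e := by
  unfold Bd; simp only [Set.mem_compl_iff, not_not]; tauto

/-- connection through boundary edges -/
def BConn (D : Set P2) (u v : P2) : Prop := Relation.ReflTransGen (PStep (Bd D)) u v

lemma bconn_symm {D : Set P2} {u v : P2} (h : BConn D u v) : BConn D v u := by
  induction h with
  | refl => exact .refl
  | tail _ h2 ih => exact Relation.ReflTransGen.head h2.symm ih

lemma bconn_edge {D : Set P2} {e : Edge} (h : Bd D e) : BConn D (src e) (tgt e) :=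
  .single ⟨e, h, Or.inl ⟨rfl, rfl⟩⟩

/-- a step of adjacency in `ℤ²` is the crossing of an edge -/
lemma adj_edge {f g : P2} (h : Adj f g) : ∃ e : Edge, (f = fA e ∧ g = fB e) ∨ (f = fB e ∧ g = fA e) := by
  obtain ⟨a, b⟩ := f
  obtain ⟨c, d⟩ := g
  unfold Adj at h
  simp only [Prod.mk.injEq] at h
  rcases h with ⟨h1, h2⟩ | ⟨h1, h2⟩ | ⟨h1, h2⟩ | ⟨h1, h2⟩
  · refine ⟨((c, d), true), Or.inr ⟨?_, rfl⟩⟩
    simp only [fB_v, Prod.mk.injEq]; omega
  · refine ⟨((a, b), true), Or.inl ⟨rfl, ?_⟩⟩
    simp only [fB_v, Prod.mk.injEq]; omega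
  · refine ⟨((c, d), false), Or.inr ⟨?_, rfl⟩⟩
    simp only [fB_h, Prod.mk.injEq]; omega
  · refine ⟨((a, b), false), Or.inl ⟨rfl, ?_⟩⟩
    simp only [fB_h, Prod.mk.injEq]; omega

lemma sum_Ioc_pred (f : ℤ → ZMod 2) (j M : ℤ) (h : j ≤ M) :
    ∑ k ∈ Ioc (j - 1) M, f k = f j + ∑ k ∈ Ioc j M, f k := by
  have h1 : Ioc (j - 1) M = insert j (Ioc j M) := by
    ext z; simp only [mem_Ioc, mem_insert]; omega
  rw [h1, Finset.sum_insert (by simp)]

/-- the coloring associated with the component of the boundary graph containing `u`; finite case. -/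
theorem hull_M (D : Set P2) (M : ℤ) (hM : ∀ e : Edge, M ≤ e.1.2 → (fA e ∈ D ↔ fB e ∈ D))
    (hD : IsConn D) (hDc : IsConn Dᶜ)
    {e e' : Edge} (he : Bd D e) (he' : Bd D e') : BConn D (src e) (src e') := by
  by_contra hno
  set S : P2 → Prop := fun v => BConn D (src e) v with hS
  have hSe : ∀ e1 : Edge, Bd D e1 → (S (src e1) ↔ S (tgt e1)) := by
    intro e1 h1
    constructor
    · intro h; exact Relation.ReflTransGen.trans h (bconn_edge h1)
    · intro h; exact Relation.ReflTransGen.trans h (bconn_symm (bconn_edge h1))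
  -- indicator of the boundary edge belonging to the component
  set δ : Edge → ZMod 2 := fun e1 => ind (S (src e1)) * (ind (fA e1 ∈ D) + ind (fB e1 ∈ D)) with hδ
  have hδt : ∀ e1 : Edge, δ e1 = ind (S (tgt e1)) * (ind (fA e1 ∈ D) + ind (fB e1 ∈ D)) := by
    intro e1
    by_cases hb : Bd D e1
    · simp only [hδ]; rw [propext (hSe e1 hb)]
    · have : ind (fA e1 ∈ D) + ind (fB e1 ∈ D) = 0 := by
        rw [← ind_ne_add, ind_false]
        intro h; exact hb h
      simp only [hδ]; rw [this]; simp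
  set c : P2 → ZMod 2 := fun f => ∑ k ∈ Ioc f.2 M, δ ((f.1, k), false) with hc
  -- vertical adjacency
  have hvert : ∀ i j : ℤ, c (i, j - 1) + c (i, j) = δ ((i, j), false) := by
    intro i j
    simp only [hc]
    rcases le_or_gt j M with h | h
    · rw [sum_Ioc_pred _ j M h, add_assoc, zmod2_add_self, add_zero]
    · rw [Finset.Ioc_eq_empty (by omega), Finset.Ioc_eq_empty (by omega)]
      have h1 := propext (hM ((i, j), false) (by simp only; omega))
      have h2 : δ ((i, j), false) = 0 := by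
        simp only [hδ]
        rw [h1, zmod2_add_self, mul_zero]
      rw [h2, Finset.sum_empty, add_zero]
  -- vertex identity
  have hvtx : ∀ i k : ℤ, δ ((i - 1, k), false) + δ ((i, k), false) +
      (δ ((i, k - 1), true) + δ ((i, k), true)) = 0 := by
    intro i k
    rw [hδt ((i - 1, k), false), hδt ((i, k - 1), true)]
    simp only [hδ, src_mk, tgt_h, tgt_v, fA_mk, fB_h, fB_v, sub_add_cancel]
    generalize ind (S (i, k)) = s
    generalize ind ((i - 1, k) ∈ D) = a1
    generalize ind ((i - 1, k - 1) ∈ D) = a2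
    generalize ind ((i, k) ∈ D) = a3
    generalize ind ((i, k - 1) ∈ D) = a4
    have h1 := zmod2_add_self (s * a1)
    have h2 := zmod2_add_self (s * a2)
    have h3 := zmod2_add_self (s * a3)
    have h4 := zmod2_add_self (s * a4)
    linear_combination h1 + h2 + h3 + h4
  -- horizontal adjacency
  have hhor : ∀ i j : ℤ, c (i - 1, j) + c (i, j) = δ ((i, j), true) := by
    intro i j
    simp only [hc]
    rcases le_or_gt M j with h | h
    · rw [Finset.Ioc_eq_empty (by omega)]
      have h1 := propext (hM ((i, j), true) (by simp only; omega))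
      have h2 : δ ((i, j), true) = 0 := by
        simp only [hδ]
        rw [h1, zmod2_add_self, mul_zero]
      rw [h2]; simp
    · rw [← Finset.sum_add_distrib]
      have h1 : ∀ k ∈ Ioc j M, δ ((i - 1, k), false) + δ ((i, k), false) =
          δ ((i, k - 1), true) + δ ((i, k), true) := by
        intro k _
        exact zmod2_eq_of_add (hvtx i k)
      rw [Finset.sum_congr rfl h1]
      have h2 : Ioc j M = Icc (j + 1) M := by
        ext z; simp only [mem_Ioc, mem_Icc]; omega
      rw [h2, telescope' (fun k => δ ((i, k), true)) (j + 1) M (by omega)]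
      have h3 : δ ((i, M), true) = 0 := by
        have h1 := propext (hM ((i, M), true) (by simp only; omega))
        simp only [hδ]
        rw [h1, zmod2_add_self, mul_zero]
      simp only [add_sub_cancel_right]
      rw [h3, add_zero]
  have hedge : ∀ e1 : Edge, c (fB e1) + c (fA e1) = δ e1 := by
    rintro ⟨⟨i, j⟩, b⟩
    cases b
    · simpa using hvert i j
    · simpa using hhor i j
  -- constancy on connected sets not crossing the boundary
  have hconst : ∀ (T : Set P2), (∀ f ∈ T, ∀ g ∈ T, (f ∈ D ↔ g ∈ D)) → ∀ f g, Conn T f g → c f = c g := by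
    intro T hT f g h
    induction h with
    | refl => rfl
    | @tail b1 c1 _ h2 ih =>
        rw [ih]
        obtain ⟨hb, hc', ha⟩ := h2
        have hiff := hT _ hb _ hc'
        obtain ⟨e1, h3 | h3⟩ := adj_edge ha
        · have h4 := hedge e1
          rw [← h3.1, ← h3.2] at h4
          have h5 : δ e1 = 0 := by
            simp only [hδ]
            rw [← h3.1, ← h3.2, propext hiff, zmod2_add_self, mul_zero]
          rw [h5] at h4
          exact (zmod2_eq_of_add h4).symm
        · have h4 := hedge e1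
          rw [← h3.1, ← h3.2] at h4
          have h5 : δ e1 = 0 := by
            simp only [hδ]
            rw [← h3.1, ← h3.2, propext hiff, zmod2_add_self, mul_zero]
          rw [h5] at h4
          exact zmod2_eq_of_add h4
  have hcD : ∀ f ∈ D, ∀ g ∈ D, c f = c g := fun f hf g hg =>
    hconst D (fun _ h1 _ h2 => ⟨fun _ => h2, fun _ => h1⟩) f g (hD f hf g hg)
  have hcDc : ∀ f ∉ D, ∀ g ∉ D, c f = c g := fun f hf g hg =>
    hconst Dᶜ (fun _ h1 _ h2 => ⟨fun h => absurd h h1, fun h => absurd h h2⟩) f g (hDc f hf g hg)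
  -- the two boundary edges
  have hval : ∀ e1 : Edge, Bd D e1 → δ e1 = ind (S (src e1)) := by
    intro e1 h1
    simp only [hδ]
    rw [← ind_ne_add, ind_true (p := (fA e1 ∈ D ∧ fB e1 ∉ D ∨ fA e1 ∉ D ∧ fB e1 ∈ D)) h1, mul_one]
  have h1 : δ e = 1 := by
    rw [hval e he]; exact ind_true Relation.ReflTransGen.refl
  have h2 : δ e' = 0 := by
    rw [hval e' he']; exact ind_false hno
  have h3 : δ e = δ e' := by
    rw [← hedge e, ← hedge e']
    rcases he with ⟨h4, h5⟩ | ⟨h4, h5⟩ <;> rcases he' with ⟨h6, h7⟩ | ⟨h6, h7⟩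
    · rw [hcD _ h4 _ h6, hcDc _ h5 _ h7]
    · rw [hcD _ h4 _ h7, hcDc _ h5 _ h6, add_comm]
    · rw [hcD _ h5 _ h6, hcDc _ h4 _ h7, add_comm]
    · rw [hcD _ h5 _ h7, hcDc _ h4 _ h6]
  rw [h1, h2] at h3
  exact absurd h3 (by decide)

/-- **Hull lemma.** If one of `D`, `Dᶜ` is contained in a half plane below a height (in particular if it
is finite), then the boundary of `D` is connected. -/
theorem hull (D : Set P2) (hfin : D.Finite ∨ Dᶜ.Finite) (hD : IsConn D) (hDc : IsConn Dᶜ)
    {e e' : Edge} (he : Bd D e) (he' : Bd D e') : BConn D (src e) (src e') := by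
  have hb : ∃ M : ℤ, ∀ e : Edge, M ≤ e.1.2 → (fA e ∈ D ↔ fB e ∈ D) := by
    have hgen : ∀ T : Set P2, T.Finite → ∃ M : ℤ, ∀ e : Edge, M ≤ e.1.2 → (fA e ∉ T ∧ fB e ∉ T) := by
      intro T hT
      obtain ⟨M, hM⟩ := (hT.image Prod.snd).bddAbove
      refine ⟨M + 2, fun e he1 => ⟨fun h => ?_, fun h => ?_⟩⟩
      · have h1 : (fA e).2 ≤ M := hM ⟨_, h, rfl⟩
        unfold fA at h1
        omega
      · have h1 : (fB e).2 ≤ M := hM ⟨_, h, rfl⟩
        unfold fB at h1
        split at h1 <;> simp only at h1 <;> omega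
    rcases hfin with h | h
    · obtain ⟨M, hM⟩ := hgen D h
      exact ⟨M, fun e he1 => ⟨fun h1 => absurd h1 (hM e he1).1, fun h1 => absurd h1 (hM e he1).2⟩⟩
    · obtain ⟨M, hM⟩ := hgen _ h
      refine ⟨M, fun e he1 => ?_⟩
      have h1 := hM e he1
      simp only [Set.mem_compl_iff, not_not] at h1
      exact ⟨fun _ => h1.2, fun _ => h1.1⟩
  obtain ⟨M, hM⟩ := hb
  exact hull_M D M hM hD hDc he he'

/-- A function constant along boundary edges is constant on the boundary. -/
theorem hull_const {α : Type*} (D : Set P2) (M : ℤ)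
    (hM : ∀ e : Edge, M ≤ e.1.2 → (fA e ∈ D ↔ fB e ∈ D)) (hD : IsConn D)
    (hDc : IsConn Dᶜ) (K : P2 → α) (hK : ∀ e, Bd D e → K (src e) = K (tgt e))
    {e e' : Edge} (he : Bd D e) (he' : Bd D e') : K (src e) = K (src e') := by
  have h := hull_M D M hM hD hDc he he'
  unfold BConn at h
  revert h
  generalize src e' = v
  intro h
  induction h with
  | refl => rfl
  | tail _ h2 ih =>
      obtain ⟨e1, h3, ⟨h4, h5⟩ | ⟨h4, h5⟩⟩ := h2
      · rw [ih, h4, h5, hK e1 h3]
      · rw [ih, h4, h5, hK e1 h3]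

/-! ### Components of the complement of a connected set -/

lemma z2_conn (f g : P2) : Conn (Set.univ) f g := by
  have hx : ∀ (n : ℕ) (a b : ℤ), Conn Set.univ (a, b) (a + n, b) := by
    intro n a b
    induction n with
    | zero =>
        have h0 : Conn Set.univ (a, b) (a, b) := Relation.ReflTransGen.refl
        simpa using h0
    | succ n ih =>
        refine Relation.ReflTransGen.tail ih ⟨trivial, trivial, ?_⟩
        unfold Adj; left; push_cast; simp only [Prod.mk.injEq]; exact ⟨by ring, trivial⟩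
  have hy : ∀ (n : ℕ) (a b : ℤ), Conn Set.univ (a, b) (a, b + n) := by
    intro n a b
    induction n with
    | zero =>
        have h0 : Conn Set.univ (a, b) (a, b) := Relation.ReflTransGen.refl
        simpa using h0
    | succ n ih =>
        refine Relation.ReflTransGen.tail ih ⟨trivial, trivial, ?_⟩
        unfold Adj; right; right; left; push_cast; simp only [Prod.mk.injEq]; exact ⟨trivial, by ring⟩
  have hx' : ∀ (a a' b : ℤ), Conn Set.univ (a, b) (a', b) := by
    intro a a' b
    rcases le_total a a' with h | h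
    · have := hx (a' - a).toNat a b
      rwa [show a + ((a' - a).toNat : ℤ) = a' by omega] at this
    · have := hx (a - a').toNat a' b
      rw [show a' + ((a - a').toNat : ℤ) = a by omega] at this
      exact this.symm
  have hy' : ∀ (a b b' : ℤ), Conn Set.univ (a, b) (a, b') := by
    intro a b b'
    rcases le_total b b' with h | h
    · have := hy (b' - b).toNat a b
      rwa [show b + ((b' - b).toNat : ℤ) = b' by omega] at this
    · have := hy (b - b').toNat a b'
      rw [show b' + ((b - b').toNat : ℤ) = b by omega] at this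
      exact this.symm
  obtain ⟨a, b⟩ := f
  obtain ⟨c, d⟩ := g
  exact (hx' a c b).trans (hy' c b d)

/-- component of `x` in `T` -/
def Comp (T : Set P2) (x : P2) : Set P2 := {f | Conn T x f}

lemma comp_isConn (T : Set P2) (x : P2) : IsConn (Comp T x) := by
  have key : ∀ f, Conn T x f → Conn (Comp T x) x f := by
    intro f hf
    induction hf with
    | refl => exact .refl
    | @tail b1 c1 h1 h2 ih =>
        exact ih.tail ⟨h1, h1.tail h2, h2.2.2⟩
  intro f hf g hg
  exact (key f hf).symm.trans (key g hg)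

lemma comp_subset {T : Set P2} {x : P2} (hx : x ∈ T) : Comp T x ⊆ T := by
  intro f hf
  rcases Relation.ReflTransGen.cases_tail hf with h | ⟨c, _, h⟩
  · rw [h]; exact hx
  · exact h.2.1

/-- The complement of a component of the complement of a connected set is connected, and every boundary
edge has its outer side in the connected set. -/
theorem comp_compl_conn (R : Set P2) (hR : IsConn R) (hRne : R.Nonempty) (x : P2) (hx : x ∉ R) :
    IsConn (Comp Rᶜ x)ᶜ ∧ (∀ f g, f ∈ Comp Rᶜ x → Adj f g → g ∉ Comp Rᶜ x → g ∈ R) := by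
  set D := Comp Rᶜ x with hD
  have hDR : D ⊆ Rᶜ := comp_subset hx
  have hout : ∀ f g, f ∈ D → Adj f g → g ∉ D → g ∈ R := by
    intro f g hf ha hg
    by_contra hgR
    exact hg (Relation.ReflTransGen.tail hf ⟨hDR hf, hgR, ha⟩)
  refine ⟨?_, hout⟩
  obtain ⟨r, hr⟩ := hRne
  have hRD : R ⊆ Dᶜ := fun f hf hfD => hDR hfD hf
  -- each face of `Dᶜ` is connected in `Dᶜ` to `r`
  have key : ∀ g, g ∉ D → Conn Dᶜ g r := by
    intro g hg
    have hpath := z2_conn r g
    -- walk from `r` to `g`; prove by induction that every face on it is in `D` or connected to `r` in `Dᶜ`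
    have h : ∀ g, Conn Set.univ r g → g ∉ D → Conn Dᶜ r g := by
      intro g h
      induction h with
      | refl => intro _; exact .refl
      | @tail b1 c1 h1 h2 ih =>
          intro hc
          by_cases hb : b1 ∈ D
          · have hcR := hout b1 c1 hb h2.2.2 hc
            exact (hR r hr c1 hcR).mono hRD
          · exact (ih hb).tail ⟨hb, hc, h2.2.2⟩
    exact (h g hpath hg).symm
  intro f hf g hg
  exact (key f hf).trans (key g hg).symm

/-! ### Exploration from a set of faces -/

/-- faces reached from `A` through edges not in `Z` -/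
def Reach (Z : Edge → Prop) (A : Set P2) : Set P2 :=
  {f | ∃ a ∈ A, Relation.ReflTransGen (DStep (fun e => ¬ Z e)) a f}

lemma subset_reach (Z : Edge → Prop) (A : Set P2) : A ⊆ Reach Z A := fun a ha => ⟨a, ha, .refl⟩

lemma dstep_adj {Z : Edge → Prop} {f g : P2} (h : DStep Z f g) : Adj f g := by
  obtain ⟨e, _, ⟨h1, h2⟩ | ⟨h1, h2⟩⟩ := h
  · rw [h1, h2]; exact adj_fA_fB e
  · rw [h1, h2]; exact (adj_fA_fB e).symm

lemma reach_isConn (Z : Edge → Prop) (A : Set P2) (hA : IsConn A) : IsConn (Reach Z A) := by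
  have key : ∀ a ∈ A, ∀ f, Relation.ReflTransGen (DStep (fun e => ¬ Z e)) a f → Conn (Reach Z A) a f := by
    intro a ha f hf
    induction hf with
    | refl => exact .refl
    | @tail b1 c1 h1 h2 ih =>
        exact ih.tail ⟨⟨a, ha, h1⟩, ⟨a, ha, h1.tail h2⟩, dstep_adj h2⟩
  rintro f ⟨a, ha, hf⟩ g ⟨b, hb, hg⟩
  exact ((key a ha f hf).symm.trans ((hA a ha b hb).mono (subset_reach Z A))).trans (key b hb g hg)

lemma reach_bd {Z : Edge → Prop} {A : Set P2} {e : Edge} (h : Bd (Reach Z A) e) : Z e := by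
  by_contra hz
  have h1 : DStep (fun e => ¬ Z e) (fA e) (fB e) := ⟨e, hz, Or.inl ⟨rfl, rfl⟩⟩
  rcases h with ⟨⟨a, ha, h2⟩, h3⟩ | ⟨h3, ⟨a, ha, h2⟩⟩
  · exact h3 ⟨a, ha, h2.tail h1⟩
  · exact h3 ⟨a, ha, h2.tail h1.symm⟩

/-- **Exploration.** Let `R` be the set of faces reached from the connected nonempty set `A` through
non-`Z` edges, `x ∉ R`, and `D` the component of `x` in the complement of `R`; assume `R` or its complement
is finite. Then every boundary edge of `D` is a `Z`-edge and a function `K` with equal values at the ends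
of `Z`-edges is constant on the boundary of `D`. -/
theorem explore {α : Type*} (Z : Edge → Prop) (A : Set P2) (hA : IsConn A) (hAne : A.Nonempty)
    (x : P2) (hx : x ∉ Reach Z A) (hfin : (Reach Z A).Finite ∨ (Reach Z A)ᶜ.Finite)
    (K : P2 → α) (hK : ∀ e, Z e → K (src e) = K (tgt e)) :
    (∀ e, Bd (Comp (Reach Z A)ᶜ x) e → Z e) ∧
      (∀ e e', Bd (Comp (Reach Z A)ᶜ x) e → Bd (Comp (Reach Z A)ᶜ x) e' → K (src e) = K (src e')) ∧
      IsConn (Comp (Reach Z A)ᶜ x) ∧ IsConn (Comp (Reach Z A)ᶜ x)ᶜ := by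
  set R := Reach Z A with hR
  have hRc := reach_isConn Z A hA
  have hRne : R.Nonempty := hAne.mono (subset_reach Z A)
  obtain ⟨h1, h2⟩ := comp_compl_conn R hRc hRne x hx
  have hDR : Comp Rᶜ x ⊆ Rᶜ := comp_subset hx
  have hZ : ∀ e, Bd (Comp Rᶜ x) e → Z e := by
    intro e he
    apply reach_bd (A := A)
    rcases he with ⟨h3, h4⟩ | ⟨h3, h4⟩
    · exact Or.inr ⟨hDR h3, h2 _ _ h3 (adj_fA_fB e) h4⟩
    · exact Or.inl ⟨h2 _ _ h4 (adj_fA_fB e).symm h3, hDR h4⟩
  refine ⟨hZ, ?_, comp_isConn _ _, h1⟩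
  intro e e' he he'
  have hbR : ∀ e1 : Edge, Bd (Comp Rᶜ x) e1 → (fA e1 ∈ R ∧ fB e1 ∈ Rᶜ) ∨ (fA e1 ∈ Rᶜ ∧ fB e1 ∈ R) := by
    intro e1 h
    rcases h with ⟨h3, h4⟩ | ⟨h3, h4⟩
    · exact Or.inr ⟨hDR h3, h2 _ _ h3 (adj_fA_fB e1) h4⟩
    · exact Or.inl ⟨h2 _ _ h4 (adj_fA_fB e1).symm h3, hDR h4⟩
  obtain ⟨M, hM⟩ : ∃ M : ℤ, ∀ e1 : Edge, M ≤ e1.1.2 → (fA e1 ∈ Comp Rᶜ x ↔ fB e1 ∈ Comp Rᶜ x) := by
    have hgen : ∀ T : Set P2, T.Finite → ∃ M : ℤ, ∀ e : Edge, M ≤ e.1.2 → (fA e ∉ T ∧ fB e ∉ T) := by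
      intro T hT
      obtain ⟨M, hM⟩ := (hT.image Prod.snd).bddAbove
      refine ⟨M + 2, fun e he1 => ⟨fun h => ?_, fun h => ?_⟩⟩
      · have h1 : (fA e).2 ≤ M := hM ⟨_, h, rfl⟩
        unfold fA at h1
        omega
      · have h1 : (fB e).2 ≤ M := hM ⟨_, h, rfl⟩
        unfold fB at h1
        split at h1 <;> simp only at h1 <;> omega
    rcases hfin with hf | hf
    · obtain ⟨M, hM⟩ := hgen _ hf
      refine ⟨M, fun e1 he1 => ?_⟩
      by_contra hcon
      have hbd : Bd (Comp Rᶜ x) e1 := by unfold Bd; tauto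
      rcases hbR e1 hbd with h | h
      · exact (hM e1 he1).1 h.1
      · exact (hM e1 he1).2 h.2
    · obtain ⟨M, hM⟩ := hgen _ hf
      refine ⟨M, fun e1 he1 => ?_⟩
      by_contra hcon
      have hbd : Bd (Comp Rᶜ x) e1 := by unfold Bd; tauto
      rcases hbR e1 hbd with h | h
      · exact (hM e1 he1).2 h.2
      · exact (hM e1 he1).1 h.1
  exact hull_const _ M hM (comp_isConn _ _) h1 K (fun e he => hK e (hZ e he)) he he'

end Crest.Agent.R161.Hull374
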