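import Crest.Agent.R161.UTurn_374
import Crest.Agent.R161.Ifc_372

/-!
Annulus lemmas (helper374): transposed duality, half annulus, four crossings make a circuit.
-/

set_option autoImplicit false

namespace Crest.Agent.R161.Ann374

open Crest.Agent.R161.Topo374 Crest.Agent.R161.Geo729 Crest.Agent.R161.Dual374
open Crest.Agent.R161.Hull374 Crest.Agent.R161.Ifc372

/-! ### Transposition -/

/-- transposition of the coordinates -/
def tp (v : P2) : P2 := (v.2, v.1)

/-- transposition of edges -/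
def tpE (e : Edge) : Edge := (tp e.1, !e.2)

@[simp] lemma tp_tp (v : P2) : tp (tp v) = v := rfl
@[simp] lemma tpE_tpE (e : Edge) : tpE (tpE e) = e := by
  obtain ⟨v, c⟩ := e; cases c <;> rfl

lemma src_tpE (e : Edge) : src (tpE e) = tp (src e) := rfl
lemma tgt_tpE (e : Edge) : tgt (tpE e) = tp (tgt e) := by
  obtain ⟨v, c⟩ := e; cases c <;> rfl
lemma fA_tpE (e : Edge) : fA (tpE e) = tp (fA e) := rfl
lemma fB_tpE (e : Edge) : fB (tpE e) = tp (fB e) := by
  obtain ⟨v, c⟩ := e; cases c <;> rfl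

lemma pstep_tp {Z : Edge → Prop} {u v : P2} (h : PStep (fun e => Z (tpE e)) u v) :
    PStep Z (tp u) (tp v) := by
  obtain ⟨e, he, h⟩ := h
  refine ⟨tpE e, he, ?_⟩
  rcases h with ⟨h1, h2⟩ | ⟨h1, h2⟩
  · exact Or.inl ⟨by rw [h1, src_tpE], by rw [h2, tgt_tpE]⟩
  · exact Or.inr ⟨by rw [h1, tgt_tpE], by rw [h2, src_tpE]⟩

lemma dstep_tp {Z : Edge → Prop} {u v : P2} (h : DStep (fun e => Z (tpE e)) u v) :
    DStep Z (tp u) (tp v) := by
  obtain ⟨e, he, h⟩ := h
  refine ⟨tpE e, he, ?_⟩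
  rcases h with ⟨h1, h2⟩ | ⟨h1, h2⟩
  · exact Or.inl ⟨by rw [h1, fA_tpE], by rw [h2, fB_tpE]⟩
  · exact Or.inr ⟨by rw [h1, fB_tpE], by rw [h2, fA_tpE]⟩

/-- Edges of the rectangle `[x0,x1] × [y0,y1]` relevant for bottom-top crossings: all vertical edges and
the horizontal edges strictly inside. -/
def RE' (x0 x1 y0 y1 : ℤ) (e : Edge) : Prop :=
  (e.2 = true ∧ y0 ≤ e.1.2 ∧ e.1.2 < y1 ∧ x0 ≤ e.1.1 ∧ e.1.1 ≤ x1) ∨
  (e.2 = false ∧ y0 < e.1.2 ∧ e.1.2 < y1 ∧ x0 ≤ e.1.1 ∧ e.1.1 < x1)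

lemma re_tpE (x0 x1 y0 y1 : ℤ) (e : Edge) : RE y0 y1 x0 x1 e ↔ RE' x0 x1 y0 y1 (tpE e) := by
  obtain ⟨v, c⟩ := e
  cases c <;> simp [RE, RE', tpE, tp]

/-- transposed duality -/
theorem dual_rect' (x0 x1 y0 y1 : ℤ) (hy : y0 < y1) (hx : x0 ≤ x1) (Z : Edge → Prop) :
    (∃ a b : P2, a.2 = y0 ∧ x0 ≤ a.1 ∧ a.1 ≤ x1 ∧ b.2 = y1 ∧
      Relation.ReflTransGen (PStep (fun e => Z e ∧ RE' x0 x1 y0 y1 e)) a b) ∨
    (∃ f g : P2, f.1 = x0 - 1 ∧ y0 ≤ f.2 ∧ f.2 < y1 ∧ g.1 = x1 ∧
      Relation.ReflTransGen (DStep (fun e => ¬ Z e ∧ RE' x0 x1 y0 y1 e)) f g) := by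
  have key1 : ∀ a b : P2, Relation.ReflTransGen
      (PStep (fun e => Z (tpE e) ∧ RE y0 y1 x0 x1 e)) a b →
      Relation.ReflTransGen (PStep (fun e => Z e ∧ RE' x0 x1 y0 y1 e)) (tp a) (tp b) := by
    intro a b h
    induction h with
    | refl => exact .refl
    | tail _ h2 ih =>
        refine ih.tail (pstep_tp ?_)
        obtain ⟨e, ⟨h3, h4⟩, h5⟩ := h2
        exact ⟨e, ⟨h3, (re_tpE _ _ _ _ _).1 h4⟩, h5⟩
  have key2 : ∀ a b : P2, Relation.ReflTransGen
      (DStep (fun e => ¬ Z (tpE e) ∧ RE y0 y1 x0 x1 e)) a b →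
      Relation.ReflTransGen (DStep (fun e => ¬ Z e ∧ RE' x0 x1 y0 y1 e)) (tp a) (tp b) := by
    intro a b h
    induction h with
    | refl => exact .refl
    | tail _ h2 ih =>
        refine ih.tail (dstep_tp ?_)
        obtain ⟨e, ⟨h3, h4⟩, h5⟩ := h2
        exact ⟨e, ⟨h3, (re_tpE _ _ _ _ _).1 h4⟩, h5⟩
  rcases dual_rect y0 y1 x0 x1 hy hx (fun e => Z (tpE e)) with ⟨a, b, h1, h2, h3, h4, h5⟩ |
    ⟨f, g, h1, h2, h3, h4, h5⟩
  · exact Or.inl ⟨tp a, tp b, h1, h2, h3, h4, key1 _ _ h5⟩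
  · exact Or.inr ⟨tp f, tp g, h1, h2, h3, h4, key2 _ _ h5⟩

lemma mem_ball {x f : P2} {n : ℕ} : f ∈ ball x n ↔
    x.1 - n ≤ f.1 ∧ f.1 ≤ x.1 + n - 1 ∧ x.2 - n ≤ f.2 ∧ f.2 ≤ x.2 + n - 1 := by
  unfold ball
  simp only [Finset.mem_product, Finset.mem_Icc]
  tauto

/-- connection inside `S` through `Z`-edges -/
def ZC (Z : Edge → Prop) (S : Set P2) (u v : P2) : Prop :=
  Relation.ReflTransGen (fun a b => PStep Z a b ∧ a ∈ S ∧ b ∈ S) u v

lemma rtg_symm {α : Type*} {R : α → α → Prop} (hs : ∀ u v, R u v → R v u) {a b : α}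
    (h : Relation.ReflTransGen R a b) : Relation.ReflTransGen R b a := by
  induction h with
  | refl => exact .refl
  | tail _ h2 ih => exact Relation.ReflTransGen.head (hs _ _ h2) ih

/-- **Half annulus.** -/
theorem half_annulus (Z : Edge → Prop) (x : P2) (n m : ℕ) (hn : 1 ≤ n) (hnm : n ≤ m)
    (h : Circ Z x n m) : ∃ y1 y2 : ℤ, x.2 - m ≤ y1 ∧ y1 ≤ x.2 - n ∧ x.2 + n ≤ y2 ∧ y2 ≤ x.2 + m ∧
      Relation.ReflTransGen (fun u v => PStep Z u v ∧
        u ∈ {v : P2 | x.1 - m ≤ v.1 ∧ v.1 ≤ x.1 ∧ x.2 - m ≤ v.2 ∧ v.2 ≤ x.2 + m} ∧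
        v ∈ {v : P2 | x.1 - m ≤ v.1 ∧ v.1 ≤ x.1 ∧ x.2 - m ≤ v.2 ∧ v.2 ≤ x.2 + m})
        (x.1, y1) (x.1, y2) := by
  set S : Set P2 := {v : P2 | x.1 - m ≤ v.1 ∧ v.1 ≤ x.1 ∧ x.2 - m ≤ v.2 ∧ v.2 ≤ x.2 + m} with hS
  have memS : ∀ v : P2, v ∈ S ↔ (x.1 - m ≤ v.1 ∧ v.1 ≤ x.1 ∧ x.2 - m ≤ v.2 ∧ v.2 ≤ x.2 + m) :=
    fun v => Iff.rfl
  by_contra hcon
  set Z' : Edge → Prop := fun e => (src e ∈ S ∧ tgt e ∈ S ∧ Z e) ∨
    (e.2 = true ∧ e.1.1 = x.1 + 1 ∧ (e.1.2 < x.2 - n ∨ x.2 + n ≤ e.1.2)) ∨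
    (e.2 = false ∧ e.1.1 = x.1 ∧ (e.1.2 ≤ x.2 - n ∨ x.2 + n ≤ e.1.2)) with hZ'
  rcases dual_rect' (x.1 - m) (x.1 + 1) (x.2 - m - 1) (x.2 + m + 1) (by omega) (by omega) Z' with
    ⟨a, b, ha, ha0, ha1, hb, hab⟩ | ⟨f, g, hf, hf0, hf1, hg, hfg⟩
  · -- primal
    have inv : ∀ v, Relation.ReflTransGen
        (PStep (fun e => Z' e ∧ RE' (x.1 - m) (x.1 + 1) (x.2 - m - 1) (x.2 + m + 1) e)) a v →
        (v.1 = x.1 + 1 ∧ v.2 ≤ x.2 - n) ∨ v.2 = x.2 - m - 1 ∨
        (v ∈ S ∧ ∃ y1 : ℤ, x.2 - m ≤ y1 ∧ y1 ≤ x.2 - n ∧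
          Relation.ReflTransGen (fun u v => PStep Z u v ∧ u ∈ S ∧ v ∈ S) (x.1, y1) v) := by
      intro v hv
      induction hv with
      | refl => exact Or.inr (Or.inl ha)
      | @tail b c _ h2 ih =>
          obtain ⟨⟨⟨i, j⟩, k⟩, ⟨hz, hr⟩, hbc⟩ := h2
          obtain ⟨b1, b2⟩ := b
          obtain ⟨c1, c2⟩ := c
          simp only [RE', memS] at hr ih hz ⊢
          rcases hz with ⟨z1, z2, z3⟩ | ⟨z1, z2, z3⟩ | ⟨z1, z2, z3⟩
          · -- inside `S`
            have hstep : PStep Z (b1, b2) (c1, c2) := ⟨_, z3, hbc⟩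
            have hb : ((b1, b2) : P2) ∈ S ∧ ((c1, c2) : P2) ∈ S := by
              rcases hbc with ⟨e1, e2⟩ | ⟨e1, e2⟩
              · rw [e1, e2]; exact ⟨z1, z2⟩
              · rw [e1, e2]; exact ⟨z2, z1⟩
            obtain ⟨hb1, hc1⟩ := hb
            have hb1' := (memS _).1 hb1
            simp only at hb1'
            right; right
            refine ⟨hc1, ?_⟩
            rcases ih with ih | ih | ⟨_, y1, h3, h4, h5⟩
            · omega
            · omega
            · exact ⟨y1, h3, h4, h5.tail ⟨hstep, hb1, hc1⟩⟩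
          · -- extra column
            simp only at z1
            subst z1
            simp only [src_mk, tgt_v, Prod.mk.injEq, Bool.true_eq_false, false_and, true_and, or_false] at hbc z2 z3 hr
            rcases ih with ih | ih | ⟨ih, _⟩
            · left; omega
            · left; omega
            · omega
          · simp only at z1
            subst z1
            simp only [src_mk, tgt_h, Prod.mk.injEq, Bool.false_eq_true, false_and, true_and, false_or] at hbc z2 z3 hr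
            rcases ih with ih | ih | ⟨ih, y1, h3, h4, h5⟩
            · -- enter `S`
              right; right
              have e1 : c1 = x.1 := by omega
              have e2 : c2 = j := by omega
              subst e2
              refine ⟨by omega, c2, by omega, by omega, ?_⟩
              rw [e1]
            · exfalso; omega
            · -- leave `S`
              left
              have e1 : b1 = x.1 := by omega
              have e2 : b2 = j := by omega
              have e3 : c1 = x.1 + 1 := by omega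
              have e4 : c2 = j := by omega
              refine ⟨e3, ?_⟩
              rcases z3 with z3 | z3
              · omega
              · exfalso
                apply hcon
                refine ⟨y1, j, h3, h4, z3, by omega, ?_⟩
                rw [e1, e2] at h5
                exact h5
    have := inv b hab
    simp only [memS] at this
    rcases this with h1 | h1 | ⟨h1, _⟩ <;> omega
  · -- dual
    have hfg' := rtg_symm (fun _ _ h => DStep.symm h) hfg
    have inv : ∀ v, Relation.ReflTransGen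
        (DStep (fun e => ¬ Z' e ∧ RE' (x.1 - m) (x.1 + 1) (x.2 - m - 1) (x.2 + m + 1) e)) g v →
        v.1 = x.1 + 1 ∨ v ∈ Reach Z (ball x n : Set P2) := by
      intro v hv
      induction hv with
      | refl => exact Or.inl hg
      | @tail b c _ h2 ih =>
          obtain ⟨⟨⟨i, j⟩, k⟩, ⟨hz, hr⟩, hbc⟩ := h2
          have hball : ∀ u : P2, u ∈ Reach Z (ball x n : Set P2) → x.1 - m ≤ u.1 ∧ u.1 ≤ x.1 + m - 1 ∧
              x.2 - m ≤ u.2 ∧ u.2 ≤ x.2 + m - 1 := fun u hu => mem_ball.1 (h hu)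
          have hin : ∀ u : P2, x.1 - n ≤ u.1 → u.1 ≤ x.1 + n - 1 → x.2 - n ≤ u.2 → u.2 ≤ x.2 + n - 1 →
              u ∈ Reach Z (ball x n : Set P2) := fun u h1 h2 h3 h4 =>
            subset_reach Z _ (mem_ball.2 ⟨h1, h2, h3, h4⟩)
          have hnext : ¬ Z ((i, j), k) → b ∈ Reach Z (ball x n : Set P2) →
              c ∈ Reach Z (ball x n : Set P2) := by
            rintro h3 ⟨u, hu, hu'⟩
            exact ⟨u, hu, hu'.tail ⟨_, h3, hbc⟩⟩
          obtain ⟨b1, b2⟩ := b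
          obtain ⟨c1, c2⟩ := c
          simp only [hZ', memS, not_or, not_and] at hz
          obtain ⟨z1, z2, z3⟩ := hz
          cases k
          · -- horizontal edge
            simp only [RE', fA_mk, fB_h, src_mk, tgt_h, Prod.mk.injEq, Bool.false_eq_true, false_and,
              true_and, false_or, false_implies, forall_const, not_lt, not_le] at hr hbc z1 z2 z3 ih ⊢
            by_cases hi : i = x.1
            · right
              have := z3 hi
              exact hin _ (by simp only; omega) (by simp only; omega) (by simp only; omega)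
                (by simp only; omega)
            · right
              exact hnext (z1 (by omega) (by omega)) (ih.resolve_left (by omega))
          · -- vertical edge
            simp only [RE', fA_mk, fB_v, src_mk, tgt_v, Prod.mk.injEq, Bool.true_eq_false, false_and,
              true_and, or_false, false_implies, forall_const, not_lt, not_le] at hr hbc z1 z2 z3 ih ⊢
            by_cases hi : i = x.1 + 1
            · have := z2 hi
              rcases hbc with ⟨e1, e2⟩ | ⟨e1, e2⟩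
              · right
                exact hin _ (by simp only; omega) (by simp only; omega) (by simp only; omega)
                  (by simp only; omega)
              · left; omega
            · right
              have hb := ih.resolve_left (by omega)
              have hb' := hball _ hb
              simp only at hb'
              exact hnext (z1 (by omega) (by omega)) hb
    have h1 := inv f hfg'
    rcases h1 with h1 | h1
    · omega
    · have := mem_ball.1 (h h1)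
      omega

/-! ### Z-walks -/

lemma pstep_nbr {Z : Edge → Prop} {u v : P2} (h : PStep Z u v) : Nbr u v := by
  obtain ⟨⟨⟨i, j⟩, k⟩, -, h⟩ := h
  obtain ⟨u1, u2⟩ := u
  obtain ⟨v1, v2⟩ := v
  unfold Nbr
  cases k <;> simp only [src_mk, tgt_h, tgt_v, Prod.mk.injEq] at h ⊢ <;> omega

lemma pstep_src_tgt {Z : Edge → Prop} {e : Edge} (h : PStep Z (src e) (tgt e)) : Z e := by
  obtain ⟨⟨⟨i, j⟩, k⟩, hz, h⟩ := h
  obtain ⟨⟨i', j'⟩, k'⟩ := e
  cases k <;> cases k' <;> simp only [src_mk, tgt_h, tgt_v, Prod.mk.injEq] at h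
  · have e1 : i' = i := by omega
    have e2 : j' = j := by omega
    subst e1 e2; exact hz
  · omega
  · omega
  · have e1 : i' = i := by omega
    have e2 : j' = j := by omega
    subst e1 e2; exact hz

lemma rtg_toPW {R : V → V → Prop} (hR : ∀ u v, R u v → Nbr u v) {a b : V}
    (h : Relation.ReflTransGen R a b) : ∃ N, PW R a b N := by
  induction h with
  | refl => exact ⟨_, PW.refl _⟩
  | tail _ h ih =>
      obtain ⟨N, hN⟩ := ih
      exact ⟨_, PW.step hN (hR _ _ h) h⟩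

lemma walk_of_rtg {R : V → V → Prop} (hR : ∀ u v, R u v → Nbr u v)
    {a b : V} (h : Relation.ReflTransGen R a b) :
    Walk {w | Relation.ReflTransGen R a w} a b := by
  refine ⟨.refl, ?_⟩
  induction h with
  | refl => exact .refl
  | @tail b c h1 h2 ih => exact ih.tail ⟨hR _ _ h2, h1, h1.tail h2⟩

/-- crossing lemma for walks with general steps -/
lemma rtg_cross {R1 R2 : V → V → Prop} (hR1 : ∀ u v, R1 u v → Nbr u v) (hR2 : ∀ u v, R2 u v → Nbr u v)
    {a b p q : V} (h1 : Relation.ReflTransGen R1 a b) (h2 : Relation.ReflTransGen R2 p q)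
    (hya : p.2 ≤ a.2 ∧ a.2 ≤ q.2) (hxp : a.1 ≤ p.1 ∧ p.1 ≤ b.1)
    (hy : ∀ u v, R1 u v → p.2 ≤ v.2 ∧ v.2 ≤ q.2) (hx : ∀ u v, R2 u v → a.1 ≤ v.1 ∧ v.1 ≤ b.1) :
    ∃ w, Relation.ReflTransGen R1 a w ∧ Relation.ReflTransGen R2 p w := by
  obtain ⟨w, hw1, hw2⟩ := cross (walk_of_rtg hR1 h1) (walk_of_rtg hR2 h2)
    (fun w hw => by
      rcases Relation.ReflTransGen.cases_tail hw with rfl | ⟨c, _, hc⟩
      · exact hya
      · exact hy _ _ hc)
    (fun w hw => by
      rcases Relation.ReflTransGen.cases_tail hw with rfl | ⟨c, _, hc⟩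
      · exact hxp
      · exact hx _ _ hc)
  exact ⟨w, hw1, hw2⟩

/-- The parity of a closed `Z`-walk does not change across a non-`Z`-edge. -/
lemma N_dstep {Z : Edge → Prop} {c : V} {N : ℤ → ℤ → ZMod 2} (h : PW (PStep Z) c c N) {f g : P2}
    (hd : DStep (fun e => ¬ Z e) f g) : N f.1 f.2 = N g.1 g.2 := by
  have key : ∀ e : Edge, ¬ Z e → N (fA e).1 (fA e).2 = N (fB e).1 (fB e).2 := by
    rintro ⟨⟨i, j⟩, k⟩ he
    have h1 : ¬ PStep Z (src ((i, j), k)) (tgt ((i, j), k)) := fun h => he (pstep_src_tgt h)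
    have h2 : ¬ PStep Z (tgt ((i, j), k)) (src ((i, j), k)) := fun h => he (pstep_src_tgt h.symm)
    cases k
    · exact (h.vert i j h1 h2).symm
    · have := h.horiz i j h1 h2
      rw [zmod2_add_self] at this
      exact (zmod2_eq_of_add this).symm
  obtain ⟨e, he, ⟨rfl, rfl⟩ | ⟨rfl, rfl⟩⟩ := hd
  · exact key e he
  · exact (key e he).symm

/-- connection steps inside a rectangle -/
def RStep (Z : Edge → Prop) (x0 x1 y0 y1 : ℤ) (u v : P2) : Prop :=
  PStep Z u v ∧ (x0 ≤ u.1 ∧ u.1 ≤ x1 ∧ y0 ≤ u.2 ∧ u.2 ≤ y1) ∧ (x0 ≤ v.1 ∧ v.1 ≤ x1 ∧ y0 ≤ v.2 ∧ v.2 ≤ y1)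

lemma RStep.symm {Z : Edge → Prop} {x0 x1 y0 y1 : ℤ} {u v : P2} (h : RStep Z x0 x1 y0 y1 u v) :
    RStep Z x0 x1 y0 y1 v u := ⟨h.1.symm, h.2.2, h.2.1⟩

/-- a non-trivial walk starts and ends in the rectangle -/
lemma rstep_mem_left {Z : Edge → Prop} {x0 x1 y0 y1 : ℤ} {u v : P2}
    (h : Relation.ReflTransGen (RStep Z x0 x1 y0 y1) u v) (hne : u ≠ v) :
    x0 ≤ u.1 ∧ u.1 ≤ x1 ∧ y0 ≤ u.2 ∧ u.2 ≤ y1 := by
  rcases Relation.ReflTransGen.cases_head h with h1 | ⟨c, hc, _⟩
  · exact absurd h1 hne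
  · exact hc.2.1

lemma rstep_mem_right {Z : Edge → Prop} {x0 x1 y0 y1 : ℤ} {u v : P2}
    (h : Relation.ReflTransGen (RStep Z x0 x1 y0 y1) u v)
    (hu : x0 ≤ u.1 ∧ u.1 ≤ x1 ∧ y0 ≤ u.2 ∧ u.2 ≤ y1) :
    x0 ≤ v.1 ∧ v.1 ≤ x1 ∧ y0 ≤ v.2 ∧ v.2 ≤ y1 := by
  rcases Relation.ReflTransGen.cases_tail h with h1 | ⟨c, _, hc⟩
  · rw [h1]; exact hu
  · exact hc.2.2

/-- A closed `Z`-walk with parity `1` on `ball x n` and `0` off `ball x m` gives `Circ`. -/
lemma circ_of_closed {Z : Edge → Prop} {x : P2} {n m : ℕ} {c : V} {N : ℤ → ℤ → ZMod 2}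
    (h : PW (PStep Z) c c N) (h1 : ∀ f ∈ ball x n, N f.1 f.2 = 1) (h0 : ∀ f, f ∉ ball x m → N f.1 f.2 = 0) :
    Circ Z x n m := by
  rintro g ⟨f, hf, hfg⟩
  have key : N g.1 g.2 = 1 := by
    induction hfg with
    | refl => exact h1 f hf
    | tail _ h2 ih => rw [← N_dstep h h2]; exact ih
  by_contra hg
  rw [h0 g hg] at key
  exact absurd key (by decide)

set_option maxHeartbeats 2000000 in
/-- **Four crossings make a circuit.** -/
theorem circ_of_four (Z : Edge → Prop) (x : P2) (n m : ℕ) (hn : 1 ≤ n) (hnm : n ≤ m)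
    {at' bt ab bb al bl ar br : P2}
    (wt : Relation.ReflTransGen (RStep Z (x.1 - m) (x.1 + m) (x.2 + n) (x.2 + m)) at' bt)
    (wb : Relation.ReflTransGen (RStep Z (x.1 - m) (x.1 + m) (x.2 - m) (x.2 - n)) ab bb)
    (wl : Relation.ReflTransGen (RStep Z (x.1 - m) (x.1 - n) (x.2 - m) (x.2 + m)) al bl)
    (wr : Relation.ReflTransGen (RStep Z (x.1 + n) (x.1 + m) (x.2 - m) (x.2 + m)) ar br)
    (hat : at'.1 = x.1 - m) (hbt : bt.1 = x.1 + m)
    (hab : ab.1 = x.1 - m) (hbb : bb.1 = x.1 + m)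
    (hal : al.2 = x.2 - m) (hbl : bl.2 = x.2 + m)
    (har : ar.2 = x.2 - m) (hbr : br.2 = x.2 + m) : Circ Z x n m := by
  have nb : ∀ (x0 x1 y0 y1 : ℤ) (u v : P2), RStep Z x0 x1 y0 y1 u v → Nbr u v :=
    fun _ _ _ _ _ _ h => pstep_nbr h.1
  have mt := rstep_mem_left wt (by intro h; rw [h] at hat; omega)
  have mb := rstep_mem_left wb (by intro h; rw [h] at hab; omega)
  have ml := rstep_mem_left wl (by intro h; rw [h] at hal; omega)
  have mr := rstep_mem_left wr (by intro h; rw [h] at har; omega)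
  obtain ⟨w1, w1t, w1l⟩ := rtg_cross (nb _ _ _ _) (nb _ _ _ _) wt wl (by omega) (by omega)
    (fun u v h => by have := h.2.2; omega) (fun u v h => by have := h.2.2; omega)
  obtain ⟨w2, w2t, w2r⟩ := rtg_cross (nb _ _ _ _) (nb _ _ _ _) wt wr (by omega) (by omega)
    (fun u v h => by have := h.2.2; omega) (fun u v h => by have := h.2.2; omega)
  obtain ⟨w3, w3b, w3r⟩ := rtg_cross (nb _ _ _ _) (nb _ _ _ _) wb wr (by omega) (by omega)
    (fun u v h => by have := h.2.2; omega) (fun u v h => by have := h.2.2; omega)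
  obtain ⟨w4, w4b, w4l⟩ := rtg_cross (nb _ _ _ _) (nb _ _ _ _) wb wl (by omega) (by omega)
    (fun u v h => by have := h.2.2; omega) (fun u v h => by have := h.2.2; omega)
  have m1t := rstep_mem_right w1t mt
  have m1l := rstep_mem_right w1l ml
  have m2t := rstep_mem_right w2t mt
  have m2r := rstep_mem_right w2r mr
  have m3b := rstep_mem_right w3b mb
  have m3r := rstep_mem_right w3r mr
  have m4b := rstep_mem_right w4b mb
  have m4l := rstep_mem_right w4l ml
  obtain ⟨Nt, hNt⟩ := rtg_toPW (nb _ _ _ _) ((rtg_symm (fun _ _ h => h.symm) w1t).trans w2t)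
  obtain ⟨Nr, hNr⟩ := rtg_toPW (nb _ _ _ _) ((rtg_symm (fun _ _ h => h.symm) w2r).trans w3r)
  obtain ⟨Nb, hNb⟩ := rtg_toPW (nb _ _ _ _) ((rtg_symm (fun _ _ h => h.symm) w3b).trans w4b)
  obtain ⟨Nl, hNl⟩ := rtg_toPW (nb _ _ _ _) ((rtg_symm (fun _ _ h => h.symm) w4l).trans w1l)
  have hc := (((hNt.mono (R' := PStep Z) (fun _ _ h => h.1)).trans
    (hNr.mono (R' := PStep Z) (fun _ _ h => h.1))).trans
    (hNb.mono (R' := PStep Z) (fun _ _ h => h.1))).trans
    (hNl.mono (R' := PStep Z) (fun _ _ h => h.1))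
  refine circ_of_closed hc ?_ ?_
  · intro f hf
    have hf' := mem_ball.1 hf
    have k1 : Nt f.1 f.2 = 1 := by
      rw [hNt.total f.1 f.2 (fun u v h => by have := h.2.1; omega),
        ind_true (by omega), ind_false (by omega)]
      decide
    have k2 : Nr f.1 f.2 = 0 := hNr.col f.1 f.2 (fun u v h => by have := h.2.1; omega)
      (fun u v h => by have := h.2.2; omega)
    have k3 : Nb f.1 f.2 = 0 := hNb.top f.1 f.2 (fun u v h => by have := h.2.1; omega)
    have k4 : Nl f.1 f.2 = 0 := hNl.col f.1 f.2 (fun u v h => by have := h.2.2; omega)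
      (fun u v h => by have := h.2.1; omega)
    rw [k1, k2, k3, k4]; decide
  · intro f hf
    rw [mem_ball] at hf
    have hc' := (((hNt.mono (R' := RStep Z (x.1 - m) (x.1 + m) (x.2 - m) (x.2 + m))
        (fun u v h => ⟨h.1, by have := h.2.1; omega, by have := h.2.2; omega⟩)).trans
      (hNr.mono (R' := RStep Z (x.1 - m) (x.1 + m) (x.2 - m) (x.2 + m))
        (fun u v h => ⟨h.1, by have := h.2.1; omega, by have := h.2.2; omega⟩))).trans
      (hNb.mono (R' := RStep Z (x.1 - m) (x.1 + m) (x.2 - m) (x.2 + m))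
        (fun u v h => ⟨h.1, by have := h.2.1; omega, by have := h.2.2; omega⟩))).trans
      (hNl.mono (R' := RStep Z (x.1 - m) (x.1 + m) (x.2 - m) (x.2 + m))
        (fun u v h => ⟨h.1, by have := h.2.1; omega, by have := h.2.2; omega⟩))
    have hij : f.1 < x.1 - m ∨ x.1 + m ≤ f.1 ∨ f.2 < x.2 - m ∨ x.2 + m ≤ f.2 := by omega
    rcases hij with h | h | h | h
    · exact hc'.col f.1 f.2 (fun u v h1 => by have := h1.2.1; omega)
        (fun u v h1 => by have := h1.2.2; omega)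
    · exact hc'.col f.1 f.2 (fun u v h1 => by have := h1.2.2; omega)
        (fun u v h1 => by have := h1.2.1; omega)
    · rw [hc'.total f.1 f.2 (fun u v h1 => by have := h1.2.1; omega), zmod2_add_self]
    · exact hc'.top f.1 f.2 (fun u v h1 => by have := h1.2.1; omega)

end Crest.Agent.R161.Ann374
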