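import Crest.Agent.R161.Ring1_421

/-!
# Row 161, block E: the one-arm form of blocking (helper868)

`BlockX ν` : if circuits have probability `≥ c3` at all scales of a long enough range, then the
probability of an open path from `{|u| ≤ s}` to distance `C1 s` is at most `ε`.
-/

set_option autoImplicit false

noncomputable section

namespace Crest.Agent.R161.Blk868

open MeasureTheory
open Crest.Agent.R161.Geo729 Crest.Agent.R161.Defs372 Crest.Agent.R161.Dual374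
open Crest.Agent.R161.Hull374 Crest.Agent.R161.Ifc372 Crest.Agent.R161.Ring421

/-- `Z`-path from `{|u| ≤ s}` to `{|v| ≥ R}` -/
def ArmP (Z : Edge → Prop) (s R : ℕ) : Prop :=
  ∃ u v : P2, |u.1| ≤ (s : ℤ) ∧ |u.2| ≤ (s : ℤ) ∧ ((R : ℤ) ≤ |v.1| ∨ (R : ℤ) ≤ |v.2|) ∧
    Relation.ReflTransGen (PStep Z) u v

/-- one-arm event -/
def Arm (s R : ℕ) : Set (Edge → Bool) := {z | ArmP (fun e => z e = true) s R}

/-- **Blocking, one-arm form.** -/
def BlockX (ν : Measure (Edge → Bool)) : Prop :=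
  ∀ c3 ε : ℝ, 0 < c3 → 0 < ε → ∃ C1 s0 : ℕ, 4 ≤ C1 ∧ ∀ s : ℕ, s0 ≤ s →
    (∀ t : ℕ, 4 * s ≤ t → t ≤ C1 * s → c3 ≤ (ν (CircZ (0, 0) t (2 * t))).toReal) →
      (ν {z | ∃ u v : P2, |u.1| ≤ (s : ℤ) ∧ |u.2| ≤ (s : ℤ) ∧
        (((C1 * s : ℕ) : ℤ) ≤ |v.1| ∨ ((C1 * s : ℕ) : ℤ) ≤ |v.2|) ∧
        Relation.ReflTransGen (PStep (fun e => z e = true)) u v}).toReal ≤ ε

theorem pstep_mono {Z Z' : Edge → Prop} (h : ∀ e, Z e → Z' e) {u v : P2} (hs : PStep Z u v) :
    PStep Z' u v := by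
  obtain ⟨e, he, h'⟩ := hs
  exact ⟨e, h e he, h'⟩

theorem rtg_mono {Z Z' : Edge → Prop} (h : ∀ e, Z e → Z' e) {u v : P2}
    (hs : Relation.ReflTransGen (PStep Z) u v) : Relation.ReflTransGen (PStep Z') u v := by
  induction hs with
  | refl => exact .refl
  | tail _ h2 ih => exact ih.tail (pstep_mono h h2)

theorem armP_mono {Z Z' : Edge → Prop} (h : ∀ e, Z e → Z' e) {s R : ℕ} (hs : ArmP Z s R) :
    ArmP Z' s R := by
  obtain ⟨u, v, h1, h2, h3, h4⟩ := hs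
  exact ⟨u, v, h1, h2, h3, rtg_mono h h4⟩

/-- edges of the box used by an arm to distance `R` -/
def armE (R : ℕ) : Finset Edge :=
  (Finset.Icc (-(R : ℤ)) R ×ˢ Finset.Icc (-(R : ℤ)) R) ×ˢ (Finset.univ : Finset Bool)

theorem mem_armE {R : ℕ} {e : Edge} : e ∈ armE R ↔
    -(R : ℤ) ≤ (src e).1 ∧ (src e).1 ≤ R ∧ -(R : ℤ) ≤ (src e).2 ∧ (src e).2 ≤ R := by
  obtain ⟨⟨a, b⟩, c⟩ := e
  simp only [armE, Finset.mem_product, Finset.mem_Icc, Finset.mem_univ, and_true, src_mk]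
  tauto

theorem armP_local {Z Z' : Edge → Prop} {s R : ℕ} (hZ : ∀ e ∈ armE R, (Z e → Z' e))
    (h : ArmP Z s R) : ArmP Z' s R := by
  obtain ⟨u, v, h1, h2, h3, h4⟩ := h
  have key : ∀ u, Relation.ReflTransGen (PStep Z) u v →
      ∃ v' : P2, ((R : ℤ) ≤ |v'.1| ∨ (R : ℤ) ≤ |v'.2|) ∧
        Relation.ReflTransGen (PStep Z') u v' := by
    intro u hu
    induction hu using Relation.ReflTransGen.head_induction_on with
    | refl => exact ⟨v, h3, .refl⟩
    | @head a c hac _ ih =>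
      by_cases ha : (R : ℤ) ≤ |a.1| ∨ (R : ℤ) ≤ |a.2|
      · exact ⟨a, ha, .refl⟩
      · obtain ⟨v', h5, h6⟩ := ih
        refine ⟨v', h5, Relation.ReflTransGen.head ?_ h6⟩
        obtain ⟨e, he, h7⟩ := hac
        refine ⟨e, hZ e ?_ he, h7⟩
        rw [mem_armE]
        push Not at ha
        obtain ⟨ha1, ha2⟩ := ha
        rw [abs_lt] at ha1 ha2
        obtain ⟨⟨i, j⟩, b⟩ := e
        rcases h7 with ⟨h8, _⟩ | ⟨h8, _⟩
        · subst h8
          simp only [src_mk] at *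
          omega
        · subst h8
          cases b
          · simp only [tgt_h, src_mk] at *
            omega
          · simp only [tgt_v, src_mk] at *
            omega
  obtain ⟨v', h5, h6⟩ := key u h4
  exact ⟨u, v', h1, h2, h5, h6⟩

theorem incEv_arm (s R : ℕ) : IncEv (Arm s R) := fun _ _ h hz => armP_mono h hz

theorem locOn_arm (s R : ℕ) : LocOn (armE R) (Arm s R) := by
  intro z z' h
  constructor
  · exact armP_local fun e he hz => by rw [← h e he]; exact hz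
  · exact armP_local fun e he hz => by rw [h e he]; exact hz

theorem locEv_arm (s R : ℕ) : LocEv (Arm s R) := ⟨_, locOn_arm s R⟩

theorem measurableSet_arm (s R : ℕ) : MeasurableSet (Arm s R) := (locEv_arm s R).measurableSet

theorem blockX_iff (ν : Measure (Edge → Bool)) : BlockX ν ↔
    ∀ c3 ε : ℝ, 0 < c3 → 0 < ε → ∃ C1 s0 : ℕ, 4 ≤ C1 ∧ ∀ s : ℕ, s0 ≤ s →
      (∀ t : ℕ, 4 * s ≤ t → t ≤ C1 * s → c3 ≤ (ν (CircZ (0, 0) t (2 * t))).toReal) →
        (ν (Arm s (C1 * s))).toReal ≤ ε := Iff.rfl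

end Crest.Agent.R161.Blk868
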