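import Crest.Agent.R161.Tas4_682
import Crest.Agent.R161.Ann_374
import Crest.Agent.R161.BlkDef_868

/-!
# Row 161, block C, T4 (helper682): Tassion's RSW theorem for a percolation law `ν`

`tassion` : FKG for local increasing events, invariance under the reflections of `ℤ²`, square
crossings bounded below and one-arm blocking imply circuits (`RSWc`) and long crossings (`LongX`).
-/

set_option autoImplicit false

noncomputable section

namespace Crest.Agent.R161.Tas682

open MeasureTheory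
open Crest.Agent.R161.Geo729 Crest.Agent.R161.Topo374 Crest.Agent.R161.Dual374
open Crest.Agent.R161.Sym597 Crest.Agent.R161.Ring421 Crest.Agent.R161.Ifc372
open Crest.Agent.R161.Ann374

theorem IncLoc.loc {A : Set Cf} (h : IncLoc A) : LocEv A := by
  obtain ⟨_, E0, h⟩ := h
  exact ⟨E0, fun z z' hz => ⟨h z z' hz, h z' z fun e he => (hz e he).symm⟩⟩

theorem IncLoc.inc {A : Set Cf} (h : IncLoc A) : IncEv A := by
  intro z z' hz
  refine h.1 z z' fun e => ?_
  cases hze : z e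
  · exact bot_le
  · rw [hz e hze]

theorem incLoc_of {A : Set Cf} (h1 : LocEv A) (h2 : IncEv A) : IncLoc A := by
  obtain ⟨E0, h1⟩ := h1
  refine ⟨fun z z' hz => h2 z z' fun e he => ?_, E0, fun z z' hz => (h1 z z' hz).1⟩
  have := hz e
  rw [he] at this
  exact top_le_iff.1 this

theorem IncLoc.measurableSet {A : Set Cf} (h : IncLoc A) : MeasurableSet A := h.loc.measurableSet

theorem measurable_pull (R : Refl) : Measurable (fun (z : Cf) (e : Edge) => z (R.E e)) :=
  measurable_pi_lambda _ fun _ => measurable_pi_apply _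

/-- invariance under the reflections of the lattice -/
def RInv (ν : Measure Cf) : Prop :=
  ∀ R : Refl, ((∃ n, R = Refl.vert n) ∨ (∃ n, R = Refl.horiz n) ∨ R = Refl.diag 0) →
    ν.map (fun (z : Cf) (e : Edge) => z (R.E e)) = ν

theorem perc_of {ν : Measure Cf} [IsProbabilityMeasure ν] (fkg : FKGLoc ν) (inv : RInv ν) :
    Perc (fun A => (ν A).toReal) where
  nonneg A := ENNReal.toReal_nonneg
  univ := by simp
  mono A B h := ENNReal.toReal_mono (measure_ne_top _ _) (measure_mono h)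
  union A B := by
    rw [← ENNReal.toReal_add (measure_ne_top _ _) (measure_ne_top _ _)]
    exact ENNReal.toReal_mono (ENNReal.add_ne_top.2 ⟨measure_ne_top _ _, measure_ne_top _ _⟩)
      (measure_union_le _ _)
  fkg A B hA hB := by
    rw [← ENNReal.toReal_mul]
    exact ENNReal.toReal_mono (measure_ne_top _ _) (fkg A B hA.loc hB.loc hA.inc hB.inc)
  vert n A hA := by
    have h := inv (Refl.vert n) (Or.inl ⟨n, rfl⟩)
    conv_rhs => rw [← h]
    rw [Measure.map_apply (measurable_pull _) hA.measurableSet]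
  horiz n A hA := by
    have h := inv (Refl.horiz n) (Or.inr (Or.inl ⟨n, rfl⟩))
    conv_rhs => rw [← h]
    rw [Measure.map_apply (measurable_pull _) hA.measurableSet]
  diag A hA := by
    have h := inv (Refl.diag 0) (Or.inr (Or.inr rfl))
    conv_rhs => rw [← h]
    rw [Measure.map_apply (measurable_pull _) hA.measurableSet]

/-- the four crossings make a circuit -/
theorem circ4_sub (x : P2) (n m : ℕ) (hn : 1 ≤ n) (hnm : n ≤ m) :
    {z : Cf | Circ4 z x n m} ⊆ CircZ x n m := by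
  rintro z ⟨⟨t1, t1', ht1, ht1', hT⟩, ⟨b1, b1', hb1, hb1', hB⟩, ⟨r1, r1', hr1, hr1', hR⟩,
    ⟨l1, l1', hl1, hl1', hL⟩⟩
  have conv : ∀ {a b c d : ℤ} {u v : P2}, OC z (Rect a b c d) u v →
      Relation.ReflTransGen (RStep (fun e => z e = true) a b c d) u v := by
    intro a b c d u v h
    refine Relation.ReflTransGen.mono (fun p q hpq => ?_) _ _ h.2
    obtain ⟨h1, ⟨h2, h3, h4, h5⟩, ⟨h6, h7, h8, h9⟩⟩ := hpq
    exact ⟨h1, ⟨h2, h3, h4, h5⟩, ⟨h6, h7, h8, h9⟩⟩
  exact circ_of_four (fun e => z e = true) x n m hn hnm (conv hT) (conv hB) (conv hL) (conv hR)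
    ht1 ht1' hb1 hb1' hl1 hl1' hr1 hr1'

/-- long crossings at all scales -/
def LongX (ν : Measure Cf) : Prop :=
  ∀ k : ℕ, ∃ c : ℝ, 0 < c ∧ ∃ n0 : ℕ, ∀ n : ℕ, n0 ≤ n →
    c ≤ (ν {z | LRc z 0 (k * n) 0 n}).toReal

/-- **Tassion's theorem.** -/
theorem tassion (ν : Measure Cf) [IsProbabilityMeasure ν] (fkg : FKGLoc ν) (inv : RInv ν)
    (sq : ∃ c0 : ℝ, 0 < c0 ∧ ∀ n : ℕ, 1 ≤ n → c0 ≤ (ν {z | LRc z 0 n 0 n}).toReal)
    (blk : Blk868.BlockX ν) : RSWc ν ∧ LongX ν := by
  have hP := perc_of fkg inv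
  obtain ⟨c0, hc0, hsq⟩ := sq
  have hblk : Blk (fun A => (ν A).toReal) c0 := by
    intro c3 hc3
    obtain ⟨C1, s0, hC1, h⟩ := blk (c3 ^ 4) (c0 / 8) (by positivity) (by positivity)
    refine ⟨C1, max s0 1, hC1, fun s hs hg => ?_⟩
    have hs1 : 1 ≤ s := (le_max_right _ _).trans hs
    have h1 := h s ((le_max_left _ _).trans hs) (fun t ht ht' => ?_)
    · have h2 : Arm s ((C1 : ℤ) * s) = {z : Cf | ∃ u v : P2, |u.1| ≤ (s : ℤ) ∧ |u.2| ≤ (s : ℤ) ∧
          (((C1 * s : ℕ) : ℤ) ≤ |v.1| ∨ ((C1 * s : ℕ) : ℤ) ≤ |v.2|) ∧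
          Relation.ReflTransGen (PStep (fun e => z e = true)) u v} := by
        push_cast
        rfl
      show (ν (Arm s ((C1 : ℤ) * s))).toReal ≤ c0 / 8
      rw [h2]
      exact h1
    · have h3 := hP.circ4_ge (0, 0) t (2 * t)
      have h4 : (2 : ℤ) * (2 * t) = 4 * t := by ring
      have h5 : (2 : ℤ) * t - t = t := by ring
      rw [h4, h5] at h3
      have h6 : c3 ^ 4 ≤ lr (fun A => (ν A).toReal) 0 (4 * t) 0 t ^ 4 :=
        pow_le_pow_left₀ hc3.le (hg t ht ht') 4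
      refine h6.trans (h3.trans ?_)
      have h7 := circ4_sub (0, 0) t (2 * t) (by omega) (by omega)
      have h8 : {z : Cf | Circ4 z (0, 0) (t : ℤ) (2 * (t : ℤ))} =
          {z : Cf | Circ4 z (0, 0) (t : ℕ) ((2 * t : ℕ) : ℤ)} := by push_cast; rfl
      rw [h8]
      exact ENNReal.toReal_mono (measure_ne_top _ _) (measure_mono h7)
  have hR := fun K => hP.rsw hc0 hsq hblk K
  refine ⟨?_, hR⟩
  obtain ⟨c, hc, n0, h⟩ := hR 4
  refine ⟨c ^ 4, max n0 1, by positivity, fun n hn => ?_⟩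
  have hn1 : 1 ≤ n := (le_max_right _ _).trans hn
  have h3 := hP.circ4_ge (0, 0) n (2 * n)
  have h4 : (2 : ℤ) * (2 * n) = 4 * n := by ring
  have h5 : (2 : ℤ) * n - n = n := by ring
  rw [h4, h5] at h3
  have h9 := h n ((le_max_left _ _).trans hn)
  push_cast at h9
  have h6 : c ^ 4 ≤ lr (fun A => (ν A).toReal) 0 (4 * n) 0 n ^ 4 := pow_le_pow_left₀ hc.le h9 4
  refine h6.trans (h3.trans ?_)
  have h7 := circ4_sub (0, 0) n (2 * n) hn1 (by omega)
  have h8 : {z : Cf | Circ4 z (0, 0) (n : ℤ) (2 * (n : ℤ))} =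
      {z : Cf | Circ4 z (0, 0) (n : ℕ) ((2 * n : ℕ) : ℤ)} := by push_cast; rfl
  rw [h8]
  exact ENNReal.toReal_mono (measure_ne_top _ _) (measure_mono h7)

end Crest.Agent.R161.Tas682
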