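import Crest.Agent.R161.Topo_374
import Crest.Agent.R161.Geo_729

/-!
Planar bond duality on a rectangle (helper374).

`dual_rect`: for any set `Z` of edges, either some left-right walk of the rectangle uses only `Z`-edges, or
some bottom-top walk of faces crosses only non-`Z`-edges.
-/

set_option autoImplicit false

namespace Crest.Agent.R161.Dual374

open Crest.Agent.R161.Topo374 Crest.Agent.R161.Geo729 Finset

/-- Edges of the rectangle `[x0,x1] × [y0,y1]` relevant for left-right crossings: all horizontal edges and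
the vertical edges strictly inside. -/
def RE (x0 x1 y0 y1 : ℤ) (e : Edge) : Prop :=
  (e.2 = false ∧ x0 ≤ e.1.1 ∧ e.1.1 < x1 ∧ y0 ≤ e.1.2 ∧ e.1.2 ≤ y1) ∨
  (e.2 = true ∧ x0 < e.1.1 ∧ e.1.1 < x1 ∧ y0 ≤ e.1.2 ∧ e.1.2 < y1)

/-- Primal step along an edge satisfying `Z`. -/
def PStep (Z : Edge → Prop) (u v : P2) : Prop :=
  ∃ e, Z e ∧ ((u = src e ∧ v = tgt e) ∨ (u = tgt e ∧ v = src e))

/-- Dual step across an edge satisfying `Z`. -/
def DStep (Z : Edge → Prop) (f g : P2) : Prop :=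
  ∃ e, Z e ∧ ((f = fA e ∧ g = fB e) ∨ (f = fB e ∧ g = fA e))

lemma PStep.symm {Z : Edge → Prop} {u v : P2} (h : PStep Z u v) : PStep Z v u := by
  obtain ⟨e, he, h | h⟩ := h
  · exact ⟨e, he, Or.inr ⟨h.2, h.1⟩⟩
  · exact ⟨e, he, Or.inl ⟨h.2, h.1⟩⟩

lemma DStep.symm {Z : Edge → Prop} {u v : P2} (h : DStep Z u v) : DStep Z v u := by
  obtain ⟨e, he, h | h⟩ := h
  · exact ⟨e, he, Or.inr ⟨h.2, h.1⟩⟩
  · exact ⟨e, he, Or.inl ⟨h.2, h.1⟩⟩

lemma ind_ne_add (p q : Prop) : ind (p ∧ ¬ q ∨ ¬ p ∧ q) = ind p + ind q := by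
  by_cases hp : p <;> by_cases hq : q
  · rw [ind_false (by tauto), ind_true hp, ind_true hq]; decide
  · rw [ind_true (by tauto), ind_true hp, ind_false hq]; decide
  · rw [ind_true (by tauto), ind_false hp, ind_true hq]; decide
  · rw [ind_false (by tauto), ind_false hp, ind_false hq]; decide

lemma telescope (f : ℤ → ZMod 2) (a : ℤ) (n : ℕ) :
    ∑ y ∈ Icc a (a + n), (f (y - 1) + f y) = f (a - 1) + f (a + n) := by
  induction n with
  | zero => simp
  | succ n ih =>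
      have h1 : Icc a (a + ((n + 1 : ℕ) : ℤ)) = insert (a + ((n + 1 : ℕ) : ℤ)) (Icc a (a + (n : ℤ))) := by
        ext z; simp only [mem_Icc, mem_insert]; push_cast; omega
      rw [h1, Finset.sum_insert (by simp), ih]
      have : a + ((n + 1 : ℕ) : ℤ) - 1 = a + n := by push_cast; ring
      rw [this]
      have h2 := zmod2_add_self (f (a + (n : ℤ)))
      linear_combination h2

lemma telescope' (f : ℤ → ZMod 2) (a b : ℤ) (h : a ≤ b) :
    ∑ y ∈ Icc a b, (f (y - 1) + f y) = f (a - 1) + f b := by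
  obtain ⟨n, rfl⟩ : ∃ n : ℕ, b = a + n := ⟨(b - a).toNat, by omega⟩
  exact telescope f a n

theorem dual_rect (x0 x1 y0 y1 : ℤ) (hx : x0 < x1) (hy : y0 ≤ y1) (Z : Edge → Prop) :
    (∃ a b : P2, a.1 = x0 ∧ y0 ≤ a.2 ∧ a.2 ≤ y1 ∧ b.1 = x1 ∧
      Relation.ReflTransGen (PStep (fun e => Z e ∧ RE x0 x1 y0 y1 e)) a b) ∨
    (∃ f g : P2, f.2 = y0 - 1 ∧ x0 ≤ f.1 ∧ f.1 < x1 ∧ g.2 = y1 ∧
      Relation.ReflTransGen (DStep (fun e => ¬ Z e ∧ RE x0 x1 y0 y1 e)) f g) := by
  by_contra hcon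
  push Not at hcon
  obtain ⟨hcP, hcD⟩ := hcon
  set F : P2 → Prop := fun g => ∃ f : P2, f.2 = y0 - 1 ∧ x0 ≤ f.1 ∧ f.1 < x1 ∧
      Relation.ReflTransGen (DStep (fun e => ¬ Z e ∧ RE x0 x1 y0 y1 e)) f g with hF
  set S : P2 → Prop := fun b => ∃ a : P2, a.1 = x0 ∧ y0 ≤ a.2 ∧ a.2 ≤ y1 ∧
      Relation.ReflTransGen (PStep (fun e => Z e ∧ RE x0 x1 y0 y1 e)) a b with hS
  have hFtop : ∀ g : P2, g.2 = y1 → ¬ F g := by
    rintro g hg ⟨f, h1, h2, h3, h4⟩
    exact hcD f g h1 h2 h3 hg h4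
  have hFbot : ∀ g : P2, g.2 = y0 - 1 → x0 ≤ g.1 → g.1 < x1 → F g :=
    fun g h1 h2 h3 => ⟨g, h1, h2, h3, .refl⟩
  have hSright : ∀ b : P2, b.1 = x1 → ¬ S b := by
    rintro b hb ⟨a, h1, h2, h3, h4⟩
    exact hcP a b h1 h2 h3 hb h4
  have hSleft : ∀ b : P2, b.1 = x0 → y0 ≤ b.2 → b.2 ≤ y1 → S b :=
    fun b h1 h2 h3 => ⟨b, h1, h2, h3, .refl⟩
  -- edges separating `F` are `Z`-edges
  have hZ : ∀ e, RE x0 x1 y0 y1 e → ind (F (fA e)) ≠ ind (F (fB e)) → Z e := by
    intro e he hne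
    by_contra hz
    apply hne
    have hst : DStep (fun e => ¬ Z e ∧ RE x0 x1 y0 y1 e) (fA e) (fB e) :=
      ⟨e, ⟨hz, he⟩, Or.inl ⟨rfl, rfl⟩⟩
    have hiff : F (fA e) ↔ F (fB e) := by
      constructor
      · rintro ⟨f, h1, h2, h3, h4⟩
        exact ⟨f, h1, h2, h3, h4.tail hst⟩
      · rintro ⟨f, h1, h2, h3, h4⟩
        exact ⟨f, h1, h2, h3, h4.tail hst.symm⟩
    rw [propext hiff]
  have hSe : ∀ e, RE x0 x1 y0 y1 e → ind (F (fA e)) ≠ ind (F (fB e)) →
      ind (S (src e)) = ind (S (tgt e)) := by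
    intro e he hne
    have hz := hZ e he hne
    have hst : PStep (fun e => Z e ∧ RE x0 x1 y0 y1 e) (src e) (tgt e) :=
      ⟨e, ⟨hz, he⟩, Or.inl ⟨rfl, rfl⟩⟩
    have hiff : S (src e) ↔ S (tgt e) := by
      constructor
      · rintro ⟨f, h1, h2, h3, h4⟩
        exact ⟨f, h1, h2, h3, h4.tail hst⟩
      · rintro ⟨f, h1, h2, h3, h4⟩
        exact ⟨f, h1, h2, h3, h4.tail hst.symm⟩
    rw [propext hiff]
  set φ : ℤ → ℤ → ZMod 2 := fun x y => ind (F (x, y)) with hφ
  set χ : ℤ → ℤ → ZMod 2 := fun x y => ind (S (x, y)) with hχ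
  -- horizontal edge at `(x,y)`
  have hh : ∀ x y, x0 ≤ x → x < x1 → y0 ≤ y → y ≤ y1 →
      χ x y * (φ x (y - 1) + φ x y) = χ (x + 1) y * (φ x (y - 1) + φ x y) := by
    intro x y h1 h2 h3 h4
    by_cases hne : φ x (y - 1) + φ x y = 0
    · rw [hne]; simp
    · congr 1
      have := hSe ((x, y), false) (Or.inl ⟨rfl, h1, h2, h3, h4⟩) (by
        simp only [fA_mk, fB_h]
        intro h
        apply hne
        show ind (F (x, y - 1)) + ind (F (x, y)) = 0
        rw [h]; exact zmod2_add_self _)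
      simpa using this
  have hv : ∀ x y, x0 < x → x < x1 → y0 ≤ y → y < y1 →
      χ x y * (φ (x - 1) y + φ x y) = χ x (y + 1) * (φ (x - 1) y + φ x y) := by
    intro x y h1 h2 h3 h4
    by_cases hne : φ (x - 1) y + φ x y = 0
    · rw [hne]; simp
    · congr 1
      have := hSe ((x, y), true) (Or.inr ⟨rfl, h1, h2, h3, h4⟩) (by
        simp only [fA_mk, fB_v]
        intro h
        apply hne
        show ind (F (x - 1, y)) + ind (F (x, y)) = 0
        rw [h]; exact zmod2_add_self _)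
      simpa using this
  set A : ℤ → ZMod 2 := fun x => ∑ y ∈ Icc y0 y1, χ x y * (φ x (y - 1) + φ x y) with hA
  have hφbot : ∀ x, x0 ≤ x → x < x1 → φ x (y0 - 1) = 1 := fun x h1 h2 =>
    ind_true (hFbot (x, y0 - 1) rfl h1 h2)
  have hφtop : ∀ x, φ x y1 = 0 := fun x => ind_false (hFtop (x, y1) rfl)
  have hA0 : A x0 = 1 := by
    have h1 : A x0 = ∑ y ∈ Icc y0 y1, (φ x0 (y - 1) + φ x0 y) := by
      apply Finset.sum_congr rfl
      intro y hy'
      rw [mem_Icc] at hy'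
      have : χ x0 y = 1 := ind_true (hSleft (x0, y) rfl hy'.1 hy'.2)
      rw [this, one_mul]
    rw [h1, telescope' (fun y => φ x0 y) y0 y1 hy]
    rw [hφbot x0 le_rfl hx, hφtop]
    decide
  have hA1 : ∀ x, x0 ≤ x → x < x1 → A x = ∑ y ∈ Icc y0 y1, χ (x + 1) y * (φ x (y - 1) + φ x y) := by
    intro x h1 h2
    apply Finset.sum_congr rfl
    intro y hy'
    rw [mem_Icc] at hy'
    exact hh x y h1 h2 hy'.1 hy'.2
  have hstep : ∀ x, x0 ≤ x → x + 1 < x1 → A x = A (x + 1) := by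
    intro x h1 h2
    apply zmod2_eq_of_add
    rw [hA1 x h1 (by omega)]
    simp only [hA]
    rw [← Finset.sum_add_distrib]
    set g : ℤ → ZMod 2 := fun y => if y < y1 ∧ y0 ≤ y then χ (x + 1) y * (φ x y + φ (x + 1) y) else 0 with hg
    have hsum : ∀ y ∈ Icc y0 y1,
        χ (x + 1) y * (φ x (y - 1) + φ x y) + χ (x + 1) y * (φ (x + 1) (y - 1) + φ (x + 1) y) =
          g (y - 1) + g y := by
      intro y hy'
      rw [mem_Icc] at hy'
      have hgy : g y = χ (x + 1) y * (φ x y + φ (x + 1) y) := by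
        simp only [hg]
        by_cases hy1 : y < y1
        · rw [if_pos ⟨hy1, hy'.1⟩]
        · have hyy : y = y1 := by omega
          rw [if_neg (by omega), hyy, hφtop, hφtop]; simp
      have hgy1 : g (y - 1) = χ (x + 1) y * (φ x (y - 1) + φ (x + 1) (y - 1)) := by
        simp only [hg]
        by_cases hy1 : y0 ≤ y - 1
        · rw [if_pos ⟨by omega, hy1⟩]
          have := hv (x + 1) (y - 1) (by omega) h2 hy1 (by omega)
          simpa using this
        · have hyy : y = y0 := by omega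
          rw [if_neg (by omega), hyy, hφbot x h1 (by omega), hφbot (x + 1) (by omega) h2]
          have : (1 : ZMod 2) + 1 = 0 := by decide
          rw [this, mul_zero]
      rw [hgy, hgy1]; ring
    rw [Finset.sum_congr rfl hsum, telescope' g y0 y1 hy]
    simp only [hg]
    rw [if_neg (by omega), if_neg (by omega)]; rfl
  have hind : ∀ n : ℕ, x0 + n < x1 → A (x0 + n) = 1 := by
    intro n
    induction n with
    | zero => intro _; simpa using hA0
    | succ n ih =>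
        intro h
        have h1 := ih (by push_cast at h; omega)
        have h2 := hstep (x0 + n) (by omega) (by push_cast at h; omega)
        push_cast
        rw [← add_assoc, ← h2, h1]
  have hlast : A (x1 - 1) = 1 := by
    have := hind (x1 - 1 - x0).toNat (by omega)
    have e : x0 + ((x1 - 1 - x0).toNat : ℤ) = x1 - 1 := by omega
    rwa [e] at this
  rw [hA1 (x1 - 1) (by omega) (by omega)] at hlast
  have hzero : ∑ y ∈ Icc y0 y1, χ (x1 - 1 + 1) y * (φ (x1 - 1) (y - 1) + φ (x1 - 1) y) = 0 := by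
    apply Finset.sum_eq_zero
    intro y _
    have : χ (x1 - 1 + 1) y = 0 := ind_false (hSright (x1 - 1 + 1, y) (by simp))
    rw [this, zero_mul]
  rw [hzero] at hlast
  exact absurd hlast (by decide)

end Crest.Agent.R161.Dual374
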