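import Crest.Agent.R161.UTurn_374

/-!
Abstract positively associated, lattice-symmetric percolation on `ℤ²` (helper374): configurations,
connection events, the structure `Perc`, and its symmetries on connection events.
-/

set_option autoImplicit false

namespace Crest.Agent.R161.Perc374

open Crest.Agent.R161.Topo374

/-- Configurations: `ω u v` (or `ω v u`) says that the edge `u v` is open; only nearest neighbours matter. -/
abbrev Cfg := V → V → Prop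

/-- open step inside `S` -/
def Stp (ω : Cfg) (S : Set V) (u v : V) : Prop := Nbr u v ∧ (ω u v ∨ ω v u) ∧ u ∈ S ∧ v ∈ S

/-- connection inside `S` -/
def Con (ω : Cfg) (S : Set V) (a b : V) : Prop := a ∈ S ∧ Relation.ReflTransGen (Stp ω S) a b

/-- the rectangle `[x0,x1] × [y0,y1]` -/
def Rc (x0 x1 y0 y1 : ℤ) : Set V := {v | x0 ≤ v.1 ∧ v.1 ≤ x1 ∧ y0 ≤ v.2 ∧ v.2 ≤ y1}

/-- connection event -/
def CE (S A B : Set V) : Set Cfg := {ω | ∃ a ∈ A, ∃ b ∈ B, Con ω S a b}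

/-- connection, in the rectangle, of the part `[a0,a1]` of its left side to the part `[b0,b1]` of its right
side -/
def EH (x0 x1 y0 y1 a0 a1 b0 b1 : ℤ) : Set Cfg :=
  CE (Rc x0 x1 y0 y1) {v | v.1 = x0 ∧ a0 ≤ v.2 ∧ v.2 ≤ a1} {v | v.1 = x1 ∧ b0 ≤ v.2 ∧ v.2 ≤ b1}

/-- left-right crossing of the rectangle -/
def HC (x0 x1 y0 y1 : ℤ) : Set Cfg := CE (Rc x0 x1 y0 y1) {v | v.1 = x0} {v | v.1 = x1}

/-- bottom-top crossing of the rectangle -/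
def VC (x0 x1 y0 y1 : ℤ) : Set Cfg := CE (Rc x0 x1 y0 y1) {v | v.2 = y0} {v | v.2 = y1}

/-- the four crossings forming a circuit in `B(2s) \ B(s)` around `(cx, cy)` -/
def Circ (cx cy s : ℤ) : Set Cfg :=
  HC (cx - 2 * s) (cx + 2 * s) (cy + s) (cy + 2 * s) ∩ HC (cx - 2 * s) (cx + 2 * s) (cy - 2 * s) (cy - s) ∩
    (VC (cx - 2 * s) (cx - s) (cy - 2 * s) (cy + 2 * s) ∩ VC (cx + s) (cx + 2 * s) (cy - 2 * s) (cy + 2 * s))

/-- one arm from `B(s)` to the complement of `B(t-1)` (inside `B(2t)`) -/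
def Arm (s t : ℤ) : Set Cfg :=
  CE (Rc (-(2 * t)) (2 * t) (-(2 * t)) (2 * t)) (Rc (-s) s (-s) s) {v | t ≤ |v.1| ∨ t ≤ |v.2|}

/-- increasing local events -/
def Good (A : Set Cfg) : Prop :=
  (∀ ω ω' : Cfg, (∀ u v, ω u v → ω' u v) → ω ∈ A → ω' ∈ A) ∧
  ∃ n : ℕ, ∀ ω ω' : Cfg, (∀ u v, u ∈ Rc (-n) n (-n) n → v ∈ Rc (-n) n (-n) n → (ω u v ↔ ω' u v)) →
    (ω ∈ A ↔ ω' ∈ A)

/-- action of a map on configurations -/
def pull (g : V → V) (ω : Cfg) : Cfg := fun u v => ω (g u) (g v)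

/-- translation by `z` -/
def tr (z : V) (v : V) : V := (v.1 + z.1, v.2 + z.2)
/-- reflection `x ↦ -x` -/
def rx (v : V) : V := (-v.1, v.2)
/-- exchange of the coordinates -/
def sw (v : V) : V := (v.2, v.1)

/-- Positively associated, translation and `D4` invariant percolation (only the set function matters). -/
structure Perc where
  Pr : Set Cfg → ℝ
  nonneg : ∀ A, 0 ≤ Pr A
  le_one : ∀ A, Pr A ≤ 1
  mono : ∀ A B, A ⊆ B → Pr A ≤ Pr B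
  union_le : ∀ A B, Pr (A ∪ B) ≤ Pr A + Pr B
  univ : Pr Set.univ = 1
  fkg : ∀ A B, Good A → Good B → Pr A * Pr B ≤ Pr (A ∩ B)
  inv_tr : ∀ z A, Good A → Pr {ω | pull (tr z) ω ∈ A} = Pr A
  inv_rx : ∀ A, Good A → Pr {ω | pull rx ω ∈ A} = Pr A
  inv_sw : ∀ A, Good A → Pr {ω | pull sw ω ∈ A} = Pr A

/-! ### Elementary facts on connections -/

lemma Stp.symm {ω : Cfg} {S : Set V} {u v : V} (h : Stp ω S u v) : Stp ω S v u :=
  ⟨h.1.symm, h.2.1.symm, h.2.2.2, h.2.2.1⟩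

lemma Con.left {ω : Cfg} {S : Set V} {a b : V} (h : Con ω S a b) : a ∈ S := h.1

lemma Con.right {ω : Cfg} {S : Set V} {a b : V} (h : Con ω S a b) : b ∈ S := by
  obtain ⟨ha, h⟩ := h
  induction h with
  | refl => exact ha
  | tail _ h _ => exact h.2.2.2

lemma Con.refl {ω : Cfg} {S : Set V} {a : V} (h : a ∈ S) : Con ω S a a := ⟨h, .refl⟩

lemma Con.trans {ω : Cfg} {S : Set V} {a b c : V} (h : Con ω S a b) (h' : Con ω S b c) : Con ω S a c :=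
  ⟨h.1, Relation.ReflTransGen.trans h.2 h'.2⟩

lemma Con.tail {ω : Cfg} {S : Set V} {a b c : V} (h : Con ω S a b) (h' : Stp ω S b c) : Con ω S a c :=
  ⟨h.1, Relation.ReflTransGen.tail h.2 h'⟩

lemma Con.symm {ω : Cfg} {S : Set V} {a b : V} (h : Con ω S a b) : Con ω S b a := by
  refine ⟨h.right, ?_⟩
  have h1 := h.2
  clear h
  induction h1 with
  | refl => exact .refl
  | tail _ h2 ih => exact Relation.ReflTransGen.head h2.symm ih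

lemma Stp.mono {ω ω' : Cfg} {S S' : Set V} (hω : ∀ u v, ω u v → ω' u v) (hS : S ⊆ S') {u v : V}
    (h : Stp ω S u v) : Stp ω' S' u v :=
  ⟨h.1, h.2.1.imp (hω _ _) (hω _ _), hS h.2.2.1, hS h.2.2.2⟩

lemma Con.mono' {ω ω' : Cfg} {S S' : Set V} (hω : ∀ u v, ω u v → ω' u v) (hS : S ⊆ S') {a b : V}
    (h : Con ω S a b) : Con ω' S' a b := by
  obtain ⟨ha, h⟩ := h
  refine ⟨hS ha, ?_⟩
  induction h with
  | refl => exact .refl
  | tail _ h2 ih => exact ih.tail (h2.mono hω hS)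

lemma Con.mono {ω : Cfg} {S S' : Set V} (hS : S ⊆ S') {a b : V}
    (h : Con ω S a b) : Con ω S' a b := h.mono' (fun _ _ h => h) hS

/-- the component of `a` in `S` -/
def Cp (ω : Cfg) (S : Set V) (a : V) : Set V := {w | Con ω S a w}

lemma cp_subset {ω : Cfg} {S : Set V} {a : V} : Cp ω S a ⊆ S := fun _ h => Con.right h

lemma cp_walk {ω : Cfg} {S : Set V} {a p q : V} (hp : Con ω S a p) (hq : Con ω S a q) :
    Walk (Cp ω S a) p q := by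
  have key : ∀ q, Con ω S a q → Walk (Cp ω S a) a q := by
    intro q hq
    obtain ⟨ha, hq⟩ := hq
    refine ⟨Con.refl ha, ?_⟩
    induction hq with
    | refl => exact .refl
    | @tail b c h1 h2 ih =>
        exact ih.tail ⟨h2.1, ⟨ha, h1⟩, ⟨ha, h1.tail h2⟩⟩
  exact (key p hp).symm.trans (key q hq)

/-- crossing lemma for connections -/
lemma con_cross {ω : Cfg} {S1 S2 : Set V} {a b p q : V} (h1 : Con ω S1 a b) (h2 : Con ω S2 p q)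
    (hy : ∀ w ∈ S1, p.2 ≤ w.2 ∧ w.2 ≤ q.2) (hx : ∀ w ∈ S2, a.1 ≤ w.1 ∧ w.1 ≤ b.1) :
    ∃ w, Con ω S1 a w ∧ Con ω S2 p w := by
  obtain ⟨w, hw1, hw2⟩ := cross (cp_walk (Con.refl h1.left) h1) (cp_walk (Con.refl h2.left) h2)
    (fun w hw => hy w (cp_subset hw)) (fun w hw => hx w (cp_subset hw))
  exact ⟨w, hw1, hw2⟩

/-! ### Good events -/

lemma good_CE {S A B : Set V} {n : ℕ} (hS : S ⊆ Rc (-n) n (-n) n) : Good (CE S A B) := by
  constructor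
  · rintro ω ω' h ⟨a, ha, b, hb, hc⟩
    exact ⟨a, ha, b, hb, hc.mono' h (le_refl _)⟩
  · refine ⟨n, ?_⟩
    have key : ∀ ω ω' : Cfg, (∀ u v, u ∈ Rc (-n) n (-n) n → v ∈ Rc (-n) n (-n) n → (ω u v ↔ ω' u v)) →
        ω ∈ CE S A B → ω' ∈ CE S A B := by
      rintro ω ω' h ⟨a, ha, b, hb, hc⟩
      refine ⟨a, ha, b, hb, ?_⟩
      clear hb
      obtain ⟨haS, hc⟩ := hc
      refine ⟨haS, ?_⟩
      induction hc with
      | refl => exact .refl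
      | @tail b c h1 h2 ih =>
          refine ih.tail ⟨h2.1, ?_, h2.2.2.1, h2.2.2.2⟩
          have e1 := h b c (hS h2.2.2.1) (hS h2.2.2.2)
          have e2 := h c b (hS h2.2.2.2) (hS h2.2.2.1)
          rcases h2.2.1 with h3 | h3
          · exact Or.inl (e1.1 h3)
          · exact Or.inr (e2.1 h3)
    intro ω ω' h
    exact ⟨key ω ω' h, key ω' ω (fun u v hu hv => (h u v hu hv).symm)⟩

lemma rc_mono {x0 x1 y0 y1 x0' x1' y0' y1' : ℤ} (h1 : x0' ≤ x0) (h2 : x1 ≤ x1') (h3 : y0' ≤ y0)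
    (h4 : y1 ≤ y1') : Rc x0 x1 y0 y1 ⊆ Rc x0' x1' y0' y1' := by
  rintro v ⟨a, b, c, d⟩
  exact ⟨by omega, by omega, by omega, by omega⟩

lemma rc_bdd (x0 x1 y0 y1 : ℤ) : ∃ n : ℕ, Rc x0 x1 y0 y1 ⊆ Rc (-n) n (-n) n :=
  ⟨x0.natAbs + x1.natAbs + y0.natAbs + y1.natAbs, rc_mono (by omega) (by omega) (by omega) (by omega)⟩

lemma good_CE_rc (x0 x1 y0 y1 : ℤ) (A B : Set V) : Good (CE (Rc x0 x1 y0 y1) A B) := by
  obtain ⟨n, hn⟩ := rc_bdd x0 x1 y0 y1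
  exact good_CE hn

lemma good_EH (x0 x1 y0 y1 a0 a1 b0 b1 : ℤ) : Good (EH x0 x1 y0 y1 a0 a1 b0 b1) := good_CE_rc _ _ _ _ _ _
lemma good_HC (x0 x1 y0 y1 : ℤ) : Good (HC x0 x1 y0 y1) := good_CE_rc _ _ _ _ _ _
lemma good_VC (x0 x1 y0 y1 : ℤ) : Good (VC x0 x1 y0 y1) := good_CE_rc _ _ _ _ _ _

lemma good_inter {A B : Set Cfg} (hA : Good A) (hB : Good B) : Good (A ∩ B) := by
  obtain ⟨hA1, n, hA2⟩ := hA
  obtain ⟨hB1, m, hB2⟩ := hB
  refine ⟨fun ω ω' h ⟨h1, h2⟩ => ⟨hA1 ω ω' h h1, hB1 ω ω' h h2⟩, n + m, ?_⟩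
  intro ω ω' h
  have hn : Rc (-n) n (-n) n ⊆ Rc (-((n + m : ℕ) : ℤ)) ((n + m : ℕ) : ℤ) (-((n + m : ℕ) : ℤ)) ((n + m : ℕ) : ℤ) :=
    rc_mono (by push_cast; omega) (by push_cast; omega) (by push_cast; omega) (by push_cast; omega)
  have hm : Rc (-m) m (-m) m ⊆ Rc (-((n + m : ℕ) : ℤ)) ((n + m : ℕ) : ℤ) (-((n + m : ℕ) : ℤ)) ((n + m : ℕ) : ℤ) :=
    rc_mono (by push_cast; omega) (by push_cast; omega) (by push_cast; omega) (by push_cast; omega)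
  have e1 := hA2 ω ω' (fun u v hu hv => h u v (hn hu) (hn hv))
  have e2 := hB2 ω ω' (fun u v hu hv => h u v (hm hu) (hm hv))
  exact ⟨fun ⟨h1, h2⟩ => ⟨e1.1 h1, e2.1 h2⟩, fun ⟨h1, h2⟩ => ⟨e1.2 h1, e2.2 h2⟩⟩

lemma good_univ : Good Set.univ := ⟨fun _ _ _ _ => trivial, 0, fun _ _ _ => ⟨fun _ => trivial, fun _ => trivial⟩⟩

lemma good_Circ (cx cy s : ℤ) : Good (Circ cx cy s) :=
  good_inter (good_inter (good_HC _ _ _ _) (good_HC _ _ _ _))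
    (good_inter (good_VC _ _ _ _) (good_VC _ _ _ _))

lemma good_Arm (s t : ℤ) : Good (Arm s t) := good_CE_rc _ _ _ _ _ _

/-! ### Transport of connection events -/

/-- `g` with inverse `g'` preserving neighbours -/
structure IsSym (g g' : V → V) : Prop where
  left : ∀ v, g' (g v) = v
  right : ∀ v, g (g' v) = v
  nbr : ∀ u v, Nbr u v → Nbr (g u) (g v)
  nbr' : ∀ u v, Nbr u v → Nbr (g' u) (g' v)

lemma isSym_tr (z : V) : IsSym (tr z) (tr (-z)) := by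
  refine ⟨fun v => ?_, fun v => ?_, fun u v h => ?_, fun u v h => ?_⟩
  · simp [tr]
  · simp [tr]
  · unfold Nbr tr at *; simp only; omega
  · unfold Nbr tr at *; simp only [Prod.fst_neg, Prod.snd_neg]; omega

lemma isSym_rx : IsSym rx rx := by
  refine ⟨fun v => by simp [rx], fun v => by simp [rx], fun u v h => ?_, fun u v h => ?_⟩ <;>
  · unfold Nbr rx at *; simp only; omega

lemma isSym_sw : IsSym sw sw := by
  refine ⟨fun v => rfl, fun v => rfl, fun u v h => ?_, fun u v h => ?_⟩ <;>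
  · unfold Nbr sw at *; simp only; omega

lemma con_pull {g g' : V → V} (hg : IsSym g g') {ω : Cfg} {S : Set V} {a b : V} :
    Con (pull g ω) S a b ↔ Con ω {v | g' v ∈ S} (g a) (g b) := by
  constructor
  · rintro ⟨ha, h⟩
    refine ⟨by simpa [hg.left] using ha, ?_⟩
    induction h with
    | refl => exact .refl
    | @tail b c _ h2 ih =>
        exact ih.tail ⟨hg.nbr _ _ h2.1, h2.2.1, by simpa [hg.left] using h2.2.2.1,
          by simpa [hg.left] using h2.2.2.2⟩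
  · rintro ⟨ha, h⟩
    have key : ∀ c, Relation.ReflTransGen (Stp ω {v | g' v ∈ S}) (g a) c →
        Relation.ReflTransGen (Stp (pull g ω) S) a (g' c) := by
      intro c hc
      induction hc with
      | refl => rw [hg.left]
      | @tail b c _ h2 ih =>
          refine ih.tail ⟨hg.nbr' _ _ h2.1, ?_, h2.2.2.1, h2.2.2.2⟩
          unfold pull
          rw [hg.right, hg.right]
          exact h2.2.1
    refine ⟨by simpa [hg.left] using ha, ?_⟩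
    have := key _ h
    rwa [hg.left] at this

lemma pull_CE {g g' : V → V} (hg : IsSym g g') (S A B : Set V) :
    {ω | pull g ω ∈ CE S A B} = CE {v | g' v ∈ S} {v | g' v ∈ A} {v | g' v ∈ B} := by
  ext ω
  constructor
  · rintro ⟨a, ha, b, hb, h⟩
    exact ⟨g a, by simpa [hg.left] using ha, g b, by simpa [hg.left] using hb, (con_pull hg).1 h⟩
  · rintro ⟨a, ha, b, hb, h⟩
    refine ⟨g' a, ha, g' b, hb, (con_pull hg).2 ?_⟩
    rwa [hg.right, hg.right]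

namespace Perc

variable (P : Perc)

lemma CE_tr (z : V) {S A B : Set V} {S' A' B' : Set V} (h : Good (CE S A B))
    (hS : ∀ v, v ∈ S' ↔ (v.1 - z.1, v.2 - z.2) ∈ S) (hA : ∀ v, v ∈ A' ↔ (v.1 - z.1, v.2 - z.2) ∈ A)
    (hB : ∀ v, v ∈ B' ↔ (v.1 - z.1, v.2 - z.2) ∈ B) : P.Pr (CE S' A' B') = P.Pr (CE S A B) := by
  rw [← P.inv_tr z _ h, pull_CE (isSym_tr z)]
  have e : ∀ (X X' : Set V), (∀ v, v ∈ X' ↔ (v.1 - z.1, v.2 - z.2) ∈ X) → {v | tr (-z) v ∈ X} = X' := by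
    intro X X' hX
    ext v
    rw [Set.mem_setOf_eq, hX]
    have : tr (-z) v = (v.1 - z.1, v.2 - z.2) := by
      unfold tr; simp only [Prod.fst_neg, Prod.snd_neg, Prod.mk.injEq]; omega
    rw [this]
  rw [e S S' hS, e A A' hA, e B B' hB]

lemma CE_rx {S A B : Set V} {S' A' B' : Set V} (h : Good (CE S A B))
    (hS : ∀ v, v ∈ S' ↔ (-v.1, v.2) ∈ S) (hA : ∀ v, v ∈ A' ↔ (-v.1, v.2) ∈ A)
    (hB : ∀ v, v ∈ B' ↔ (-v.1, v.2) ∈ B) : P.Pr (CE S' A' B') = P.Pr (CE S A B) := by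
  rw [← P.inv_rx _ h, pull_CE isSym_rx]
  have e : ∀ (X X' : Set V), (∀ v, v ∈ X' ↔ (-v.1, v.2) ∈ X) → {v | rx v ∈ X} = X' := by
    intro X X' hX
    ext v
    rw [Set.mem_setOf_eq, hX]; rfl
  rw [e S S' hS, e A A' hA, e B B' hB]

lemma CE_sw {S A B : Set V} {S' A' B' : Set V} (h : Good (CE S A B))
    (hS : ∀ v, v ∈ S' ↔ (v.2, v.1) ∈ S) (hA : ∀ v, v ∈ A' ↔ (v.2, v.1) ∈ A)
    (hB : ∀ v, v ∈ B' ↔ (v.2, v.1) ∈ B) : P.Pr (CE S' A' B') = P.Pr (CE S A B) := by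
  rw [← P.inv_sw _ h, pull_CE isSym_sw]
  have e : ∀ (X X' : Set V), (∀ v, v ∈ X' ↔ (v.2, v.1) ∈ X) → {v | sw v ∈ X} = X' := by
    intro X X' hX
    ext v
    rw [Set.mem_setOf_eq, hX]; rfl
  rw [e S S' hS, e A A' hA, e B B' hB]

end Perc

/-- symmetry of connection events in the two end sets -/
lemma CE_comm (S A B : Set V) : CE S A B = CE S B A := by
  ext ω
  exact ⟨fun ⟨a, ha, b, hb, h⟩ => ⟨b, hb, a, ha, h.symm⟩, fun ⟨a, ha, b, hb, h⟩ => ⟨b, hb, a, ha, h.symm⟩⟩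

lemma CE_mono {S A B S' A' B' : Set V} (hS : S ⊆ S') (hA : A ⊆ A') (hB : B ⊆ B') :
    CE S A B ⊆ CE S' A' B' := fun _ ⟨a, ha, b, hb, h⟩ => ⟨a, hA ha, b, hB hb, h.mono hS⟩

lemma HC_eq_EH (x0 x1 y0 y1 : ℤ) : HC x0 x1 y0 y1 = EH x0 x1 y0 y1 y0 y1 y0 y1 := by
  ext ω
  constructor
  · rintro ⟨a, ha, b, hb, h⟩
    have h1 := h.left
    have h2 := h.right
    exact ⟨a, ⟨ha, h1.2.2.1, h1.2.2.2⟩, b, ⟨hb, h2.2.2.1, h2.2.2.2⟩, h⟩
  · rintro ⟨a, ha, b, hb, h⟩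
    exact ⟨a, ha.1, b, hb.1, h⟩

namespace Perc

variable (P : Perc)

/-- translation of rectangle events -/
lemma EH_tr (x0 x1 y0 y1 a0 a1 b0 b1 X0 X1 Y0 Y1 A0 A1 B0 B1 p q : ℤ)
    (h1 : X0 = x0 + p) (h2 : X1 = x1 + p) (h3 : Y0 = y0 + q) (h4 : Y1 = y1 + q)
    (h5 : A0 = a0 + q) (h6 : A1 = a1 + q) (h7 : B0 = b0 + q) (h8 : B1 = b1 + q) :
    P.Pr (EH X0 X1 Y0 Y1 A0 A1 B0 B1) = P.Pr (EH x0 x1 y0 y1 a0 a1 b0 b1) := by
  apply P.CE_tr (p, q) (good_EH _ _ _ _ _ _ _ _)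
  · intro v; simp only [Rc, Set.mem_setOf_eq]; omega
  · intro v; simp only [Set.mem_setOf_eq]; omega
  · intro v; simp only [Set.mem_setOf_eq]; omega

lemma HC_tr (x0 x1 y0 y1 X0 X1 Y0 Y1 p q : ℤ)
    (h1 : X0 = x0 + p) (h2 : X1 = x1 + p) (h3 : Y0 = y0 + q) (h4 : Y1 = y1 + q) :
    P.Pr (HC X0 X1 Y0 Y1) = P.Pr (HC x0 x1 y0 y1) := by
  apply P.CE_tr (p, q) (good_HC _ _ _ _)
  · intro v; simp only [Rc, Set.mem_setOf_eq]; omega
  · intro v; simp only [Set.mem_setOf_eq]; omega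
  · intro v; simp only [Set.mem_setOf_eq]; omega

lemma VC_tr (x0 x1 y0 y1 X0 X1 Y0 Y1 p q : ℤ)
    (h1 : X0 = x0 + p) (h2 : X1 = x1 + p) (h3 : Y0 = y0 + q) (h4 : Y1 = y1 + q) :
    P.Pr (VC X0 X1 Y0 Y1) = P.Pr (VC x0 x1 y0 y1) := by
  apply P.CE_tr (p, q) (good_VC _ _ _ _)
  · intro v; simp only [Rc, Set.mem_setOf_eq]; omega
  · intro v; simp only [Set.mem_setOf_eq]; omega
  · intro v; simp only [Set.mem_setOf_eq]; omega

lemma VC_sw (x0 x1 y0 y1 : ℤ) : P.Pr (VC x0 x1 y0 y1) = P.Pr (HC y0 y1 x0 x1) := by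
  apply P.CE_sw (good_HC _ _ _ _)
  · intro v; simp only [Rc, Set.mem_setOf_eq]; omega
  · intro v; simp only [Set.mem_setOf_eq]
  · intro v; simp only [Set.mem_setOf_eq]

/-- left-right reflection -/
lemma EH_rx (x0 x1 y0 y1 a0 a1 b0 b1 X0 X1 : ℤ) (h1 : X0 = -x1) (h2 : X1 = -x0) :
    P.Pr (EH X0 X1 y0 y1 b0 b1 a0 a1) = P.Pr (EH x0 x1 y0 y1 a0 a1 b0 b1) := by
  have : EH X0 X1 y0 y1 b0 b1 a0 a1 = CE (Rc X0 X1 y0 y1) {v | v.1 = X1 ∧ a0 ≤ v.2 ∧ v.2 ≤ a1}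
      {v | v.1 = X0 ∧ b0 ≤ v.2 ∧ v.2 ≤ b1} := CE_comm _ _ _
  rw [this]
  apply P.CE_rx (good_EH _ _ _ _ _ _ _ _)
  · intro v; simp only [Rc, Set.mem_setOf_eq]; omega
  · intro v; simp only [Set.mem_setOf_eq]; omega
  · intro v; simp only [Set.mem_setOf_eq]; omega

/-- up-down reflection -/
lemma EH_ry (x0 x1 y0 y1 a0 a1 b0 b1 Y0 Y1 A0 A1 B0 B1 : ℤ) (h1 : Y0 = -y1) (h2 : Y1 = -y0)
    (h3 : A0 = -a1) (h4 : A1 = -a0) (h5 : B0 = -b1) (h6 : B1 = -b0) :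
    P.Pr (EH x0 x1 Y0 Y1 A0 A1 B0 B1) = P.Pr (EH x0 x1 y0 y1 a0 a1 b0 b1) := by
  -- `ry = sw ∘ rx ∘ sw`
  have e1 : P.Pr (EH x0 x1 Y0 Y1 A0 A1 B0 B1) =
      P.Pr (CE (Rc Y0 Y1 x0 x1) {v | v.2 = x0 ∧ A0 ≤ v.1 ∧ v.1 ≤ A1} {v | v.2 = x1 ∧ B0 ≤ v.1 ∧ v.1 ≤ B1}) := by
    apply P.CE_sw (good_CE_rc _ _ _ _ _ _)
    · intro v; simp only [Rc, Set.mem_setOf_eq]; omega
    · intro v; simp only [Set.mem_setOf_eq]
    · intro v; simp only [Set.mem_setOf_eq]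
  have e2 : P.Pr (CE (Rc Y0 Y1 x0 x1) {v | v.2 = x0 ∧ A0 ≤ v.1 ∧ v.1 ≤ A1}
        {v | v.2 = x1 ∧ B0 ≤ v.1 ∧ v.1 ≤ B1}) =
      P.Pr (CE (Rc y0 y1 x0 x1) {v | v.2 = x0 ∧ a0 ≤ v.1 ∧ v.1 ≤ a1} {v | v.2 = x1 ∧ b0 ≤ v.1 ∧ v.1 ≤ b1}) := by
    apply P.CE_rx (good_CE_rc _ _ _ _ _ _)
    · intro v; simp only [Rc, Set.mem_setOf_eq]; omega
    · intro v; simp only [Set.mem_setOf_eq]; omega
    · intro v; simp only [Set.mem_setOf_eq]; omega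
  have e3 : P.Pr (CE (Rc y0 y1 x0 x1) {v | v.2 = x0 ∧ a0 ≤ v.1 ∧ v.1 ≤ a1}
        {v | v.2 = x1 ∧ b0 ≤ v.1 ∧ v.1 ≤ b1}) = P.Pr (EH x0 x1 y0 y1 a0 a1 b0 b1) := by
    apply P.CE_sw (good_EH _ _ _ _ _ _ _ _)
    · intro v; simp only [Rc, Set.mem_setOf_eq]; omega
    · intro v; simp only [Set.mem_setOf_eq]
    · intro v; simp only [Set.mem_setOf_eq]
  rw [e1, e2, e3]

/-- FKG for a list of events -/
lemma fkg_list (l : List (Set Cfg)) (h : ∀ A ∈ l, Good A) :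
    Good (l.foldr (· ∩ ·) Set.univ) ∧ (l.map P.Pr).prod ≤ P.Pr (l.foldr (· ∩ ·) Set.univ) := by
  induction l with
  | nil => exact ⟨good_univ, by simp [P.univ]⟩
  | cons A l ih =>
      obtain ⟨h1, h2⟩ := ih (fun B hB => h B (List.mem_cons_of_mem _ hB))
      have hA := h A List.mem_cons_self
      refine ⟨good_inter hA h1, ?_⟩
      simp only [List.map_cons, List.prod_cons, List.foldr_cons]
      exact (mul_le_mul_of_nonneg_left h2 (P.nonneg A)).trans (P.fkg _ _ hA h1)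

end Perc

end Crest.Agent.R161.Perc374
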