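import Crest.Agent.R161.Lsm_375

/-!
# Six-vertex height systems in an abstract setting (helper375, R161 STEP 1)

`Geo V F P` : vertices `V` (even heights), faces `F` (odd heights), plaquettes `P` (= lattice edges
`v₁ v₂` bordered by the faces `f₁ f₂`), each plaquette `p` carries a coupling `c p ≥ 1`: its weight is
`c p` when both diagonals agree and `1` otherwise.

No planarity is used.  Results: `lsm_W` (the weight is log-supermodular, so FKG), `lsm_Wn` (the same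
for nonnegative heights), `logConcave` (partition functions are log-concave in the height at which a
set of sites is pinned, under arbitrary interval constraints).
-/

set_option autoImplicit false
set_option linter.unusedSectionVars false
set_option linter.unnecessarySeqFocus false
set_option linter.unusedVariables false

open Finset
open Crest.Agent.R161.Lsm375

namespace Crest.Agent.R161.Hts375

/-- incidence geometry of a height system -/
structure Geo (V F P : Type*) where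
  inc : V → F → Prop
  v₁ : P → V
  v₂ : P → V
  f₁ : P → F
  f₂ : P → F
  inc₁₁ : ∀ p, inc (v₁ p) (f₁ p)
  inc₁₂ : ∀ p, inc (v₁ p) (f₂ p)
  inc₂₁ : ∀ p, inc (v₂ p) (f₁ p)
  inc₂₂ : ∀ p, inc (v₂ p) (f₂ p)

variable {V F P : Type*}

/-- admissible heights: even on vertices, odd on faces, differing by exactly one across incidences -/
def Geo.Valid (G : Geo V F P) (h : V ⊕ F → ℤ) : Prop :=
  (∀ v, Even (h (.inl v))) ∧ (∀ f, Odd (h (.inr f))) ∧
    ∀ v f, G.inc v f → |h (.inl v) - h (.inr f)| = 1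

/-- both diagonals of the plaquette agree -/
def Geo.Flat (G : Geo V F P) (h : V ⊕ F → ℤ) (p : P) : Prop :=
  h (.inl (G.v₁ p)) = h (.inl (G.v₂ p)) ∧ h (.inr (G.f₁ p)) = h (.inr (G.f₂ p))

open Classical in
/-- plaquette weight -/
noncomputable def Geo.wp (G : Geo V F P) (c : P → ℝ) (h : V ⊕ F → ℤ) (p : P) : ℝ :=
  if G.Flat h p then c p else 1

open Classical in
/-- total weight -/
noncomputable def Geo.W [Fintype P] (G : Geo V F P) (c : P → ℝ) (h : V ⊕ F → ℤ) : ℝ :=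
  if G.Valid h then ∏ p, G.wp c h p else 0

lemma even_min {a b : ℤ} (ha : Even a) (hb : Even b) : Even (min a b) := by
  rcases min_choice a b with h | h <;> rw [h] <;> assumption

lemma even_max {a b : ℤ} (ha : Even a) (hb : Even b) : Even (max a b) := by
  rcases max_choice a b with h | h <;> rw [h] <;> assumption

lemma odd_min {a b : ℤ} (ha : Odd a) (hb : Odd b) : Odd (min a b) := by
  rcases min_choice a b with h | h <;> rw [h] <;> assumption

lemma odd_max {a b : ℤ} (ha : Odd a) (hb : Odd b) : Odd (max a b) := by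
  rcases max_choice a b with h | h <;> rw [h] <;> assumption

lemma adj_min {x y x' y' : ℤ} (hx : Even x) (hy : Odd y) (hx' : Even x') (hy' : Odd y')
    (h : |x - y| = 1) (h' : |x' - y'| = 1) : |min x x' - min y y'| = 1 := by
  obtain ⟨r, hr⟩ := hx
  obtain ⟨s, hs⟩ := hy
  obtain ⟨r', hr'⟩ := hx'
  obtain ⟨s', hs'⟩ := hy'
  rw [abs_eq (by norm_num)] at h h' ⊢
  omega

lemma adj_max {x y x' y' : ℤ} (hx : Even x) (hy : Odd y) (hx' : Even x') (hy' : Odd y')
    (h : |x - y| = 1) (h' : |x' - y'| = 1) : |max x x' - max y y'| = 1 := by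
  obtain ⟨r, hr⟩ := hx
  obtain ⟨s, hs⟩ := hy
  obtain ⟨r', hr'⟩ := hx'
  obtain ⟨s', hs'⟩ := hy'
  rw [abs_eq (by norm_num)] at h h' ⊢
  omega

/-- the key plaquette fact: if one configuration is flat, then the min or the max is flat -/
lemma flat_inf_or_sup {x y x₁ x₂ y₁ y₂ : ℤ} (hx : Even x) (hy : Odd y)
    (hx₁ : Even x₁) (hx₂ : Even x₂) (hy₁ : Odd y₁) (hy₂ : Odd y₂) (h : |x - y| = 1)
    (h₁₁ : |x₁ - y₁| = 1) (h₁₂ : |x₁ - y₂| = 1) (h₂₁ : |x₂ - y₁| = 1) (h₂₂ : |x₂ - y₂| = 1) :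
    (min x x₁ = min x x₂ ∧ min y y₁ = min y y₂) ∨ (max x x₁ = max x x₂ ∧ max y y₁ = max y y₂) := by
  obtain ⟨r, hr⟩ := hx
  obtain ⟨s, hs⟩ := hy
  obtain ⟨r1, hr1⟩ := hx₁
  obtain ⟨r2, hr2⟩ := hx₂
  obtain ⟨s1, hs1⟩ := hy₁
  obtain ⟨s2, hs2⟩ := hy₂
  rw [abs_eq (by norm_num)] at h h₁₁ h₁₂ h₂₁ h₂₂
  omega

lemma Geo.valid_inf_sup (G : Geo V F P) {a b : V ⊕ F → ℤ} (ha : G.Valid a) (hb : G.Valid b) :
    G.Valid (a ⊓ b) ∧ G.Valid (a ⊔ b) := by
  obtain ⟨a1, a2, a3⟩ := ha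
  obtain ⟨b1, b2, b3⟩ := hb
  refine ⟨⟨fun v => even_min (a1 v) (b1 v), fun f => odd_min (a2 f) (b2 f), fun v f hvf => ?_⟩,
    ⟨fun v => even_max (a1 v) (b1 v), fun f => odd_max (a2 f) (b2 f), fun v f hvf => ?_⟩⟩
  · exact adj_min (a1 v) (a2 f) (b1 v) (b2 f) (a3 v f hvf) (b3 v f hvf)
  · exact adj_max (a1 v) (a2 f) (b1 v) (b2 f) (a3 v f hvf) (b3 v f hvf)

lemma Geo.wp_nonneg (G : Geo V F P) {c : P → ℝ} (hc : ∀ p, 1 ≤ c p) (h : V ⊕ F → ℤ) (p : P) :
    0 ≤ G.wp c h p := by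
  unfold Geo.wp; split_ifs
  · linarith [hc p]
  · norm_num

lemma Geo.one_le_wp (G : Geo V F P) {c : P → ℝ} (hc : ∀ p, 1 ≤ c p) (h : V ⊕ F → ℤ) (p : P) :
    1 ≤ G.wp c h p := by
  unfold Geo.wp; split_ifs
  · exact hc p
  · norm_num

lemma ite_mul_le {c : ℝ} (hc : 1 ≤ c) {A B C D : Prop} [Decidable A] [Decidable B] [Decidable C]
    [Decidable D] (i1 : A → B → C ∧ D) (i2 : A → C ∨ D) (i3 : B → C ∨ D) :
    (if A then c else 1) * (if B then c else 1) ≤ (if C then c else 1) * (if D then c else 1) := by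
  by_cases hA : A
  · by_cases hB : B
    · obtain ⟨h1, h2⟩ := i1 hA hB
      simp [hA, hB, h1, h2]
    · rcases i2 hA with h | h
      · by_cases hD : D
        · simp only [hA, hB, h, hD, if_true, if_false]; nlinarith
        · simp only [hA, hB, h, hD, if_true, if_false]; nlinarith
      · by_cases hC : C
        · simp only [hA, hB, h, hC, if_true, if_false]; nlinarith
        · simp only [hA, hB, h, hC, if_true, if_false]; nlinarith
  · by_cases hB : B
    · rcases i3 hB with h | h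
      · by_cases hD : D
        · simp only [hA, hB, h, hD, if_true, if_false]; nlinarith
        · simp only [hA, hB, h, hD, if_true, if_false]; nlinarith
      · by_cases hC : C
        · simp only [hA, hB, h, hC, if_true, if_false]; nlinarith
        · simp only [hA, hB, h, hC, if_true, if_false]; nlinarith
    · by_cases hC : C <;> by_cases hD : D <;>
        simp only [hA, hB, hC, hD, if_true, if_false] <;> nlinarith

lemma Geo.wp_mul_le (G : Geo V F P) {c : P → ℝ} (hc : ∀ p, 1 ≤ c p) {a b : V ⊕ F → ℤ}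
    (ha : G.Valid a) (hb : G.Valid b) (p : P) :
    G.wp c a p * G.wp c b p ≤ G.wp c (a ⊓ b) p * G.wp c (a ⊔ b) p := by
  have hc' := hc p
  obtain ⟨a1, a2, a3⟩ := ha
  obtain ⟨b1, b2, b3⟩ := hb
  have i1 : G.Flat a p → G.Flat b p → G.Flat (a ⊓ b) p ∧ G.Flat (a ⊔ b) p := by
    rintro ⟨h1, h2⟩ ⟨h3, h4⟩
    exact ⟨⟨by simp [h1, h3], by simp [h2, h4]⟩, ⟨by simp [h1, h3], by simp [h2, h4]⟩⟩
  have i2 : G.Flat a p → G.Flat (a ⊓ b) p ∨ G.Flat (a ⊔ b) p := by
    rintro ⟨h1, h2⟩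
    have := flat_inf_or_sup (a1 (G.v₁ p)) (a2 (G.f₁ p)) (b1 (G.v₁ p)) (b1 (G.v₂ p))
      (b2 (G.f₁ p)) (b2 (G.f₂ p)) (a3 _ _ (G.inc₁₁ p)) (b3 _ _ (G.inc₁₁ p))
      (b3 _ _ (G.inc₁₂ p)) (b3 _ _ (G.inc₂₁ p)) (b3 _ _ (G.inc₂₂ p))
    refine this.imp (fun h => ⟨?_, ?_⟩) (fun h => ⟨?_, ?_⟩)
    · simpa [← h1] using h.1
    · simpa [← h2] using h.2
    · simpa [← h1] using h.1
    · simpa [← h2] using h.2
  have i3 : G.Flat b p → G.Flat (a ⊓ b) p ∨ G.Flat (a ⊔ b) p := by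
    rintro ⟨h1, h2⟩
    have := flat_inf_or_sup (b1 (G.v₁ p)) (b2 (G.f₁ p)) (a1 (G.v₁ p)) (a1 (G.v₂ p))
      (a2 (G.f₁ p)) (a2 (G.f₂ p)) (b3 _ _ (G.inc₁₁ p)) (a3 _ _ (G.inc₁₁ p))
      (a3 _ _ (G.inc₁₂ p)) (a3 _ _ (G.inc₂₁ p)) (a3 _ _ (G.inc₂₂ p))
    refine this.imp (fun h => ⟨?_, ?_⟩) (fun h => ⟨?_, ?_⟩)
    · simpa [← h1, min_comm] using h.1
    · simpa [← h2, min_comm] using h.2
    · simpa [← h1, max_comm] using h.1
    · simpa [← h2, max_comm] using h.2
  unfold Geo.wp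
  classical
  convert ite_mul_le hc' i1 i2 i3 using 2

variable [Fintype P]

lemma Geo.W_nonneg (G : Geo V F P) {c : P → ℝ} (hc : ∀ p, 1 ≤ c p) (h : V ⊕ F → ℤ) :
    0 ≤ G.W c h := by
  unfold Geo.W
  split_ifs
  · exact Finset.prod_nonneg fun p _ => G.wp_nonneg hc h p
  · exact le_rfl

/-- The six-vertex weight with `c ≥ 1` is log-supermodular. -/
theorem Geo.lsm_W (G : Geo V F P) {c : P → ℝ} (hc : ∀ p, 1 ≤ c p) : LSM (G.W c) := by
  refine ⟨G.W_nonneg hc, fun a b => ?_⟩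
  by_cases ha : G.Valid a
  · by_cases hb : G.Valid b
    · obtain ⟨h1, h2⟩ := G.valid_inf_sup ha hb
      unfold Geo.W
      rw [if_pos ha, if_pos hb, if_pos h1, if_pos h2, ← Finset.prod_mul_distrib,
        ← Finset.prod_mul_distrib]
      exact Finset.prod_le_prod (fun p _ => mul_nonneg (G.wp_nonneg hc a p) (G.wp_nonneg hc b p))
        fun p _ => G.wp_mul_le hc ha hb p
    · have : G.W c b = 0 := by unfold Geo.W; rw [if_neg hb]
      rw [this, mul_zero]
      exact mul_nonneg (G.W_nonneg hc _) (G.W_nonneg hc _)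
  · have : G.W c a = 0 := by unfold Geo.W; rw [if_neg ha]
    rw [this, zero_mul]
    exact mul_nonneg (G.W_nonneg hc _) (G.W_nonneg hc _)

/-! ### shifts -/

/-- adding the constant `s` -/
def shiftIso {S : Type*} (s : ℤ) : (S → ℤ) ≃o (S → ℤ) :=
  OrderIso.addRight (fun _ => s)

@[simp] lemma shiftIso_apply {S : Type*} (s : ℤ) (a : S → ℤ) (x : S) :
    shiftIso s a x = a x + s := rfl

@[simp] lemma shiftIso_symm_apply {S : Type*} (s : ℤ) (a : S → ℤ) (x : S) :
    (shiftIso s).symm a x = a x - s := by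
  have : (shiftIso s).symm a = fun x => a x - s := by
    rw [OrderIso.symm_apply_eq]
    funext y
    simp
  rw [this]

lemma Geo.valid_shift (G : Geo V F P) {s : ℤ} (hs : Even s) (a : V ⊕ F → ℤ) :
    G.Valid (shiftIso s a) ↔ G.Valid a := by
  unfold Geo.Valid
  have e1 : ∀ x : ℤ, Even (x + s) ↔ Even x := fun x => by
    rw [Int.even_add]; tauto
  have e2 : ∀ x : ℤ, Odd (x + s) ↔ Odd x := fun x => by
    rw [← Int.not_even_iff_odd, ← Int.not_even_iff_odd, e1]
  simp only [shiftIso_apply, e1, e2, add_sub_add_right_eq_sub]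

lemma Geo.W_shift (G : Geo V F P) (c : P → ℝ) {s : ℤ} (hs : Even s) (a : V ⊕ F → ℤ) :
    G.W c (shiftIso s a) = G.W c a := by
  unfold Geo.W
  by_cases h : G.Valid a
  · rw [if_pos h, if_pos ((G.valid_shift hs a).mpr h)]
    refine Finset.prod_congr rfl fun p _ => ?_
    have hfl : G.Flat (shiftIso s a) p ↔ G.Flat a p := by
      unfold Geo.Flat
      simp only [shiftIso_apply, add_left_inj]
    unfold Geo.wp
    by_cases h1 : G.Flat a p
    · rw [if_pos h1, if_pos (hfl.mpr h1)]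
    · rw [if_neg h1, if_neg (fun h' => h1 (hfl.mp h'))]
  · rw [if_neg h, if_neg (fun h' => h ((G.valid_shift hs a).mp h'))]

variable [Fintype V] [Fintype F] [DecidableEq V] [DecidableEq F]

/-- Partition function with interval constraints `lo ≤ h ≤ hi` and the sites of `I` pinned at `q`,
for an extra weight `U`. -/
noncomputable def pinZ (μ : (V ⊕ F → ℤ) → ℝ) (lo hi : V ⊕ F → ℤ) (I : Finset (V ⊕ F)) (q : ℤ) : ℝ :=
  ∑ h ∈ (Finset.Icc lo hi).filter (fun h => ∀ x ∈ I, h x = q), μ h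

/-- Log-concavity in the pinning height: `Z(q₁) Z(q₂) ≤ Z(q₁+s) Z(q₂-s)` for `0 ≤ s ≤ q₂ - q₁`. -/
theorem pinZ_logConcave {μ : (V ⊕ F → ℤ) → ℝ} (hμ : LSM μ) {s : ℤ} (hs0 : 0 ≤ s)
    (hT : ∀ a, μ (shiftIso s a) = μ a) (lo hi : V ⊕ F → ℤ) (I : Finset (V ⊕ F)) {q₁ q₂ : ℤ}
    (hq : s ≤ q₂ - q₁) :
    pinZ μ lo hi I q₁ * pinZ μ lo hi I q₂ ≤ pinZ μ lo hi I (q₁ + s) * pinZ μ lo hi I (q₂ - s) := by
  classical
  unfold pinZ
  refine hμ.shift (shiftIso s) hT _ _ _ _ ?_ ?_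
  · intro a ha b hb
    simp only [Finset.mem_filter, Finset.mem_Icc] at ha hb ⊢
    obtain ⟨⟨ha1, ha2⟩, ha3⟩ := ha
    obtain ⟨⟨hb1, hb2⟩, hb3⟩ := hb
    refine ⟨⟨fun x => ?_, fun x => ?_⟩, fun x hx => ?_⟩
    · have := ha1 x; have := hb1 x
      simp only [Pi.inf_apply, shiftIso_apply]
      exact le_min (by linarith) (by assumption)
    · have := hb2 x
      simp only [Pi.inf_apply, shiftIso_apply]
      exact (min_le_right _ _).trans this
    · simp only [Pi.inf_apply, shiftIso_apply, ha3 x hx, hb3 x hx]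
      exact min_eq_left (by linarith)
  · intro a ha b hb
    simp only [Finset.mem_filter, Finset.mem_Icc] at ha hb ⊢
    obtain ⟨⟨ha1, ha2⟩, ha3⟩ := ha
    obtain ⟨⟨hb1, hb2⟩, hb3⟩ := hb
    refine ⟨⟨fun x => ?_, fun x => ?_⟩, fun x hx => ?_⟩
    · have := ha1 x
      simp only [Pi.sup_apply, shiftIso_symm_apply]
      exact this.trans (le_max_left _ _)
    · have := ha2 x; have := hb2 x
      simp only [Pi.sup_apply, shiftIso_symm_apply]
      exact max_le (by assumption) (by linarith)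
    · simp only [Pi.sup_apply, shiftIso_symm_apply, ha3 x hx, hb3 x hx]
      exact max_eq_right (by linarith)

/-- The one-step form: `Z(q-s) Z(q+s) ≤ Z(q)^2`. -/
theorem pinZ_logConcave_step {μ : (V ⊕ F → ℤ) → ℝ} (hμ : LSM μ) {s : ℤ} (hs0 : 0 ≤ s)
    (hT : ∀ a, μ (shiftIso s a) = μ a) (lo hi : V ⊕ F → ℤ) (I : Finset (V ⊕ F)) (q : ℤ) :
    pinZ μ lo hi I (q - s) * pinZ μ lo hi I (q + s) ≤ pinZ μ lo hi I q ^ 2 := by
  have := pinZ_logConcave hμ hs0 hT lo hi I (q₁ := q - s) (q₂ := q + s) (by linarith)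
  simpa [sq] using this

end Crest.Agent.R161.Hts375
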