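import Crest.Agent.R161.Gks_375
import Crest.Agent.R161.Hts_375

/-!
# The law of `(|h|, η)` (absolute heights and FK–Ising sign edges) (helper375, R161 STEP 1)

For a height system `G : Geo V F P`, nonnegative heights `a : V ⊕ F → ℤ`, a set `η : Finset P` of open
plaquette edges (joining the two faces of a plaquette) and a set of ties `T` (pairs of sites forced to
have the same sign) the weight is
`R c U T (a, η) = W c a · 1{0 ≤ a} · ∏_v (1/2)^{[a_v = 0]} · U a · ∏_{p ∈ η} (c p - 1) · nC (Cset a η)`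
where `nC C` is the number of sign configurations constant on the constraints of `C`
(`2^{number of clusters}`).
-/

set_option autoImplicit false
set_option linter.unusedSectionVars false
set_option linter.unnecessarySeqFocus false
set_option linter.unusedVariables false

open Finset
open Crest.Agent.R161.Lsm375 Crest.Agent.R161.Gks375 Crest.Agent.R161.Hts375

namespace Crest.Agent.R161.Abs375

/-! ### Holley-type domination -/

/-- Holley's condition: `R'` is stochastically below `R`. -/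
def Dom {α : Type*} [Lattice α] (R' R : α → ℝ) : Prop :=
  (∀ a, 0 ≤ R' a) ∧ (∀ a, 0 ≤ R a) ∧ ∀ a b, R' a * R b ≤ R' (a ⊓ b) * R (a ⊔ b)

section dom
variable {α : Type*} [Lattice α] {R' R Q' Q : α → ℝ}

lemma Dom.of_lsm (h : LSM R) : Dom R R := ⟨h.1, h.1, h.2⟩

lemma Dom.mul (h : Dom R' R) (k : Dom Q' Q) :
    Dom (fun a => R' a * Q' a) (fun a => R a * Q a) := by
  refine ⟨fun a => mul_nonneg (h.1 a) (k.1 a), fun a => mul_nonneg (h.2.1 a) (k.2.1 a),
    fun a b => ?_⟩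
  calc R' a * Q' a * (R b * Q b) = (R' a * R b) * (Q' a * Q b) := by ring
    _ ≤ (R' (a ⊓ b) * R (a ⊔ b)) * (Q' (a ⊓ b) * Q (a ⊔ b)) :=
        mul_le_mul (h.2.2 a b) (k.2.2 a b) (mul_nonneg (k.1 a) (k.2.1 b))
          (mul_nonneg (h.1 _) (h.2.1 _))
    _ = _ := by ring

lemma Dom.congr (h : Dom R' R) (e' : ∀ a, Q' a = R' a) (e : ∀ a, Q a = R a) : Dom Q' Q :=
  ⟨fun a => by rw [e']; exact h.1 a, fun a => by rw [e]; exact h.2.1 a,
    fun a b => by rw [e', e, e', e]; exact h.2.2 a b⟩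

/-- multiplying the upper measure of an LSM pair by a monotone function -/
lemma Dom.of_lsm_mono {U : α → ℝ} (h : LSM R) (hU0 : ∀ a, 0 ≤ U a) (hU : Monotone U) :
    Dom R (fun a => R a * U a) := by
  refine ⟨h.1, fun a => mul_nonneg (h.1 a) (hU0 a), fun a b => ?_⟩
  calc R a * (R b * U b) = (R a * R b) * U b := by ring
    _ ≤ (R (a ⊓ b) * R (a ⊔ b)) * U (a ⊔ b) :=
        mul_le_mul (h.2 a b) (hU le_sup_right) (hU0 b) (mul_nonneg (h.1 _) (h.1 _))
    _ = _ := by ring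

/-- multiplying the lower measure of an LSM pair by an antitone function -/
lemma Dom.of_lsm_anti {U : α → ℝ} (h : LSM R) (hU0 : ∀ a, 0 ≤ U a) (hU : Antitone U) :
    Dom (fun a => R a * U a) R := by
  refine ⟨fun a => mul_nonneg (h.1 a) (hU0 a), h.1, fun a b => ?_⟩
  calc R a * U a * R b = (R a * R b) * U a := by ring
    _ ≤ (R (a ⊓ b) * R (a ⊔ b)) * U (a ⊓ b) :=
        mul_le_mul (h.2 a b) (hU inf_le_left) (hU0 a) (mul_nonneg (h.1 _) (h.1 _))
    _ = _ := by ring

end dom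

/-- **Holley**: `E'[f] ≤ E[f]` for `f` monotone on the finite sublattice `B`. -/
theorem Dom.expect_le {α : Type*} [DistribLattice α] [DecidableEq α] {R' R : α → ℝ}
    (h : Dom R' R) (B : Finset α) (hB : ∀ a ∈ B, ∀ b ∈ B, a ⊓ b ∈ B ∧ a ⊔ b ∈ B)
    {f : α → ℝ} (hf : ∀ a ∈ B, ∀ b ∈ B, a ≤ b → f a ≤ f b) :
    (∑ a ∈ B, R' a * f a) * (∑ a ∈ B, R a) ≤ (∑ a ∈ B, R' a) * ∑ a ∈ B, R a * f a := by
  classical
  obtain ⟨h0', h0, h2⟩ := h
  -- reduce to nonnegative `f`
  obtain ⟨m, hm⟩ : ∃ m : ℝ, ∀ a ∈ B, 0 ≤ f a + m := by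
    refine ⟨∑ a ∈ B, |f a|, fun a ha => ?_⟩
    have h1 : |f a| ≤ ∑ a ∈ B, |f a| :=
      Finset.single_le_sum (f := fun a => |f a|) (fun b _ => abs_nonneg _) ha
    have h2 := neg_abs_le (f a)
    linarith
  set ι : α → ℝ := fun a => if a ∈ B then 1 else 0 with hι
  have hι0 : ∀ a, 0 ≤ ι a := fun a => by simp only [hι]; split_ifs <;> norm_num
  have p1 : ∀ a, 0 ≤ ι a * (R' a * (f a + m)) := fun a => by
    by_cases h : a ∈ B
    · simpa [hι, h] using mul_nonneg (h0' a) (hm a h)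
    · simp [hι, h]
  have p4 : ∀ a, 0 ≤ ι a * (R a * (f a + m)) := fun a => by
    by_cases h : a ∈ B
    · simpa [hι, h] using mul_nonneg (h0 a) (hm a h)
    · simp [hι, h]
  have key := four_functions_theorem (α := α) (β := ℝ)
    (fun a => ι a * (R' a * (f a + m))) (fun a => ι a * R a)
    (fun a => ι a * R' a) (fun a => ι a * (R a * (f a + m)))
    p1 (fun a => mul_nonneg (hι0 a) (h0 a)) (fun a => mul_nonneg (hι0 a) (h0' a)) p4
    (fun a b => by
      by_cases ha : a ∈ B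
      · by_cases hb : b ∈ B
        · obtain ⟨h3, h4⟩ := hB a ha b hb
          simp only [hι, ha, hb, h3, h4, if_true, one_mul]
          have e1 : f a + m ≤ f (a ⊔ b) + m := by
            have := hf a ha _ h4 le_sup_left
            linarith
          calc R' a * (f a + m) * R b = (R' a * R b) * (f a + m) := by ring
            _ ≤ (R' (a ⊓ b) * R (a ⊔ b)) * (f (a ⊔ b) + m) :=
                mul_le_mul (h2 a b) e1 (hm a ha) (mul_nonneg (h0' _) (h0 _))
            _ = _ := by ring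
        · have : ι b * R b = 0 := by simp [hι, hb]
          rw [this, mul_zero]
          exact mul_nonneg (mul_nonneg (hι0 _) (h0' _)) (p4 _)
      · have : ι a * (R' a * (f a + m)) = 0 := by simp [hι, ha]
        rw [this, zero_mul]
        exact mul_nonneg (mul_nonneg (hι0 _) (h0' _)) (p4 _))
    B B
  have e : ∀ φ : α → ℝ, ∑ a ∈ B, ι a * φ a = ∑ a ∈ B, φ a := fun φ =>
    Finset.sum_congr rfl fun a ha => by simp [hι, ha]
  have e1 : ∀ (φ : α → ℝ) (C : Finset α), (∀ a ∈ B, 0 ≤ φ a) →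
      ∑ a ∈ C, ι a * φ a ≤ ∑ a ∈ B, φ a := by
    intro φ C hφ
    calc ∑ a ∈ C, ι a * φ a = ∑ a ∈ C ∩ B, φ a := by
          rw [Finset.sum_inter_add_sum_sdiff C B (fun a => ι a * φ a) |>.symm]
          have h1 : ∑ a ∈ C \ B, ι a * φ a = 0 :=
            Finset.sum_eq_zero fun a ha => by
              simp only [Finset.mem_sdiff] at ha
              simp [hι, ha.2]
          rw [h1, add_zero]
          exact Finset.sum_congr rfl fun a ha => by
            simp only [Finset.mem_inter] at ha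
            simp [hι, ha.2]
      _ ≤ _ := Finset.sum_le_sum_of_subset_of_nonneg Finset.inter_subset_right
          fun a ha _ => hφ a ha
  rw [e, e] at key
  have key2 : (∑ a ∈ B, R' a * (f a + m)) * (∑ a ∈ B, R a) ≤
      (∑ a ∈ B, R' a) * ∑ a ∈ B, R a * (f a + m) :=
    key.trans (mul_le_mul (e1 _ _ fun a _ => h0' a)
      (e1 _ _ fun a ha => mul_nonneg (h0 a) (hm a ha))
      (Finset.sum_nonneg fun a _ => p4 a) (Finset.sum_nonneg fun a _ => h0' a))
  have q1 : ∑ a ∈ B, R' a * (f a + m) = ∑ a ∈ B, R' a * f a + m * ∑ a ∈ B, R' a := by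
    rw [Finset.mul_sum, ← Finset.sum_add_distrib]
    exact Finset.sum_congr rfl fun a _ => by ring
  have q2 : ∑ a ∈ B, R a * (f a + m) = ∑ a ∈ B, R a * f a + m * ∑ a ∈ B, R a := by
    rw [Finset.mul_sum, ← Finset.sum_add_distrib]
    exact Finset.sum_congr rfl fun a _ => by ring
  rw [q1, q2] at key2
  nlinarith [key2]

/-! ### cluster counts -/

section cluster
variable {S κ : Type*} [Fintype S] [DecidableEq S] [DecidableEq κ]

/-- indicator that `σ` satisfies the constraints of `C` -/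
noncomputable def ic (i j : κ → S) (C : Finset κ) (σ : S → ℤˣ) : ℝ :=
  ∏ k ∈ C, if σ (i k) = σ (j k) then (1 : ℝ) else 0

/-- number of sign configurations satisfying the constraints of `C` (`2^{clusters}`) -/
noncomputable def nC (i j : κ → S) (C : Finset κ) : ℝ := ∑ σ : S → ℤˣ, ic i j C σ

lemma ic_ferro (i j : κ → S) (C : Finset κ) : Ferro (ic i j C) :=
  Ferro.prod C fun k _ => Ferro.eqInd (i k) (j k)

lemma ic_nonneg (i j : κ → S) (C : Finset κ) (σ : S → ℤˣ) : 0 ≤ ic i j C σ :=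
  Finset.prod_nonneg fun k _ => by split_ifs <;> norm_num

lemma ic_eq (i j : κ → S) (C : Finset κ) (σ : S → ℤˣ) :
    ic i j C σ = if (∀ k ∈ C, σ (i k) = σ (j k)) then 1 else 0 := by
  unfold ic
  split_ifs with h
  · exact Finset.prod_eq_one fun k hk => by rw [if_pos (h k hk)]
  · push Not at h
    obtain ⟨k, hk, hne⟩ := h
    exact Finset.prod_eq_zero hk (by rw [if_neg hne])

lemma ic_inter_union (i j : κ → S) (C D : Finset κ) (σ : S → ℤˣ) :
    ic i j (C ∩ D) σ * (ic i j (C \ D) σ * ic i j (D \ C) σ) = ic i j (C ∪ D) σ := by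
  unfold ic
  rw [← Finset.prod_union disjoint_sdiff_sdiff, ← Finset.prod_union]
  · congr 1
    ext k
    simp only [Finset.mem_union, Finset.mem_inter, Finset.mem_sdiff]
    tauto
  · rw [Finset.disjoint_left]
    intro k
    simp only [Finset.mem_union, Finset.mem_inter, Finset.mem_sdiff]
    tauto

lemma ic_inter_sdiff (i j : κ → S) (C D : Finset κ) (σ : S → ℤˣ) :
    ic i j (C ∩ D) σ * ic i j (C \ D) σ = ic i j C σ := by
  unfold ic
  rw [← Finset.prod_union (Finset.disjoint_sdiff_inter C D).symm]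
  congr 1
  rw [Finset.union_comm, Finset.sdiff_union_inter]

lemma nC_lsm (i j : κ → S) : LSM (nC i j) := by
  refine ⟨fun C => Finset.sum_nonneg fun σ _ => ic_nonneg i j C σ, fun C D => ?_⟩
  have key := gks2 (ic_ferro i j (C ∩ D)) (ic_ferro i j (C \ D)).pos (ic_ferro i j (D \ C)).pos
  have e1 : ∑ σ, ic i j (C ∩ D) σ * ic i j (C \ D) σ = nC i j C :=
    Finset.sum_congr rfl fun σ _ => ic_inter_sdiff i j C D σ
  have e2 : ∑ σ, ic i j (C ∩ D) σ * ic i j (D \ C) σ = nC i j D :=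
    Finset.sum_congr rfl fun σ _ => by rw [Finset.inter_comm]; exact ic_inter_sdiff i j D C σ
  have e3 : ∑ σ, ic i j (C ∩ D) σ * (ic i j (C \ D) σ * ic i j (D \ C) σ) = nC i j (C ∪ D) :=
    Finset.sum_congr rfl fun σ _ => ic_inter_union i j C D σ
  rw [e1, e2, e3] at key
  exact key

lemma nC_pos (i j : κ → S) (C : Finset κ) : 0 < nC i j C := by
  refine Finset.sum_pos' (fun σ _ => ic_nonneg i j C σ) ⟨1, Finset.mem_univ _, ?_⟩
  rw [ic_eq]; simp

/-- unnormalised average over the sign configurations compatible with `C` -/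
noncomputable def aC (i j : κ → S) (C : Finset κ) (f : (S → ℤˣ) → ℝ) : ℝ :=
  ∑ σ : S → ℤˣ, ic i j C σ * f σ

/-- normalised average -/
noncomputable def av (i j : κ → S) (C : Finset κ) (f : (S → ℤˣ) → ℝ) : ℝ :=
  aC i j C f / nC i j C

lemma nC_mul_av (i j : κ → S) (C : Finset κ) (f : (S → ℤˣ) → ℝ) :
    nC i j C * av i j C f = aC i j C f := by
  unfold av; field_simp [(nC_pos i j C).ne']

lemma av_nonneg_of_pos (i j : κ → S) (C : Finset κ) {f : (S → ℤˣ) → ℝ} (hf : Pos f) :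
    0 ≤ av i j C f :=
  div_nonneg ((ic_ferro i j C).pos.mul hf).sum_nonneg (nC_pos i j C).le

/-- Griffiths: averages of `Pos` functions increase with the constraints. -/
lemma av_mono (i j : κ → S) {C D : Finset κ} (h : C ⊆ D) {f : (S → ℤˣ) → ℝ} (hf : Pos f) :
    av i j C f ≤ av i j D f := by
  unfold av
  rw [div_le_div_iff₀ (nC_pos i j C) (nC_pos i j D)]
  have key := gks2 (ic_ferro i j C) hf (ic_ferro i j (D \ C)).pos
  have e : ∀ σ, ic i j C σ * ic i j (D \ C) σ = ic i j D σ := fun σ => by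
    have := ic_inter_sdiff i j D C σ
    rwa [Finset.inter_eq_right.mpr h] at this
  have e1 : ∑ σ, ic i j C σ * ic i j (D \ C) σ = nC i j D :=
    Finset.sum_congr rfl fun σ _ => e σ
  have e2 : ∑ σ, ic i j C σ * (f σ * ic i j (D \ C) σ) = aC i j D f :=
    Finset.sum_congr rfl fun σ _ => by rw [← e σ]; ring
  rw [e1, e2] at key
  have e3 : ∑ σ, ic i j C σ * f σ = aC i j C f := rfl
  have e4 : ∑ σ, ic i j C σ = nC i j C := rfl
  rw [e3, e4] at key
  linarith

lemma av_mono_fun (i j : κ → S) (C : Finset κ) {f g : (S → ℤˣ) → ℝ} (h : ∀ σ, f σ ≤ g σ) :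
    av i j C f ≤ av i j C g := by
  unfold av
  refine div_le_div_of_nonneg_right ?_ (nC_pos i j C).le
  exact Finset.sum_le_sum fun σ _ => mul_le_mul_of_nonneg_left (h σ) (ic_nonneg i j C σ)

lemma av_add (i j : κ → S) (C : Finset κ) (f g : (S → ℤˣ) → ℝ) :
    av i j C (fun σ => f σ + g σ) = av i j C f + av i j C g := by
  unfold av aC
  rw [← add_div, ← Finset.sum_add_distrib]
  congr 1
  exact Finset.sum_congr rfl fun σ _ => by ring

lemma av_sub (i j : κ → S) (C : Finset κ) (f g : (S → ℤˣ) → ℝ) :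
    av i j C (fun σ => f σ - g σ) = av i j C f - av i j C g := by
  unfold av aC
  rw [← sub_div, ← Finset.sum_sub_distrib]
  congr 1
  exact Finset.sum_congr rfl fun σ _ => by ring

lemma av_const (i j : κ → S) (C : Finset κ) (r : ℝ) : av i j C (fun _ => r) = r := by
  unfold av aC
  rw [← Finset.sum_mul]
  have := (nC_pos i j C).ne'
  unfold nC at this ⊢
  field_simp

end cluster

/-! ### the joint weight -/

section joint
variable {V F P : Type*} [Fintype V] [Fintype F] [Fintype P]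
  [DecidableEq V] [DecidableEq F] [DecidableEq P]

/-- constraint labels: plaquette edges, incidences, ties -/
abbrev Kap (V F P : Type*) := P ⊕ ((V × F) ⊕ ((V ⊕ F) × (V ⊕ F)))

/-- first endpoint -/
def ii (G : Geo V F P) : Kap V F P → V ⊕ F
  | .inl p => .inr (G.f₁ p)
  | .inr (.inl vf) => .inl vf.1
  | .inr (.inr t) => t.1

/-- second endpoint -/
def jj (G : Geo V F P) : Kap V F P → V ⊕ F
  | .inl p => .inr (G.f₂ p)
  | .inr (.inl vf) => .inr vf.2
  | .inr (.inr t) => t.2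

/-- active constraints -/
def Act (G : Geo V F P) (T : Finset ((V ⊕ F) × (V ⊕ F))) (a : V ⊕ F → ℤ) (η : Finset P) :
    Kap V F P → Prop
  | .inl p => p ∈ η
  | .inr (.inl vf) => G.inc vf.1 vf.2 ∧ 0 < a (.inl vf.1)
  | .inr (.inr t) => t ∈ T

open Classical in
/-- set of active constraints -/
noncomputable def Cset (G : Geo V F P) (T : Finset ((V ⊕ F) × (V ⊕ F))) (x : (V ⊕ F → ℤ) × Finset P) :
    Finset (Kap V F P) :=
  Finset.univ.filter (Act G T x.1 x.2)

lemma mem_Cset (G : Geo V F P) (T : Finset ((V ⊕ F) × (V ⊕ F))) (x : (V ⊕ F → ℤ) × Finset P)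
    (k : Kap V F P) : k ∈ Cset G T x ↔ Act G T x.1 x.2 k := by
  unfold Cset
  simp

lemma Cset_inf (G : Geo V F P) (T : Finset ((V ⊕ F) × (V ⊕ F))) (x y : (V ⊕ F → ℤ) × Finset P) :
    Cset G T (x ⊓ y) = Cset G T x ⊓ Cset G T y := by
  ext k
  rw [Finset.inf_eq_inter, Finset.mem_inter, mem_Cset, mem_Cset, mem_Cset]
  rcases k with p | vf | t
  · simp [Act]
  · simp only [Act, Prod.fst_inf, Pi.inf_apply, lt_inf_iff]; tauto
  · simp [Act]

lemma Cset_sup (G : Geo V F P) (T : Finset ((V ⊕ F) × (V ⊕ F))) (x y : (V ⊕ F → ℤ) × Finset P) :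
    Cset G T (x ⊔ y) = Cset G T x ⊔ Cset G T y := by
  ext k
  rw [Finset.sup_eq_union, Finset.mem_union, mem_Cset, mem_Cset, mem_Cset]
  rcases k with p | vf | t
  · simp [Act]
  · simp only [Act, Prod.fst_sup, Pi.sup_apply, lt_sup_iff]; tauto
  · simp [Act]

lemma Cset_mono (G : Geo V F P) (T : Finset ((V ⊕ F) × (V ⊕ F))) {x y : (V ⊕ F → ℤ) × Finset P}
    (h : x ≤ y) : Cset G T x ⊆ Cset G T y := by
  have := Cset_sup G T x y
  rw [sup_eq_right.mpr h] at this
  rw [this]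
  exact Finset.subset_union_left

open Classical in
/-- the factor `1{0 ≤ a} ∏_v (1/2)^{[a_v = 0]}` -/
noncomputable def zf (a : V ⊕ F → ℤ) : ℝ :=
  (if 0 ≤ a then (1 : ℝ) else 0) * ∏ v : V, if a (.inl v) = 0 then (1 / 2 : ℝ) else 1

/-- the joint weight of `(|h|, η)` -/
noncomputable def R (G : Geo V F P) (c : P → ℝ) (T : Finset ((V ⊕ F) × (V ⊕ F)))
    (U : (V ⊕ F → ℤ) → ℝ) (x : (V ⊕ F → ℤ) × Finset P) : ℝ :=
  G.W c x.1 * zf x.1 * U x.1 * (∏ p ∈ x.2, (c p - 1)) * nC (ii G) (jj G) (Cset G T x)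

lemma lsm_zf : LSM (zf : (V ⊕ F → ℤ) → ℝ) := by
  classical
  unfold zf
  refine LSM.mul ?_ (LSM.prod _ fun v _ => ?_)
  · have := LSM.ind (α := V ⊕ F → ℤ) (fun a => 0 ≤ a) (fun a b ha hb =>
      ⟨le_inf ha hb, le_sup_of_le_left ha⟩)
    exact this.congr fun a => by congr
  · exact LSM.site (S := V ⊕ F) (φ := fun z : ℤ => if z = 0 then (1 / 2 : ℝ) else 1)
      (fun b => by split_ifs <;> norm_num) (.inl v)

lemma lsm_prodEta {c : P → ℝ} (hc : ∀ p, 1 ≤ c p) :
    LSM (fun η : Finset P => ∏ p ∈ η, (c p - 1)) := by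
  refine ⟨fun η => Finset.prod_nonneg fun p _ => by linarith [hc p], fun η θ => ?_⟩
  rw [Finset.inf_eq_inter, Finset.sup_eq_union]
  rw [mul_comm (∏ p ∈ η ∩ θ, (c p - 1)), Finset.prod_union_inter]

lemma lsm_nCset (G : Geo V F P) (T : Finset ((V ⊕ F) × (V ⊕ F))) :
    LSM (fun x : (V ⊕ F → ℤ) × Finset P => nC (ii G) (jj G) (Cset G T x)) :=
  (nC_lsm (ii G) (jj G)).comp (Cset G T) (Cset_inf G T) (Cset_sup G T)

/-- **The joint law of absolute heights and sign edges is log-supermodular.** -/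
theorem lsm_R (G : Geo V F P) {c : P → ℝ} (hc : ∀ p, 1 ≤ c p) (T : Finset ((V ⊕ F) × (V ⊕ F)))
    {U : (V ⊕ F → ℤ) → ℝ} (hU : LSM U) : LSM (R G c T U) := by
  have h1 : LSM (fun x : (V ⊕ F → ℤ) × Finset P => G.W c x.1) :=
    (G.lsm_W hc).comp Prod.fst (fun _ _ => rfl) (fun _ _ => rfl)
  have h2 : LSM (fun x : (V ⊕ F → ℤ) × Finset P => zf x.1) :=
    lsm_zf.comp Prod.fst (fun _ _ => rfl) (fun _ _ => rfl)
  have h3 : LSM (fun x : (V ⊕ F → ℤ) × Finset P => U x.1) :=
    hU.comp Prod.fst (fun _ _ => rfl) (fun _ _ => rfl)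
  have h4 : LSM (fun x : (V ⊕ F → ℤ) × Finset P => ∏ p ∈ x.2, (c p - 1)) :=
    (lsm_prodEta hc).comp Prod.snd (fun _ _ => rfl) (fun _ _ => rfl)
  exact (((h1.mul h2).mul h3).mul h4).mul (lsm_nCset G T)

/-- **Domain / coupling domination.**  Weights `(c', U')` versus `(c, U)`: `c' ≤ c`, the couplings
may differ only on plaquettes whose two vertices are pinned at `0` under `U'`, and `U' , U` satisfy
Holley's condition.  Then `(|h|, η)` under `(c', U')` is stochastically dominated by `(c, U)`. -/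
theorem dom_R (G : Geo V F P) {c c' : P → ℝ} (hc' : ∀ p, 1 ≤ c' p) (hcc : ∀ p, c' p ≤ c p)
    (T : Finset ((V ⊕ F) × (V ⊕ F)))
    {U' U : (V ⊕ F → ℤ) → ℝ} (hU : Dom U' U)
    (hpin : ∀ p, c' p ≠ c p → ∀ a, U' a ≠ 0 → a (.inl (G.v₁ p)) = 0 ∧ a (.inl (G.v₂ p)) = 0) :
    Dom (R G c' T U') (R G c T U) := by
  have hc : ∀ p, 1 ≤ c p := fun p => (hc' p).trans (hcc p)
  -- the eta factor
  have h4 : Dom (fun x : (V ⊕ F → ℤ) × Finset P => ∏ p ∈ x.2, (c' p - 1))
      (fun x : (V ⊕ F → ℤ) × Finset P => ∏ p ∈ x.2, (c p - 1)) := by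
    refine ⟨fun x => Finset.prod_nonneg fun p _ => by linarith [hc' p],
      fun x => Finset.prod_nonneg fun p _ => by linarith [hc p], fun x y => ?_⟩
    change (∏ p ∈ x.2, (c' p - 1)) * (∏ p ∈ y.2, (c p - 1)) ≤
      (∏ p ∈ x.2 ∩ y.2, (c' p - 1)) * ∏ p ∈ x.2 ∪ y.2, (c p - 1)
    have e1 : ∏ p ∈ x.2, (c' p - 1) = (∏ p ∈ x.2 ∩ y.2, (c' p - 1)) * ∏ p ∈ x.2 \ y.2, (c' p - 1) := by
      rw [← Finset.prod_union (Finset.disjoint_sdiff_inter x.2 y.2).symm, Finset.union_comm,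
        Finset.sdiff_union_inter]
    have e2 : ∏ p ∈ x.2 ∪ y.2, (c p - 1) = (∏ p ∈ x.2 \ y.2, (c p - 1)) * ∏ p ∈ y.2, (c p - 1) := by
      rw [← Finset.prod_union Finset.sdiff_disjoint, Finset.sdiff_union_self_eq_union]
    rw [e1, e2]
    have h3 : ∏ p ∈ x.2 \ y.2, (c' p - 1) ≤ ∏ p ∈ x.2 \ y.2, (c p - 1) :=
      Finset.prod_le_prod (fun p _ => by linarith [hc' p]) fun p _ => by linarith [hcc p]
    have h5 : 0 ≤ ∏ p ∈ x.2 ∩ y.2, (c' p - 1) := Finset.prod_nonneg fun p _ => by linarith [hc' p]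
    have h6 : 0 ≤ ∏ p ∈ y.2, (c p - 1) := Finset.prod_nonneg fun p _ => by linarith [hc p]
    calc _ = ((∏ p ∈ x.2 ∩ y.2, (c' p - 1)) * ∏ p ∈ y.2, (c p - 1)) *
          ∏ p ∈ x.2 \ y.2, (c' p - 1) := by ring
      _ ≤ ((∏ p ∈ x.2 ∩ y.2, (c' p - 1)) * ∏ p ∈ y.2, (c p - 1)) *
          ∏ p ∈ x.2 \ y.2, (c p - 1) := mul_le_mul_of_nonneg_left h3 (mul_nonneg h5 h6)
      _ = _ := by ring
  -- the factor `W · 1{0≤a} · U`
  have h1 : Dom (fun x : (V ⊕ F → ℤ) × Finset P => G.W c' x.1 * zf x.1 * U' x.1)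
      (fun x : (V ⊕ F → ℤ) × Finset P => G.W c x.1 * zf x.1 * U x.1) := by
    have z0 := lsm_zf (V := V) (F := F)
    refine ⟨fun x => mul_nonneg (mul_nonneg (G.W_nonneg hc' _) (z0.1 _)) (hU.1 _),
      fun x => mul_nonneg (mul_nonneg (G.W_nonneg hc _) (z0.1 _)) (hU.2.1 _), fun x y => ?_⟩
    obtain ⟨a, η⟩ := x
    obtain ⟨b, θ⟩ := y
    change G.W c' a * zf a * U' a * (G.W c b * zf b * U b) ≤
      G.W c' (a ⊓ b) * zf (a ⊓ b) * U' (a ⊓ b) * (G.W c (a ⊔ b) * zf (a ⊔ b) * U (a ⊔ b))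
    have hRHS : 0 ≤ G.W c' (a ⊓ b) * zf (a ⊓ b) * U' (a ⊓ b) *
        (G.W c (a ⊔ b) * zf (a ⊔ b) * U (a ⊔ b)) :=
      mul_nonneg (mul_nonneg (mul_nonneg (G.W_nonneg hc' _) (z0.1 _)) (hU.1 _))
        (mul_nonneg (mul_nonneg (G.W_nonneg hc _) (z0.1 _)) (hU.2.1 _))
    by_cases hUa : U' a = 0
    · simpa [hUa] using hRHS
    by_cases ha : G.Valid a
    swap
    · have : G.W c' a = 0 := by unfold Geo.W; rw [if_neg ha]
      simpa [this] using hRHS
    by_cases hb : G.Valid b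
    swap
    · have : G.W c b = 0 := by unfold Geo.W; rw [if_neg hb]
      simpa [this] using hRHS
    by_cases hb0 : 0 ≤ b
    swap
    · have : zf b = 0 := by unfold zf; rw [if_neg hb0, zero_mul]
      simpa [this] using hRHS
    by_cases ha0 : 0 ≤ a
    swap
    · have : zf a = 0 := by unfold zf; rw [if_neg ha0, zero_mul]
      simpa [this] using hRHS
    -- W inequality
    have hW : G.W c' a * G.W c b ≤ G.W c' (a ⊓ b) * G.W c (a ⊔ b) := by
      obtain ⟨v1, v2⟩ := G.valid_inf_sup ha hb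
      unfold Geo.W
      rw [if_pos ha, if_pos hb, if_pos v1, if_pos v2, ← Finset.prod_mul_distrib,
        ← Finset.prod_mul_distrib]
      refine Finset.prod_le_prod
        (fun p _ => mul_nonneg (G.wp_nonneg hc' a p) (G.wp_nonneg hc b p)) fun p _ => ?_
      by_cases hp : c' p = c p
      · have e : ∀ z, G.wp c' z p = G.wp c z p := fun z => by unfold Geo.wp; rw [hp]
        rw [e, e]
        exact G.wp_mul_le hc ha hb p
      · obtain ⟨q1, q2⟩ := hpin p hp a hUa
        -- `a` vanishes on both vertices, hence is `1` on both faces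
        have face1 : ∀ (z : V ⊕ F → ℤ) (v : V) (f : F), G.Valid z → 0 ≤ z → z (.inl v) = 0 →
            G.inc v f → z (.inr f) = 1 := by
          intro z v f hz hz0 hv hvf
          have h1 := hz.2.2 v f hvf
          have h2 : 0 ≤ z (.inr f) := hz0 _
          rw [hv, zero_sub, abs_neg, abs_of_nonneg h2] at h1
          exact h1
        have r1 := face1 a _ _ ha ha0 q1 (G.inc₁₁ p)
        have r2 := face1 a _ _ ha ha0 q1 (G.inc₁₂ p)
        have facepos : ∀ (z : V ⊕ F → ℤ) (f : F), G.Valid z → 0 ≤ z → 1 ≤ z (.inr f) := by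
          intro z f hz hz0
          have h2 : 0 ≤ z (.inr f) := hz0 _
          rcases hz.2.1 f with ⟨r, hr⟩
          omega
        have s1 := facepos b (G.f₁ p) hb hb0
        have s2 := facepos b (G.f₂ p) hb hb0
        have t1 : 0 ≤ b (.inl (G.v₁ p)) := hb0 _
        have t2 : 0 ≤ b (.inl (G.v₂ p)) := hb0 _
        have flA : G.Flat a p := ⟨by rw [q1, q2], by rw [r1, r2]⟩
        have flI : G.Flat (a ⊓ b) p := by
          refine ⟨?_, ?_⟩
          · simp [q1, q2, t1, t2]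
          · simp [r1, r2, s1, s2]
        have flS : G.Flat (a ⊔ b) p ↔ G.Flat b p := by
          unfold Geo.Flat
          simp [q1, q2, r1, r2, t1, t2, s1, s2]
        have e1 : G.wp c' a p = c' p := by unfold Geo.wp; rw [if_pos flA]
        have e2 : G.wp c' (a ⊓ b) p = c' p := by unfold Geo.wp; rw [if_pos flI]
        have e3 : G.wp c (a ⊔ b) p = G.wp c b p := by
          unfold Geo.wp
          by_cases h : G.Flat b p
          · rw [if_pos h, if_pos (flS.mpr h)]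
          · rw [if_neg h, if_neg (fun h' => h (flS.mp h'))]
        rw [e1, e2, e3]
    calc G.W c' a * zf a * U' a * (G.W c b * zf b * U b)
        = (G.W c' a * G.W c b) * ((zf a * zf b) * (U' a * U b)) := by ring
      _ ≤ (G.W c' (a ⊓ b) * G.W c (a ⊔ b)) *
          ((zf (a ⊓ b) * zf (a ⊔ b)) * (U' (a ⊓ b) * U (a ⊔ b))) := by
          refine mul_le_mul hW (mul_le_mul (z0.2 a b) (hU.2.2 a b)
            (mul_nonneg (hU.1 _) (hU.2.1 _)) (mul_nonneg (z0.1 _) (z0.1 _)))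
            (mul_nonneg (mul_nonneg (z0.1 _) (z0.1 _)) (mul_nonneg (hU.1 _) (hU.2.1 _)))
            (mul_nonneg (G.W_nonneg hc' _) (G.W_nonneg hc _))
      _ = _ := by ring
  exact (h1.mul h4).mul (Dom.of_lsm (lsm_nCset G T))

end joint

end Crest.Agent.R161.Abs375
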