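import Crest.Agent.R161.Defs_372

/-!
# Configurations with boundary heights (helper770, R161 block E)

`ValidB F b ω` : like `Defs372.Valid F ω`, but the non-interior vertices carry the heights `b`.
`confB F b` : the finite set of such configurations, `ZB c F b` the partition function.
`ValidB F 0 = Valid F`, `ZB c F 0 = Z c F`.
-/

set_option autoImplicit false

noncomputable section

namespace Crest.Agent.R161.Ann770

open Finset Crest.Agent.R161.Geo729 Crest.Agent.R161.Defs372

/-- Valid configurations in `F` with heights `b` on the non-interior vertices. -/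
structure ValidB (F : Finset P2) (b : P2 → ℤ) (ω : Cfg) : Prop where
  bdry : ∀ v, v ∉ intVerts F → ω.1 v = b v
  even : ∀ v, Even (ω.1 v)
  off : ∀ f, f ∉ F → ω.2.1 f = 1
  corner : ∀ f, f ∈ F → ∀ v, Geo729.IsCorner v f → |ω.1 v - ω.2.1 f| = 1
  cut : ∀ e, e ∉ intEdges F → ω.2.2 e = true

theorem validB_zero {F : Finset P2} {ω : Cfg} : ValidB F (fun _ => 0) ω ↔ Valid F ω :=
  ⟨fun h => ⟨h.bdry, h.even, h.off, h.corner, h.cut⟩, fun h => ⟨h.zero, h.even, h.off, h.corner, h.cut⟩⟩

/-- the corners of the faces of `F` -/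
def cornV (F : Finset P2) : Finset P2 :=
  F.biUnion fun f => {(f.1, f.2), (f.1 + 1, f.2), (f.1, f.2 + 1), (f.1 + 1, f.2 + 1)}

theorem mem_cornV {F : Finset P2} {v : P2} : v ∈ cornV F ↔ ∃ f ∈ F, Geo729.IsCorner v f := by
  simp only [cornV, Finset.mem_biUnion, Finset.mem_insert, Finset.mem_singleton, Geo729.IsCorner]

/-- size of the boundary heights -/
def bS (F : Finset P2) (b : P2 → ℤ) : ℤ := ∑ v ∈ cornV F, |b v|

theorem bS_nonneg (F : Finset P2) (b : P2 → ℤ) : 0 ≤ bS F b :=
  Finset.sum_nonneg fun _ _ => abs_nonneg _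

theorem abs_le_bS {F : Finset P2} {b : P2 → ℤ} {v : P2} (hv : v ∈ cornV F) : |b v| ≤ bS F b :=
  Finset.single_le_sum (f := fun v => |b v|) (fun _ _ => abs_nonneg _) hv

theorem ValidB.abs_face_le {F : Finset P2} {b : P2 → ℤ} {ω : Cfg} (h : ValidB F b ω) (n : ℕ) :
    ∀ f : P2, (∃ j : ℕ, j < n ∧ (f.1 + j + 1, f.2) ∉ F) → |ω.2.1 f| ≤ 2 * n + 1 + bS F b := by
  induction n with
  | zero => rintro f ⟨j, hj, _⟩; omega
  | succ n ih =>
    rintro f ⟨j, hj, hjF⟩
    have hS := bS_nonneg F b
    by_cases hf : f ∈ F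
    · by_cases h1 : (f.1 + 1, f.2) ∈ F
      · have hj0 : j ≠ 0 := by
          rintro rfl
          apply hjF
          simpa using h1
        have h2 := ih (f.1 + 1, f.2) ⟨j - 1, by omega, by
          have : ((f.1 + 1 : ℤ) + ((j - 1 : ℕ) : ℤ) + 1) = f.1 + j + 1 := by
            have : ((j - 1 : ℕ) : ℤ) = j - 1 := by omega
            rw [this]; ring
          simp only
          rw [this]
          exact hjF⟩
        have h3 := h.corner f hf (f.1 + 1, f.2) (by simp [Geo729.IsCorner])
        have h4 := h.corner (f.1 + 1, f.2) h1 (f.1 + 1, f.2) (by simp [Geo729.IsCorner])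
        push_cast
        rw [abs_le] at *
        rcases abs_eq (by norm_num : (0 : ℤ) ≤ 1) |>.1 h3 with h3 | h3 <;>
        rcases abs_eq (by norm_num : (0 : ℤ) ≤ 1) |>.1 h4 with h4 | h4 <;>
        constructor <;> linarith [h2.1, h2.2]
      · have h3 := h.corner f hf (f.1 + 1, f.2) (by simp [Geo729.IsCorner])
        have h4 : ω.1 (f.1 + 1, f.2) = b (f.1 + 1, f.2) := by
          apply h.bdry
          rw [mem_intVerts]
          rintro ⟨h5, _⟩
          exact h1 h5
        have h5 : |b (f.1 + 1, f.2)| ≤ bS F b :=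
          abs_le_bS (mem_cornV.2 ⟨f, hf, by simp [Geo729.IsCorner]⟩)
        rw [h4] at h3
        push_cast
        rw [abs_le] at *
        rcases abs_eq (by norm_num : (0 : ℤ) ≤ 1) |>.1 h3 with h3 | h3 <;>
        constructor <;> linarith [h5.1, h5.2]
    · rw [h.off f hf, abs_one]
      push_cast
      have : (0 : ℤ) ≤ n := Nat.cast_nonneg n
      linarith

/-- bound for the heights -/
def hbB (F : Finset P2) (b : P2 → ℤ) : ℤ := 2 * (F.card + 1) + 2 + bS F b

theorem ValidB.abs_face {F : Finset P2} {b : P2 → ℤ} {ω : Cfg} (h : ValidB F b ω) (f : P2) :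
    |ω.2.1 f| ≤ hbB F b := by
  have := h.abs_face_le (F.card + 1) f (exists_exit F f)
  unfold hbB
  push_cast at this
  linarith

theorem ValidB.abs_vert {F : Finset P2} {b : P2 → ℤ} {ω : Cfg} (h : ValidB F b ω) {v : P2}
    (hv : v ∈ cornV F) : |ω.1 v| ≤ hbB F b := by
  obtain ⟨f, hf, hvf⟩ := mem_cornV.1 hv
  have h1 := h.abs_face_le (F.card + 1) f (exists_exit F f)
  have h2 := h.corner f hf v hvf
  unfold hbB
  push_cast at h1 ⊢
  rw [abs_le] at *
  rcases abs_eq (by norm_num : (0 : ℤ) ≤ 1) |>.1 h2 with h2 | h2 <;>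
  constructor <;> linarith [h1.1, h1.2]

theorem mem_cornV_of_mem {F : Finset P2} {v : P2} (hv : v ∈ F) : v ∈ cornV F :=
  mem_cornV.2 ⟨v, hv, by simp [Geo729.IsCorner]⟩

theorem finite_validB (F : Finset P2) (b : P2 → ℤ) : {ω : Cfg | ValidB F b ω}.Finite := by
  classical
  let A : Type := (↥F → Set.Icc (-(hbB F b)) (hbB F b)) × (↥F → Set.Icc (-(hbB F b)) (hbB F b)) ×
    (↥(intEdges F) → Bool)
  have : Finite A := by
    dsimp only [A]
    infer_instance
  let g : {ω : Cfg | ValidB F b ω} → A := fun ω =>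
    (fun v => ⟨ω.1.1 v, abs_le.1 (ω.2.abs_vert (mem_cornV_of_mem v.2))⟩,
      fun v => ⟨ω.1.2.1 v, abs_le.1 (ω.2.abs_face v)⟩, fun e => ω.1.2.2 e)
  have hg : Function.Injective g := by
    rintro ⟨ω, hω⟩ ⟨ω', hω'⟩ heq
    have h1 := congrArg Prod.fst heq
    have h2 := congrArg (fun a => a.2.1) heq
    have h3 := congrArg (fun a => a.2.2) heq
    simp only [g] at h1 h2 h3
    apply Subtype.ext
    refine Prod.ext ?_ (Prod.ext ?_ ?_)
    · funext v
      by_cases hv : v ∈ F
      · exact congrArg Subtype.val (congrFun h1 ⟨v, hv⟩)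
      · have hv' : v ∉ intVerts F := fun h => hv (Finset.mem_filter.1 h).1
        show ω.1 v = ω'.1 v
        rw [ValidB.bdry hω v hv', ValidB.bdry hω' v hv']
    · funext v
      by_cases hv : v ∈ F
      · exact congrArg Subtype.val (congrFun h2 ⟨v, hv⟩)
      · show ω.2.1 v = ω'.2.1 v
        rw [ValidB.off hω v hv, ValidB.off hω' v hv]
    · funext e
      by_cases he : e ∈ intEdges F
      · exact congrFun h3 ⟨e, he⟩
      · show ω.2.2 e = ω'.2.2 e
        rw [ValidB.cut hω e he, ValidB.cut hω' e he]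
  exact Finite.of_injective g hg

/-- The finite set of configurations with boundary heights `b`. -/
def confB (F : Finset P2) (b : P2 → ℤ) : Finset Cfg := (finite_validB F b).toFinset

theorem mem_confB {F : Finset P2} {b : P2 → ℤ} {ω : Cfg} : ω ∈ confB F b ↔ ValidB F b ω := by
  simp [confB]

theorem confB_zero (F : Finset P2) : confB F (fun _ => 0) = conf F := by
  ext ω
  rw [mem_confB, mem_conf, validB_zero]

/-- Partition function with boundary heights `b`. -/
def ZB (c : ℝ) (F : Finset P2) (b : P2 → ℤ) : ℝ := ∑ ω ∈ confB F b, wt c F ω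

theorem ZB_zero (c : ℝ) (F : Finset P2) : ZB c F (fun _ => 0) = Z c F := by
  unfold ZB Z
  rw [confB_zero]

theorem ZB_nonneg {c : ℝ} (hc : 1 ≤ c) (F : Finset P2) (b : P2 → ℤ) : 0 ≤ ZB c F b :=
  Finset.sum_nonneg fun ω _ => wt_nonneg hc F ω

/-! ### the shift and the reflection -/

/-- shift of the heights at the vertices and at the faces of `F` -/
def shB (F : Finset P2) (a : ℤ) (ω : Cfg) : Cfg :=
  (fun v => ω.1 v + a, fun f => if f ∈ F then ω.2.1 f + a else ω.2.1 f, ω.2.2)

theorem ValidB.shift {F : Finset P2} {b : P2 → ℤ} {ω : Cfg} (h : ValidB F b ω) {a : ℤ}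
    (ha : Even a) : ValidB F (fun v => b v + a) (shB F a ω) where
  bdry := fun v hv => by
    show ω.1 v + a = b v + a
    rw [h.bdry v hv]
  even := fun v => (h.even v).add ha
  off := fun f hf => by
    show (if f ∈ F then ω.2.1 f + a else ω.2.1 f) = 1
    rw [if_neg hf, h.off f hf]
  corner := fun f hf v hv => by
    show |ω.1 v + a - (if f ∈ F then ω.2.1 f + a else ω.2.1 f)| = 1
    rw [if_pos hf, add_sub_add_right_eq_sub]
    exact h.corner f hf v hv
  cut := h.cut

theorem shB_shB (F : Finset P2) (a a' : ℤ) (ω : Cfg) : shB F a (shB F a' ω) = shB F (a' + a) ω := by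
  unfold shB
  refine Prod.ext ?_ (Prod.ext ?_ rfl)
  · funext v
    show ω.1 v + a' + a = ω.1 v + (a' + a)
    ring
  · funext f
    by_cases hf : f ∈ F
    · simp only [hf, if_true]
      ring
    · simp only [hf, if_false]

theorem shB_zero (F : Finset P2) (ω : Cfg) : shB F 0 ω = ω := by
  unfold shB
  refine Prod.ext ?_ (Prod.ext ?_ rfl)
  · funext v
    show ω.1 v + 0 = ω.1 v
    ring
  · funext f
    by_cases hf : f ∈ F
    · simp only [hf, if_true, add_zero]
    · simp only [hf, if_false]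

theorem wt_shB (c : ℝ) (F : Finset P2) (a : ℤ) (ω : Cfg) : wt c F (shB F a ω) = wt c F ω := by
  unfold wt
  refine Finset.prod_congr rfl fun e he => ?_
  obtain ⟨h1, h2⟩ := mem_intEdges.1 he
  unfold ew shB
  simp only [h1, h2, if_true, add_left_inj]

theorem ZB_shift (c : ℝ) (F : Finset P2) (b : P2 → ℤ) {a : ℤ} (ha : Even a) :
    ZB c F (fun v => b v + a) = ZB c F b := by
  unfold ZB
  symm
  refine Finset.sum_bij' (fun ω _ => shB F a ω) (fun ω _ => shB F (-a) ω) ?_ ?_ ?_ ?_ ?_
  · intro ω hω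
    exact mem_confB.2 ((mem_confB.1 hω).shift ha)
  · intro ω hω
    have := (mem_confB.1 hω).shift (a := -a) ha.neg
    simp only [add_neg_cancel_right] at this
    exact mem_confB.2 this
  · intro ω _
    rw [shB_shB, add_neg_cancel, shB_zero]
  · intro ω _
    rw [shB_shB, neg_add_cancel, shB_zero]
  · intro ω _
    rw [wt_shB]

/-- reflection of the heights (keeping the canonical values outside `F`) -/
def refB (F : Finset P2) (ω : Cfg) : Cfg :=
  (fun v => -ω.1 v, fun f => if f ∈ F then -ω.2.1 f else ω.2.1 f, ω.2.2)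

theorem ValidB.refl {F : Finset P2} {b : P2 → ℤ} {ω : Cfg} (h : ValidB F b ω) :
    ValidB F (fun v => -b v) (refB F ω) where
  bdry := fun v hv => by
    show -ω.1 v = -b v
    rw [h.bdry v hv]
  even := fun v => (h.even v).neg
  off := fun f hf => by
    show (if f ∈ F then -ω.2.1 f else ω.2.1 f) = 1
    rw [if_neg hf, h.off f hf]
  corner := fun f hf v hv => by
    show |-ω.1 v - (if f ∈ F then -ω.2.1 f else ω.2.1 f)| = 1
    rw [if_pos hf, ← h.corner f hf v hv, ← abs_neg]
    congr 1
    ring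
  cut := h.cut

theorem refB_refB (F : Finset P2) (ω : Cfg) : refB F (refB F ω) = ω := by
  unfold refB
  refine Prod.ext ?_ (Prod.ext ?_ rfl)
  · funext v
    show - -ω.1 v = ω.1 v
    ring
  · funext f
    by_cases hf : f ∈ F
    · simp only [hf, if_true, neg_neg]
    · simp only [hf, if_false]

theorem wt_refB (c : ℝ) (F : Finset P2) (ω : Cfg) : wt c F (refB F ω) = wt c F ω := by
  unfold wt
  refine Finset.prod_congr rfl fun e he => ?_
  obtain ⟨h1, h2⟩ := mem_intEdges.1 he
  unfold ew refB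
  simp only [h1, h2, if_true, neg_inj]

theorem ZB_neg (c : ℝ) (F : Finset P2) (b : P2 → ℤ) : ZB c F (fun v => -b v) = ZB c F b := by
  unfold ZB
  symm
  refine Finset.sum_bij' (fun ω _ => refB F ω) (fun ω _ => refB F ω) ?_ ?_ ?_ ?_ ?_
  · intro ω hω
    exact mem_confB.2 (mem_confB.1 hω).refl
  · intro ω hω
    have := (mem_confB.1 hω).refl
    simp only [neg_neg] at this
    exact mem_confB.2 this
  · intro ω _
    exact refB_refB F ω
  · intro ω _
    exact refB_refB F ω
  · intro ω _
    rw [wt_refB]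

/-- only the values of `b` at the corners of `F` matter for the partition function -/
theorem ZB_congr (c : ℝ) (F : Finset P2) {b b' : P2 → ℤ} (hb : ∀ v, Even (b v)) (hb' : ∀ v, Even (b' v))
    (h : ∀ v ∈ cornV F, v ∉ intVerts F → b v = b' v) : ZB c F b = ZB c F b' := by
  classical
  -- replace the values outside the corners
  let g : (P2 → ℤ) → Cfg → Cfg := fun b ω => (fun v => if v ∈ intVerts F then ω.1 v else b v, ω.2)
  have hg : ∀ b b' : P2 → ℤ, (∀ v, Even (b v)) → (∀ v, Even (b' v)) →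
      (∀ v ∈ cornV F, v ∉ intVerts F → b v = b' v) → ∀ ω, ValidB F b ω → ValidB F b' (g b' ω) := by
    intro b b' hb hb' h ω hω
    refine ⟨fun v hv => ?_, fun v => ?_, hω.off, fun f hf v hv => ?_, hω.cut⟩
    · show (if v ∈ intVerts F then ω.1 v else b' v) = b' v
      rw [if_neg hv]
    · show Even (if v ∈ intVerts F then ω.1 v else b' v)
      split_ifs
      · exact hω.even v
      · exact hb' v
    · show |(if v ∈ intVerts F then ω.1 v else b' v) - ω.2.1 f| = 1
      by_cases hvi : v ∈ intVerts F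
      · rw [if_pos hvi]; exact hω.corner f hf v hv
      · rw [if_neg hvi, ← h v (mem_cornV.2 ⟨f, hf, hv⟩) hvi, ← hω.bdry v hvi]
        exact hω.corner f hf v hv
  have hwt : ∀ b b' : P2 → ℤ, (∀ v ∈ cornV F, v ∉ intVerts F → b v = b' v) → ∀ ω, ValidB F b ω →
      wt c F (g b' ω) = wt c F ω := by
    intro b b' h ω hω
    have key : ∀ v ∈ cornV F, (g b' ω).1 v = ω.1 v := by
      intro v hv
      show (if v ∈ intVerts F then ω.1 v else b' v) = ω.1 v
      by_cases hvi : v ∈ intVerts F
      · rw [if_pos hvi]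
      · rw [if_neg hvi, hω.bdry v hvi, h v hv hvi]
    unfold wt
    refine Finset.prod_congr rfl fun e he => ?_
    obtain ⟨h1, h2⟩ := mem_intEdges.1 he
    have hs : src e ∈ cornV F := mem_cornV.2 ⟨fA e, h1, by
      obtain ⟨v, b⟩ := e
      simp [Geo729.IsCorner]⟩
    have ht : tgt e ∈ cornV F := mem_cornV.2 ⟨fA e, h1, by
      obtain ⟨v, b⟩ := e
      cases b <;> simp [Geo729.IsCorner]⟩
    unfold ew
    rw [key _ hs, key _ ht]
  unfold ZB
  refine Finset.sum_bij' (fun ω _ => g b' ω) (fun ω _ => g b ω) ?_ ?_ ?_ ?_ ?_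
  · intro ω hω
    exact mem_confB.2 (hg b b' hb hb' h ω (mem_confB.1 hω))
  · intro ω hω
    exact mem_confB.2 (hg b' b hb' hb (fun v hv hvi => (h v hv hvi).symm) ω (mem_confB.1 hω))
  · intro ω hω
    refine Prod.ext ?_ rfl
    funext v
    show (if v ∈ intVerts F then (if v ∈ intVerts F then ω.1 v else b' v) else b v) = ω.1 v
    by_cases hvi : v ∈ intVerts F
    · rw [if_pos hvi, if_pos hvi]
    · rw [if_neg hvi, (mem_confB.1 hω).bdry v hvi]
  · intro ω hω
    refine Prod.ext ?_ rfl
    funext v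
    show (if v ∈ intVerts F then (if v ∈ intVerts F then ω.1 v else b v) else b' v) = ω.1 v
    by_cases hvi : v ∈ intVerts F
    · rw [if_pos hvi, if_pos hvi]
    · rw [if_neg hvi, (mem_confB.1 hω).bdry v hvi]
  · intro ω hω
    exact (hwt b b' h ω (mem_confB.1 hω)).symm

end Crest.Agent.R161.Ann770
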