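import Crest.Agent.R161.Ann1_770
import Crest.Agent.R161.Hts_375

/-!
# Summation over the cut variables; the abstract geometry of a face set (helper770, R161 block E)

* `HB F b` : height parts `(k, h)` of the configurations of `confB F b`;
  `ZB_eq_sum_HB : ZB c F b = ∑_{(k,h)} ∏_e (c if both diagonals agree, else 1)`.
* `geo F β` : helper375's `Geo` with vertex sites `intVerts F ⊕ B`, where `β : P2 → B` sends every
  non-interior vertex to its boundary class.
* `ZB_eq_geo : ZB c F (q ∘ β) = ∑ over h in the box [-N,N] with h = q on the classes of (geo F β).W`.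
-/

set_option autoImplicit false

noncomputable section

namespace Crest.Agent.R161.Ann770

open Finset Crest.Agent.R161.Geo729 Crest.Agent.R161.Defs372 Crest.Agent.R161.Hts375

/-- weight of an edge after summation over the cut variable -/
def pw (c : ℝ) (k h : P2 → ℤ) (e : Edge) : ℝ :=
  if k (src e) = k (tgt e) ∧ h (fA e) = h (fB e) then c else 1

/-- height parts of the configurations -/
def HB (F : Finset P2) (b : P2 → ℤ) : Finset ((P2 → ℤ) × (P2 → ℤ)) := by
  classical exact (confB F b).image fun ω => (ω.1, ω.2.1)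

/-- validity of the height part -/
structure ValidH (F : Finset P2) (b : P2 → ℤ) (w : (P2 → ℤ) × (P2 → ℤ)) : Prop where
  bdry : ∀ v, v ∉ intVerts F → w.1 v = b v
  even : ∀ v, Even (w.1 v)
  off : ∀ f, f ∉ F → w.2 f = 1
  corner : ∀ f, f ∈ F → ∀ v, Geo729.IsCorner v f → |w.1 v - w.2 f| = 1

theorem mem_HB {F : Finset P2} {b : P2 → ℤ} {w : (P2 → ℤ) × (P2 → ℤ)} :
    w ∈ HB F b ↔ ValidH F b w := by
  classical
  unfold HB
  rw [Finset.mem_image]
  constructor
  · rintro ⟨ω, hω, rfl⟩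
    obtain ⟨h1, h2, h3, h4, _⟩ := mem_confB.1 hω
    exact ⟨h1, h2, h3, h4⟩
  · intro h
    exact ⟨(w.1, w.2, fun _ => true), mem_confB.2 ⟨h.bdry, h.even, h.off, h.corner, fun _ _ => rfl⟩, rfl⟩

theorem isCorner_src_fA (e : Edge) : Geo729.IsCorner (src e) (fA e) := by
  obtain ⟨v, b⟩ := e
  simp [Geo729.IsCorner]

theorem isCorner_tgt_fA (e : Edge) : Geo729.IsCorner (tgt e) (fA e) := by
  obtain ⟨v, b⟩ := e
  cases b <;> simp [Geo729.IsCorner]

theorem isCorner_src_fB (e : Edge) : Geo729.IsCorner (src e) (fB e) := by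
  obtain ⟨v, b⟩ := e
  cases b <;> simp [Geo729.IsCorner]

theorem isCorner_tgt_fB (e : Edge) : Geo729.IsCorner (tgt e) (fB e) := by
  obtain ⟨v, b⟩ := e
  cases b <;> simp [Geo729.IsCorner]

theorem ew_add (c : ℝ) {F : Finset P2} {b : P2 → ℤ} {k h : P2 → ℤ} (hv : ValidH F b (k, h))
    {e : Edge} (he : e ∈ intEdges F) (z z' : Edge → Bool) (hz : z e = true) (hz' : z' e = false) :
    ew c (k, h, z) e + ew c (k, h, z') e = pw c k h e := by
  obtain ⟨h1, h2⟩ := mem_intEdges.1 he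
  have a1 := hv.corner _ h1 _ (isCorner_src_fA e)
  have a2 := hv.corner _ h1 _ (isCorner_tgt_fA e)
  have a3 := hv.corner _ h2 _ (isCorner_src_fB e)
  have a4 := hv.corner _ h2 _ (isCorner_tgt_fB e)
  unfold ew pw
  simp only [hz, hz', if_true] at a1 a2 a3 a4 ⊢
  by_cases hk : k (src e) = k (tgt e)
  · by_cases hh : h (fA e) = h (fB e)
    · simp [hk, hh]
    · simp [hk, hh]
  · have hh : h (fA e) = h (fB e) := by
      rw [abs_eq (by norm_num)] at a1 a2 a3 a4
      omega
    simp [hk, hh]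

theorem ZB_eq_sum_HB (c : ℝ) (F : Finset P2) (b : P2 → ℤ) :
    ZB c F b = ∑ w ∈ HB F b, ∏ e ∈ intEdges F, pw c w.1 w.2 e := by
  classical
  have key : ∀ w ∈ HB F b, ∏ e ∈ intEdges F, pw c w.1 w.2 e =
      ∑ S ∈ (intEdges F).powerset, wt c F (w.1, w.2, fun e => decide (e ∉ S)) := by
    intro w hw
    have hv := mem_HB.1 hw
    have : ∏ e ∈ intEdges F, pw c w.1 w.2 e = ∏ e ∈ intEdges F,
        (ew c (w.1, w.2, fun _ => false) e + ew c (w.1, w.2, fun _ => true) e) := by
      refine Finset.prod_congr rfl fun e he => ?_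
      rw [add_comm, ew_add c (b := b) (F := F) hv he (fun _ => true) (fun _ => false) rfl rfl]
    rw [this, Finset.prod_add]
    refine Finset.sum_congr rfl fun S hS => ?_
    rw [Finset.mem_powerset] at hS
    unfold wt
    rw [← Finset.prod_sdiff hS, mul_comm]
    congr 1
    · refine Finset.prod_congr rfl fun e he => ?_
      have : e ∉ S := (Finset.mem_sdiff.1 he).2
      unfold ew
      simp [this]
    · refine Finset.prod_congr rfl fun e he => ?_
      unfold ew
      simp [he]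
  rw [Finset.sum_congr rfl key, ← Finset.sum_product']
  unfold ZB
  refine Finset.sum_bij' (fun ω _ => ((ω.1, ω.2.1), (intEdges F).filter fun e => ω.2.2 e = false))
    (fun p _ => (p.1.1, p.1.2, fun e => decide (e ∉ p.2))) ?_ ?_ ?_ ?_ ?_
  · intro ω hω
    rw [Finset.mem_product]
    obtain ⟨h1, h2, h3, h4, _⟩ := mem_confB.1 hω
    exact ⟨mem_HB.2 ⟨h1, h2, h3, h4⟩, Finset.mem_powerset.2 (Finset.filter_subset _ _)⟩
  · rintro ⟨w, S⟩ hp
    rw [Finset.mem_product] at hp
    obtain ⟨h1, h2, h3, h4⟩ := mem_HB.1 hp.1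
    refine mem_confB.2 ⟨h1, h2, h3, h4, fun e he => ?_⟩
    have : e ∉ S := fun h => he (Finset.mem_powerset.1 hp.2 h)
    simp [this]
  · intro ω hω
    have hc := (mem_confB.1 hω).cut
    refine Prod.ext rfl (Prod.ext rfl ?_)
    funext e
    by_cases he : e ∈ intEdges F
    · cases hz : ω.2.2 e
      · simp [he, hz]
      · simp [he, hz]
    · simp [he, hc e he]
  · rintro ⟨w, S⟩ hp
    rw [Finset.mem_product] at hp
    refine Prod.ext rfl ?_
    ext e
    simp only [Finset.mem_filter, decide_eq_false_iff_not, not_not]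
    exact ⟨fun h => h.2, fun h => ⟨Finset.mem_powerset.1 hp.2 h, h⟩⟩
  · intro ω hω
    have hc := (mem_confB.1 hω).cut
    congr 1
    refine Prod.ext rfl (Prod.ext rfl ?_)
    funext e
    by_cases he : e ∈ intEdges F
    · cases hz : ω.2.2 e
      · simp [he, hz]
      · simp [he, hz]
    · simp [he, hc e he]

/-! ### the abstract geometry -/

section geo

variable {B : Type} (F : Finset P2) (β : P2 → B)

/-- site of a vertex -/
def vm (v : P2) : ↥(intVerts F) ⊕ B := if h : v ∈ intVerts F then Sum.inl ⟨v, h⟩ else Sum.inr (β v)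

theorem vm_of_mem {v : P2} (h : v ∈ intVerts F) : vm F β v = Sum.inl ⟨v, h⟩ := dif_pos h
theorem vm_of_not_mem {v : P2} (h : v ∉ intVerts F) : vm F β v = Sum.inr (β v) := dif_neg h

/-- helper375's geometry attached to a face set and boundary classes -/
def geo : Geo (↥(intVerts F) ⊕ B) ↥F ↥(intEdges F) where
  inc v f := ∃ u, Geo729.IsCorner u f.1 ∧ vm F β u = v
  v₁ e := vm F β (src e)
  v₂ e := vm F β (tgt e)
  f₁ e := ⟨fA e, (mem_intEdges.1 e.2).1⟩
  f₂ e := ⟨fB e, (mem_intEdges.1 e.2).2⟩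
  inc₁₁ e := ⟨_, isCorner_src_fA e, rfl⟩
  inc₁₂ e := ⟨_, isCorner_src_fB e, rfl⟩
  inc₂₁ e := ⟨_, isCorner_tgt_fA e, rfl⟩
  inc₂₂ e := ⟨_, isCorner_tgt_fB e, rfl⟩

/-- from abstract heights to height functions -/
def toH (h : (↥(intVerts F) ⊕ B) ⊕ ↥F → ℤ) : (P2 → ℤ) × (P2 → ℤ) :=
  (fun v => h (Sum.inl (vm F β v)), fun f => if hf : f ∈ F then h (Sum.inr ⟨f, hf⟩) else 1)

/-- from height functions to abstract heights -/
def ofH (q : B → ℤ) (w : (P2 → ℤ) × (P2 → ℤ)) : (↥(intVerts F) ⊕ B) ⊕ ↥F → ℤ :=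
  Sum.elim (Sum.elim (fun v => w.1 v.1) q) (fun f => w.2 f.1)

variable [Fintype B] [DecidableEq B]

open Classical in
/-- the abstract partition function, classes pinned at `q`, box of size `N` -/
def gZ (c : ℝ) (N : ℤ) (q : B → ℤ) : ℝ :=
  ∑ h ∈ (Finset.Icc (fun _ => -N) (fun _ => N) : Finset ((↥(intVerts F) ⊕ B) ⊕ ↥F → ℤ)).filter
    (fun h => ∀ x, h (Sum.inl (Sum.inr x)) = q x), (geo F β).W (fun _ => c) h

theorem ZB_eq_geo (c : ℝ) (q : B → ℤ) (hq : ∀ x, Even (q x)) (N : ℤ)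
    (hN : hbB F (fun v => q (β v)) ≤ N) (hqN : ∀ x, |q x| ≤ N) :
    ZB c F (fun v => q (β v)) = gZ F β c N q := by
  classical
  unfold gZ
  rw [ZB_eq_sum_HB]
  have h1 : ∀ h : (↥(intVerts F) ⊕ B) ⊕ ↥F → ℤ, (geo F β).W (fun _ => c) h =
      if (geo F β).Valid h then ∏ p, (geo F β).wp (fun _ => c) h p else 0 := fun h => by
    unfold Geo.W
    congr
  simp only [h1]
  rw [← Finset.sum_filter]
  refine Finset.sum_bij' (fun w _ => ofH F q w) (fun h _ => toH F β h) ?_ ?_ ?_ ?_ ?_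
  · intro w hw
    have hv := mem_HB.1 hw
    have hω : ValidB F (fun v => q (β v)) (w.1, w.2, fun _ => true) :=
      ⟨hv.bdry, hv.even, hv.off, hv.corner, fun _ _ => rfl⟩
    have key : ∀ u, (ofH F q w) (Sum.inl (vm F β u)) = w.1 u := by
      intro u
      by_cases hu : u ∈ intVerts F
      · rw [vm_of_mem F β hu]; rfl
      · rw [vm_of_not_mem F β hu, hv.bdry u hu]; rfl
    rw [Finset.mem_filter, Finset.mem_filter, Finset.mem_Icc]
    have hb : ∀ x, |ofH F q w x| ≤ N := by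
      intro x
      rcases x with (x | x) | x
      · exact (hω.abs_vert (mem_cornV_of_mem (Finset.mem_filter.1 x.2).1)).trans hN
      · exact hqN x
      · exact (hω.abs_face x.1).trans hN
    refine ⟨⟨⟨fun x => (abs_le.1 (hb x)).1, fun x => (abs_le.1 (hb x)).2⟩, fun x => rfl⟩, ?_, ?_, ?_⟩
    · rintro (x | x)
      · exact hv.even _
      · exact hq x
    · intro f
      have h2 := hv.corner f.1 f.2 f.1 (by simp [Geo729.IsCorner])
      have h3 := hv.even f.1
      show Odd (w.2 f.1)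
      rw [abs_eq (by norm_num)] at h2
      obtain ⟨r, hr⟩ := h3
      rcases h2 with h2 | h2
      · exact ⟨r - 1, by omega⟩
      · exact ⟨r, by omega⟩
    · rintro v f ⟨u, hu, rfl⟩
      rw [key]
      exact hv.corner f.1 f.2 u hu
  · intro h hh
    rw [Finset.mem_filter, Finset.mem_filter] at hh
    obtain ⟨⟨_, h2⟩, h3, h4, h5⟩ := hh
    refine mem_HB.2 ⟨fun v hv => ?_, fun v => h3 _, fun f hf => ?_, fun f hf v hv => ?_⟩
    · show h (Sum.inl (vm F β v)) = q (β v)
      rw [vm_of_not_mem F β hv, h2]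
    · show (if hf : f ∈ F then h (Sum.inr ⟨f, hf⟩) else 1) = 1
      rw [dif_neg hf]
    · show |h (Sum.inl (vm F β v)) - (if hf : f ∈ F then h (Sum.inr ⟨f, hf⟩) else 1)| = 1
      rw [dif_pos hf]
      exact h5 _ _ ⟨v, hv, rfl⟩
  · intro w hw
    have hv := mem_HB.1 hw
    refine Prod.ext ?_ ?_
    · funext u
      show (ofH F q w) (Sum.inl (vm F β u)) = w.1 u
      by_cases hu : u ∈ intVerts F
      · rw [vm_of_mem F β hu]; rfl
      · rw [vm_of_not_mem F β hu, hv.bdry u hu]; rfl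
    · funext f
      show (if hf : f ∈ F then ofH F q w (Sum.inr ⟨f, hf⟩) else 1) = w.2 f
      by_cases hf : f ∈ F
      · rw [dif_pos hf]; rfl
      · rw [dif_neg hf, hv.off f hf]
  · intro h hh
    rw [Finset.mem_filter, Finset.mem_filter] at hh
    obtain ⟨⟨_, h2⟩, _⟩ := hh
    funext x
    rcases x with (x | x) | x
    · show h (Sum.inl (vm F β x.1)) = h (Sum.inl (Sum.inl x))
      rw [vm_of_mem F β x.2]
    · exact (h2 x).symm
    · show (if hf : x.1 ∈ F then h (Sum.inr ⟨x.1, hf⟩) else 1) = h (Sum.inr x)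
      rw [dif_pos x.2]
  · intro w hw
    have hv := mem_HB.1 hw
    have key : ∀ u, (ofH F q w) (Sum.inl (vm F β u)) = w.1 u := by
      intro u
      by_cases hu : u ∈ intVerts F
      · rw [vm_of_mem F β hu]; rfl
      · rw [vm_of_not_mem F β hu, hv.bdry u hu]; rfl
    rw [← Finset.prod_coe_sort]
    refine Finset.prod_congr rfl fun e _ => ?_
    unfold Geo.wp pw
    have : (geo F β).Flat (ofH F q w) e ↔ w.1 (src e.1) = w.1 (tgt e.1) ∧ w.2 (fA e.1) = w.2 (fB e.1) := by
      unfold Geo.Flat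
      show (ofH F q w) (Sum.inl (vm F β (src e.1))) = (ofH F q w) (Sum.inl (vm F β (tgt e.1))) ∧ _ ↔ _
      rw [key, key]
      rfl
    by_cases hfl : w.1 (src e.1) = w.1 (tgt e.1) ∧ w.2 (fA e.1) = w.2 (fB e.1)
    · rw [if_pos hfl, if_pos (this.2 hfl)]
    · rw [if_neg hfl, if_neg (fun h => hfl (this.1 h))]

end geo

end Crest.Agent.R161.Ann770
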