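import Crest.Agent.R161.Ann2_770

/-!
# Annulus partition functions (helper770, R161 block E: E2)

`zQ c A β Q` : partition function of the face set `A`, non-interior vertices of class `β v = true`
(the hole) at height `Q`, the other non-interior vertices at height `0`.
`zQ_neg`, `zQ_logConcave`, and the elementary consequences for symmetric log-concave sequences.
-/

set_option autoImplicit false

noncomputable section

namespace Crest.Agent.R161.Ann770

open Finset Crest.Agent.R161.Geo729 Crest.Agent.R161.Defs372 Crest.Agent.R161.Hts375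
open Crest.Agent.R161.Lsm375

/-! ### symmetric log-concave sequences -/

/-- symmetric log-concave nonnegative sequences on `ℤ`, in the multi-step form -/
structure SLC (a : ℤ → ℝ) : Prop where
  nonneg : ∀ k, 0 ≤ a k
  symm : ∀ k, a (-k) = a k
  lc : ∀ k l s : ℤ, 0 ≤ s → s ≤ l - k → a k * a l ≤ a (k + s) * a (l - s)

theorem SLC.anti {a : ℤ → ℝ} (h : SLC a) {k : ℤ} (hk : 0 ≤ k) : a (k + 1) ≤ a k := by
  have h1 := h.lc (-(k + 1)) (k + 1) 1 (by norm_num) (by linarith)
  rw [h.symm, show -(k + 1) + 1 = -k by ring, show k + 1 - 1 = k by ring, h.symm] at h1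
  exact abs_le_of_sq_le_sq' (by nlinarith [h1]) (h.nonneg k) |>.2

theorem SLC.geom {a : ℤ → ℝ} (h : SLC a) {ρ : ℝ} (hρ : 0 ≤ ρ) (h1 : a 1 ≤ ρ * a 0) (h0 : 0 < a 0)
    (n : ℕ) : a n ≤ a 0 * ρ ^ n := by
  induction n with
  | zero => simp
  | succ n ih =>
    have h2 := h.lc 0 (n + 1) 1 (by norm_num) (by simp)
    rw [zero_add, add_sub_cancel_right] at h2
    have h3 : a 0 * a (n + 1) ≤ a 0 * (a 0 * ρ ^ (n + 1)) := by
      calc a 0 * a (n + 1) ≤ a 1 * a n := h2
        _ ≤ (ρ * a 0) * (a 0 * ρ ^ n) :=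
            mul_le_mul h1 ih (h.nonneg _) (mul_nonneg hρ h0.le)
        _ = a 0 * (a 0 * ρ ^ (n + 1)) := by ring
    have h4 := le_of_mul_le_mul_left h3 h0
    exact_mod_cast h4

theorem SLC.sum_le {a : ℤ → ℝ} (h : SLC a) {ρ : ℝ} (hρ : 0 ≤ ρ) (hρ1 : ρ < 1) (h1 : a 1 ≤ ρ * a 0)
    (h0 : 0 < a 0) (n : ℕ) :
    (1 - ρ) * ∑ k ∈ Finset.Icc (-(n : ℤ)) n, a k ≤ (1 + ρ) * a 0 := by
  have key : ∀ n : ℕ, ∑ k ∈ Finset.Icc (-(n : ℤ)) n, a k =
      a 0 + 2 * ∑ k ∈ Finset.range n, a (k + 1 : ℕ) := by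
    intro n
    induction n with
    | zero => simp
    | succ n ih =>
      have e1 : Finset.Icc (-((n + 1 : ℕ) : ℤ)) ((n + 1 : ℕ) : ℤ) =
          insert (-((n + 1 : ℕ) : ℤ)) (insert ((n + 1 : ℕ) : ℤ) (Finset.Icc (-(n : ℤ)) n)) := by
        ext x
        simp only [Finset.mem_Icc, Finset.mem_insert, Nat.cast_add, Nat.cast_one]
        omega
      rw [e1, Finset.sum_insert, Finset.sum_insert, ih, Finset.sum_range_succ, h.symm]
      · ring
      · simp
      · simp only [Finset.mem_insert, Finset.mem_Icc, Nat.cast_add, Nat.cast_one]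
        omega
  rw [key]
  have h2 : ∑ k ∈ Finset.range n, a (k + 1 : ℕ) ≤ ∑ k ∈ Finset.range n, a 0 * ρ ^ (k + 1) :=
    Finset.sum_le_sum fun k _ => h.geom hρ h1 h0 (k + 1)
  have h3 : (1 - ρ) * ∑ k ∈ Finset.range n, a 0 * ρ ^ (k + 1) = a 0 * ρ * (1 - ρ ^ n) := by
    have h4 := mul_neg_geom_sum ρ n
    have h5 : ∑ k ∈ Finset.range n, a 0 * ρ ^ (k + 1) = a 0 * ρ * ∑ k ∈ Finset.range n, ρ ^ k := by
      rw [Finset.mul_sum]
      exact Finset.sum_congr rfl fun k _ => by ring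
    rw [h5, ← h4]
    ring
  have h6 : a 0 * ρ * (1 - ρ ^ n) ≤ a 0 * ρ := by
    have : 0 ≤ ρ ^ n := pow_nonneg hρ n
    nlinarith [mul_nonneg h0.le hρ, mul_nonneg (mul_nonneg h0.le hρ) this]
  have h7 : 0 ≤ 1 - ρ := by linarith
  nlinarith [mul_le_mul_of_nonneg_left h2 h7]

/-- If `a 0` is a small fraction of the total mass of a window then `a 1` is comparable to `a 0`. -/
theorem SLC.ratio {a : ℤ → ℝ} (h : SLC a) (h0 : 0 < a 0) {θ : ℝ} (hθ : 0 < θ) (n : ℕ)
    (hle : a 0 ≤ θ * ∑ k ∈ Finset.Icc (-(n : ℤ)) n, a k) : (1 - θ) / (1 + θ) * a 0 ≤ a 1 := by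
  by_contra hlt
  push Not at hlt
  -- choose `ρ = a 1 / a 0 < (1-θ)/(1+θ)`
  set ρ := a 1 / a 0 with hρ
  have hρ0 : 0 ≤ ρ := div_nonneg (h.nonneg 1) h0.le
  have h1 : a 1 ≤ ρ * a 0 := by rw [hρ]; field_simp; exact le_rfl
  have hρ2 : ρ < (1 - θ) / (1 + θ) := by
    rw [hρ, div_lt_iff₀ h0]; exact hlt
  have hp : 0 < 1 + θ := by linarith
  rw [lt_div_iff₀ hp] at hρ2
  have hρ1 : ρ < 1 := by nlinarith
  have h2 := h.sum_le hρ0 hρ1 h1 h0 n
  have h3 : (1 - ρ) * a 0 ≤ θ * ((1 + ρ) * a 0) := by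
    calc (1 - ρ) * a 0 ≤ (1 - ρ) * (θ * ∑ k ∈ Finset.Icc (-(n : ℤ)) n, a k) :=
          mul_le_mul_of_nonneg_left hle (by linarith)
      _ = θ * ((1 - ρ) * ∑ k ∈ Finset.Icc (-(n : ℤ)) n, a k) := by ring
      _ ≤ θ * ((1 + ρ) * a 0) := mul_le_mul_of_nonneg_left h2 hθ.le
  have h4 : (1 - ρ) ≤ θ * (1 + ρ) := by
    have : (1 - ρ) * a 0 ≤ (θ * (1 + ρ)) * a 0 := by linarith
    exact le_of_mul_le_mul_right this h0
  nlinarith

/-- Parity: if `a 1 ≥ r a 0`, `r ≤ 1`, the even part of a window is at most `(1 + r)/r` times... we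
state it as: `r * (even part) ≤ (1/2 + r) * (odd part)` for the window `[-(2n+1), 2n+1]`. -/
theorem SLC.parity {a : ℤ → ℝ} (h : SLC a) {r : ℝ} (hr0 : 0 ≤ r)
    (h1 : r * a 0 ≤ a 1) (n : ℕ) :
    r * (a 0 + 2 * ∑ k ∈ Finset.range n, a (2 * (k : ℤ) + 2)) ≤
      (1 / 2 + r) * (2 * ∑ k ∈ Finset.range (n + 1), a (2 * (k : ℤ) + 1)) := by
  have h2 : ∑ k ∈ Finset.range n, a (2 * (k : ℤ) + 2) ≤ ∑ k ∈ Finset.range n, a (2 * (k : ℤ) + 1) :=
    Finset.sum_le_sum fun k _ => by
      have := h.anti (k := 2 * (k : ℤ) + 1) (by positivity)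
      rwa [add_assoc, one_add_one_eq_two] at this
  have h3 : ∑ k ∈ Finset.range n, a (2 * (k : ℤ) + 1) ≤
      ∑ k ∈ Finset.range (n + 1), a (2 * (k : ℤ) + 1) := by
    rw [Finset.sum_range_succ]
    linarith [h.nonneg (2 * (n : ℤ) + 1)]
  have h4 : a 1 ≤ ∑ k ∈ Finset.range (n + 1), a (2 * (k : ℤ) + 1) := by
    have := Finset.single_le_sum (f := fun k : ℕ => a (2 * (k : ℤ) + 1)) (s := Finset.range (n + 1))
      (fun k _ => h.nonneg _) (Finset.mem_range.2 (Nat.succ_pos n))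
    simpa using this
  nlinarith [h.nonneg 1, h.nonneg 0]

/-! ### annulus partition functions -/

/-- partition function with the hole class at height `Q` -/
def zQ (c : ℝ) (A : Finset P2) (β : P2 → Bool) (Q : ℤ) : ℝ :=
  ZB c A (fun v => if β v then Q else 0)

theorem zQ_nonneg {c : ℝ} (hc : 1 ≤ c) (A : Finset P2) (β : P2 → Bool) (Q : ℤ) : 0 ≤ zQ c A β Q :=
  ZB_nonneg hc _ _

theorem zQ_zero (c : ℝ) (A : Finset P2) (β : P2 → Bool) : zQ c A β 0 = Z c A := by
  unfold zQ
  simp only [ite_self]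
  exact ZB_zero c A

theorem zQ_zero_pos {c : ℝ} (hc : 1 ≤ c) (A : Finset P2) (β : P2 → Bool) : 0 < zQ c A β 0 := by
  rw [zQ_zero]
  exact Z_pos hc A

theorem zQ_neg (c : ℝ) (A : Finset P2) (β : P2 → Bool) (Q : ℤ) : zQ c A β (-Q) = zQ c A β Q := by
  unfold zQ
  rw [← ZB_neg]
  congr 1
  funext v
  split_ifs <;> simp

theorem zQ_logConcave {c : ℝ} (hc : 1 ≤ c) (A : Finset P2) (β : P2 → Bool) {q₁ q₂ s : ℤ}
    (h1 : Even q₁) (h2 : Even q₂) (hs : Even s) (hs0 : 0 ≤ s) (hsq : s ≤ q₂ - q₁) :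
    zQ c A β q₁ * zQ c A β q₂ ≤ zQ c A β (q₁ + s) * zQ c A β (q₂ - s) := by
  classical
  -- a common box size
  set qf : ℤ → Bool → ℤ := fun Q x => if x then Q else 0 with hqf
  have hb : ∀ Q : ℤ, (fun v => if β v then Q else 0) = fun v => qf Q (β v) := fun Q => rfl
  set N : ℤ := hbB A (fun v => qf q₁ (β v)) + hbB A (fun v => qf q₂ (β v)) +
    hbB A (fun v => qf (q₁ + s) (β v)) + hbB A (fun v => qf (q₂ - s) (β v)) + |q₁| + |q₂| + |s| with hN
  have hh : ∀ b : P2 → ℤ, 0 ≤ hbB A b := fun b => by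
    unfold hbB
    have := bS_nonneg A b
    positivity
  have a1 := hh (fun v => qf q₁ (β v))
  have a2 := hh (fun v => qf q₂ (β v))
  have a3 := hh (fun v => qf (q₁ + s) (β v))
  have a4 := hh (fun v => qf (q₂ - s) (β v))
  have b1 := abs_nonneg q₁
  have b2 := abs_nonneg q₂
  have b3 := abs_nonneg s
  have key : ∀ Q : ℤ, Even Q → hbB A (fun v => qf Q (β v)) ≤ N → |Q| ≤ N →
      zQ c A β Q = pinZ ((geo A β).W (fun _ => c))
        (fun x => if x = Sum.inl (Sum.inr false) then 0 else -N)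
        (fun x => if x = Sum.inl (Sum.inr false) then 0 else N)
        {Sum.inl (Sum.inr true)} Q := by
    intro Q hQ hQN hQN'
    unfold zQ
    rw [hb, ZB_eq_geo A β c (qf Q) (fun x => by cases x <;> simp [hqf, hQ]) N hQN
      (fun x => by cases x <;> simp only [hqf]
                   · simpa using (abs_nonneg Q).trans hQN'
                   · simpa using hQN')]
    unfold gZ pinZ
    refine Finset.sum_congr ?_ fun _ _ => rfl
    ext h
    simp only [Finset.mem_filter, Finset.mem_Icc, Finset.mem_singleton, forall_eq, Bool.forall_bool]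
    have hN0 : 0 ≤ N := (abs_nonneg Q).trans hQN'
    constructor
    · rintro ⟨⟨h3, h4⟩, h5, h6⟩
      refine ⟨⟨fun x => ?_, fun x => ?_⟩, ?_⟩
      · by_cases hx : x = Sum.inl (Sum.inr false)
        · subst hx; simp [h5, hqf]
        · simp only [hx, if_false]; exact h3 x
      · by_cases hx : x = Sum.inl (Sum.inr false)
        · subst hx; simp [h5, hqf]
        · simp only [hx, if_false]; exact h4 x
      · simpa [hqf] using h6
    · rintro ⟨⟨h3, h4⟩, h5⟩
      refine ⟨⟨fun x => ?_, fun x => ?_⟩, ?_, ?_⟩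
      · by_cases hx : x = Sum.inl (Sum.inr false)
        · have := h3 x
          simp only [hx, if_true] at this
          rw [hx]
          exact le_trans (by linarith) this
        · have := h3 x
          simpa only [hx, if_false] using this
      · by_cases hx : x = Sum.inl (Sum.inr false)
        · have := h4 x
          simp only [hx, if_true] at this
          rw [hx]
          exact this.trans hN0
        · have := h4 x
          simpa only [hx, if_false] using this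
      · have h6 := h3 (Sum.inl (Sum.inr false))
        have h7 := h4 (Sum.inl (Sum.inr false))
        simp only [if_true] at h6 h7
        simp only [hqf, Bool.false_eq_true, if_false]
        exact le_antisymm h7 h6
      · simpa [hqf] using h5
  rw [key q₁ h1 (by linarith) (by linarith), key q₂ h2 (by linarith) (by linarith),
    key (q₁ + s) (h1.add hs) (by linarith) (by linarith [abs_add_le q₁ s]),
    key (q₂ - s) (h2.sub hs) (by linarith) (by linarith [abs_sub q₂ s])]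
  exact pinZ_logConcave ((geo A β).lsm_W (fun _ => hc)) hs0 (fun a => (geo A β).W_shift _ hs a) _ _ _ hsq

/-- The sequence `k ↦ z_{2k}` is symmetric log-concave. -/
theorem slc_zQ {c : ℝ} (hc : 1 ≤ c) (A : Finset P2) (β : P2 → Bool) :
    SLC (fun k => zQ c A β (2 * k)) where
  nonneg := fun k => zQ_nonneg hc _ _ _
  symm := fun k => by
    show zQ c A β (2 * -k) = zQ c A β (2 * k)
    rw [show 2 * -k = -(2 * k) by ring, zQ_neg]
  lc := fun k l s hs hsl => by
    have := zQ_logConcave hc A β (q₁ := 2 * k) (q₂ := 2 * l) (s := 2 * s)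
      (even_two_mul k) (even_two_mul l) (even_two_mul s) (by linarith) (by linarith)
    rw [show 2 * k + 2 * s = 2 * (k + s) by ring, show 2 * l - 2 * s = 2 * (l - s) by ring] at this
    exact this

end Crest.Agent.R161.Ann770
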