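import Crest.Agent.R161.Defs_372

/-!
# Row 161: domain Markov property at cut sets (helper341)

For finite face sets `D ⊆ F`:
* `bdE D` : edges with exactly one bordering face in `D`;
* `bdV D` : corners of faces of `D` which are not interior vertices of `D`;
* `CutAt D q ω` : all edges of `bdE D` are cut and the vertex heights on `bdV D` are equal to `q`;
* `ins D q ω` : the configuration inside `D`, heights shifted by `-q`, zero boundary condition;
* `glue D q α β` : `β` shifted by `q` inside `D`, `α` outside;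
* `OutLoc D g` : `g` depends only on the outside of `D`.

Main results: `EC_cut`, `E_cut` (conditionally on a cut set the inside has exactly the law `mu c D`).
-/

set_option autoImplicit false

noncomputable section

namespace Crest.Agent.R161.Dmp341

open Finset Crest.Agent.R161.Geo729 Crest.Agent.R161.Defs372 MeasureTheory

/-- Edges with exactly one bordering face in `D`. -/
def bdE (D : Finset P2) : Finset Edge :=
  ((D ∪ D.image (fun f => (f.1 + 1, f.2)) ∪ D.image (fun f => (f.1, f.2 + 1))) ×ˢ
    (Finset.univ : Finset Bool)).filter fun e => ¬ (fA e ∈ D ↔ fB e ∈ D)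

theorem mem_bdE {D : Finset P2} {e : Edge} : e ∈ bdE D ↔ ¬ (fA e ∈ D ↔ fB e ∈ D) := by
  obtain ⟨⟨a, b⟩, c⟩ := e
  constructor
  · intro h
    exact (Finset.mem_filter.1 h).2
  · intro h
    refine Finset.mem_filter.2 ⟨?_, h⟩
    by_cases h1 : (a, b) ∈ D
    · simp [h1]
    · have h2 : fB ((a, b), c) ∈ D := by
        by_contra h2
        exact h ⟨fun h3 => absurd h3 h1, fun h3 => absurd h3 h2⟩
      cases c
      · simp only [fB_h] at h2
        simp only [mem_product, mem_union, mem_image, mem_univ, and_true]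
        right
        exact ⟨_, h2, by simp⟩
      · simp only [fB_v] at h2
        simp only [mem_product, mem_union, mem_image, mem_univ, and_true]
        left; right
        exact ⟨_, h2, by simp⟩

/-- The four corners of a face. -/
def corners (f : P2) : Finset P2 := {(f.1, f.2), (f.1 + 1, f.2), (f.1, f.2 + 1), (f.1 + 1, f.2 + 1)}

theorem mem_corners {v f : P2} : v ∈ corners f ↔ Geo729.IsCorner v f := by
  simp [corners, Geo729.IsCorner]

/-- Boundary vertices of `D`: corners of faces of `D` that are not interior. -/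
def bdV (D : Finset P2) : Finset P2 := (D.biUnion corners).filter fun v => v ∉ intVerts D

theorem mem_bdV {D : Finset P2} {v : P2} :
    v ∈ bdV D ↔ (∃ f ∈ D, Geo729.IsCorner v f) ∧ v ∉ intVerts D := by
  simp [bdV, mem_corners]

theorem corner_mem_of_int {D : Finset P2} {v f : P2} (hv : v ∈ intVerts D) (hf : Geo729.IsCorner v f) :
    f ∈ D := by
  have := (intV_iff _ _).1 (mem_intVerts.1 hv) f hf
  simpa using this

theorem isCorner_src_fA (e : Edge) : Geo729.IsCorner (src e) (fA e) := by
  obtain ⟨⟨a, b⟩, c⟩ := e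
  cases c <;> simp [Geo729.IsCorner]

theorem isCorner_src_fB (e : Edge) : Geo729.IsCorner (src e) (fB e) := by
  obtain ⟨⟨a, b⟩, c⟩ := e
  cases c <;> simp [Geo729.IsCorner]

theorem isCorner_tgt_fA (e : Edge) : Geo729.IsCorner (tgt e) (fA e) := by
  obtain ⟨⟨a, b⟩, c⟩ := e
  cases c <;> simp [Geo729.IsCorner]

theorem isCorner_tgt_fB (e : Edge) : Geo729.IsCorner (tgt e) (fB e) := by
  obtain ⟨⟨a, b⟩, c⟩ := e
  cases c <;> simp [Geo729.IsCorner]

theorem intVerts_mono {D F : Finset P2} (h : D ⊆ F) : intVerts D ⊆ intVerts F := by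
  intro v hv
  rw [mem_intVerts, intV_iff] at hv ⊢
  intro f hf
  exact h (hv f hf)

theorem intEdges_mono {D F : Finset P2} (h : D ⊆ F) : intEdges D ⊆ intEdges F := by
  intro e he
  rw [mem_intEdges] at he ⊢
  exact ⟨h he.1, h he.2⟩

/-- `src e`, `tgt e` are not interior vertices of `D` when one bordering face is outside `D`. -/
theorem not_int_of_not_intEdges {D : Finset P2} {e : Edge} (he : e ∉ intEdges D) :
    src e ∉ intVerts D ∧ tgt e ∉ intVerts D := by
  constructor
  · intro h
    exact he (mem_intEdges.2 ⟨corner_mem_of_int h (isCorner_src_fA e),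
      corner_mem_of_int h (isCorner_src_fB e)⟩)
  · intro h
    exact he (mem_intEdges.2 ⟨corner_mem_of_int h (isCorner_tgt_fA e),
      corner_mem_of_int h (isCorner_tgt_fB e)⟩)

/-- All edges between `D` and its complement are cut, and the boundary vertex heights are `q`. -/
structure CutAt (D : Finset P2) (q : ℤ) (ω : Cfg) : Prop where
  even : Even q
  cut : ∀ e ∈ bdE D, ω.2.2 e = true
  ht : ∀ v ∈ bdV D, ω.1 v = q

/-- `g` depends only on the outside of `D`. -/
def OutLoc {α : Type*} (D : Finset P2) (g : Cfg → α) : Prop :=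
  ∀ ω ω' : Cfg, (∀ v, v ∉ intVerts D → ω.1 v = ω'.1 v) → (∀ f, f ∉ D → ω.2.1 f = ω'.2.1 f) →
    (∀ e, e ∉ intEdges D → ω.2.2 e = ω'.2.2 e) → g ω = g ω'

/-- Inside configuration, shifted by `-q`, zero boundary condition. -/
def ins (D : Finset P2) (q : ℤ) (ω : Cfg) : Cfg :=
  (fun v => if v ∈ intVerts D then ω.1 v - q else 0,
   fun f => if f ∈ D then ω.2.1 f - q else 1,
   fun e => if e ∈ intEdges D then ω.2.2 e else true)

/-- `β` shifted by `q` inside `D`, `α` outside. -/
def glue (D : Finset P2) (q : ℤ) (α β : Cfg) : Cfg :=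
  (fun v => if v ∈ intVerts D then β.1 v + q else α.1 v,
   fun f => if f ∈ D then β.2.1 f + q else α.2.1 f,
   fun e => if e ∈ intEdges D then β.2.2 e else α.2.2 e)

theorem valid_ins {F D : Finset P2} {q : ℤ} {ω : Cfg} (hD : D ⊆ F) (h : Valid F ω)
    (hc : CutAt D q ω) : Valid D (ins D q ω) where
  zero := fun v hv => by simp [ins, hv]
  even := fun v => by
    by_cases hv : v ∈ intVerts D
    · simp only [ins, hv, if_true]
      exact (h.even v).sub hc.even
    · simp [ins, hv]
  off := fun f hf => by simp [ins, hf]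
  corner := fun f hf v hv => by
    by_cases hv' : v ∈ intVerts D
    · simp only [ins, hv', hf, if_true]
      have := h.corner f (hD hf) v hv
      rwa [sub_sub_sub_cancel_right]
    · simp only [ins, hv', hf, if_true, if_false]
      have h1 := h.corner f (hD hf) v hv
      rw [hc.ht v (mem_bdV.2 ⟨⟨f, hf, hv⟩, hv'⟩)] at h1
      rw [zero_sub, neg_sub]
      exact h1
  cut := fun e he => by simp [ins, he]

theorem valid_glue {F D : Finset P2} {q : ℤ} {α β : Cfg} (hD : D ⊆ F) (h : Valid F α)
    (hc : CutAt D q α) (hβ : Valid D β) : Valid F (glue D q α β) where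
  zero := fun v hv => by
    have hv' : v ∉ intVerts D := fun h' => hv (intVerts_mono hD h')
    simp only [glue, hv', if_false]
    exact h.zero v hv
  even := fun v => by
    by_cases hv : v ∈ intVerts D
    · simp only [glue, hv, if_true]
      exact (hβ.even v).add hc.even
    · simp only [glue, hv, if_false]
      exact h.even v
  off := fun f hf => by
    have hf' : f ∉ D := fun h' => hf (hD h')
    simp only [glue, hf', if_false]
    exact h.off f hf
  corner := fun f hf v hv => by
    by_cases hf' : f ∈ D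
    · by_cases hv' : v ∈ intVerts D
      · simp only [glue, hv', hf', if_true]
        have := hβ.corner f hf' v hv
        rwa [add_sub_add_right_eq_sub]
      · simp only [glue, hv', hf', if_true, if_false]
        have h1 := hβ.corner f hf' v hv
        rw [hβ.zero v hv'] at h1
        rw [hc.ht v (mem_bdV.2 ⟨⟨f, hf', hv⟩, hv'⟩), show q - (β.2.1 f + q) = 0 - β.2.1 f by ring]
        exact h1
    · have hv' : v ∉ intVerts D := fun h' => hf' (corner_mem_of_int h' hv)
      simp only [glue, hv', hf', if_false]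
      exact h.corner f hf v hv
  cut := fun e he => by
    have he' : e ∉ intEdges D := fun h' => he (intEdges_mono hD h')
    simp only [glue, he', if_false]
    exact h.cut e he

theorem not_intEdges_of_bdE {D : Finset P2} {e : Edge} (he : e ∈ bdE D) : e ∉ intEdges D := by
  rw [mem_bdE] at he
  rw [mem_intEdges]
  tauto

theorem cutAt_glue {D : Finset P2} {q : ℤ} {α : Cfg} (β : Cfg)
    (hc : CutAt D q α) : CutAt D q (glue D q α β) where
  even := hc.even
  cut := fun e he => by
    simp only [glue, not_intEdges_of_bdE he, if_false]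
    exact hc.cut e he
  ht := fun v hv => by
    simp only [glue, (mem_bdV.1 hv).2, if_false]
    exact hc.ht v hv

theorem ins_glue {D : Finset P2} {q : ℤ} (α : Cfg) {β : Cfg} (hβ : Valid D β) :
    ins D q (glue D q α β) = β := by
  refine Prod.ext ?_ (Prod.ext ?_ ?_)
  · funext v
    by_cases hv : v ∈ intVerts D
    · simp [ins, glue, hv]
    · simp [ins, hv, hβ.zero v hv]
  · funext f
    by_cases hf : f ∈ D
    · simp [ins, glue, hf]
    · simp [ins, hf, hβ.off f hf]
  · funext e
    by_cases he : e ∈ intEdges D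
    · simp [ins, glue, he]
    · simp [ins, he, hβ.cut e he]

theorem glue_ins (D : Finset P2) (q : ℤ) (ω : Cfg) : glue D q ω (ins D q ω) = ω := by
  refine Prod.ext ?_ (Prod.ext ?_ ?_)
  · funext v
    by_cases hv : v ∈ intVerts D <;> simp [ins, glue, hv]
  · funext f
    by_cases hf : f ∈ D <;> simp [ins, glue, hf]
  · funext e
    by_cases he : e ∈ intEdges D <;> simp [ins, glue, he]

theorem glue_glue (D : Finset P2) (q : ℤ) (α β γ : Cfg) :
    glue D q (glue D q α β) γ = glue D q α γ := by
  refine Prod.ext ?_ (Prod.ext ?_ ?_)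
  · funext v
    by_cases hv : v ∈ intVerts D <;> simp [glue, hv]
  · funext f
    by_cases hf : f ∈ D <;> simp [glue, hf]
  · funext e
    by_cases he : e ∈ intEdges D <;> simp [glue, he]

theorem outLoc_glue {α : Type*} {D : Finset P2} {g : Cfg → α} (hg : OutLoc D g) (q : ℤ)
    (a b : Cfg) : g (glue D q a b) = g a := by
  apply hg
  · intro v hv; simp [glue, hv]
  · intro f hf; simp [glue, hf]
  · intro e he; simp [glue, he]

/-- Weight outside `D`. -/
def wtOut (c : ℝ) (F D : Finset P2) (ω : Cfg) : ℝ := ∏ e ∈ intEdges F \ intEdges D, ew c ω e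

theorem wt_glue {c : ℝ} {F D : Finset P2} {q : ℤ} {α β : Cfg} (hD : D ⊆ F)
    (hc : CutAt D q α) (hβ : Valid D β) :
    wt c F (glue D q α β) = wtOut c F D α * wt c D β := by
  unfold wt wtOut
  rw [← Finset.prod_sdiff (intEdges_mono hD)]
  congr 1
  · refine Finset.prod_congr rfl fun e he => ?_
    rw [Finset.mem_sdiff] at he
    obtain ⟨heF, heD⟩ := he
    obtain ⟨hs, ht⟩ := not_int_of_not_intEdges heD
    unfold ew
    have hz : (glue D q α β).2.2 e = α.2.2 e := by simp [glue, heD]
    have hsrc : (glue D q α β).1 (src e) = α.1 (src e) := by simp [glue, hs]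
    have htgt : (glue D q α β).1 (tgt e) = α.1 (tgt e) := by simp [glue, ht]
    rw [hz, hsrc, htgt]
    by_cases hb : e ∈ bdE D
    · rw [hc.cut e hb]
      simp
    · have hAB : fA e ∉ D ∧ fB e ∉ D := by
        rw [mem_bdE, not_not] at hb
        rw [mem_intEdges] at heD
        tauto
      have hA : (glue D q α β).2.1 (fA e) = α.2.1 (fA e) := by simp [glue, hAB.1]
      have hB : (glue D q α β).2.1 (fB e) = α.2.1 (fB e) := by simp [glue, hAB.2]
      rw [hA, hB]
  · refine Finset.prod_congr rfl fun e he => ?_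
    have he' := mem_intEdges.1 he
    unfold ew
    have hz : (glue D q α β).2.2 e = β.2.2 e := by simp [glue, he]
    have key : ∀ v, (Geo729.IsCorner v (fA e)) → (glue D q α β).1 v = β.1 v + q := by
      intro v hv
      by_cases hv' : v ∈ intVerts D
      · simp [glue, hv']
      · simp only [glue, hv', if_false]
        rw [hc.ht v (mem_bdV.2 ⟨⟨_, he'.1, hv⟩, hv'⟩), hβ.zero v hv', zero_add]
    rw [hz, key _ (isCorner_src_fA e), key _ (isCorner_tgt_fA e)]
    have hA : (glue D q α β).2.1 (fA e) = β.2.1 (fA e) + q := by simp [glue, he'.1]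
    have hB : (glue D q α β).2.1 (fB e) = β.2.1 (fB e) + q := by simp [glue, he'.2]
    rw [hA, hB]
    simp only [add_left_inj]

open Classical in
/-- Configurations of `conf F` that are cut along `∂D` at height `q`. -/
def cutConf (F D : Finset P2) (q : ℤ) : Finset Cfg := (conf F).filter (CutAt D q)

open Classical in
/-- Canonical outside configurations. -/
def outConf (F D : Finset P2) (q : ℤ) : Finset Cfg :=
  (cutConf F D q).filter fun α => glue D q α flat = α

theorem mem_cutConf {F D : Finset P2} {q : ℤ} {ω : Cfg} :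
    ω ∈ cutConf F D q ↔ Valid F ω ∧ CutAt D q ω := by
  simp [cutConf, mem_conf]

theorem mem_outConf {F D : Finset P2} {q : ℤ} {ω : Cfg} :
    ω ∈ outConf F D q ↔ (Valid F ω ∧ CutAt D q ω) ∧ glue D q ω flat = ω := by
  simp [outConf, mem_cutConf]

theorem sum_cutConf {M : Type*} [AddCommMonoid M] {F D : Finset P2} {q : ℤ} (hD : D ⊆ F)
    (Φ : Cfg → M) :
    ∑ ω ∈ cutConf F D q, Φ ω = ∑ α ∈ outConf F D q, ∑ β ∈ conf D, Φ (glue D q α β) := by
  rw [← Finset.sum_product']
  symm
  refine Finset.sum_nbij' (fun p => glue D q p.1 p.2) (fun ω => (glue D q ω flat, ins D q ω))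
    ?_ ?_ ?_ ?_ ?_
  · rintro ⟨α, β⟩ h
    rw [Finset.mem_product, mem_outConf, mem_conf] at h
    exact mem_cutConf.2 ⟨valid_glue hD h.1.1.1 h.1.1.2 h.2, cutAt_glue β h.1.1.2⟩
  · intro ω h
    rw [mem_cutConf] at h
    rw [Finset.mem_product, mem_outConf, mem_conf]
    exact ⟨⟨⟨valid_glue hD h.1 h.2 (valid_flat D), cutAt_glue flat h.2⟩, glue_glue _ _ _ _ _⟩,
      valid_ins hD h.1 h.2⟩
  · rintro ⟨α, β⟩ h
    rw [Finset.mem_product, mem_outConf, mem_conf] at h
    refine Prod.ext ?_ ?_
    · simp only [glue_glue]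
      exact h.1.2
    · exact ins_glue α h.2
  · intro ω _
    simp only [glue_glue]
    exact glue_ins D q ω
  · rintro ⟨α, β⟩ _
    rfl

open Classical in
/-- **Domain Markov property** (complex observables). -/
theorem EC_cut {c : ℝ} (hc : 1 ≤ c) {F D : Finset P2} (hD : D ⊆ F) (q : ℤ) {g f : Cfg → ℂ}
    (hg : OutLoc D g) :
    EC c F (fun ω => if CutAt D q ω then g ω * f (ins D q ω) else 0) =
      EC c F (fun ω => if CutAt D q ω then g ω else 0) * EC c D f := by
  have hZF : (Z c F : ℂ) ≠ 0 := by exact_mod_cast (Z_pos hc F).ne'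
  have hZD : (Z c D : ℂ) ≠ 0 := by exact_mod_cast (Z_pos hc D).ne'
  have key : ∀ φ : Cfg → ℂ, EC c F (fun ω => if CutAt D q ω then g ω * φ (ins D q ω) else 0) =
      (∑ α ∈ outConf F D q, (wtOut c F D α : ℂ) * g α) * (∑ β ∈ conf D, (wt c D β : ℂ) * φ β)
        / Z c F := by
    intro φ
    unfold EC
    have h1 : ∑ ω ∈ conf F, (pr c F ω : ℂ) * (if CutAt D q ω then g ω * φ (ins D q ω) else 0) =
        ∑ ω ∈ cutConf F D q, ((wt c F ω : ℂ) * (g ω * φ (ins D q ω))) / Z c F := by
      unfold cutConf
      rw [Finset.sum_filter]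
      refine Finset.sum_congr rfl fun ω hω => ?_
      split_ifs
      · rw [pr_of_valid c (mem_conf.1 hω)]
        push_cast
        ring
      · simp
    rw [h1, ← Finset.sum_div, sum_cutConf hD, Finset.sum_mul_sum]
    congr 1
    refine Finset.sum_congr rfl fun α hα => Finset.sum_congr rfl fun β hβ => ?_
    rw [mem_outConf] at hα
    rw [mem_conf] at hβ
    rw [wt_glue hD hα.1.2 hβ, ins_glue α hβ, outLoc_glue hg]
    push_cast
    ring
  have h2 : EC c F (fun ω => if CutAt D q ω then g ω else 0) =
      (∑ α ∈ outConf F D q, (wtOut c F D α : ℂ) * g α) * (Z c D : ℂ) / Z c F := by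
    have h3 := key (fun _ => 1)
    simp only [mul_one] at h3
    rw [h3]
    unfold Z
    push_cast
    rfl
  rw [key f, h2]
  have h4 : EC c D f = (∑ β ∈ conf D, (wt c D β : ℂ) * f β) / Z c D := by
    unfold EC
    rw [Finset.sum_div]
    refine Finset.sum_congr rfl fun β hβ => ?_
    rw [pr_of_valid c (mem_conf.1 hβ)]
    push_cast
    ring
  rw [h4]
  field_simp

theorem EC_ofReal (c : ℝ) (F : Finset P2) (f : Cfg → ℝ) :
    EC c F (fun ω => (f ω : ℂ)) = (E c F f : ℝ) := by
  unfold EC E
  push_cast
  rfl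

open Classical in
/-- **Domain Markov property** (real observables). -/
theorem E_cut {c : ℝ} (hc : 1 ≤ c) {F D : Finset P2} (hD : D ⊆ F) (q : ℤ) {g f : Cfg → ℝ}
    (hg : OutLoc D g) :
    E c F (fun ω => if CutAt D q ω then g ω * f (ins D q ω) else 0) =
      E c F (fun ω => if CutAt D q ω then g ω else 0) * E c D f := by
  have h := EC_cut hc hD q (g := fun ω => (g ω : ℂ)) (f := fun ω => (f ω : ℂ))
    (fun ω ω' h1 h2 h3 => by simp only [hg ω ω' h1 h2 h3])
  have e1 : (fun ω => if CutAt D q ω then (g ω : ℂ) * (f (ins D q ω) : ℂ) else 0) =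
      fun ω => (((if CutAt D q ω then g ω * f (ins D q ω) else 0 : ℝ)) : ℂ) := by
    funext ω
    split_ifs <;> simp
  have e2 : (fun ω => if CutAt D q ω then (g ω : ℂ) else 0) =
      fun ω => (((if CutAt D q ω then g ω else 0 : ℝ)) : ℂ) := by
    funext ω
    split_ifs <;> simp
  rw [e1, e2, EC_ofReal, EC_ofReal, EC_ofReal] at h
  exact_mod_cast h

end Crest.Agent.R161.Dmp341
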