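import Crest.Agent.R161.RPconc_597

/-!
R161, block F (helper597): geometry needed for the passage from finite volume to `IsState`.

* `rect A B C D`, `dom_rect`, `exists_symm_vert/horiz/diag/anti`, `exists_symm_neg`, packaged as
  `SymDom R` : for every `m` there is a domain containing `box m` and symmetric under `R`;
* `Step R R' a` : `R'` is the mid-line reflection between `R` and its translate by `a`
  (`step_vert, step_horiz, step_diag, step_anti` and the `neg` versions), with consequences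
  `Step.trans_act : trans a (act R' ω) = act R ω`, `Step.τθτ`, `Step.rloc`, `Step.rloc'`;
* `act_addH`, `trans_addH`, `loc_act`, `loc_trans`.
-/

set_option autoImplicit false

noncomputable section

namespace Crest.Agent.R161.Rect597

open Finset Crest.Agent.R161.Geo729 Crest.Agent.R161.Defs372 Crest.Agent.R161.Sym597
open Crest.Agent.R161.RPconc597

/-! ### rectangles -/

theorem conn_h {S : Set P2} {a b y : ℤ} (h : ∀ x, min a b ≤ x → x ≤ max a b → ((x, y) : P2) ∈ S) :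
    Conn S (a, y) (b, y) := by
  have key : ∀ n : ℕ, ∀ c : ℤ, (∀ x, c ≤ x → x ≤ c + n → ((x, y) : P2) ∈ S) →
      Conn S (c, y) (c + n, y) := by
    intro n
    induction n with
    | zero => intro c _; rw [Nat.cast_zero, add_zero]; exact Relation.ReflTransGen.refl
    | succ n ih =>
      intro c hc
      refine Relation.ReflTransGen.tail (ih c fun x h1 h2 => hc x h1 (by push_cast; omega)) ?_
      refine ⟨hc _ (by omega) (by push_cast; omega), hc _ (by push_cast; omega) le_rfl, Or.inl ?_⟩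
      push_cast
      rw [add_assoc]
  rcases le_total a b with hab | hab
  · have h1 := key (b - a).toNat a (fun x h1 h2 => h x (by omega) (by omega))
    have h2 : a + ((b - a).toNat : ℤ) = b := by omega
    rwa [h2] at h1
  · have h1 := key (a - b).toNat b (fun x h1 h2 => h x (by omega) (by omega))
    have h2 : b + ((a - b).toNat : ℤ) = a := by omega
    rw [h2] at h1
    exact h1.symm

theorem conn_v {S : Set P2} {a b x : ℤ} (h : ∀ y, min a b ≤ y → y ≤ max a b → ((x, y) : P2) ∈ S) :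
    Conn S (x, a) (x, b) := by
  have key : ∀ n : ℕ, ∀ c : ℤ, (∀ y, c ≤ y → y ≤ c + n → ((x, y) : P2) ∈ S) →
      Conn S (x, c) (x, c + n) := by
    intro n
    induction n with
    | zero => intro c _; rw [Nat.cast_zero, add_zero]; exact Relation.ReflTransGen.refl
    | succ n ih =>
      intro c hc
      refine Relation.ReflTransGen.tail (ih c fun x h1 h2 => hc x h1 (by push_cast; omega)) ?_
      refine ⟨hc _ (by omega) (by push_cast; omega), hc _ (by push_cast; omega) le_rfl,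
        Or.inr (Or.inr (Or.inl ?_))⟩
      push_cast
      rw [add_assoc]
  rcases le_total a b with hab | hab
  · have h1 := key (b - a).toNat a (fun x h1 h2 => h x (by omega) (by omega))
    have h2 : a + ((b - a).toNat : ℤ) = b := by omega
    rwa [h2] at h1
  · have h1 := key (a - b).toNat b (fun x h1 h2 => h x (by omega) (by omega))
    have h2 : b + ((a - b).toNat : ℤ) = a := by omega
    rw [h2] at h1
    exact h1.symm

/-- rectangle of faces `[A,B] × [C,D]` -/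
def rect (A B C D : ℤ) : Finset P2 := Finset.Icc A B ×ˢ Finset.Icc C D

theorem mem_rect {A B C D : ℤ} {f : P2} :
    f ∈ rect A B C D ↔ (A ≤ f.1 ∧ f.1 ≤ B) ∧ (C ≤ f.2 ∧ f.2 ≤ D) := by
  simp [rect]

theorem isConn_rect (A B C D : ℤ) : IsConn (rect A B C D : Set P2) := by
  rintro ⟨a, b⟩ hf ⟨c, d⟩ hg
  simp only [mem_coe, mem_rect] at hf hg
  refine Conn.trans (g := (c, b)) (conn_h fun x h1 h2 => ?_) (conn_v fun y h1 h2 => ?_)
  · simp only [mem_coe, mem_rect]; omega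
  · simp only [mem_coe, mem_rect]; omega

theorem sc_rect (A B C D : ℤ) : SC (rect A B C D : Set P2) := by
  have key : ∀ f : P2, f ∈ (rect A B C D : Set P2)ᶜ →
      Conn (rect A B C D : Set P2)ᶜ f (A - 1, C - 1) := by
    rintro ⟨a, b⟩ hf
    simp only [Set.mem_compl_iff, mem_coe, mem_rect, not_and_or] at hf
    by_cases h1 : B < a
    · refine Conn.trans (g := (a, C - 1)) (conn_v fun y h1 h2 => ?_) (conn_h fun y h1 h2 => ?_)
      · simp only [Set.mem_compl_iff, mem_coe, mem_rect, not_and_or]; omega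
      · simp only [Set.mem_compl_iff, mem_coe, mem_rect, not_and_or]; omega
    · refine Conn.trans (g := (A - 1, b)) (conn_h fun y h1 h2 => ?_) (conn_v fun y h1 h2 => ?_)
      · simp only [Set.mem_compl_iff, mem_coe, mem_rect, not_and_or]; omega
      · simp only [Set.mem_compl_iff, mem_coe, mem_rect, not_and_or]; omega
  intro f hf g hg
  exact (key f hf).trans (key g hg).symm

theorem dom_rect (A B C D : ℤ) : Dom (rect A B C D) := ⟨isConn_rect A B C D, sc_rect A B C D⟩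

theorem box_eq_rect (n : ℕ) : Defs372.box n = rect (-n) (n - 1) (-n) (n - 1) := rfl

theorem dom_box (n : ℕ) : Dom (Defs372.box n) := dom_rect _ _ _ _

theorem box_subset_rect {n : ℕ} {A B C D : ℤ} (h1 : A ≤ -n) (h2 : n - 1 ≤ B) (h3 : C ≤ -n)
    (h4 : n - 1 ≤ D) : Defs372.box n ⊆ rect A B C D := by
  intro f hf
  rw [box_eq_rect, mem_rect] at hf
  rw [mem_rect]
  omega

/-- arbitrarily large symmetric domains -/
def SymDom (R : Refl) : Prop := ∀ n : ℕ, ∃ F : Finset P2, Dom F ∧ Defs372.box n ⊆ F ∧ Symm R F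

theorem symDom_vert (k : ℤ) : SymDom (Refl.vert k) := by
  intro n
  have hk1 := neg_abs_le k
  have hk2 := le_abs_self k
  have hk3 := abs_nonneg k
  refine ⟨rect (-(n + |k|)) (n + |k| + k - 1) (-n) (n - 1), dom_rect _ _ _ _, ?_, ?_⟩
  · apply box_subset_rect <;> omega
  · intro f hf
    rw [mem_rect] at hf ⊢
    simp only [Refl.vert]
    omega

theorem symDom_horiz (k : ℤ) : SymDom (Refl.horiz k) := by
  intro n
  have hk1 := neg_abs_le k
  have hk2 := le_abs_self k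
  have hk3 := abs_nonneg k
  refine ⟨rect (-n) (n - 1) (-(n + |k|)) (n + |k| + k - 1), dom_rect _ _ _ _, ?_, ?_⟩
  · apply box_subset_rect <;> omega
  · intro f hf
    rw [mem_rect] at hf ⊢
    simp only [Refl.horiz]
    omega

theorem symDom_diag (k : ℤ) : SymDom (Refl.diag k) := by
  intro n
  have hk1 := neg_abs_le k
  have hk2 := le_abs_self k
  have hk3 := abs_nonneg k
  refine ⟨rect (-(n + |k|)) (n + |k|) (-(n + |k|) + k) (n + |k| + k), dom_rect _ _ _ _, ?_, ?_⟩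
  · apply box_subset_rect <;> omega
  · intro f hf
    rw [mem_rect] at hf ⊢
    simp only [Refl.diag]
    omega

theorem symDom_anti (k : ℤ) : SymDom (Refl.anti k) := by
  intro n
  have hk1 := neg_abs_le k
  have hk2 := le_abs_self k
  have hk3 := abs_nonneg k
  refine ⟨rect (-(n + |k|)) (n + |k|) (k - 1 - (n + |k|)) (k - 1 + (n + |k|)),
    dom_rect _ _ _ _, ?_, ?_⟩
  · apply box_subset_rect <;> omega
  · intro f hf
    rw [mem_rect] at hf ⊢
    simp only [Refl.anti]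
    omega

theorem SymDom.neg {R : Refl} (h : SymDom R) : SymDom R.neg := h

/-! ### neighbouring lines -/

/-- `R'` is the mid-line between `R` and its translate by `a` (`a` points to the right side). -/
structure Step (R R' : Refl) (a : P2) : Prop where
  V' : ∀ v, R'.V (v + a) = R.V v
  F' : ∀ f, R'.Fc (f + a) = R.Fc f
  E' : ∀ e : Edge, R'.E (e.1 + a, e.2) = R.E e
  V0 : ∀ v, R.V (v + a) + a = R.V v
  F0 : ∀ f, R.Fc (f + a) + a = R.Fc f
  E0 : ∀ e : Edge, ((R.E (e.1 + a, e.2)).1 + a, (R.E (e.1 + a, e.2)).2) = R.E e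
  sv' : ∀ v, 0 ≤ R.sv v → 0 ≤ R'.sv (v + a)
  sf' : ∀ v, 0 ≤ R.sf v → 0 ≤ R'.sf (v + a)
  ke' : ∀ e : Edge, Keep R e → Keep R' (e.1 + a, e.2)
  sv : ∀ v, 0 ≤ R.sv v → 0 ≤ R.sv (v + a)
  sf : ∀ v, 0 ≤ R.sf v → 0 ≤ R.sf (v + a)
  ke : ∀ e : Edge, Keep R e → Keep R (e.1 + a, e.2)

theorem step_vert (n : ℤ) : Step (Refl.vert n) (Refl.vert (n + 1)) (1, 0) := by
  refine ⟨?_, ?_, ?_, ?_, ?_, ?_, ?_, ?_, ?_, ?_, ?_, ?_⟩
  · rintro ⟨x, y⟩; simp [Refl.vert]
  · rintro ⟨x, y⟩; simp [Refl.vert]; omega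
  · rintro ⟨⟨x, y⟩, b⟩; cases b <;> simp [Refl.vert]; omega
  · rintro ⟨x, y⟩; simp [Refl.vert]; omega
  · rintro ⟨x, y⟩; simp [Refl.vert]; omega
  · rintro ⟨⟨x, y⟩, b⟩; cases b <;> simp [Refl.vert] <;> omega
  · rintro ⟨x, y⟩; simp [Refl.vert]; omega
  · rintro ⟨x, y⟩; simp [Refl.vert]; omega
  · rintro ⟨⟨x, y⟩, b⟩; cases b <;> simp [Refl.vert, Keep] <;> omega
  · rintro ⟨x, y⟩; simp [Refl.vert]; omega
  · rintro ⟨x, y⟩; simp [Refl.vert]; omega
  · rintro ⟨⟨x, y⟩, b⟩; cases b <;> simp [Refl.vert, Keep] <;> omega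

theorem step_horiz (n : ℤ) : Step (Refl.horiz n) (Refl.horiz (n + 1)) (0, 1) := by
  refine ⟨?_, ?_, ?_, ?_, ?_, ?_, ?_, ?_, ?_, ?_, ?_, ?_⟩
  · rintro ⟨x, y⟩; simp [Refl.horiz]
  · rintro ⟨x, y⟩; simp [Refl.horiz]; omega
  · rintro ⟨⟨x, y⟩, b⟩; cases b <;> simp [Refl.horiz]; omega
  · rintro ⟨x, y⟩; simp [Refl.horiz]; omega
  · rintro ⟨x, y⟩; simp [Refl.horiz]; omega
  · rintro ⟨⟨x, y⟩, b⟩; cases b <;> simp [Refl.horiz] <;> omega
  · rintro ⟨x, y⟩; simp [Refl.horiz]; omega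
  · rintro ⟨x, y⟩; simp [Refl.horiz]; omega
  · rintro ⟨⟨x, y⟩, b⟩; cases b <;> simp [Refl.horiz, Keep] <;> omega
  · rintro ⟨x, y⟩; simp [Refl.horiz]; omega
  · rintro ⟨x, y⟩; simp [Refl.horiz]; omega
  · rintro ⟨⟨x, y⟩, b⟩; cases b <;> simp [Refl.horiz, Keep] <;> omega

theorem step_diag (n : ℤ) : Step (Refl.diag n) (Refl.diag (n + 1)) (-1, 1) := by
  refine ⟨?_, ?_, ?_, ?_, ?_, ?_, ?_, ?_, ?_, ?_, ?_, ?_⟩
  · rintro ⟨x, y⟩; simp [Refl.diag]; omega
  · rintro ⟨x, y⟩; simp [Refl.diag]; omega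
  · rintro ⟨⟨x, y⟩, b⟩; cases b <;> simp [Refl.diag] <;> omega
  · rintro ⟨x, y⟩; simp [Refl.diag]; omega
  · rintro ⟨x, y⟩; simp [Refl.diag]; omega
  · rintro ⟨⟨x, y⟩, b⟩; cases b <;> simp [Refl.diag] <;> omega
  · rintro ⟨x, y⟩; simp [Refl.diag]; omega
  · rintro ⟨x, y⟩; simp [Refl.diag]; omega
  · rintro ⟨⟨x, y⟩, b⟩; cases b <;> simp [Refl.diag, Keep] <;> omega
  · rintro ⟨x, y⟩; simp [Refl.diag]; omega
  · rintro ⟨x, y⟩; simp [Refl.diag]; omega
  · rintro ⟨⟨x, y⟩, b⟩; cases b <;> simp [Refl.diag, Keep] <;> omega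

theorem step_anti (n : ℤ) : Step (Refl.anti n) (Refl.anti (n + 1)) (1, 1) := by
  refine ⟨?_, ?_, ?_, ?_, ?_, ?_, ?_, ?_, ?_, ?_, ?_, ?_⟩
  · rintro ⟨x, y⟩; simp [Refl.anti]
  · rintro ⟨x, y⟩; simp [Refl.anti]; omega
  · rintro ⟨⟨x, y⟩, b⟩; cases b <;> simp [Refl.anti] <;> omega
  · rintro ⟨x, y⟩; simp [Refl.anti]; omega
  · rintro ⟨x, y⟩; simp [Refl.anti]; omega
  · rintro ⟨⟨x, y⟩, b⟩; cases b <;> simp [Refl.anti] <;> omega
  · rintro ⟨x, y⟩; simp [Refl.anti]; omega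
  · rintro ⟨x, y⟩; simp [Refl.anti]; omega
  · rintro ⟨⟨x, y⟩, b⟩; cases b <;> simp [Refl.anti, Keep] <;> omega
  · rintro ⟨x, y⟩; simp [Refl.anti]; omega
  · rintro ⟨x, y⟩; simp [Refl.anti]; omega
  · rintro ⟨⟨x, y⟩, b⟩; cases b <;> simp [Refl.anti, Keep] <;> omega

theorem step_vert_neg (n : ℤ) : Step (Refl.vert n).neg (Refl.vert (n - 1)).neg (-1, 0) := by
  refine ⟨?_, ?_, ?_, ?_, ?_, ?_, ?_, ?_, ?_, ?_, ?_, ?_⟩
  · rintro ⟨x, y⟩; simp [Refl.vert, Refl.neg]; omega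
  · rintro ⟨x, y⟩; simp [Refl.vert, Refl.neg]; omega
  · rintro ⟨⟨x, y⟩, b⟩; cases b <;> simp [Refl.vert, Refl.neg] <;> omega
  · rintro ⟨x, y⟩; simp [Refl.vert, Refl.neg]; omega
  · rintro ⟨x, y⟩; simp [Refl.vert, Refl.neg]; omega
  · rintro ⟨⟨x, y⟩, b⟩; cases b <;> simp [Refl.vert, Refl.neg] <;> omega
  · rintro ⟨x, y⟩; simp [Refl.vert, Refl.neg]; omega
  · rintro ⟨x, y⟩; simp [Refl.vert, Refl.neg]; omega
  · rintro ⟨⟨x, y⟩, b⟩; cases b <;> simp [Refl.vert, Refl.neg, Keep] <;> omega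
  · rintro ⟨x, y⟩; simp [Refl.vert, Refl.neg]; omega
  · rintro ⟨x, y⟩; simp [Refl.vert, Refl.neg]; omega
  · rintro ⟨⟨x, y⟩, b⟩; cases b <;> simp [Refl.vert, Refl.neg, Keep] <;> omega

theorem step_horiz_neg (n : ℤ) : Step (Refl.horiz n).neg (Refl.horiz (n - 1)).neg (0, -1) := by
  refine ⟨?_, ?_, ?_, ?_, ?_, ?_, ?_, ?_, ?_, ?_, ?_, ?_⟩
  · rintro ⟨x, y⟩; simp [Refl.horiz, Refl.neg]; omega
  · rintro ⟨x, y⟩; simp [Refl.horiz, Refl.neg]; omega
  · rintro ⟨⟨x, y⟩, b⟩; cases b <;> simp [Refl.horiz, Refl.neg] <;> omega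
  · rintro ⟨x, y⟩; simp [Refl.horiz, Refl.neg]; omega
  · rintro ⟨x, y⟩; simp [Refl.horiz, Refl.neg]; omega
  · rintro ⟨⟨x, y⟩, b⟩; cases b <;> simp [Refl.horiz, Refl.neg] <;> omega
  · rintro ⟨x, y⟩; simp [Refl.horiz, Refl.neg]; omega
  · rintro ⟨x, y⟩; simp [Refl.horiz, Refl.neg]; omega
  · rintro ⟨⟨x, y⟩, b⟩; cases b <;> simp [Refl.horiz, Refl.neg, Keep] <;> omega
  · rintro ⟨x, y⟩; simp [Refl.horiz, Refl.neg]; omega
  · rintro ⟨x, y⟩; simp [Refl.horiz, Refl.neg]; omega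
  · rintro ⟨⟨x, y⟩, b⟩; cases b <;> simp [Refl.horiz, Refl.neg, Keep] <;> omega

theorem step_diag_neg (n : ℤ) : Step (Refl.diag n).neg (Refl.diag (n - 1)).neg (1, -1) := by
  refine ⟨?_, ?_, ?_, ?_, ?_, ?_, ?_, ?_, ?_, ?_, ?_, ?_⟩
  · rintro ⟨x, y⟩; simp [Refl.diag, Refl.neg]; omega
  · rintro ⟨x, y⟩; simp [Refl.diag, Refl.neg]; omega
  · rintro ⟨⟨x, y⟩, b⟩; cases b <;> simp [Refl.diag, Refl.neg] <;> omega
  · rintro ⟨x, y⟩; simp [Refl.diag, Refl.neg]; omega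
  · rintro ⟨x, y⟩; simp [Refl.diag, Refl.neg]; omega
  · rintro ⟨⟨x, y⟩, b⟩; cases b <;> simp [Refl.diag, Refl.neg] <;> omega
  · rintro ⟨x, y⟩; simp [Refl.diag, Refl.neg]; omega
  · rintro ⟨x, y⟩; simp [Refl.diag, Refl.neg]; omega
  · rintro ⟨⟨x, y⟩, b⟩; cases b <;> simp [Refl.diag, Refl.neg, Keep] <;> omega
  · rintro ⟨x, y⟩; simp [Refl.diag, Refl.neg]; omega
  · rintro ⟨x, y⟩; simp [Refl.diag, Refl.neg]; omega
  · rintro ⟨⟨x, y⟩, b⟩; cases b <;> simp [Refl.diag, Refl.neg, Keep] <;> omega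

theorem step_anti_neg (n : ℤ) : Step (Refl.anti n).neg (Refl.anti (n - 1)).neg (-1, -1) := by
  refine ⟨?_, ?_, ?_, ?_, ?_, ?_, ?_, ?_, ?_, ?_, ?_, ?_⟩
  · rintro ⟨x, y⟩; simp [Refl.anti, Refl.neg]; omega
  · rintro ⟨x, y⟩; simp [Refl.anti, Refl.neg]; omega
  · rintro ⟨⟨x, y⟩, b⟩; cases b <;> simp [Refl.anti, Refl.neg] <;> omega
  · rintro ⟨x, y⟩; simp [Refl.anti, Refl.neg]; omega
  · rintro ⟨x, y⟩; simp [Refl.anti, Refl.neg]; omega
  · rintro ⟨⟨x, y⟩, b⟩; cases b <;> simp [Refl.anti, Refl.neg] <;> omega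
  · rintro ⟨x, y⟩; simp [Refl.anti, Refl.neg]; omega
  · rintro ⟨x, y⟩; simp [Refl.anti, Refl.neg]; omega
  · rintro ⟨⟨x, y⟩, b⟩; cases b <;> simp [Refl.anti, Refl.neg, Keep] <;> omega
  · rintro ⟨x, y⟩; simp [Refl.anti, Refl.neg]; omega
  · rintro ⟨x, y⟩; simp [Refl.anti, Refl.neg]; omega
  · rintro ⟨⟨x, y⟩, b⟩; cases b <;> simp [Refl.anti, Refl.neg, Keep] <;> omega

namespace Step

variable {R R' : Refl} {a : P2}

/-- `τ θ' = θ` -/
theorem trans_act (h : Step R R' a) (ω : Cfg) : trans a (act R' ω) = act R ω := by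
  refine Prod.ext ?_ (Prod.ext ?_ ?_)
  · funext v; simp [Defs372.trans, h.V']
  · funext v; simp [Defs372.trans, h.F']
  · funext e; simp [Defs372.trans, h.E']

/-- `τ θ τ = θ` -/
theorem τθτ (h : Step R R' a) (ω : Cfg) : trans a (act R (trans a ω)) = act R ω := by
  refine Prod.ext ?_ (Prod.ext ?_ ?_)
  · funext v; simp [Defs372.trans, h.V0]
  · funext v; simp [Defs372.trans, h.F0]
  · funext e; simp [Defs372.trans, h.E0]

/-- the translation is a composition of two reflections: `τ = θ θ'` -/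
theorem trans_eq (h : Step R R' a) (ω : Cfg) : trans a ω = act R (act R' ω) := by
  rw [← h.trans_act (act R' ω), act_act]

/-- right-sided functionals stay right-sided for `R` when translated -/
theorem rloc {α : Type*} (h : Step R R' a) {Φ : Cfg → α} (hΦ : RLoc R Φ) :
    RLoc R (fun ω => Φ (trans a ω)) := by
  intro ω ω' hω
  apply hΦ
  exact ⟨fun v hv => hω.1 _ (h.sv v hv), fun f hf => hω.2.1 _ (h.sf f hf),
    fun e he => hω.2.2 _ (h.ke e he)⟩

/-- right-sided functionals become right-sided for `R'` when translated -/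
theorem rloc' {α : Type*} (h : Step R R' a) {Φ : Cfg → α} (hΦ : RLoc R Φ) :
    RLoc R' (fun ω => Φ (trans a ω)) := by
  intro ω ω' hω
  apply hΦ
  exact ⟨fun v hv => hω.1 _ (h.sv' v hv), fun f hf => hω.2.1 _ (h.sf' f hf),
    fun e he => hω.2.2 _ (h.ke' e he)⟩

end Step

/-! ### adding constants, locality -/

theorem act_addH (R : Refl) (a : ℤ) (ω : Cfg) : act R (addH a ω) = addH a (act R ω) := rfl

theorem trans_addH (b : P2) (a : ℤ) (ω : Cfg) : trans b (addH a ω) = addH a (trans b ω) := rfl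

theorem addH_addH (a b : ℤ) (ω : Cfg) : addH a (addH b ω) = addH (b + a) ω := by
  simp [addH, add_assoc]

theorem addH_zero (ω : Cfg) : addH 0 ω = ω := by
  simp [addH]

/-- sites seen by `f ∘ act R` when `f` sees `S` -/
def actSites (R : Refl) (S : Set P2) : Set P2 :=
  {v | ∃ w ∈ S, v = R.V w ∨ v = R.Fc w ∨ ∃ b : Bool, v = (R.E (w, b)).1}

theorem actSites_finite (R : Refl) {S : Set P2} (hS : S.Finite) : (actSites R S).Finite := by
  have : actSites R S = (R.V '' S) ∪ (R.Fc '' S) ∪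
      ((fun w => (R.E (w, false)).1) '' S) ∪ ((fun w => (R.E (w, true)).1) '' S) := by
    ext v
    simp only [actSites, Set.mem_ofPred_eq, Set.mem_union, Set.mem_image, Bool.exists_bool]
    constructor
    · rintro ⟨w, hw, h | h | h | h⟩
      · exact Or.inl (Or.inl (Or.inl ⟨w, hw, h.symm⟩))
      · exact Or.inl (Or.inl (Or.inr ⟨w, hw, h.symm⟩))
      · exact Or.inl (Or.inr ⟨w, hw, h.symm⟩)
      · exact Or.inr ⟨w, hw, h.symm⟩
    · rintro (((⟨w, hw, h⟩ | ⟨w, hw, h⟩) | ⟨w, hw, h⟩) | ⟨w, hw, h⟩)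
      · exact ⟨w, hw, Or.inl h.symm⟩
      · exact ⟨w, hw, Or.inr (Or.inl h.symm)⟩
      · exact ⟨w, hw, Or.inr (Or.inr (Or.inl h.symm))⟩
      · exact ⟨w, hw, Or.inr (Or.inr (Or.inr h.symm))⟩
  rw [this]
  exact (((hS.image _).union (hS.image _)).union (hS.image _)).union (hS.image _)

theorem loc_act {α : Type*} (R : Refl) {S : Set P2} {f : Cfg → α} (hf : Loc S f) :
    Loc (actSites R S) (fun ω => f (act R ω)) := by
  intro ω ω' h
  apply hf
  intro v hv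
  refine ⟨(h (R.V v) ⟨v, hv, Or.inl rfl⟩).1, (h (R.Fc v) ⟨v, hv, Or.inr (Or.inl rfl)⟩).2.1, ?_⟩
  intro b
  exact (h (R.E (v, b)).1 ⟨v, hv, Or.inr (Or.inr ⟨b, rfl⟩)⟩).2.2 (R.E (v, b)).2

theorem loc_trans {α : Type*} (a : P2) {S : Set P2} {f : Cfg → α} (hf : Loc S f) :
    Loc ((· + a) '' S) (fun ω => f (trans a ω)) := by
  intro ω ω' h
  apply hf
  intro v hv
  exact h (v + a) ⟨v, hv, rfl⟩

theorem loc_mono {α : Type*} {S T : Set P2} (hST : S ⊆ T) {f : Cfg → α} (hf : Loc S f) :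
    Loc T f := fun ω ω' h => hf ω ω' fun v hv => h v (hST hv)

end Crest.Agent.R161.Rect597
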