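import Crest.Agent.R161.Green3_722

/-!
# R161 (S0242): smooth approximation of the Dirichlet potential (helper722), part 4

`dirichlet_approx`: `g = -Δ ψ + r` with `ψ` compactly supported in the disc of radius `ρ - η`, `r` of size
`C/η` supported in the annulus `ρ - 2η ≤ |w| ≤ ρ - η`, and `∫ ψ (-Δ ψ) → Gf ρ g g`.
-/

set_option autoImplicit false

open MeasureTheory Metric Set Filter Topology Laplacian InnerProductSpace
open scoped ComplexConjugate ContDiff

namespace Crest.Agent.R161.Green722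

noncomputable section

theorem volume_annulus {a b : ℝ} (ha : 0 ≤ a) (hab : a ≤ b) :
    (volume : Measure ℂ).real (closedBall 0 b \ ball 0 a) = Real.pi * (b ^ 2 - a ^ 2) := by
  have h1 : (volume : Measure ℂ).real (closedBall 0 b) = Real.pi * b ^ 2 := by
    rw [Measure.real, Complex.volume_closedBall]
    simp [ENNReal.toReal_ofReal (ha.trans hab), mul_comm]
  have h2 : (volume : Measure ℂ).real (ball 0 a) = Real.pi * a ^ 2 := by
    rw [Measure.real, Complex.volume_ball]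
    simp [ENNReal.toReal_ofReal ha, mul_comm]
  rw [measureReal_sdiff (ball_subset_closedBall.trans (closedBall_subset_closedBall hab))
    isOpen_ball.measurableSet (isCompact_closedBall (0 : ℂ) b).measure_lt_top.ne, h1, h2]
  ring

theorem dirichlet_approx {ρ : ℝ} (h0 : 0 < ρ) {g : ℂ → ℝ} (hgs : ContDiff ℝ ∞ g)
    (hgc : HasCompactSupport g) (hs : tsupport g ⊆ ball (0 : ℂ) ρ) :
    ∃ C η0 : ℝ, 0 ≤ C ∧ 0 < η0 ∧ ∀ η, 0 < η → η < η0 → ∃ ψ : ℂ → ℝ, ContDiff ℝ ∞ ψ ∧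
      HasCompactSupport ψ ∧ (∀ w, ρ - η ≤ ‖w‖ → ψ w = 0) ∧ (∀ w, |ψ w| ≤ C) ∧
      (∀ w, |g w + (Δ ψ) w| ≤ C / η) ∧
      (∀ w, g w + (Δ ψ) w ≠ 0 → ρ - 2 * η ≤ ‖w‖ ∧ ‖w‖ ≤ ρ - η) ∧
      |∫ w, ψ w * (g w + (Δ ψ) w)| ≤ C * η ∧
      |(∫ w, ψ w * (-(Δ ψ) w)) - Gf ρ g g| ≤ C * η := by
  obtain ⟨r, hr, hrρ, hg⟩ := exists_Tst h0 hgs.continuous hgc hs
  obtain ⟨L, hL0, hL1, hL2⟩ := exists_lip h0 hr hrρ hg hgs hgc
  obtain ⟨M, hM0, hM1, hM2⟩ := smoothTransition_bdd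
  refine ⟨L * ρ + 20 * M * L + 80 * Real.pi * ρ * M * L ^ 2, min ((ρ - r) / 2) (ρ / 3), by positivity,
    lt_min (by linarith) (by linarith), fun η hη hη0 => ?_⟩
  have hη1 : η < (ρ - r) / 2 := hη0.trans_le (min_le_left _ _)
  have hη2 : η < ρ / 3 := hη0.trans_le (min_le_right _ _)
  set a := ρ - 2 * η with ha
  set b := ρ - η with hb
  have ha0 : 0 < a := by rw [ha]; linarith
  have hra : r < a := by rw [ha]; linarith
  have hab : a < b := by rw [ha, hb]; linarith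
  have hbρ : b < ρ := by rw [hb]; linarith
  have hb0 : 0 < b := ha0.trans hab
  have hab2 : η * ρ ≤ b ^ 2 - a ^ 2 := by
    rw [ha, hb]
    have : (ρ - η) ^ 2 - (ρ - 2 * η) ^ 2 = η * (2 * ρ - 3 * η) := by ring
    rw [this]
    exact mul_le_mul_of_nonneg_left (by linarith) hη.le
  have hab3 : b ^ 2 - a ^ 2 ≤ 2 * ρ * η := by
    rw [ha, hb]
    have : (ρ - η) ^ 2 - (ρ - 2 * η) ^ 2 = η * (2 * ρ - 3 * η) := by ring
    rw [this]
    nlinarith
  have hinv : (b ^ 2 - a ^ 2)⁻¹ ≤ (η * ρ)⁻¹ := inv_anti₀ (by positivity) hab2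
  have hk1 : (b ^ 2 - a ^ 2)⁻¹ * (2 * b) ≤ 2 / η := by
    calc (b ^ 2 - a ^ 2)⁻¹ * (2 * b) ≤ (η * ρ)⁻¹ * (2 * ρ) := by gcongr
      _ = 2 / η := by field_simp
  have hk0 : 0 ≤ (b ^ 2 - a ^ 2)⁻¹ * (2 * b) := by
    have : 0 < b ^ 2 - a ^ 2 := lt_of_lt_of_le (by positivity) hab2
    have : 0 < b := ha0.trans hab
    positivity
  have hk2 : 4 * (b ^ 2 - a ^ 2)⁻¹ ≤ 2 / η ^ 2 := by
    calc 4 * (b ^ 2 - a ^ 2)⁻¹ ≤ 4 * (η * ρ)⁻¹ := by gcongr
      _ ≤ 4 * (η * (3 * η))⁻¹ := by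
          gcongr
          linarith
      _ ≤ 2 / η ^ 2 := by
          rw [← div_eq_mul_inv, div_le_div_iff₀ (by positivity) (by positivity)]
          nlinarith [sq_nonneg η]
  -- the cutoff potential
  set ψ : ℂ → ℝ := fun w => chi a b w * Ue ρ g w with hψ
  have hDm : ∀ w : ℂ, ‖w‖ ≤ ρ → w ∈ Dm ρ r := fun w hw => mem_Dm h0 hr hrρ hw
  have hψ0 : ∀ w, b ≤ ‖w‖ → ψ w = 0 := fun w hw => by
    rw [hψ]; simp [chi_zero ha0.le hab hw]
  have hout : ∀ w, b < ‖w‖ → ψ =ᶠ[𝓝 w] fun _ => (0 : ℝ) := fun w hw => by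
    filter_upwards [(isOpen_lt continuous_const continuous_norm).mem_nhds hw] with y hy
    exact hψ0 y (le_of_lt hy)
  have hψs : ContDiff ℝ ∞ ψ := by
    rw [contDiff_iff_contDiffAt]
    intro w
    rcases le_or_gt ‖w‖ b with hw | hw
    · exact (contDiff_chi a b).contDiffAt.mul
        (contDiffAt_Ue hr hg hgs hgc (hDm w (hw.trans hbρ.le)))
    · exact contDiffAt_const.congr_of_eventuallyEq (hout w hw)
  have hψc : HasCompactSupport ψ := by
    refine HasCompactSupport.intro (isCompact_closedBall (0 : ℂ) b) fun w hw => hψ0 w ?_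
    rw [mem_closedBall_zero_iff, not_le] at hw
    exact hw.le
  have hlap0 : ∀ w, b < ‖w‖ → (Δ ψ) w = 0 := fun w hw => by
    rw [(laplacian_congr_nhds (hout w hw)).eq_of_nhds]
    have : (Δ (fun _ : ℂ => (0 : ℝ))) = fun _ => 0 := laplacian_const
    rw [this]
  have hlap1 : ∀ w, ‖w‖ < a → (Δ ψ) w = -g w := fun w hw => by
    have h1 : ψ =ᶠ[𝓝 w] Ue ρ g := by
      filter_upwards [(isOpen_lt continuous_norm continuous_const).mem_nhds hw] with y hy
      rw [hψ]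
      simp [chi_one ha0.le hab (le_of_lt hy)]
    rw [(laplacian_congr_nhds h1).eq_of_nhds]
    exact lap_Ue hr hg hgs hgc (hDm w (by linarith))
  have hU : ∀ w : ℂ, ‖w‖ ≤ ρ → |Ue ρ g w| ≤ L * (ρ - ‖w‖) := hL2
  have hmid : ∀ w, a ≤ ‖w‖ → ‖w‖ ≤ b → |(Δ ψ) w| ≤ 20 * M * L / η := by
    intro w h1 h2
    have hwρ : ‖w‖ ≤ ρ := h2.trans hbρ.le
    have hgw : g w = 0 := hg.supp w (hra.trans_le h1)
    obtain ⟨c1, c2⟩ := chi_bounds hM0 hM1 hM2 ha0.le hab h2
    have hle := lapC_mul_le (f := chi a b) (g := Ue ρ g) (z := w)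
      (contDiff_infty.mp (contDiff_chi a b) 2).contDiffAt
      ((contDiffAt_Ue hr hg hgs hgc (hDm w hwρ)).of_le (by norm_cast))
    rw [lap_Ue hr hg hgs hgc (hDm w hwρ), hgw, neg_zero, mul_zero, add_zero] at hle
    have d1 : ‖fderiv ℝ (chi a b) w‖ ≤ M * (2 / η) :=
      c1.trans (mul_le_mul_of_nonneg_left hk1 hM0)
    have d2 : |(Δ (chi a b)) w| ≤ M * (6 / η ^ 2) := by
      refine c2.trans ?_
      have e1 : ((b ^ 2 - a ^ 2)⁻¹ * (2 * b)) ^ 2 ≤ (2 / η) ^ 2 := pow_le_pow_left₀ hk0 hk1 2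
      calc M * ((b ^ 2 - a ^ 2)⁻¹ * (2 * b)) ^ 2 + M * (4 * (b ^ 2 - a ^ 2)⁻¹)
          ≤ M * (2 / η) ^ 2 + M * (2 / η ^ 2) := by gcongr
        _ = M * (6 / η ^ 2) := by ring
    have d3 : |Ue ρ g w| ≤ L * (2 * η) := by
      refine (hU w hwρ).trans (mul_le_mul_of_nonneg_left ?_ hL0)
      rw [ha] at h1
      linarith
    have d4 : ‖fderiv ℝ (Ue ρ g) w‖ ≤ L := hL1 w hwρ
    have e1 : |(Δ (chi a b)) w * Ue ρ g w| ≤ M * (6 / η ^ 2) * (L * (2 * η)) := by
      rw [abs_mul]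
      exact mul_le_mul d2 d3 (abs_nonneg _) (by positivity)
    have e2 : ‖fderiv ℝ (chi a b) w‖ * ‖fderiv ℝ (Ue ρ g) w‖ ≤ M * (2 / η) * L :=
      mul_le_mul d1 d4 (norm_nonneg _) (by positivity)
    have e3 : |(Δ ψ) w| ≤ |(Δ (chi a b)) w * Ue ρ g w| +
        4 * (‖fderiv ℝ (chi a b) w‖ * ‖fderiv ℝ (Ue ρ g) w‖) := by
      have h3 : |(Δ ψ) w| ≤ |(Δ (chi a b)) w * Ue ρ g w| +
          |(Δ ψ) w - (Δ (chi a b)) w * Ue ρ g w| := by
        have := abs_add_le ((Δ (chi a b)) w * Ue ρ g w) ((Δ ψ) w - (Δ (chi a b)) w * Ue ρ g w)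
        simpa using this
      exact h3.trans (add_le_add le_rfl hle)
    calc |(Δ ψ) w| ≤ M * (6 / η ^ 2) * (L * (2 * η)) + 4 * (M * (2 / η) * L) :=
          e3.trans (add_le_add e1 (mul_le_mul_of_nonneg_left e2 (by norm_num)))
      _ = 20 * M * L / η := by
          field_simp
          ring
  have hr1 : ∀ w, g w + (Δ ψ) w ≠ 0 → a ≤ ‖w‖ ∧ ‖w‖ ≤ b := by
    intro w hw
    constructor
    · by_contra h
      rw [not_le] at h
      exact hw (by rw [hlap1 w h]; ring)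
    · by_contra h
      rw [not_le] at h
      exact hw (by rw [hlap0 w h, hg.supp w ((hra.trans hab).trans h)]; ring)
  have hr2 : ∀ w, |g w + (Δ ψ) w| ≤ 20 * M * L / η := by
    intro w
    by_cases hw : g w + (Δ ψ) w = 0
    · rw [hw, abs_zero]; positivity
    · obtain ⟨h1, h2⟩ := hr1 w hw
      rw [hg.supp w (hra.trans_le h1), zero_add]
      exact hmid w h1 h2
  have hψb : ∀ w, |ψ w| ≤ L * ρ := by
    intro w
    rcases le_or_gt ‖w‖ b with hw | hw
    · rw [hψ]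
      simp only [abs_mul]
      have h1 := chi_mem a b w
      calc |chi a b w| * |Ue ρ g w| ≤ 1 * (L * (ρ - ‖w‖)) := by
            refine mul_le_mul ?_ (hU w (hw.trans hbρ.le)) (abs_nonneg _) zero_le_one
            rw [abs_of_nonneg h1.1]; exact h1.2
        _ ≤ L * ρ := by
            rw [one_mul]
            exact mul_le_mul_of_nonneg_left (by linarith [norm_nonneg w]) hL0
    · rw [hψ0 w hw.le, abs_zero]; positivity
  have hψm : ∀ w, a ≤ ‖w‖ → |ψ w| ≤ L * (2 * η) := by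
    intro w h1
    rcases le_or_gt ‖w‖ b with hw | hw
    · rw [hψ]
      simp only [abs_mul]
      have h2 := chi_mem a b w
      calc |chi a b w| * |Ue ρ g w| ≤ 1 * (L * (ρ - ‖w‖)) := by
            refine mul_le_mul ?_ (hU w (hw.trans hbρ.le)) (abs_nonneg _) zero_le_one
            rw [abs_of_nonneg h2.1]; exact h2.2
        _ ≤ L * (2 * η) := by
            rw [one_mul]
            rw [ha] at h1
            exact mul_le_mul_of_nonneg_left (by linarith) hL0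
    · rw [hψ0 w hw.le, abs_zero]; positivity
  have hint : |∫ w, ψ w * (g w + (Δ ψ) w)| ≤ 80 * Real.pi * ρ * M * L ^ 2 * η := by
    have h1 : ∫ w, ψ w * (g w + (Δ ψ) w) =
        ∫ w in closedBall (0 : ℂ) b \ ball 0 a, ψ w * (g w + (Δ ψ) w) := by
      rw [setIntegral_eq_integral_of_forall_compl_eq_zero]
      intro w hw
      have : g w + (Δ ψ) w = 0 := by
        by_contra h
        obtain ⟨h2, h3⟩ := hr1 w h
        exact hw ⟨by simpa using h3, by simpa using h2⟩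
      rw [this, mul_zero]
    rw [h1, ← Real.norm_eq_abs]
    have h2 : ∀ w ∈ closedBall (0 : ℂ) b \ ball 0 a, ‖ψ w * (g w + (Δ ψ) w)‖ ≤
        40 * M * L ^ 2 := by
      rintro w ⟨hw1, hw2⟩
      simp only [mem_closedBall, mem_ball, dist_zero_right, not_lt] at hw1 hw2
      rw [norm_mul, Real.norm_eq_abs, Real.norm_eq_abs]
      calc |ψ w| * |g w + (Δ ψ) w| ≤ L * (2 * η) * (20 * M * L / η) :=
            mul_le_mul (hψm w hw2) (hr2 w) (abs_nonneg _) (by positivity)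
        _ = 40 * M * L ^ 2 := by field_simp; ring
    have h3 : (volume : Measure ℂ) (closedBall (0 : ℂ) b \ ball 0 a) < ⊤ :=
      lt_of_le_of_lt (measure_mono sdiff_subset) (isCompact_closedBall (0 : ℂ) b).measure_lt_top
    refine (norm_setIntegral_le_of_norm_le_const h3 h2).trans ?_
    rw [volume_annulus ha0.le hab.le]
    calc 40 * M * L ^ 2 * (Real.pi * (b ^ 2 - a ^ 2)) ≤
        40 * M * L ^ 2 * (Real.pi * (2 * ρ * η)) := by gcongr
      _ = _ := by ring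
  have hπ := Real.pi_pos
  refine ⟨ψ, hψs, hψc, hψ0, fun w => (hψb w).trans ?_, fun w => (hr2 w).trans ?_, hr1,
    hint.trans ?_, ?_⟩
  · have : 0 ≤ 20 * M * L + 80 * Real.pi * ρ * M * L ^ 2 := by positivity
    linarith
  · gcongr
    have : 0 ≤ L * ρ + 80 * Real.pi * ρ * M * L ^ 2 := by positivity
    linarith
  · gcongr
    have : 0 ≤ L * ρ + 20 * M * L := by positivity
    linarith
  · have hc1 : Continuous (Δ ψ) := continuous_lapC (contDiff_infty.mp hψs 2)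
    have hc2 : HasCompactSupport (Δ ψ) := hasCompactSupport_lapC hψc
    have i1 : Integrable fun w => ψ w * g w :=
      (hψs.continuous.mul hgs.continuous).integrable_of_hasCompactSupport hgc.mul_left
    have i2 : Integrable fun w => ψ w * (g w + (Δ ψ) w) :=
      (hψs.continuous.mul (hgs.continuous.add hc1)).integrable_of_hasCompactSupport hψc.mul_right
    have e1 : ∫ w, ψ w * (-(Δ ψ) w) = (∫ w, ψ w * g w) - ∫ w, ψ w * (g w + (Δ ψ) w) := by
      rw [← integral_sub i1 i2]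
      congr 1
      funext w
      ring
    have e2 : ∫ w, ψ w * g w = Gf ρ g g := by
      rw [Gf_eq_U]
      congr 1
      funext w
      rcases le_or_gt ‖w‖ r with hw | hw
      · rw [U_eq_Ue h0 hr hrρ hg (hw.trans hrρ.le), hψ]
        simp only [chi_one ha0.le hab (hw.trans hra.le), one_mul]
        ring
      · rw [hg.supp w hw]; ring
    rw [e1, e2]
    have : Gf ρ g g - (∫ w, ψ w * (g w + (Δ ψ) w)) - Gf ρ g g =
      -(∫ w, ψ w * (g w + (Δ ψ) w)) := by ring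
    rw [this, abs_neg]
    refine hint.trans ?_
    gcongr
    have : 0 ≤ L * ρ + 20 * M * L := by positivity
    linarith

end

end Crest.Agent.R161.Green722
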