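import Mathlib
import Crest.Prelude.Def_AshkinTeller
import Crest.Agent.R161.Geo_729

/-!
Row 161 (S0242): geometry of the lattice discs.

`mm i = max |i| |i+1|` is the largest absolute value of a coordinate on the cell `[i, i+1]`; the
square with lower left corner `(i, j)` has its four corners in the open disc of radius `√ρ` iff
`mm i ^ 2 + mm j ^ 2 < ρ`.  `Fc ρ` is the set of these squares, `faces δ = Fc ((δ⁻¹)^2)`.
-/

set_option autoImplicit false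

namespace Crest.Agent.R161.Geo132

open Finset
open Crest.ProbabilityR.AshkinTeller
open Crest.Agent.R161.Geo729

/-- Largest absolute value of the two endpoints of the cell `[i, i+1]`. -/
def mm (i : ℤ) : ℤ := max |i| |i + 1|

theorem mm_of_nonneg {i : ℤ} (h : 0 ≤ i) : mm i = i + 1 := by
  unfold mm
  rw [abs_of_nonneg h, abs_of_nonneg (by linarith)]
  exact max_eq_right (by linarith)

theorem mm_of_neg {i : ℤ} (h : i < 0) : mm i = -i := by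
  unfold mm
  rw [abs_of_neg h, abs_of_nonpos (by linarith)]
  exact max_eq_left (by linarith)

theorem one_le_mm (i : ℤ) : 1 ≤ mm i := by
  rcases lt_or_ge i 0 with h | h
  · rw [mm_of_neg h]; linarith
  · rw [mm_of_nonneg h]; linarith

theorem mm_nonneg (i : ℤ) : 0 ≤ mm i := le_trans zero_le_one (one_le_mm i)

theorem mm_zero : mm 0 = 1 := by rw [mm_of_nonneg le_rfl]; norm_num

theorem mm_neg_one : mm (-1) = 1 := by rw [mm_of_neg (by norm_num)]; norm_num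

/-- reflection `i ↦ -1 - i` of the cells -/
theorem mm_reflect (i : ℤ) : mm (-1 - i) = mm i := by
  rcases lt_or_ge i 0 with h | h
  · rw [mm_of_neg h, mm_of_nonneg (by linarith)]; ring
  · rw [mm_of_nonneg h, mm_of_neg (by linarith)]; ring

theorem abs_le_mm (i : ℤ) : |i| ≤ mm i := le_max_left _ _
theorem abs_succ_le_mm (i : ℤ) : |i + 1| ≤ mm i := le_max_right _ _

theorem mm_le_abs_succ (i : ℤ) : mm i ≤ |i| + 1 := by
  rcases lt_or_ge i 0 with h | h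
  · rw [mm_of_neg h, abs_of_neg h]; linarith
  · rw [mm_of_nonneg h, abs_of_nonneg h]

/-- convexity along a row -/
theorem mm_le_max {i m k : ℤ} (h1 : i ≤ m) (h2 : m ≤ k) : mm m ≤ max (mm i) (mm k) := by
  rcases lt_or_ge m 0 with h | h
  · refine le_trans ?_ (le_max_left _ _)
    rw [mm_of_neg h, mm_of_neg (by linarith)]; linarith
  · refine le_trans ?_ (le_max_right _ _)
    rw [mm_of_nonneg h, mm_of_nonneg (by linarith)]; linarith

theorem mm_mono_of_nonneg {i k : ℤ} (h : 0 ≤ i) (h2 : i ≤ k) : mm i ≤ mm k := by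
  rw [mm_of_nonneg h, mm_of_nonneg (by linarith)]; linarith

theorem mm_anti_of_neg {i k : ℤ} (h : k < 0) (h2 : i ≤ k) : mm k ≤ mm i := by
  rw [mm_of_neg h, mm_of_neg (by linarith)]; linarith

/-- The squares all of whose corners have squared norm `< ρ`. -/
noncomputable def Fc (ρ : ℝ) : Finset (ℤ × ℤ) :=
  haveI := Classical.decPred fun f : ℤ × ℤ => ((mm f.1 ^ 2 + mm f.2 ^ 2 : ℤ) : ℝ) < ρ
  ((Finset.Icc (-(⌈ρ⌉ : ℤ)) ⌈ρ⌉) ×ˢ (Finset.Icc (-(⌈ρ⌉ : ℤ)) ⌈ρ⌉)).filter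
    fun f : ℤ × ℤ => ((mm f.1 ^ 2 + mm f.2 ^ 2 : ℤ) : ℝ) < ρ

theorem abs_le_sq (i : ℤ) : |i| ≤ i ^ 2 := by
  rw [← sq_abs]
  rcases eq_or_ne i 0 with h | h
  · simp [h]
  · have : 1 ≤ |i| := Int.one_le_abs h
    nlinarith

theorem mem_Fc {ρ : ℝ} {f : ℤ × ℤ} :
    f ∈ Fc ρ ↔ ((mm f.1 ^ 2 + mm f.2 ^ 2 : ℤ) : ℝ) < ρ := by
  classical
  unfold Fc
  simp only [Finset.mem_filter, Finset.mem_product, Finset.mem_Icc, and_iff_right_iff_imp]
  intro h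
  have key : ∀ i : ℤ, ((mm i : ℤ) : ℝ) < ρ → -⌈ρ⌉ ≤ i ∧ i ≤ ⌈ρ⌉ := by
    intro i hi
    have h1 : (mm i : ℝ) < ((⌈ρ⌉ : ℤ) : ℝ) := lt_of_lt_of_le hi (Int.le_ceil ρ)
    have h2 : mm i < ⌈ρ⌉ := by exact_mod_cast h1
    have h3 := abs_le_mm i
    have h4 := abs_le.mp (le_trans h3 h2.le)
    exact ⟨h4.1, h4.2⟩
  have hb : ∀ i j : ℤ, ((mm i ^ 2 + mm j ^ 2 : ℤ) : ℝ) < ρ → ((mm i : ℤ) : ℝ) < ρ := by
    intro i j hij
    refine lt_of_le_of_lt ?_ hij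
    have h1 : mm i ≤ mm i ^ 2 + mm j ^ 2 := by
      have := one_le_mm i
      nlinarith [sq_nonneg (mm j)]
    exact_mod_cast h1
  refine ⟨key _ (hb _ _ h), key _ (hb f.2 f.1 ?_)⟩
  rw [add_comm]; exact h

/-! ### The squared norm of lattice points -/

theorem norm_pos_sq (δ : ℝ) (v : ℤ × ℤ) :
    ‖pos δ v‖ ^ 2 = δ ^ 2 * ((v.1 ^ 2 + v.2 ^ 2 : ℤ) : ℝ) := by
  unfold pos
  rw [norm_mul, mul_pow, Complex.norm_real, Real.norm_eq_abs, sq_abs]
  congr 1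
  rw [← Complex.normSq_eq_norm_sq, Complex.normSq_apply]
  simp
  ring

theorem norm_pos_lt {δ : ℝ} (hδ : 0 < δ) {r : ℝ} (hr : 0 ≤ r) (v : ℤ × ℤ) :
    ‖pos δ v‖ < r ↔ ((v.1 ^ 2 + v.2 ^ 2 : ℤ) : ℝ) < (r / δ) ^ 2 := by
  have h1 : ‖pos δ v‖ < r ↔ ‖pos δ v‖ ^ 2 < r ^ 2 :=
    ⟨fun h => by nlinarith [norm_nonneg (pos δ v)], fun h => lt_of_pow_lt_pow_left₀ 2 hr h⟩
  rw [h1, norm_pos_sq, div_pow, lt_div_iff₀ (by positivity), mul_comm]

theorem norm_pos_lt_one {δ : ℝ} (hδ : 0 < δ) (v : ℤ × ℤ) :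
    ‖pos δ v‖ < 1 ↔ ((v.1 ^ 2 + v.2 ^ 2 : ℤ) : ℝ) < (δ⁻¹) ^ 2 := by
  rw [norm_pos_lt hδ zero_le_one, one_div]

theorem mm_sq (i : ℤ) : mm i ^ 2 = max (i ^ 2) ((i + 1) ^ 2) := by
  rcases lt_or_ge i 0 with h | h
  · rw [mm_of_neg h, max_eq_left (by nlinarith)]; ring
  · rw [mm_of_nonneg h, max_eq_right (by nlinarith)]

theorem isDomainFace_iff {δ : ℝ} (hδ : 0 < δ) (f : ℤ × ℤ) :
    IsDomainFace δ f ↔ f ∈ Fc ((δ⁻¹) ^ 2) := by
  unfold IsDomainFace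
  rw [norm_pos_lt_one hδ, norm_pos_lt_one hδ, norm_pos_lt_one hδ, norm_pos_lt_one hδ, mem_Fc]
  have key : ∀ {a b x y : ℤ} {r : ℝ}, ((a + x : ℤ) : ℝ) < r → ((b + x : ℤ) : ℝ) < r →
      ((a + y : ℤ) : ℝ) < r → ((b + y : ℤ) : ℝ) < r → ((max a b + max x y : ℤ) : ℝ) < r := by
    intro a b x y r h1 h2 h3 h4
    rcases max_choice a b with h | h <;> rcases max_choice x y with h' | h' <;>
      rw [h, h'] <;> assumption
  constructor
  · rintro ⟨h1, h2, h3, h4⟩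
    rw [mm_sq, mm_sq]
    exact key h1 h2 h3 h4
  · intro h
    have hb : ∀ {x y : ℤ}, |x| ≤ mm f.1 → |y| ≤ mm f.2 →
        ((x ^ 2 + y ^ 2 : ℤ) : ℝ) < (δ⁻¹) ^ 2 := by
      intro x y hx hy
      refine lt_of_le_of_lt ?_ h
      have h1 : x ^ 2 ≤ mm f.1 ^ 2 := by
        rw [← sq_abs]; exact pow_le_pow_left₀ (abs_nonneg _) hx 2
      have h2 : y ^ 2 ≤ mm f.2 ^ 2 := by
        rw [← sq_abs]; exact pow_le_pow_left₀ (abs_nonneg _) hy 2
      exact_mod_cast add_le_add h1 h2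
    exact ⟨hb (abs_le_mm _) (abs_le_mm _), hb (abs_succ_le_mm _) (abs_le_mm _),
      hb (abs_le_mm _) (abs_succ_le_mm _), hb (abs_succ_le_mm _) (abs_succ_le_mm _)⟩

theorem faces_eq {δ : ℝ} (hδ : 0 < δ) : faces δ = Fc ((δ⁻¹) ^ 2) := by
  classical
  ext f
  rw [← isDomainFace_iff hδ]
  unfold faces
  simp only [Finset.mem_filter, Finset.mem_product, Finset.mem_Icc, and_iff_right_iff_imp]
  intro h
  have key : ∀ i j : ℤ, ((i ^ 2 + j ^ 2 : ℤ) : ℝ) < (δ⁻¹) ^ 2 →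
      -⌈2 / δ⌉ - 1 ≤ i ∧ i ≤ ⌈2 / δ⌉ + 1 := by
    intro i j hij
    have h1 : (i : ℝ) ^ 2 < (δ⁻¹) ^ 2 := by
      refine lt_of_le_of_lt ?_ hij
      push_cast
      nlinarith [sq_nonneg (j : ℝ)]
    have h2 : |(i : ℝ)| < δ⁻¹ := by
      have := abs_lt_of_sq_lt_sq h1 (by positivity)
      exact this
    have h3 : δ⁻¹ ≤ ((⌈2 / δ⌉ : ℤ) : ℝ) := by
      refine le_trans ?_ (Int.le_ceil _)
      rw [inv_eq_one_div]
      gcongr
      norm_num
    have h4 : ((|i| : ℤ) : ℝ) < ((⌈2 / δ⌉ : ℤ) : ℝ) := by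
      push_cast
      exact lt_of_lt_of_le h2 h3
    have h5 : |i| < ⌈2 / δ⌉ := by exact_mod_cast h4
    have h6 := abs_lt.mp h5
    exact ⟨by linarith [h6.1], by linarith [h6.2]⟩
  have h1 := (norm_pos_lt_one hδ f).mp h.1
  refine ⟨key _ _ h1, key f.2 f.1 ?_⟩
  rw [add_comm]; exact h1

theorem mem_faces {δ : ℝ} (hδ : 0 < δ) {f : ℤ × ℤ} :
    f ∈ faces δ ↔ ((mm f.1 ^ 2 + mm f.2 ^ 2 : ℤ) : ℝ) < (δ⁻¹) ^ 2 := by
  rw [faces_eq hδ, mem_Fc]

/-! ### Order and symmetry -/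

theorem Fc_mono {ρ ρ' : ℝ} (h : ρ ≤ ρ') : Fc ρ ⊆ Fc ρ' := by
  intro f hf
  rw [mem_Fc] at hf ⊢
  linarith

/-- The key monotonicity: `Fc` is a lower set for `(mm, mm)`. -/
theorem mem_of_mm_le {ρ : ℝ} {f g : ℤ × ℤ} (hf : f ∈ Fc ρ) (h1 : mm g.1 ≤ mm f.1)
    (h2 : mm g.2 ≤ mm f.2) : g ∈ Fc ρ := by
  rw [mem_Fc] at hf ⊢
  refine lt_of_le_of_lt ?_ hf
  have h3 : mm g.1 ^ 2 ≤ mm f.1 ^ 2 := pow_le_pow_left₀ (mm_nonneg _) h1 2
  have h4 : mm g.2 ^ 2 ≤ mm f.2 ^ 2 := pow_le_pow_left₀ (mm_nonneg _) h2 2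
  exact_mod_cast add_le_add h3 h4

theorem Fc_swap {ρ : ℝ} {f : ℤ × ℤ} : (f.2, f.1) ∈ Fc ρ ↔ f ∈ Fc ρ := by
  rw [mem_Fc, mem_Fc, add_comm]

theorem Fc_reflect_fst {ρ : ℝ} {f : ℤ × ℤ} : (-1 - f.1, f.2) ∈ Fc ρ ↔ f ∈ Fc ρ := by
  rw [mem_Fc, mem_Fc, mm_reflect]

theorem Fc_reflect_snd {ρ : ℝ} {f : ℤ × ℤ} : (f.1, -1 - f.2) ∈ Fc ρ ↔ f ∈ Fc ρ := by
  rw [mem_Fc, mem_Fc, mm_reflect]

theorem Fc_row_convex {ρ : ℝ} {i m k j : ℤ} (h1 : (i, j) ∈ Fc ρ) (h2 : (k, j) ∈ Fc ρ)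
    (him : i ≤ m) (hmk : m ≤ k) : (m, j) ∈ Fc ρ := by
  rcases le_total (mm i) (mm k) with h | h
  · exact mem_of_mm_le h2 (le_trans (mm_le_max him hmk) (max_le h le_rfl)) le_rfl
  · exact mem_of_mm_le h1 (le_trans (mm_le_max him hmk) (max_le le_rfl h)) le_rfl

theorem Fc_col_convex {ρ : ℝ} {i j m k : ℤ} (h1 : (i, j) ∈ Fc ρ) (h2 : (i, k) ∈ Fc ρ)
    (hjm : j ≤ m) (hmk : m ≤ k) : (i, m) ∈ Fc ρ :=
  (Fc_swap (f := (i, m))).mp (Fc_row_convex ((Fc_swap (f := (i, j))).mpr h1)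
    ((Fc_swap (f := (i, k))).mpr h2) hjm hmk)

/-- rays: a non-face stays a non-face when moved away from the axis -/
theorem not_mem_right {ρ : ℝ} {i j : ℤ} (h : (i, j) ∉ Fc ρ) (hi : 0 ≤ i) {k : ℤ} (hk : i ≤ k) :
    (k, j) ∉ Fc ρ := fun hc => h (mem_of_mm_le hc (mm_mono_of_nonneg hi hk) le_rfl)

theorem not_mem_left {ρ : ℝ} {i j : ℤ} (h : (i, j) ∉ Fc ρ) (hi : i < 0) {k : ℤ} (hk : k ≤ i) :
    (k, j) ∉ Fc ρ := fun hc => h (mem_of_mm_le hc (mm_anti_of_neg hi hk) le_rfl)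

theorem not_mem_up {ρ : ℝ} {i j : ℤ} (h : (i, j) ∉ Fc ρ) (hj : 0 ≤ j) {k : ℤ} (hk : j ≤ k) :
    (i, k) ∉ Fc ρ := fun hc => h (mem_of_mm_le hc le_rfl (mm_mono_of_nonneg hj hk))

theorem not_mem_down {ρ : ℝ} {i j : ℤ} (h : (i, j) ∉ Fc ρ) (hj : j < 0) {k : ℤ} (hk : k ≤ j) :
    (i, k) ∉ Fc ρ := fun hc => h (mem_of_mm_le hc le_rfl (mm_anti_of_neg hj hk))

/-! ### Connectedness -/

theorem conn_row {S : Set P2} {i j : ℤ} (n : ℕ) (h : ∀ m : ℤ, i ≤ m → m ≤ i + n → (m, j) ∈ S) :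
    Conn S (i, j) (i + n, j) := by
  induction n with
  | zero => simp only [Nat.cast_zero, add_zero]; exact Relation.ReflTransGen.refl
  | succ n ih =>
    have h0 : (0:ℤ) ≤ n := Int.natCast_nonneg n
    refine Relation.ReflTransGen.tail (ih fun m h1 h2 => h m h1 (by push_cast; linarith)) ?_
    refine ⟨h _ (by linarith) (by push_cast; linarith), h _ (by push_cast; linarith) le_rfl, ?_⟩
    left
    ext
    · push_cast; ring
    · rfl

theorem conn_row' {S : Set P2} {i k j : ℤ}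
    (h : ∀ m : ℤ, min i k ≤ m → m ≤ max i k → (m, j) ∈ S) :
    Conn S (i, j) (k, j) := by
  rcases le_total i k with hik | hik
  · obtain ⟨n, hn⟩ := Int.eq_ofNat_of_zero_le (sub_nonneg.mpr hik)
    have hk : k = i + n := by linarith
    rw [hk]
    refine conn_row n fun m h1 h2 => h m ?_ ?_
    · exact le_trans (min_le_left _ _) h1
    · exact le_trans (by linarith) (le_max_right _ _)
  · obtain ⟨n, hn⟩ := Int.eq_ofNat_of_zero_le (sub_nonneg.mpr hik)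
    have hk : i = k + n := by linarith
    rw [hk] at h ⊢
    refine (conn_row n fun m h1 h2 => h m ?_ ?_).symm
    · exact le_trans (min_le_right _ _) h1
    · exact le_trans h2 (le_max_left _ _)

/-- transposition of the plane preserves connections -/
theorem Conn.swap {S : Set P2} {f g : P2} (h : Conn S f g) :
    Conn {p : P2 | (p.2, p.1) ∈ S} (f.2, f.1) (g.2, g.1) := by
  induction h with
  | refl => exact Relation.ReflTransGen.refl
  | tail _ h2 ih =>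
    refine Relation.ReflTransGen.tail ih ⟨h2.1, h2.2.1, ?_⟩
    rcases h2.2.2 with e | e | e | e <;> rw [e]
    · exact Or.inr (Or.inr (Or.inl rfl))
    · exact Or.inr (Or.inr (Or.inr rfl))
    · exact Or.inl rfl
    · exact Or.inr (Or.inl rfl)

theorem conn_col' {S : Set P2} {i j k : ℤ}
    (h : ∀ m : ℤ, min j k ≤ m → m ≤ max j k → (i, m) ∈ S) :
    Conn S (i, j) (i, k) := by
  have := (conn_row' (S := {p : P2 | (p.2, p.1) ∈ S}) (i := j) (k := k) (j := i) h)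
  exact Conn.swap this

theorem Fc_nonempty_iff {ρ : ℝ} : ((0, 0) : P2) ∈ Fc ρ ↔ 2 < ρ := by
  rw [mem_Fc]
  simp only [mm_zero]
  norm_num

theorem zero_mem_of_mem {ρ : ℝ} {f : ℤ × ℤ} (h : f ∈ Fc ρ) : ((0, 0) : P2) ∈ Fc ρ :=
  mem_of_mm_le h (by rw [mm_zero]; exact one_le_mm _) (by rw [mm_zero]; exact one_le_mm _)

/-- every face is joined to `(0,0)` inside `Fc ρ` through side-adjacent faces -/
theorem Fc_conn_zero {ρ : ℝ} {f : ℤ × ℤ} (hf : f ∈ Fc ρ) :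
    Conn (↑(Fc ρ) : Set P2) f (0, 0) := by
  obtain ⟨i, j⟩ := f
  have h1 : ((0, j) : P2) ∈ Fc ρ := mem_of_mm_le hf (by rw [mm_zero]; exact one_le_mm _) le_rfl
  have h2 : ((0, 0) : P2) ∈ Fc ρ := zero_mem_of_mem hf
  have c1 : Conn (↑(Fc ρ) : Set P2) (i, j) (0, j) := by
    apply conn_row'
    intro m hm1 hm2
    rw [Finset.mem_coe]
    rcases le_total i 0 with h | h
    · rw [min_eq_left h] at hm1; rw [max_eq_right h] at hm2
      exact Fc_row_convex hf h1 hm1 hm2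
    · rw [min_eq_right h] at hm1; rw [max_eq_left h] at hm2
      exact Fc_row_convex h1 hf hm1 hm2
  have c2 : Conn (↑(Fc ρ) : Set P2) (0, j) (0, 0) := by
    apply conn_col'
    intro m hm1 hm2
    rw [Finset.mem_coe]
    rcases le_total j 0 with h | h
    · rw [min_eq_left h] at hm1; rw [max_eq_right h] at hm2
      exact Fc_col_convex h1 h2 hm1 hm2
    · rw [min_eq_right h] at hm1; rw [max_eq_left h] at hm2
      exact Fc_col_convex h2 h1 hm1 hm2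
  exact c1.trans c2

theorem isConn_Fc (ρ : ℝ) : IsConn (↑(Fc ρ) : Set P2) := fun _ hf _ hg =>
  (Fc_conn_zero hf).trans (Fc_conn_zero hg).symm

theorem not_mem_of_far {ρ : ℝ} {f : P2} (h : ⌈ρ⌉ < |f.1| ∨ ⌈ρ⌉ < |f.2|) : f ∉ Fc ρ := by
  intro hc
  rw [mem_Fc] at hc
  have key : ∀ i j : ℤ, ((mm i ^ 2 + mm j ^ 2 : ℤ) : ℝ) < ρ → |i| ≤ ⌈ρ⌉ := by
    intro i j hij
    have h1 : |i| ≤ mm i ^ 2 + mm j ^ 2 := by
      have := one_le_mm i
      have := abs_le_mm i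
      nlinarith [sq_nonneg (mm j)]
    have h2 : ((mm i ^ 2 + mm j ^ 2 : ℤ) : ℝ) < ((⌈ρ⌉ : ℤ) : ℝ) := lt_of_lt_of_le hij (Int.le_ceil ρ)
    have h3 : mm i ^ 2 + mm j ^ 2 < ⌈ρ⌉ := by exact_mod_cast h2
    linarith
  rcases h with h | h
  · exact absurd (key _ _ hc) (not_le.mpr h)
  · rw [add_comm] at hc
    exact absurd (key _ _ hc) (not_le.mpr h)

/-- **The complement of a lattice disc is connected.** -/
theorem sc_Fc (ρ : ℝ) : SC (↑(Fc ρ) : Set P2) := by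
  set N : ℤ := |⌈ρ⌉| + 1 with hN
  have hN1 : ⌈ρ⌉ < N := by have := le_abs_self ⌈ρ⌉; linarith
  have hN0 : 0 < N := by have := abs_nonneg ⌈ρ⌉; linarith
  have key : ∀ f : P2, f ∈ (↑(Fc ρ) : Set P2)ᶜ → Conn (↑(Fc ρ) : Set P2)ᶜ f (N, N) := by
    rintro ⟨i, j⟩ hf
    have hf' : (i, j) ∉ Fc ρ := hf
    -- horizontally out to `|x| ≥ N`
    obtain ⟨k, hk, ck⟩ : ∃ k : ℤ, N ≤ |k| ∧ Conn (↑(Fc ρ) : Set P2)ᶜ (i, j) (k, j) := by
      rcases lt_or_ge i 0 with h | h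
      · refine ⟨min i (-N), ?_, ?_⟩
        · rw [abs_of_neg (lt_of_le_of_lt (min_le_left _ _) h)]
          have := min_le_right i (-N)
          linarith
        · apply conn_row'
          intro m hm1 hm2
          have hm3 : m ≤ i := by
            rw [max_eq_left (min_le_left _ _)] at hm2; exact hm2
          exact not_mem_left hf' h hm3
      · refine ⟨max i N, ?_, ?_⟩
        · exact le_trans (le_max_right i N) (le_abs_self _)
        · apply conn_row'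
          intro m hm1 hm2
          have hm3 : i ≤ m := by
            rw [min_eq_left (le_max_left _ _)] at hm1; exact hm1
          exact not_mem_right hf' h hm3
    have c2 : Conn (↑(Fc ρ) : Set P2)ᶜ (k, j) (k, N) := by
      apply conn_col'
      intro m _ _
      exact not_mem_of_far (Or.inl (lt_of_lt_of_le hN1 hk))
    have c3 : Conn (↑(Fc ρ) : Set P2)ᶜ (k, N) (N, N) := by
      apply conn_row'
      intro m _ _
      exact not_mem_of_far (Or.inr (by rw [abs_of_pos hN0]; exact hN1))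
    exact (ck.trans c2).trans c3
  intro f hf g hg
  exact (key f hf).trans (key g hg).symm

theorem sc_faces {δ : ℝ} (hδ : 0 < δ) : SC (↑(faces δ) : Set P2) := by
  rw [faces_eq hδ]; exact sc_Fc _

theorem isConn_faces {δ : ℝ} (hδ : 0 < δ) : IsConn (↑(faces δ) : Set P2) := by
  rw [faces_eq hδ]; exact isConn_Fc _

/-! ### Vertices -/

/-- some square around the vertex is a face -/
def TouchV (F : Finset (ℤ × ℤ)) (v : ℤ × ℤ) : Prop :=
  (v.1, v.2) ∈ F ∨ (v.1 - 1, v.2) ∈ F ∨ (v.1, v.2 - 1) ∈ F ∨ (v.1 - 1, v.2 - 1) ∈ F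

theorem isBdryVert_iff {δ : ℝ} {v : ℤ × ℤ} :
    IsBdryVert δ v ↔ ¬ IntV (↑(faces δ) : Set P2) v := Iff.rfl

theorem touchV_iff (F : Finset (ℤ × ℤ)) (v : P2) : TouchV F v ↔ ∃ f ∈ F, IsCorner v f := by
  simp only [isCorner_iff]
  constructor
  · rintro (h | h | h | h)
    · exact ⟨_, h, Or.inl rfl⟩
    · exact ⟨_, h, Or.inr (Or.inl rfl)⟩
    · exact ⟨_, h, Or.inr (Or.inr (Or.inl rfl))⟩
    · exact ⟨_, h, Or.inr (Or.inr (Or.inr rfl))⟩
  · rintro ⟨f, hf, rfl | rfl | rfl | rfl⟩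
    · exact Or.inl hf
    · exact Or.inr (Or.inl hf)
    · exact Or.inr (Or.inr (Or.inl hf))
    · exact Or.inr (Or.inr (Or.inr hf))

theorem mem_verts {δ : ℝ} {v : ℤ × ℤ} : v ∈ verts δ ↔ TouchV (faces δ) v := by
  classical
  unfold verts
  simp only [Finset.mem_filter, Finset.mem_product, Finset.mem_Icc]
  refine ⟨fun h => h.2, fun h => ⟨?_, h⟩⟩
  have key : ∀ f : ℤ × ℤ, f ∈ faces δ → (-⌈2 / δ⌉ - 1 ≤ f.1 ∧ f.1 ≤ ⌈2 / δ⌉ + 1) ∧
      (-⌈2 / δ⌉ - 1 ≤ f.2 ∧ f.2 ≤ ⌈2 / δ⌉ + 1) := by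
    intro f hf
    unfold faces at hf
    simp only [Finset.mem_filter, Finset.mem_product, Finset.mem_Icc] at hf
    exact hf.1
  rcases h with h | h | h | h
  · obtain ⟨⟨h1, h2⟩, h3, h4⟩ := key _ h
    simp only at h1 h2 h3 h4
    exact ⟨⟨by linarith, by linarith⟩, by linarith, by linarith⟩
  · obtain ⟨⟨h1, h2⟩, h3, h4⟩ := key _ h
    simp only at h1 h2 h3 h4
    exact ⟨⟨by linarith, by linarith⟩, by linarith, by linarith⟩
  · obtain ⟨⟨h1, h2⟩, h3, h4⟩ := key _ h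
    simp only at h1 h2 h3 h4
    exact ⟨⟨by linarith, by linarith⟩, by linarith, by linarith⟩
  · obtain ⟨⟨h1, h2⟩, h3, h4⟩ := key _ h
    simp only at h1 h2 h3 h4
    exact ⟨⟨by linarith, by linarith⟩, by linarith, by linarith⟩

theorem max_mm (a : ℤ) : max (mm a) (mm (a - 1)) = |a| + 1 := by
  rcases lt_trichotomy a 0 with h | h | h
  · rw [mm_of_neg h, mm_of_neg (by linarith), abs_of_neg h, max_eq_right (by linarith)]; ring
  · subst h
    norm_num [mm_zero, mm_neg_one]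
  · rw [mm_of_nonneg h.le, mm_of_nonneg (by omega), abs_of_pos h, max_eq_left (by linarith)]

theorem min_mm (a : ℤ) : min (mm a) (mm (a - 1)) = max |a| 1 := by
  rcases lt_trichotomy a 0 with h | h | h
  · rw [mm_of_neg h, mm_of_neg (by linarith), abs_of_neg h, min_eq_left (by linarith),
      max_eq_left (by omega)]
  · subst h
    norm_num [mm_zero, mm_neg_one]
  · rw [mm_of_nonneg h.le, mm_of_nonneg (by omega), abs_of_pos h, min_eq_right (by linarith),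
      max_eq_left (by omega)]
    ring

theorem innerV_Fc {ρ : ℝ} {v : ℤ × ℤ} :
    IntV (↑(Fc ρ) : Set P2) v ↔ (((|v.1| + 1) ^ 2 + (|v.2| + 1) ^ 2 : ℤ) : ℝ) < ρ := by
  unfold IntV
  simp only [Finset.mem_coe, mem_Fc]
  constructor
  · rintro ⟨h1, h2, h3, h4⟩
    rw [← max_mm, ← max_mm]
    rcases max_choice (mm v.1) (mm (v.1 - 1)) with h | h <;>
      rcases max_choice (mm v.2) (mm (v.2 - 1)) with h' | h' <;> rw [h, h'] <;> assumption
  · intro h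
    have key : ∀ {x y : ℤ}, 0 ≤ x → 0 ≤ y → x ≤ |v.1| + 1 → y ≤ |v.2| + 1 →
        ((x ^ 2 + y ^ 2 : ℤ) : ℝ) < ρ := by
      intro x y hx hy h1 h2
      refine lt_of_le_of_lt ?_ h
      exact_mod_cast add_le_add (pow_le_pow_left₀ hx h1 2) (pow_le_pow_left₀ hy h2 2)
    have e1 : mm v.1 ≤ |v.1| + 1 := by rw [← max_mm]; exact le_max_left _ _
    have e2 : mm (v.1 - 1) ≤ |v.1| + 1 := by rw [← max_mm]; exact le_max_right _ _
    have e3 : mm v.2 ≤ |v.2| + 1 := by rw [← max_mm]; exact le_max_left _ _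
    have e4 : mm (v.2 - 1) ≤ |v.2| + 1 := by rw [← max_mm]; exact le_max_right _ _
    exact ⟨key (mm_nonneg _) (mm_nonneg _) e1 e3, key (mm_nonneg _) (mm_nonneg _) e2 e3,
      key (mm_nonneg _) (mm_nonneg _) e1 e4, key (mm_nonneg _) (mm_nonneg _) e2 e4⟩

theorem touchV_Fc {ρ : ℝ} {v : ℤ × ℤ} :
    TouchV (Fc ρ) v ↔ ((max |v.1| 1 ^ 2 + max |v.2| 1 ^ 2 : ℤ) : ℝ) < ρ := by
  unfold TouchV
  simp only [mem_Fc]
  constructor
  · intro h
    have key : ∀ {x y : ℤ}, max |v.1| 1 ≤ x → max |v.2| 1 ≤ y →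
        ((x ^ 2 + y ^ 2 : ℤ) : ℝ) < ρ →
        ((max |v.1| 1 ^ 2 + max |v.2| 1 ^ 2 : ℤ) : ℝ) < ρ := by
      intro x y h1 h2 h3
      refine lt_of_le_of_lt ?_ h3
      have a1 : 0 ≤ max |v.1| 1 := le_trans (abs_nonneg _) (le_max_left _ _)
      have a2 : 0 ≤ max |v.2| 1 := le_trans (abs_nonneg _) (le_max_left _ _)
      exact_mod_cast add_le_add (pow_le_pow_left₀ a1 h1 2) (pow_le_pow_left₀ a2 h2 2)
    have e1 : max |v.1| 1 ≤ mm v.1 := by rw [← min_mm]; exact min_le_left _ _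
    have e2 : max |v.1| 1 ≤ mm (v.1 - 1) := by rw [← min_mm]; exact min_le_right _ _
    have e3 : max |v.2| 1 ≤ mm v.2 := by rw [← min_mm]; exact min_le_left _ _
    have e4 : max |v.2| 1 ≤ mm (v.2 - 1) := by rw [← min_mm]; exact min_le_right _ _
    rcases h with h | h | h | h
    · exact key e1 e3 h
    · exact key e2 e3 h
    · exact key e1 e4 h
    · exact key e2 e4 h
  · intro h
    rw [← min_mm, ← min_mm] at h
    rcases min_choice (mm v.1) (mm (v.1 - 1)) with h1 | h1 <;>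
      rcases min_choice (mm v.2) (mm (v.2 - 1)) with h2 | h2 <;> rw [h1, h2] at h
    · exact Or.inl h
    · exact Or.inr (Or.inr (Or.inl h))
    · exact Or.inr (Or.inl h)
    · exact Or.inr (Or.inr (Or.inr h))

/-! ### Squeeze between discs -/

theorem norm_pos_sub_le (δ : ℝ) (hδ : 0 < δ) (v w : ℤ × ℤ) (h1 : |v.1 - w.1| ≤ 1)
    (h2 : |v.2 - w.2| ≤ 1) : ‖pos δ v - pos δ w‖ ≤ 2 * δ := by
  have e : pos δ v - pos δ w = (δ : ℂ) * (((v.1 - w.1 : ℤ) : ℂ) + ((v.2 - w.2 : ℤ) : ℂ) * Complex.I) := by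
    unfold pos; push_cast; ring
  rw [e, norm_mul, Complex.norm_real, Real.norm_eq_abs, abs_of_pos hδ, mul_comm]
  gcongr
  refine le_trans (norm_add_le _ _) ?_
  rw [norm_mul, Complex.norm_I, mul_one, Complex.norm_intCast, Complex.norm_intCast]
  have a1 : |((v.1 - w.1 : ℤ) : ℝ)| ≤ 1 := by rw [← Int.cast_abs]; exact_mod_cast h1
  have a2 : |((v.2 - w.2 : ℤ) : ℝ)| ≤ 1 := by rw [← Int.cast_abs]; exact_mod_cast h2
  linarith

theorem face_of_norm {δ : ℝ} (hδ : 0 < δ) {f : ℤ × ℤ} (h : ‖pos δ f‖ < 1 - 2 * δ) :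
    f ∈ faces δ := by
  rw [faces_eq hδ, ← isDomainFace_iff hδ]
  have key : ∀ v : ℤ × ℤ, |v.1 - f.1| ≤ 1 → |v.2 - f.2| ≤ 1 → ‖pos δ v‖ < 1 := by
    intro v h1 h2
    have h3 := norm_pos_sub_le δ hδ v f h1 h2
    have h4 : ‖pos δ v‖ ≤ ‖pos δ f‖ + ‖pos δ v - pos δ f‖ := by
      have := norm_add_le (pos δ f) (pos δ v - pos δ f)
      simpa using this
    linarith
  refine ⟨key _ (by simp) (by simp), key _ (by simp) (by simp), key _ (by simp) (by simp),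
    key _ (by simp) (by simp)⟩

theorem norm_of_face {δ : ℝ} (hδ : 0 < δ) {f : ℤ × ℤ} (h : f ∈ faces δ) : ‖pos δ f‖ < 1 := by
  rw [faces_eq hδ, ← isDomainFace_iff hδ] at h
  exact h.1

theorem innerV_of_norm {δ : ℝ} (hδ : 0 < δ) {v : ℤ × ℤ} (h : ‖pos δ v‖ < 1 - 4 * δ) :
    IntV (↑(faces δ) : Set P2) v := by
  have key : ∀ w : ℤ × ℤ, |w.1 - v.1| ≤ 1 → |w.2 - v.2| ≤ 1 → w ∈ faces δ := by
    intro w h1 h2
    apply face_of_norm hδ
    have h3 := norm_pos_sub_le δ hδ w v h1 h2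
    have h4 : ‖pos δ w‖ ≤ ‖pos δ v‖ + ‖pos δ w - pos δ v‖ := by
      have := norm_add_le (pos δ v) (pos δ w - pos δ v)
      simpa using this
    linarith
  refine ⟨key _ (by simp) (by simp), key _ (by simp) (by simp), key _ (by simp) (by simp),
    key _ (by simp) (by simp)⟩

theorem norm_of_mem_verts {δ : ℝ} (hδ : 0 < δ) {v : ℤ × ℤ} (h : v ∈ verts δ) :
    ‖pos δ v‖ < 1 := by
  rw [mem_verts] at h
  have key : ∀ f : ℤ × ℤ, f ∈ faces δ → (v = (f.1, f.2) ∨ v = (f.1 + 1, f.2) ∨ v = (f.1, f.2 + 1)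
      ∨ v = (f.1 + 1, f.2 + 1)) → ‖pos δ v‖ < 1 := by
    intro f hf hv
    rw [faces_eq hδ, ← isDomainFace_iff hδ] at hf
    obtain ⟨h1, h2, h3, h4⟩ := hf
    rcases hv with h | h | h | h <;> rw [h] <;> assumption
  rcases h with h | h | h | h
  · exact key _ h (Or.inl rfl)
  · exact key _ h (Or.inr (Or.inl (by ext <;> simp)))
  · exact key _ h (Or.inr (Or.inr (Or.inl (by ext <;> simp))))
  · exact key _ h (Or.inr (Or.inr (Or.inr (by ext <;> simp))))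

/-- boundary vertices are within `4 δ` of the circle -/
theorem norm_of_bdry {δ : ℝ} (hδ : 0 < δ) {v : ℤ × ℤ} (h : IsBdryVert δ v) :
    1 - 4 * δ ≤ ‖pos δ v‖ := by
  by_contra hc
  exact h (innerV_of_norm hδ (not_le.mp hc))

theorem mem_verts_of_norm {δ : ℝ} (hδ : 0 < δ) {v : ℤ × ℤ} (h : ‖pos δ v‖ < 1 - 2 * δ) :
    v ∈ verts δ := mem_verts.mpr (Or.inl (face_of_norm hδ h))

/-! ### The lattice disc of radius `r` at mesh `δ` is `faces (δ / r)` -/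

theorem faces_anti {δ δ' : ℝ} (hδ : 0 < δ) (h : δ ≤ δ') : faces δ' ⊆ faces δ := by
  rw [faces_eq hδ, faces_eq (lt_of_lt_of_le hδ h)]
  apply Fc_mono
  have : δ'⁻¹ ≤ δ⁻¹ := inv_anti₀ hδ h
  have h0 : 0 ≤ δ'⁻¹ := inv_nonneg.mpr (le_trans hδ.le h)
  exact pow_le_pow_left₀ h0 this 2

theorem verts_anti {δ δ' : ℝ} (hδ : 0 < δ) (h : δ ≤ δ') : verts δ' ⊆ verts δ := by
  intro v hv
  rw [mem_verts] at hv ⊢
  have := faces_anti hδ h
  rcases hv with h | h | h | h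
  · exact Or.inl (this h)
  · exact Or.inr (Or.inl (this h))
  · exact Or.inr (Or.inr (Or.inl (this h)))
  · exact Or.inr (Or.inr (Or.inr (this h)))

theorem pos_div (δ r : ℝ) (v : ℤ × ℤ) : pos (δ / r) v = pos δ v / r := by
  unfold pos
  push_cast
  ring

end Crest.Agent.R161.Geo132
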