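import Mathlib
import Crest.Prelude.Def_AshkinTeller

/-!
Row 161 (S0242): `atExpect` as a genuine finite probability expectation, the symmetry
`(τ, τ', K) ↦ (τ, -τ', -K)`, and the reduction of the statement to the convergence of
`E cos (s X_φ)`.
-/

set_option autoImplicit false

namespace Crest.Agent.R161.Top729

open Filter Topology Finset
open Crest.ProbabilityR.AshkinTeller

theorem tParam_pos (U : ℝ) : 0 < tParam U := by
  unfold tParam
  have : 0 < Real.exp (4 * U) := Real.exp_pos _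
  positivity

theorem tParam_lt_one (U : ℝ) : tParam U < 1 := by
  unfold tParam
  have h : 0 < Real.exp (4 * U) := Real.exp_pos _
  exact Real.rpow_lt_one_of_one_lt_of_neg (by linarith) (by norm_num)

/-- `c = 1/t = √(1 + e^{4U})`. -/
theorem tParam_inv (U : ℝ) : (tParam U)⁻¹ = Real.sqrt (1 + Real.exp (4 * U)) := by
  unfold tParam
  have h : 0 < Real.exp (4 * U) := Real.exp_pos _
  rw [← Real.rpow_neg (by positivity), Real.sqrt_eq_rpow]
  norm_num

theorem gParam_eq (U : ℝ) :
    gParam U = (8 / Real.pi) * Real.arcsin (Real.sqrt (1 + Real.exp (4 * U)) / 2) := by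
  unfold gParam
  rw [Real.sqrt_eq_rpow]

theorem one_half_le_tParam {U : ℝ} (hU : U ≤ Real.log 3 / 4) : 1 / 2 ≤ tParam U := by
  have h3 : Real.exp (4 * U) ≤ 3 := by
    have : 4 * U ≤ Real.log 3 := by linarith
    calc Real.exp (4 * U) ≤ Real.exp (Real.log 3) := Real.exp_le_exp.mpr this
      _ = 3 := Real.exp_log (by norm_num)
  have h1 : (tParam U)⁻¹ ≤ 2 := by
    rw [tParam_inv]
    calc Real.sqrt (1 + Real.exp (4 * U)) ≤ Real.sqrt 4 := Real.sqrt_le_sqrt (by linarith)
      _ = 2 := by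
        rw [show (4 : ℝ) = 2 ^ 2 by norm_num]
        exact Real.sqrt_sq (by norm_num)
  have h2 := tParam_pos U
  rw [inv_le_comm₀ h2 (by norm_num)] at h1
  linarith

section
variable {δ : ℝ}

open Classical in
/-- Weight of a configuration (zero when not valid). -/
noncomputable def wt (U : ℝ) (ω : Config δ) : ℝ :=
  if IsValid ω then (tParam U) ^ (primalDisagree ω + dualDisagree ω) else 0

theorem wt_nonneg (U : ℝ) (ω : Config δ) : 0 ≤ wt U ω := by
  unfold wt
  split_ifs
  · exact pow_nonneg (tParam_pos U).le _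
  · exact le_rfl

theorem wt_of_valid (U : ℝ) {ω : Config δ} (h : IsValid ω) :
    wt U ω = (tParam U) ^ (primalDisagree ω + dualDisagree ω) := by
  unfold wt; rw [if_pos h]

theorem wt_pos_of_valid (U : ℝ) {ω : Config δ} (h : IsValid ω) : 0 < wt U ω := by
  rw [wt_of_valid U h]; exact pow_pos (tParam_pos U) _

theorem wt_of_not_valid (U : ℝ) {ω : Config δ} (h : ¬ IsValid ω) : wt U ω = 0 := by
  unfold wt; rw [if_neg h]

/-- Partition function. -/
noncomputable def Z (δ U : ℝ) : ℝ := ∑ ω : Config δ, wt U ω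

/-- The flat configuration. -/
def flat (δ : ℝ) : Config δ :=
  (fun _ => true, fun _ => true, fun _ => ⟨0, by
    constructor
    · have : (0 : ℤ) ≤ ((verts δ).card : ℤ) := by positivity
      linarith
    · positivity⟩)

theorem flat_valid (δ : ℝ) : IsValid (flat δ) := by
  refine ⟨fun v _ => ⟨rfl, rfl⟩, ?_, ?_⟩
  · intro v v' _ f _
    simp [flat]
  · intro v v' _ f _
    simp [flat]

theorem Z_pos (δ U : ℝ) : 0 < Z δ U := by
  unfold Z
  exact Finset.sum_pos' (fun ω _ => wt_nonneg U ω) ⟨flat δ, Finset.mem_univ _,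
    wt_pos_of_valid U (flat_valid δ)⟩

/-- Probability of a configuration. -/
noncomputable def prob (U : ℝ) (ω : Config δ) : ℝ := wt U ω / Z δ U

theorem prob_nonneg (U : ℝ) (ω : Config δ) : 0 ≤ prob U ω :=
  div_nonneg (wt_nonneg U ω) (Z_pos δ U).le

theorem prob_sum (δ U : ℝ) : ∑ ω : Config δ, prob U ω = 1 := by
  unfold prob
  rw [← Finset.sum_div]
  exact div_self (Z_pos δ U).ne'

theorem atExpect_eq (U : ℝ) (F : Config δ → ℂ) :
    atExpect δ U F = ∑ ω, (prob U ω : ℂ) * F ω := by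
  classical
  unfold atExpect
  have h1 : (∑ ω ∈ Finset.univ.filter (fun ω : Config δ => IsValid ω),
      (tParam U : ℂ) ^ (primalDisagree ω + dualDisagree ω) * F ω) =
      ∑ ω : Config δ, (wt U ω : ℂ) * F ω := by
    rw [Finset.sum_filter]
    apply Finset.sum_congr rfl
    intro ω _
    by_cases h : IsValid ω
    · rw [if_pos h, wt_of_valid U h]; push_cast; rfl
    · rw [if_neg h, wt_of_not_valid U h]; simp
  have h2 : (∑ ω ∈ Finset.univ.filter (fun ω : Config δ => IsValid ω),
      (tParam U : ℂ) ^ (primalDisagree ω + dualDisagree ω)) = (Z δ U : ℂ) := by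
    unfold Z
    rw [Finset.sum_filter]
    push_cast
    apply Finset.sum_congr rfl
    intro ω _
    by_cases h : IsValid ω
    · rw [if_pos h, wt_of_valid U h]; push_cast; rfl
    · rw [if_neg h, wt_of_not_valid U h]; simp
  have h1' : (∑ x : Config δ, (prob U x : ℂ) * F x) =
      (∑ ω : Config δ, (wt U ω : ℂ) * F ω) / (Z δ U : ℂ) := by
    rw [Finset.sum_div]
    apply Finset.sum_congr rfl
    intro ω _
    unfold prob
    push_cast
    ring
  rw [h1']
  convert congrArg₂ (· / ·) h1 h2 using 2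

/-! ### The symmetry -/

/-- `(τ, τ', K) ↦ (τ, -τ', -K)`. -/
def neg (ω : Config δ) : Config δ :=
  (ω.1, fun f => !(ω.2.1 f), fun v => ⟨-(ω.2.2 v : ℤ), by
    have := (ω.2.2 v).2
    constructor
    · linarith [this.2]
    · linarith [this.1]⟩)

theorem neg_neg (ω : Config δ) : neg (neg ω) = ω := by
  obtain ⟨a, b, k⟩ := ω
  simp only [neg, Bool.not_not, _root_.neg_neg]

/-- The symmetry as an equivalence. -/
def negE : Config δ ≃ Config δ := ⟨neg, neg, neg_neg, neg_neg⟩

theorem sgn_not (b : Bool) : sgn (!b) = - sgn b := by cases b <;> simp [sgn]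

theorem neg_valid {ω : Config δ} (h : IsValid ω) : IsValid (neg ω) := by
  refine ⟨fun v hv => ?_, fun v v' hv f hf => ?_, fun v v' hv f hf => ?_⟩
  · obtain ⟨h1, h2⟩ := h.1 v hv
    exact ⟨h1, by simp [neg, h2]⟩
  · have := h.2.1 v v' hv f hf
    simp only [neg, sgn_not]
    linarith
  · have := h.2.2 v v' hv f hf
    simp only [neg, sgn_not]
    linarith

theorem neg_valid_iff {ω : Config δ} : IsValid (neg ω) ↔ IsValid ω :=
  ⟨fun h => by have := neg_valid h; rwa [neg_neg] at this, neg_valid⟩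

theorem primal_neg (ω : Config δ) : primalDisagree (neg ω) = primalDisagree ω := rfl

theorem dual_neg (ω : Config δ) : dualDisagree (neg ω) = dualDisagree ω := by
  unfold dualDisagree
  congr 1
  ext q
  simp only [Finset.mem_filter, neg, ne_eq, Bool.not_inj_iff]

theorem wt_neg (U : ℝ) (ω : Config δ) : wt U (neg ω) = wt U ω := by
  by_cases h : IsValid ω
  · rw [wt_of_valid U h, wt_of_valid U (neg_valid h), primal_neg, dual_neg]
  · rw [wt_of_not_valid U h, wt_of_not_valid U (fun h' => h (neg_valid_iff.mp h'))]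

theorem prob_neg (U : ℝ) (ω : Config δ) : prob U (neg ω) = prob U ω := by
  unfold prob; rw [wt_neg]

theorem pairing_neg (φ : ℂ → ℝ) (ω : Config δ) : atPairing φ (neg ω) = - atPairing φ ω := by
  unfold atPairing
  have h : ∀ v : verts δ, (((neg ω).2.2 v : ℤ) : ℝ) / 2 * φ (pos δ v) =
      -(((ω.2.2 v : ℤ) : ℝ) / 2 * φ (pos δ v)) := by
    intro v
    have h1 : ((neg ω).2.2 v : ℤ) = -(ω.2.2 v : ℤ) := rfl
    rw [h1]
    push_cast
    ring
  rw [Finset.sum_congr rfl fun v _ => h v, Finset.sum_neg_distrib, mul_neg]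

/-- `E e^{iX} = E cos X` for a symmetric weighted finite family. -/
theorem sum_exp_eq {Ω : Type*} [Fintype Ω] (p : Ω → ℝ) (X : Ω → ℝ) (e : Ω ≃ Ω)
    (hp : ∀ ω, p (e ω) = p ω) (hX : ∀ ω, X (e ω) = - X ω) :
    ∑ ω, (p ω : ℂ) * Complex.exp (Complex.I * (X ω : ℂ)) =
      ((∑ ω, p ω * Real.cos (X ω) : ℝ) : ℂ) := by
  have h1 : ∑ ω, (p ω : ℂ) * Complex.exp (Complex.I * (X ω : ℂ)) =
      ∑ ω, (p ω : ℂ) * Complex.exp (-(Complex.I * (X ω : ℂ))) := by
    rw [← Equiv.sum_comp e]
    apply Finset.sum_congr rfl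
    intro ω _
    rw [hp, hX]
    congr 2
    push_cast
    ring
  have h2 : ∀ x : ℝ, ((Real.cos x : ℝ) : ℂ) =
      (Complex.exp (Complex.I * x) + Complex.exp (-(Complex.I * x))) / 2 := by
    intro x
    rw [Complex.ofReal_cos, Complex.cos]
    congr 2
    · congr 1; ring
    · congr 1; ring
  have h3 : ((∑ ω, p ω * Real.cos (X ω) : ℝ) : ℂ) =
      (∑ ω, (p ω : ℂ) * Complex.exp (Complex.I * (X ω : ℂ)) +
       ∑ ω, (p ω : ℂ) * Complex.exp (-(Complex.I * (X ω : ℂ)))) / 2 := by
    rw [← Finset.sum_add_distrib, Finset.sum_div, Complex.ofReal_sum]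
    apply Finset.sum_congr rfl
    intro ω _
    rw [Complex.ofReal_mul, h2 (X ω)]
    ring
  rw [h3, ← h1]
  ring

/-- The characteristic function is the expectation of a cosine. -/
theorem atExpect_exp (U : ℝ) (φ : ℂ → ℝ) (s : ℝ) :
    atExpect δ U (fun cfg => Complex.exp (Complex.I * (s * atPairing φ cfg : ℝ))) =
      ((∑ ω : Config δ, prob U ω * Real.cos (s * atPairing φ ω) : ℝ) : ℂ) := by
  rw [atExpect_eq]
  exact sum_exp_eq (prob U) (fun ω => s * atPairing φ ω) negE (prob_neg U)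
    (fun ω => by
      show s * atPairing φ (neg ω) = _
      rw [pairing_neg]; ring)

end

/-- **Reduction of S0242** to the convergence of `E cos (s X_φ)`. -/
theorem s0242_of_cos (U : ℝ) (φ : ℂ → ℝ) (s v : ℝ)
    (h : Tendsto (fun δ : ℝ => ∑ ω : Config δ, prob U ω * Real.cos (s * atPairing φ ω))
      (nhdsWithin 0 (Set.Ioi 0)) (𝓝 (Real.exp (-(v * s ^ 2 / 2))))) :
    Tendsto (fun δ : ℝ => atExpect δ U
        (fun cfg => Complex.exp (Complex.I * (s * atPairing φ cfg : ℝ))))
      (nhdsWithin 0 (Set.Ioi 0)) (𝓝 (Complex.exp (-(v * s ^ 2 / 2) : ℝ))) := by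
  simp_rw [atExpect_exp]
  rw [← Complex.ofReal_exp]
  exact (Complex.continuous_ofReal.tendsto _).comp h

end Crest.Agent.R161.Top729
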