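import Crest.Agent.R161.Ht_132
import Crest.Agent.R161.Top_729
import Crest.Agent.R161.Geo_132

/-!
Row 161 (helper132): the law of the statement S0242 is the six-vertex height model of `Defs372`
on the face set `faces δ`, with `c = (tParam U)⁻¹ = √(1 + e^{4U})`:

`prob_expect : 0 < δ → ∑ ω : Config δ, prob U ω * g (Kx ω) = E (tParam U)⁻¹ (faces δ) (fun ω => g ω.1)`.
-/

set_option autoImplicit false

noncomputable section

namespace Crest.Agent.R161.HtStmt132

open Finset Crest.Agent.R161.Geo729 Crest.Agent.R161.Defs372 Crest.Agent.R161.Geo132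
  Crest.Agent.R161.Ht132 Crest.Agent.R161.Top729
open Crest.ProbabilityR.AshkinTeller

variable {δ : ℝ}

/-- vertex heights of a configuration of the statement, extended by zero -/
def Kx (ω : Config δ) (v : P2) : ℤ := if h : v ∈ verts δ then (ω.2.2 ⟨v, h⟩ : ℤ) else 0

/-- primal spins extended by `true` -/
def tx (ω : Config δ) (v : P2) : Bool := if h : v ∈ verts δ then ω.1 ⟨v, h⟩ else true

/-- dual spins extended by `true` -/
def dx (ω : Config δ) (f : P2) : Bool := if h : f ∈ faces δ then ω.2.1 ⟨f, h⟩ else true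

/-- face heights -/
def Hx (ω : Config δ) (f : P2) : ℤ :=
  if f ∈ faces δ then Kx ω f + sgn (tx ω f) * sgn (dx ω f) else 1

theorem corner_mem_verts {v f : P2} (hf : f ∈ faces δ) (h : IsCorner v f) : v ∈ verts δ :=
  mem_verts.2 ((touchV_iff _ _).2 ⟨f, hf, h⟩)

theorem Kx_of_mem (ω : Config δ) (v : verts δ) : Kx ω v = (ω.2.2 v : ℤ) := by
  unfold Kx; rw [dif_pos v.2]

theorem tx_of_mem (ω : Config δ) (v : verts δ) : tx ω v = ω.1 v := by
  unfold tx; rw [dif_pos v.2]

theorem dx_of_mem (ω : Config δ) (f : faces δ) : dx ω f = ω.2.1 f := by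
  unfold dx; rw [dif_pos f.2]

theorem not_intVerts_iff {v : P2} : v ∉ intVerts (faces δ) ↔ IsBdryVert δ v := by
  rw [mem_intVerts]; rfl

section valid
variable {ω : Config δ}

theorem Kx_bdry (hω : IsValid ω) {v : P2} (hv : v ∉ intVerts (faces δ)) : Kx ω v = 0 := by
  unfold Kx
  split_ifs with h
  · exact (hω.1 ⟨v, h⟩ (not_intVerts_iff.1 hv)).2
  · rfl

theorem tx_bdry (hω : IsValid ω) {v : P2} (hv : v ∉ intVerts (faces δ)) : tx ω v = true := by
  unfold tx
  split_ifs with h
  · exact (hω.1 ⟨v, h⟩ (not_intVerts_iff.1 hv)).1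
  · rfl

/-- the increment rule along an edge, for any bordering face -/
theorem incr (hω : IsValid ω) (e : Edge) (f : P2) (hf : f ∈ faces δ) (hfe : f = fA e ∨ f = fB e) :
    Kx ω (tgt e) - Kx ω (src e) = sgn (dx ω f) * (sgn (tx ω (src e)) - sgn (tx ω (tgt e))) := by
  have hs : src e ∈ verts δ := by
    rcases hfe with rfl | rfl
    · exact corner_mem_verts hf (isCorner_src_fA e)
    · exact corner_mem_verts hf (isCorner_src_fB e)
  have ht : tgt e ∈ verts δ := by
    rcases hfe with rfl | rfl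
    · exact corner_mem_verts hf (isCorner_tgt_fA e)
    · exact corner_mem_verts hf (isCorner_tgt_fB e)
  have e1 : Kx ω (tgt e) = (ω.2.2 ⟨tgt e, ht⟩ : ℤ) := Kx_of_mem ω ⟨tgt e, ht⟩
  have e2 : Kx ω (src e) = (ω.2.2 ⟨src e, hs⟩ : ℤ) := Kx_of_mem ω ⟨src e, hs⟩
  have e3 : tx ω (tgt e) = ω.1 ⟨tgt e, ht⟩ := tx_of_mem ω ⟨tgt e, ht⟩
  have e4 : tx ω (src e) = ω.1 ⟨src e, hs⟩ := tx_of_mem ω ⟨src e, hs⟩
  have e5 : dx ω f = ω.2.1 ⟨f, hf⟩ := dx_of_mem ω ⟨f, hf⟩
  rw [e1, e2, e3, e4, e5]
  obtain ⟨v, b⟩ := e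
  cases b
  · refine hω.2.1 ⟨src (v, false), hs⟩ ⟨tgt (v, false), ht⟩ rfl ⟨f, hf⟩ ?_
    rcases hfe with h | h
    · left; exact h
    · right; exact h
  · refine hω.2.2 ⟨src (v, true), hs⟩ ⟨tgt (v, true), ht⟩ rfl ⟨f, hf⟩ ?_
    rcases hfe with h | h
    · left; exact h
    · right; exact h

theorem sgn_eq (b : Bool) : sgn b = 1 ∨ sgn b = -1 := by
  cases b <;> simp [sgn]

/-- the horizontal neighbour to the right -/
theorem right_step (hω : IsValid ω) {v : P2} (hv : v ∈ faces δ) :
    Kx ω (v.1 + 1, v.2) - Kx ω v =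
      sgn (dx ω v) * (sgn (tx ω v) - sgn (tx ω (v.1 + 1, v.2))) :=
  incr hω (v, false) v hv (Or.inl rfl)

theorem parity_path (hω : IsValid ω) (n : ℕ) :
    ∀ v : P2, (v.1 + n, v.2) ∉ intVerts (faces δ) →
      (∀ i : ℕ, i < n → (v.1 + i, v.2) ∈ intVerts (faces δ)) →
      Kx ω v % 4 = 1 - sgn (tx ω v) := by
  induction n with
  | zero =>
    intro v hv _
    have hv' : v ∉ intVerts (faces δ) := by simpa using hv
    rw [Kx_bdry hω hv', tx_bdry hω hv']
    simp [sgn]
  | succ n ih =>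
    intro v hv hi
    have h0 : v ∈ intVerts (faces δ) := by simpa using hi 0 (Nat.succ_pos n)
    have hvF : v ∈ faces δ := (Finset.mem_filter.1 h0).1
    have h1 := right_step hω hvF
    have h2 := ih (v.1 + 1, v.2) (by
        have : ((v.1 + 1 : ℤ) + (n : ℤ)) = v.1 + ((n + 1 : ℕ) : ℤ) := by push_cast; ring
        simp only
        rw [this]
        exact hv) (fun i hi' => by
        have h3 := hi (i + 1) (by omega)
        have : ((v.1 + 1 : ℤ) + (i : ℤ)) = v.1 + ((i + 1 : ℕ) : ℤ) := by push_cast; ring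
        simp only
        rw [this]
        exact h3)
    rcases sgn_eq (dx ω v) with a | a <;> rcases sgn_eq (tx ω v) with b | b <;>
      rcases sgn_eq (tx ω (v.1 + 1, v.2)) with c | c <;> rw [a, b, c] at h1 <;>
      rw [c] at h2 <;> rw [b] <;> omega

/-- `τ(v) = (-1)^{K(v)/2}` -/
theorem parity (hω : IsValid ω) (v : P2) : Kx ω v % 4 = 1 - sgn (tx ω v) := by
  obtain ⟨n, _, h1, h2⟩ := exists_exit' (faces δ) v
  exact parity_path hω n v h1 h2

/-- `h(f) = K(v) + τ(v) τ'(f)` for every corner `v` of `f` -/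
theorem Hx_corner (hω : IsValid ω) {f v : P2} (hf : f ∈ faces δ) (hv : IsCorner v f) :
    Hx ω f = Kx ω v + sgn (tx ω v) * sgn (dx ω f) := by
  unfold Hx
  rw [if_pos hf]
  have key : ∀ e : Edge, (f = fA e ∨ f = fB e) →
      Kx ω (src e) + sgn (tx ω (src e)) * sgn (dx ω f) =
        Kx ω (tgt e) + sgn (tx ω (tgt e)) * sgn (dx ω f) := by
    intro e he
    have := incr hω e f hf he
    linear_combination -this
  have k1 := key (f, false) (Or.inl rfl)
  have k2 := key (f, true) (Or.inl rfl)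
  have k3 := key ((f.1 + 1, f.2), true) (Or.inr (by simp))
  simp only [src_mk, tgt_h, tgt_v] at k1 k2 k3
  rcases hv with rfl | rfl | rfl | rfl
  · rfl
  · exact k1
  · exact k2
  · rw [k1]; exact k3

theorem valid2_of (hω : IsValid ω) : Valid2 (faces δ) (Kx ω, Hx ω) where
  zero := fun v hv => Kx_bdry hω hv
  even := fun v => by
    have := parity hω v
    show Even (Kx ω v)
    rw [Int.even_iff]
    rcases sgn_eq (tx ω v) with b | b <;> rw [b] at this <;> omega
  off := fun f hf => by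
    show Hx ω f = 1
    unfold Hx; rw [if_neg hf]
  corner := fun f hf v hv => by
    show |Kx ω v - Hx ω f| = 1
    rw [Hx_corner hω hf hv]
    rcases sgn_eq (tx ω v) with a | a <;> rcases sgn_eq (dx ω f) with b | b <;> rw [a, b] <;>
      norm_num

end valid

/-! ### Number of vertices -/

theorem card_intVerts_le : (intVerts (faces δ)).card ≤ (verts δ).card := by
  apply Finset.card_le_card
  intro v hv
  rw [mem_intVerts] at hv
  exact mem_verts.2 (Or.inl hv.1)

/-! ### The inverse map -/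

/-- configuration of the statement with given heights -/
def mk (p : Pr2) (hp : Valid2 (faces δ) p) : Config δ :=
  (fun v => decide (p.1 v % 4 = 0), fun f => decide (p.2 f % 4 = 1),
    fun v => ⟨p.1 v, by
      have h1 := hp.abs_vert_le (v : P2)
      have h2 : ((intVerts (faces δ)).card : ℤ) ≤ ((verts δ).card : ℤ) := by
        exact_mod_cast card_intVerts_le
      rw [abs_le] at h1
      exact ⟨by linarith [h1.1], by linarith [h1.2]⟩⟩)

theorem Valid2.zero_not_vert {p : Pr2} (hp : Valid2 (faces δ) p) {v : P2} (hv : v ∉ verts δ) :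
    p.1 v = 0 := by
  apply hp.zero
  intro h
  rw [mem_intVerts] at h
  exact hv (mem_verts.2 (Or.inl h.1))

theorem Kx_mk {p : Pr2} (hp : Valid2 (faces δ) p) : Kx (mk p hp) = p.1 := by
  funext v
  unfold Kx
  split_ifs with h
  · rfl
  · exact (Valid2.zero_not_vert hp h).symm

theorem tx_mk {p : Pr2} (hp : Valid2 (faces δ) p) (v : P2) :
    tx (mk p hp) v = decide (p.1 v % 4 = 0) := by
  unfold tx
  split_ifs with h
  · rfl
  · rw [Valid2.zero_not_vert hp h]; simp

theorem dx_mk {p : Pr2} (hp : Valid2 (faces δ) p) (f : P2) (hf : f ∈ faces δ) :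
    dx (mk p hp) f = decide (p.2 f % 4 = 1) := by
  unfold dx
  rw [dif_pos hf]
  rfl

theorem sgn_decide (q : Prop) [Decidable q] : sgn (decide q) = if q then 1 else -1 := by
  unfold sgn
  by_cases h : q <;> simp [h]

theorem odd_face {F : Finset P2} {p : Pr2} (hp : Valid2 F p) {f : P2} (hf : f ∈ F) :
    p.2 f % 2 = 1 := by
  have h1 := hp.corner f hf f (Or.inl rfl)
  have h2 := Int.even_iff.1 (hp.even f)
  rcases abs_eq (by norm_num : (0 : ℤ) ≤ 1) |>.1 h1 with h1 | h1 <;> omega

/-- `h(f) = K(v) + τ(v) τ'(f)` for height pairs -/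
theorem height_formula {F : Finset P2} {p : Pr2} (hp : Valid2 F p) {f v : P2} (hf : f ∈ F)
    (hv : IsCorner v f) :
    p.2 f = p.1 v + sgn (decide (p.1 v % 4 = 0)) * sgn (decide (p.2 f % 4 = 1)) := by
  have h1 := hp.corner f hf v hv
  have h2 := Int.even_iff.1 (hp.even v)
  rw [sgn_decide, sgn_decide]
  rcases abs_eq (by norm_num : (0 : ℤ) ≤ 1) |>.1 h1 with h1 | h1 <;>
    split_ifs <;> omega

theorem mk_incr {p : Pr2} (hp : Valid2 (faces δ) p) (e : Edge) (f : P2) (hf : f ∈ faces δ)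
    (hfe : f = fA e ∨ f = fB e) :
    p.1 (tgt e) - p.1 (src e) = sgn (decide (p.2 f % 4 = 1)) *
      (sgn (decide (p.1 (src e) % 4 = 0)) - sgn (decide (p.1 (tgt e) % 4 = 0))) := by
  have hs : IsCorner (src e) f := by
    rcases hfe with rfl | rfl
    · exact isCorner_src_fA e
    · exact isCorner_src_fB e
  have ht : IsCorner (tgt e) f := by
    rcases hfe with rfl | rfl
    · exact isCorner_tgt_fA e
    · exact isCorner_tgt_fB e
  have h1 := height_formula hp hf hs
  have h2 := height_formula hp hf ht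
  linear_combination h1 - h2

theorem isValid_mk {p : Pr2} (hp : Valid2 (faces δ) p) : IsValid (mk p hp) := by
  refine ⟨fun v hv => ?_, fun v v' hvv f hf => ?_, fun v v' hvv f hf => ?_⟩
  · have h0 : p.1 v = 0 := hp.zero _ (not_intVerts_iff.2 hv)
    refine ⟨?_, h0⟩
    show decide (p.1 v % 4 = 0) = true
    rw [h0]; simp
  · have := mk_incr hp ((v : P2), false) f f.2 (by
      rcases hf with h | h
      · left; exact h
      · right; exact h)
    rw [show tgt ((v : P2), false) = (v' : P2) from hvv.symm] at this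
    exact this
  · have := mk_incr hp ((v : P2), true) f f.2 (by
      rcases hf with h | h
      · left; exact h
      · right; exact h)
    rw [show tgt ((v : P2), true) = (v' : P2) from hvv.symm] at this
    exact this

theorem Hx_mk {p : Pr2} (hp : Valid2 (faces δ) p) : Hx (mk p hp) = p.2 := by
  funext f
  unfold Hx
  split_ifs with h
  · rw [Kx_mk, tx_mk, dx_mk hp f h]
    exact (height_formula hp h (Or.inl rfl)).symm
  · exact (hp.off f h).symm

theorem mk_eq {ω : Config δ} (hω : IsValid ω) : mk (Kx ω, Hx ω) (valid2_of hω) = ω := by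
  refine Prod.ext ?_ (Prod.ext ?_ ?_)
  · funext v
    show decide (Kx ω v % 4 = 0) = ω.1 v
    have h1 := parity hω (v : P2)
    rw [← tx_of_mem ω v]
    cases h : tx ω v <;> rw [h] at h1 <;> simp [sgn] at h1 <;> simp [h1]
  · funext f
    show decide (Hx ω f % 4 = 1) = ω.2.1 f
    have h1 := parity hω (f : P2)
    have h2 := Hx_corner hω f.2 (Or.inl rfl : IsCorner (f : P2) (f : P2))
    rw [← dx_of_mem ω f]
    rw [h2]
    cases h : tx ω f <;> rw [h] at h1 <;> cases h' : dx ω f <;> simp [sgn] at h1 ⊢ <;> omega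
  · funext v
    apply Subtype.ext
    exact Kx_of_mem ω v

/-! ### Counting disagreements -/

theorem not_intVerts_of_edge {F : Finset P2} {e : Edge} (he : e ∉ intEdges F) :
    src e ∉ intVerts F ∧ tgt e ∉ intVerts F := by
  rw [mem_intEdges] at he
  constructor
  · intro h
    rw [mem_intVerts, intV_iff] at h
    exact he ⟨h _ (isCorner_src_fA e), h _ (isCorner_src_fB e)⟩
  · intro h
    rw [mem_intVerts, intV_iff] at h
    exact he ⟨h _ (isCorner_tgt_fA e), h _ (isCorner_tgt_fB e)⟩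

section count
variable {ω : Config δ}

theorem Kx_ne_iff (hω : IsValid ω) (e : Edge) (f : P2) (hf : f ∈ faces δ)
    (hfe : f = fA e ∨ f = fB e) :
    Kx ω (src e) ≠ Kx ω (tgt e) ↔ tx ω (src e) ≠ tx ω (tgt e) := by
  have h := incr hω e f hf hfe
  rcases sgn_eq (dx ω f) with a | a <;> rw [a] at h <;>
    cases b : tx ω (src e) <;> cases c : tx ω (tgt e) <;> rw [b, c] at h <;> simp [sgn] at h ⊢ <;>
    omega

theorem Hx_ne_iff (hω : IsValid ω) (e : Edge) (hA : fA e ∈ faces δ) (hB : fB e ∈ faces δ) :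
    Hx ω (fA e) ≠ Hx ω (fB e) ↔ dx ω (fB e) ≠ dx ω (fA e) := by
  rw [Hx_corner hω hA (isCorner_src_fA e), Hx_corner hω hB (isCorner_src_fB e)]
  cases a : tx ω (src e) <;> cases b : dx ω (fA e) <;> cases c : dx ω (fB e) <;>
    simp [sgn]

open Classical in
theorem primal_card (hω : IsValid ω) : primalDisagree ω =
    ((intEdges (faces δ)).filter fun e => Kx ω (src e) ≠ Kx ω (tgt e)).card := by
  unfold primalDisagree
  symm
  refine Finset.card_bij (fun e he => ((⟨src e, corner_mem_verts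
    (mem_intEdges.1 (Finset.mem_filter.1 he).1).1 (isCorner_src_fA e)⟩ : verts δ),
    (⟨tgt e, corner_mem_verts (mem_intEdges.1 (Finset.mem_filter.1 he).1).1
      (isCorner_tgt_fA e)⟩ : verts δ))) ?_ ?_ ?_
  · intro e he
    have he1 := (Finset.mem_filter.1 he).1
    have he2 := (Finset.mem_filter.1 he).2
    rw [mem_intEdges] at he1
    have h1 := (Kx_ne_iff hω e (fA e) he1.1 (Or.inl rfl)).1 he2
    refine (@Finset.mem_filter _ _ (_) _ _).2 ⟨Finset.mem_univ _, ?_, ?_⟩
    · obtain ⟨v, b⟩ := e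
      cases b
      · left; exact ⟨rfl, Or.inl he1.1⟩
      · right; exact ⟨rfl, Or.inl he1.1⟩
    · have a1 := tx_of_mem ω (⟨src e, corner_mem_verts he1.1 (isCorner_src_fA e)⟩ : verts δ)
      have a2 := tx_of_mem ω (⟨tgt e, corner_mem_verts he1.1 (isCorner_tgt_fA e)⟩ : verts δ)
      show ω.1 _ ≠ ω.1 _
      rw [← a1, ← a2]
      exact h1
  · intro e he e' he' h
    have h1 : src e = src e' := congrArg (fun q : verts δ × verts δ => (q.1 : P2)) h
    have h2 : tgt e = tgt e' := congrArg (fun q : verts δ × verts δ => (q.2 : P2)) h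
    obtain ⟨v, b⟩ := e
    obtain ⟨v', b'⟩ := e'
    have h3 : v = v' := h1
    subst h3
    cases b <;> cases b' <;> simp at h2 ⊢
  · rintro ⟨v, v'⟩ hq
    obtain ⟨_, hadj, hne⟩ := (@Finset.mem_filter _ _ (_) _ _).1 hq
    have key : ∀ b : Bool, (v' : P2) = tgt ((v : P2), b) →
        (fA ((v : P2), b) ∈ faces δ ∨ fB ((v : P2), b) ∈ faces δ) →
        ∃ e, ∃ he : e ∈ (intEdges (faces δ)).filter fun e => Kx ω (src e) ≠ Kx ω (tgt e),
          ((⟨src e, corner_mem_verts (mem_intEdges.1 (Finset.mem_filter.1 he).1).1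
            (isCorner_src_fA e)⟩ : verts δ), (⟨tgt e, corner_mem_verts
            (mem_intEdges.1 (Finset.mem_filter.1 he).1).1 (isCorner_tgt_fA e)⟩ : verts δ)) =
            (v, v') := by
      intro b hb hf
      have hne' : tx ω (src ((v : P2), b)) ≠ tx ω (tgt ((v : P2), b)) := by
        rw [← hb]
        have a1 := tx_of_mem ω v
        have a2 := tx_of_mem ω v'
        rw [show src ((v : P2), b) = (v : P2) from rfl, a1, a2]
        exact hne
      have hint : ((v : P2), b) ∈ intEdges (faces δ) := by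
        by_contra hc
        obtain ⟨n1, n2⟩ := not_intVerts_of_edge hc
        exact hne' (by rw [tx_bdry hω n1, tx_bdry hω n2])
      refine ⟨((v : P2), b), ?_, ?_⟩
      · rw [Finset.mem_filter]
        refine ⟨hint, ?_⟩
        exact (Kx_ne_iff hω _ _ (mem_intEdges.1 hint).1 (Or.inl rfl)).2 hne'
      · refine Prod.ext (Subtype.ext rfl) (Subtype.ext hb.symm)
    rcases hadj with ⟨h1, h2⟩ | ⟨h1, h2⟩
    · exact key false h1 h2
    · exact key true h1 h2

open Classical in
theorem dual_card (hω : IsValid ω) : dualDisagree ω =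
    ((intEdges (faces δ)).filter fun e => Hx ω (fA e) ≠ Hx ω (fB e)).card := by
  unfold dualDisagree
  symm
  refine Finset.card_bij (fun e he => ((⟨fB e, (mem_intEdges.1 (Finset.mem_filter.1 he).1).2⟩ :
    faces δ), (⟨fA e, (mem_intEdges.1 (Finset.mem_filter.1 he).1).1⟩ : faces δ))) ?_ ?_ ?_
  · intro e he
    have he1 := (Finset.mem_filter.1 he).1
    have he2 := (Finset.mem_filter.1 he).2
    rw [mem_intEdges] at he1
    have h1 := (Hx_ne_iff hω e he1.1 he1.2).1 he2
    refine (@Finset.mem_filter _ _ (_) _ _).2 ⟨Finset.mem_univ _, ?_, ?_⟩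
    · obtain ⟨v, b⟩ := e
      cases b
      · right
        show v = (v.1, v.2 - 1 + 1)
        rw [sub_add_cancel]
      · left
        show v = (v.1 - 1 + 1, v.2)
        rw [sub_add_cancel]
    · have a1 := dx_of_mem ω (⟨fA e, he1.1⟩ : faces δ)
      have a2 := dx_of_mem ω (⟨fB e, he1.2⟩ : faces δ)
      show ω.2.1 _ ≠ ω.2.1 _
      rw [← a1, ← a2]
      exact h1
  · intro e he e' he' h
    have h1 : fB e = fB e' := congrArg (fun q : faces δ × faces δ => (q.1 : P2)) h
    have h2 : fA e = fA e' := congrArg (fun q : faces δ × faces δ => (q.2 : P2)) h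
    obtain ⟨v, b⟩ := e
    obtain ⟨v', b'⟩ := e'
    have h3 : v = v' := h2
    subst h3
    cases b <;> cases b' <;> simp at h1 ⊢
  · rintro ⟨f, f'⟩ hq
    obtain ⟨_, hadj, hne⟩ := (@Finset.mem_filter _ _ (_) _ _).1 hq
    have key : ∀ b : Bool, (f : P2) = fB ((f' : P2), b) →
        ∃ e, ∃ he : e ∈ (intEdges (faces δ)).filter fun e => Hx ω (fA e) ≠ Hx ω (fB e),
          ((⟨fB e, (mem_intEdges.1 (Finset.mem_filter.1 he).1).2⟩ : faces δ),
            (⟨fA e, (mem_intEdges.1 (Finset.mem_filter.1 he).1).1⟩ : faces δ)) = (f, f') := by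
      intro b hb
      have hA : fA ((f' : P2), b) ∈ faces δ := f'.2
      have hB : fB ((f' : P2), b) ∈ faces δ := by rw [← hb]; exact f.2
      refine ⟨((f' : P2), b), ?_, ?_⟩
      · rw [Finset.mem_filter]
        refine ⟨mem_intEdges.2 ⟨hA, hB⟩, ?_⟩
        rw [Hx_ne_iff hω _ hA hB, ← hb]
        have a1 := dx_of_mem ω f
        have a2 := dx_of_mem ω f'
        rw [a1, show fA ((f' : P2), b) = (f' : P2) from rfl, a2]
        exact hne
      · exact Prod.ext (Subtype.ext hb.symm) (Subtype.ext rfl)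
    rcases hadj with h1 | h1
    · refine key true ?_
      rw [h1]
      show (f : P2) = ((f : P2).1 + 1 - 1, (f : P2).2)
      rw [add_sub_cancel_right]
    · refine key false ?_
      rw [h1]
      show (f : P2) = ((f : P2).1, (f : P2).2 + 1 - 1)
      rw [add_sub_cancel_right]

end count

/-- **The weights agree.** -/
theorem wt_eq (U : ℝ) {ω : Config δ} (hω : IsValid ω) :
    Top729.wt U ω = (tParam U) ^ (intEdges (faces δ)).card *
      wt6 (tParam U)⁻¹ (faces δ) (Kx ω, Hx ω) := by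
  classical
  have ht : tParam U ≠ 0 := (tParam_pos U).ne'
  rw [wt_of_valid U hω, primal_card hω, dual_card hω, pow_add]
  unfold wt6
  rw [← Finset.prod_const, ← Finset.prod_const, ← Finset.prod_const, Finset.prod_filter,
    Finset.prod_filter, ← Finset.prod_mul_distrib, ← Finset.prod_mul_distrib]
  refine Finset.prod_congr rfl fun e he => ?_
  unfold w6
  have hice := (valid2_of hω).ice he
  simp only at hice ⊢
  by_cases a : Kx ω (src e) = Kx ω (tgt e) <;> by_cases b : Hx ω (fA e) = Hx ω (fB e)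
  · simp [a, b, ht]
  · simp [a, b]
  · simp [a, b]
  · rcases hice with h | h
    · exact absurd h a
    · exact absurd h b

/-- **The sum over the configurations of the statement.** -/
theorem sum_config (U : ℝ) (G : Pr2 → ℝ) :
    ∑ ω : Config δ, Top729.wt U ω * G (Kx ω, Hx ω) = (tParam U) ^ (intEdges (faces δ)).card *
      ∑ p ∈ conf2 (faces δ), wt6 (tParam U)⁻¹ (faces δ) p * G p := by
  classical
  have h1 : ∑ ω : Config δ, Top729.wt U ω * G (Kx ω, Hx ω) =
      ∑ ω ∈ Finset.univ.filter (fun ω : Config δ => IsValid ω),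
        Top729.wt U ω * G (Kx ω, Hx ω) := by
    rw [Finset.sum_filter]
    refine Finset.sum_congr rfl fun ω _ => ?_
    by_cases h : IsValid ω
    · rw [if_pos h]
    · rw [if_neg h, wt_of_not_valid U h, zero_mul]
  rw [h1, Finset.mul_sum]
  refine Finset.sum_bij' (fun ω _ => (Kx ω, Hx ω)) (fun p hp => mk p (mem_conf2.1 hp)) ?_ ?_ ?_
    ?_ ?_
  · intro ω hω
    exact mem_conf2.2 (valid2_of (Finset.mem_filter.1 hω).2)
  · intro p hp
    exact Finset.mem_filter.2 ⟨Finset.mem_univ _, isValid_mk (mem_conf2.1 hp)⟩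
  · intro ω hω
    exact mk_eq (Finset.mem_filter.1 hω).2
  · intro p hp
    exact Prod.ext (Kx_mk _) (Hx_mk _)
  · intro ω hω
    rw [wt_eq U (Finset.mem_filter.1 hω).2]
    ring

theorem Z_stmt (U : ℝ) : Top729.Z δ U = (tParam U) ^ (intEdges (faces δ)).card *
    Z6 (tParam U)⁻¹ (faces δ) := by
  have := sum_config (δ := δ) U (fun _ => 1)
  simp only [mul_one] at this
  exact this

/-- **Expectation of a function of the heights under the law of the statement.** -/
theorem prob_expect6 (U : ℝ) (G : Pr2 → ℝ) :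
    ∑ ω : Config δ, Top729.prob U ω * G (Kx ω, Hx ω) =
      (∑ p ∈ conf2 (faces δ), wt6 (tParam U)⁻¹ (faces δ) p * G p) /
        Z6 (tParam U)⁻¹ (faces δ) := by
  have ht : (tParam U) ^ (intEdges (faces δ)).card ≠ 0 := pow_ne_zero _ (tParam_pos U).ne'
  have h1 : ∑ ω : Config δ, Top729.prob U ω * G (Kx ω, Hx ω) =
      (∑ ω : Config δ, Top729.wt U ω * G (Kx ω, Hx ω)) / Top729.Z δ U := by
    rw [Finset.sum_div]
    refine Finset.sum_congr rfl fun ω _ => ?_
    unfold Top729.prob
    ring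
  rw [h1, sum_config, Z_stmt, mul_div_mul_left _ _ ht]

/-- **Expectation of a function of the heights**, in the form of `Defs372`. -/
theorem prob_expect (U : ℝ) (G : (P2 → ℤ) → (P2 → ℤ) → ℝ) :
    ∑ ω : Config δ, Top729.prob U ω * G (Kx ω) (Hx ω) =
      E (tParam U)⁻¹ (faces δ) (fun ω => G ω.1 ω.2.1) := by
  rw [prob_expect6 U (fun p => G p.1 p.2)]
  exact (E_eq6 (tParam U)⁻¹ (faces δ) (fun p => G p.1 p.2)).symm

/-! ### The parameter `c` -/

theorem one_lt_c (U : ℝ) : 1 < (tParam U)⁻¹ :=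
  (one_lt_inv₀ (tParam_pos U)).2 (tParam_lt_one U)

theorem c_le_two {U : ℝ} (hU : U ≤ Real.log 3 / 4) : (tParam U)⁻¹ ≤ 2 := by
  have h1 := one_half_le_tParam hU
  have h2 := tParam_pos U
  rw [inv_le_comm₀ h2 (by norm_num)]
  linarith

theorem gParam_eq_c (U : ℝ) : gParam U = (8 / Real.pi) * Real.arcsin ((tParam U)⁻¹ / 2) := by
  rw [gParam_eq, tParam_inv]

/-! ### The pairing -/

/-- the pairing `δ² ∑ k(v)/2 φ(δ v)` of vertex heights -/
def pairK (δ : ℝ) (φ : ℂ → ℝ) (F : Finset P2) (k : P2 → ℤ) : ℝ :=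
  δ ^ 2 * ∑ v ∈ intVerts F, (k v : ℝ) / 2 * φ (pos δ v)

theorem atPairing_eq (φ : ℂ → ℝ) {ω : Config δ} (hω : IsValid ω) :
    atPairing φ ω = pairK δ φ (faces δ) (Kx ω) := by
  unfold atPairing pairK
  congr 1
  have hsub : intVerts (faces δ) ⊆ verts δ := by
    intro v hv
    rw [mem_intVerts] at hv
    exact mem_verts.2 (Or.inl hv.1)
  have h2 : ∑ v : verts δ, ((ω.2.2 v : ℤ) : ℝ) / 2 * φ (pos δ v) =
      ∑ v ∈ verts δ, ((Kx ω v : ℤ) : ℝ) / 2 * φ (pos δ v) := by
    rw [← Finset.sum_coe_sort (verts δ)]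
    refine Finset.sum_congr rfl fun v _ => ?_
    rw [Kx_of_mem]
  rw [h2]
  symm
  refine Finset.sum_subset hsub fun v _ hv => ?_
  rw [Kx_bdry hω hv]
  simp

/-- **The law of the pairing** in the statement is the law of `pairK` in the model of `Defs372`. -/
theorem prob_pairing (U : ℝ) (φ : ℂ → ℝ) (g : ℝ → ℝ) :
    ∑ ω : Config δ, Top729.prob U ω * g (atPairing φ ω) =
      E (tParam U)⁻¹ (faces δ) (fun ω => g (pairK δ φ (faces δ) ω.1)) := by
  rw [← prob_expect U (fun k _ => g (pairK δ φ (faces δ) k))]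
  refine Finset.sum_congr rfl fun ω _ => ?_
  by_cases h : IsValid ω
  · rw [atPairing_eq φ h]
  · have : Top729.prob U ω = 0 := by
      unfold Top729.prob
      rw [wt_of_not_valid U h, zero_div]
    rw [this, zero_mul, zero_mul]

open Filter Topology in
/-- **Reduction of S0242** to the convergence of `E cos (s X_φ)` in the model of `Defs372`. -/
theorem s0242_of_E (U : ℝ) (φ : ℂ → ℝ) (s v : ℝ)
    (h : Tendsto (fun δ : ℝ => E (tParam U)⁻¹ (faces δ)
        (fun ω => Real.cos (s * pairK δ φ (faces δ) ω.1)))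
      (nhdsWithin 0 (Set.Ioi 0)) (𝓝 (Real.exp (-(v * s ^ 2 / 2))))) :
    Tendsto (fun δ : ℝ => atExpect δ U
        (fun cfg => Complex.exp (Complex.I * (s * atPairing φ cfg : ℝ))))
      (nhdsWithin 0 (Set.Ioi 0)) (𝓝 (Complex.exp (-(v * s ^ 2 / 2) : ℝ))) := by
  apply s0242_of_cos
  refine h.congr fun δ => ?_
  exact (prob_pairing U φ (fun x => Real.cos (s * x))).symm

end Crest.Agent.R161.HtStmt132
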