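import Crest.Agent.R161.Asm_695
import Crest.Agent.R161.Green4_722
import Crest.Agent.R161.HtStmt_132

/-!
R161, block I (helper695), second half: RING + BOUNDARY + UI ==> PROPOSITION L ==> S0242.

* `RingProp c kap` : output of "ring event + closed corridors + Markov": mixtures of zero boundary
  condition laws for which the height paired with `-Δψ`, `ψ` supported in `‖w‖ < ρ - ζ`, is
  asymptotically Gaussian with variance `kap ∫ ψ (-Δψ)`.
* `HBd c` : output of block H (boundary layer, first moment).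
* `UIprop c` : uniform integrability of squares, for nonnegative test functions.
-/

set_option autoImplicit false

noncomputable section

namespace Crest.Agent.R161.Asm695

open Finset Filter Topology Metric MeasureTheory
open Crest.Agent.R161.Geo729 Crest.Agent.R161.Defs372 Crest.Agent.R161.Green722
open Crest.ProbabilityR.AshkinTeller
open scoped ContDiff Laplacian

/-- A mixture of zero boundary condition laws of domains squeezed between `disc δ r1` and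
`disc δ r2`. -/
structure IsMix (δ r1 r2 : ℝ) (I : Finset (Finset P2)) (w : Finset P2 → ℝ) : Prop where
  nonneg : ∀ D ∈ I, 0 ≤ w D
  sum_one : ∑ D ∈ I, w D = 1
  dom : ∀ D ∈ I, Dom D ∧ disc δ r1 ⊆ D ∧ D ⊆ disc δ r2

/-- **Output of the ring block** (peeling + ring event + closed corridors + domain Markov). -/
def RingProp (c kap : ℝ) : Prop := ∀ ρ ζ : ℝ, 0 < ζ → ζ < ρ →
  ∀ (J : Type) (_ : Fintype J) (ψ : J → ℂ → ℝ) (s : J → ℝ),
    (∀ j, ContDiff ℝ ∞ (ψ j) ∧ HasCompactSupport (ψ j) ∧ ∀ w, ρ - ζ ≤ ‖w‖ → ψ j w = 0) →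
    ∀ ε : ℝ, 0 < ε → ∀ᶠ δ : ℝ in 𝓝[>] 0,
      ∃ (I : Finset (Finset P2)) (w : Finset P2 → ℝ),
        IsMix δ (ρ - ζ / 4) (ρ + ζ / 4) I w ∧
        ∀ j, |∑ D ∈ I, w D * E c D (fun u => Real.cos (s j * X δ D (fun z => -(Δ (ψ j)) z) u))
          - Real.exp (-(s j ^ 2 * (kap * ∫ z, ψ j z * (-(Δ (ψ j)) z)) / 2))| ≤ ε

/-- **Output of block H**: first moment of the boundary layer. -/
def HBd (c : ℝ) : Prop := ∀ ρ : ℝ, 0 < ρ → ∀ C ε : ℝ, 0 < C → 0 < ε → ∃ η0 : ℝ, 0 < η0 ∧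
  ∀ η : ℝ, 0 < η → η < η0 → ∀ᶠ δ : ℝ in 𝓝[>] 0, ∀ D : Finset P2, Dom D →
    disc δ (ρ - η / 4) ⊆ D → D ⊆ disc δ (ρ + η / 4) → ∀ g : ℂ → ℝ, (∀ w, |g w| ≤ C / η) →
      (∀ w, g w ≠ 0 → ρ - 2 * η ≤ ‖w‖ ∧ ‖w‖ ≤ ρ - η) → E c D (fun u => |X δ D g u|) ≤ ε

/-- **Uniform integrability of squares.** -/
def UIprop (c : ℝ) : Prop := ∀ R : ℝ, 0 < R → ∀ ψ : ℂ → ℝ, ContDiff ℝ ∞ ψ →
  HasCompactSupport ψ → (∀ z, 0 ≤ ψ z) → tsupport ψ ⊆ ball (0 : ℂ) R → ∀ ε : ℝ, 0 < ε →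
    ∃ M : ℝ, 0 < M ∧ ∀ᶠ δ : ℝ in 𝓝[>] 0, ∀ D : Finset P2, Dom D → D ⊆ disc δ R →
      E c D (fun u => max (X δ D ψ u ^ 2 - M ^ 2) 0) ≤ ε

/-- Intermediate statement: simultaneous Gaussian characteristic functions. -/
def PropL0 (c kap : ℝ) : Prop := ∀ ρ : ℝ, 0 < ρ →
  ∀ (J : Type) (_ : Fintype J) (φ : J → ℂ → ℝ) (s : J → ℝ),
    (∀ j, ContDiff ℝ ∞ (φ j) ∧ HasCompactSupport (φ j) ∧ tsupport (φ j) ⊆ ball (0 : ℂ) ρ) →
    ∀ η ε : ℝ, 0 < η → 0 < ε → ∀ᶠ δ : ℝ in 𝓝[>] 0,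
      ∃ (I : Finset (Finset P2)) (w : Finset P2 → ℝ), IsMix δ (ρ - η) (ρ + η) I w ∧
        ∀ j, |∑ D ∈ I, w D * E c D (fun u => Real.cos (s j * X δ D (φ j) u))
          - Real.exp (-(s j ^ 2 * (kap * Gf ρ (φ j) (φ j)) / 2))| ≤ ε

/-! ### elementary facts -/

theorem X_sub (δ : ℝ) (D : Finset P2) (f g : ℂ → ℝ) (u : Cfg) :
    X δ D f u - X δ D g u = X δ D (fun z => f z - g z) u := by
  simp only [X, Lin, ← Finset.sum_sub_distrib]
  exact Finset.sum_congr rfl fun v _ => by ring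

theorem abs_cos_sub_cos_le (x y : ℝ) : |Real.cos x - Real.cos y| ≤ |x - y| := by
  rw [Real.cos_sub_cos, abs_mul, abs_mul]
  have h1 : |Real.sin ((x + y) / 2)| ≤ 1 := Real.abs_sin_le_one _
  have h2 : |Real.sin ((x - y) / 2)| ≤ |(x - y) / 2| := Real.abs_sin_le_abs
  have h3 : |(x - y) / 2| = |x - y| / 2 := by rw [abs_div]; norm_num
  rw [h3] at h2
  have h4 : |(-2 : ℝ)| = 2 := by norm_num
  rw [h4]
  calc 2 * |Real.sin ((x + y) / 2)| * |Real.sin ((x - y) / 2)|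
      ≤ 2 * 1 * (|x - y| / 2) := by gcongr
    _ = |x - y| := by ring

theorem abs_E_le {c : ℝ} (hc : 1 ≤ c) (D : Finset P2) (f : Cfg → ℝ) :
    |E c D f| ≤ E c D (fun u => |f u|) := by
  rw [abs_le]
  constructor
  · have h := E_mono hc (F := D) (f := fun u => -f u) (g := fun u => |f u|)
      (fun u _ => neg_le_abs (f u))
    have h2 : E c D (fun u => -f u) = - E c D f := by
      have := E_smul c D (-1) f
      simpa using this
    linarith
  · exact E_mono hc fun u _ => le_abs_self (f u)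

theorem cos_close {c : ℝ} (hc : 1 ≤ c) (D : Finset P2) (δ s S e : ℝ) (f g r : ℂ → ℝ)
    (hs : |s| ≤ S) (hr : ∀ z, f z - g z = r z) (he : E c D (fun u => |X δ D r u|) ≤ e) :
    |E c D (fun u => Real.cos (s * X δ D f u)) - E c D (fun u => Real.cos (s * X δ D g u))|
      ≤ S * e := by
  rw [← E_sub]
  refine (abs_E_le hc D _).trans ?_
  have h4 : E c D (fun u => |Real.cos (s * X δ D f u) - Real.cos (s * X δ D g u)|) ≤
      E c D (fun u => S * |X δ D r u|) := by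
    refine E_mono hc fun u _ => (abs_cos_sub_cos_le _ _).trans ?_
    rw [← mul_sub, X_sub, abs_mul, show (fun z => f z - g z) = r from funext hr]
    exact mul_le_mul_of_nonneg_right hs (abs_nonneg _)
  refine h4.trans ?_
  rw [E_smul]
  exact mul_le_mul_of_nonneg_left he ((abs_nonneg s).trans hs)

theorem mix_close {I : Finset (Finset P2)} {w a b : Finset P2 → ℝ} {e : ℝ}
    (hw : ∀ D ∈ I, 0 ≤ w D) (h1 : ∑ D ∈ I, w D = 1) (h : ∀ D ∈ I, |a D - b D| ≤ e) :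
    |∑ D ∈ I, w D * a D - ∑ D ∈ I, w D * b D| ≤ e := by
  rw [← Finset.sum_sub_distrib]
  refine (Finset.abs_sum_le_sum_abs _ _).trans ?_
  calc ∑ D ∈ I, |w D * a D - w D * b D| ≤ ∑ D ∈ I, w D * e := by
        refine Finset.sum_le_sum fun D hD => ?_
        rw [← mul_sub, abs_mul, abs_of_nonneg (hw D hD)]
        exact mul_le_mul_of_nonneg_left (h D hD) (hw D hD)
    _ = e := by rw [← Finset.sum_mul, h1, one_mul]

/-! ### RING + BOUNDARY ==> L0 -/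

theorem propL0_of {c kap : ℝ} (hc : 1 ≤ c) (hR : RingProp c kap) (hH : HBd c) :
    PropL0 c kap := by
  intro ρ hρ J _ φ s hφ η ε hη hε
  classical
  -- constants from `dirichlet_approx`
  choose C η0 hC0 hη00 happ using fun j =>
    dirichlet_approx hρ (hφ j).1 (hφ j).2.1 (hφ j).2.2
  obtain ⟨Cs, hCspos, hCsj⟩ : ∃ Cs : ℝ, 0 < Cs ∧ ∀ j, C j ≤ Cs := by
    refine ⟨1 + ∑ j, C j, ?_, fun j => ?_⟩
    · have : 0 ≤ ∑ j, C j := Finset.sum_nonneg fun j _ => hC0 j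
      linarith
    · have := Finset.single_le_sum (f := C) (fun i _ => hC0 i) (Finset.mem_univ j)
      linarith
  obtain ⟨Ss, hSspos, hSsj⟩ : ∃ Ss : ℝ, 0 < Ss ∧ ∀ j, |s j| ≤ Ss := by
    refine ⟨1 + ∑ j, |s j|, ?_, fun j => ?_⟩
    · have : 0 ≤ ∑ j, |s j| := Finset.sum_nonneg fun j _ => abs_nonneg _
      linarith
    · have := Finset.single_le_sum (f := fun j => |s j|) (fun i _ => abs_nonneg _)
        (Finset.mem_univ j)
      linarith
  obtain ⟨η1, hη1, hH1⟩ := hH ρ hρ Cs (ε / (3 * Ss)) hCspos (by positivity)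
  -- continuity of the Gaussian value
  have hcont : ∀ j, ∃ η2 : ℝ, 0 < η2 ∧ ∀ a : ℝ, |a - Gf ρ (φ j) (φ j)| ≤ C j * η2 →
      |Real.exp (-(s j ^ 2 * (kap * a) / 2))
        - Real.exp (-(s j ^ 2 * (kap * Gf ρ (φ j) (φ j)) / 2))| ≤ ε / 3 := by
    intro j
    have h1 : Continuous fun a : ℝ => Real.exp (-(s j ^ 2 * (kap * a) / 2)) := by fun_prop
    obtain ⟨d, hd0, hd⟩ := Metric.continuous_iff.1 h1 (Gf ρ (φ j) (φ j)) (ε / 3) (by positivity)
    refine ⟨d / (2 * (C j + 1)), by have := hC0 j; positivity, fun a ha => ?_⟩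
    have h2 : C j * (d / (2 * (C j + 1))) < d := by
      have h3 := hC0 j
      rw [mul_div_assoc', div_lt_iff₀ (by positivity)]
      nlinarith
    exact (hd a (by rw [Real.dist_eq]; exact ha.trans_lt h2)).le
  choose η2 hη2 hcont using hcont
  -- choice of the layer width
  obtain ⟨ζ, hζ0, hζη, hζ1, hζρ, hζj, hζj2⟩ : ∃ ζ : ℝ, 0 < ζ ∧ ζ ≤ η ∧ ζ < η1 ∧ ζ < ρ ∧
      (∀ j, ζ < η0 j) ∧ (∀ j, ζ ≤ η2 j) := by
    have h1 : ∀ᶠ ζ : ℝ in 𝓝[>] 0, ζ ≤ η :=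
      (eventually_le_nhds hη).filter_mono nhdsWithin_le_nhds
    have h2 : ∀ᶠ ζ : ℝ in 𝓝[>] 0, ζ < η1 :=
      (eventually_lt_nhds hη1).filter_mono nhdsWithin_le_nhds
    have h3 : ∀ᶠ ζ : ℝ in 𝓝[>] 0, ζ < ρ :=
      (eventually_lt_nhds hρ).filter_mono nhdsWithin_le_nhds
    have h4 : ∀ᶠ ζ : ℝ in 𝓝[>] 0, ∀ j, ζ < η0 j :=
      eventually_all.2 fun j => (eventually_lt_nhds (hη00 j)).filter_mono nhdsWithin_le_nhds
    have h5 : ∀ᶠ ζ : ℝ in 𝓝[>] 0, ∀ j, ζ ≤ η2 j :=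
      eventually_all.2 fun j => (eventually_le_nhds (hη2 j)).filter_mono nhdsWithin_le_nhds
    have h0 : ∀ᶠ ζ : ℝ in 𝓝[>] 0, 0 < ζ := self_mem_nhdsWithin
    obtain ⟨ζ, a0, a1, a2, a3, a4, a5⟩ :=
      (h0.and (h1.and (h2.and (h3.and (h4.and h5))))).exists
    exact ⟨ζ, a0, a1, a2, a3, a4, a5⟩
  choose ψ hψs hψc hψ0 hψC hrC hrsupp hψr hψG using fun j => happ j ζ hζ0 (hζj j)
  -- ring
  have hring := hR ρ ζ hζ0 hζρ J inferInstance ψ s (fun j => ⟨hψs j, hψc j, hψ0 j⟩) (ε / 3)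
    (by positivity)
  have hbd := hH1 ζ hζ0 hζ1
  filter_upwards [hring, hbd, self_mem_nhdsWithin] with δ hδ1 hδ2 hδ
  have hδ0 : 0 < δ := hδ
  obtain ⟨I, w, hmix, hcos⟩ := hδ1
  refine ⟨I, w, ⟨hmix.nonneg, hmix.sum_one, fun D hD => ?_⟩, fun j => ?_⟩
  · obtain ⟨h1, h2, h3⟩ := hmix.dom D hD
    exact ⟨h1, (disc_mono hδ0 (by linarith)).trans h2,
      h3.trans (disc_mono hδ0 (by linarith))⟩
  · -- compare the two cosines
    have h6 := hcos j
    have h7 := hcont j _ ((hψG j).trans (mul_le_mul_of_nonneg_left (hζj2 j) (hC0 j)))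
    have hX : ∀ D ∈ I, |E c D (fun u => Real.cos (s j * X δ D (φ j) u))
        - E c D (fun u => Real.cos (s j * X δ D (fun z => -(Δ (ψ j)) z) u))| ≤ ε / 3 := by
      intro D hD
      obtain ⟨h1, h2, h3⟩ := hmix.dom D hD
      have h5 := hδ2 D h1 h2 h3 (fun z => φ j z + (Δ (ψ j)) z)
        (fun w => (hrC j w).trans (div_le_div_of_nonneg_right (hCsj j) hζ0.le)) (hrsupp j)
      refine (cos_close hc D δ (s j) Ss _ _ _ _ (hSsj j) (fun z => ?_) h5).trans (le_of_eq ?_)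
      · ring
      · field_simp
    have hsum := mix_close hmix.nonneg hmix.sum_one hX
    generalize (∑ D ∈ I, w D * E c D (fun u => Real.cos (s j * X δ D (φ j) u))) = a at hsum ⊢
    generalize (∑ D ∈ I, w D *
      E c D (fun u => Real.cos (s j * X δ D (fun z => -(Δ (ψ j)) z) u))) = b at hsum h6
    generalize Real.exp (-(s j ^ 2 * (kap * Gf ρ (φ j) (φ j)) / 2)) = g at h7 ⊢
    generalize Real.exp (-(s j ^ 2 * (kap * ∫ z, ψ j z * (-(Δ (ψ j)) z)) / 2)) = g' at h6 h7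
    rw [abs_le] at *
    constructor <;> linarith [hsum.1, hsum.2, h6.1, h6.2, h7.1, h7.2]

/-! ### L0 + UI ==> L -/

/-- `x² - (2/t²)(1 - cos (t x))` is between `0` and `t² M⁴ + 2 (x² - M²)₊` when `2 t M ≤ 1`. -/
theorem sq_cos_bound {t M x : ℝ} (ht : 0 < t) (hM : 0 < M) (htM : 2 * (t * M) ≤ 1) :
    |x ^ 2 - 2 / t ^ 2 * (1 - Real.cos (t * x))| ≤ t ^ 2 * M ^ 4 + 2 * max (x ^ 2 - M ^ 2) 0 := by
  have h0 : 0 ≤ x ^ 2 - 2 / t ^ 2 * (1 - Real.cos (t * x)) := by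
    have h1 := Real.one_sub_sq_div_two_le_cos (x := t * x)
    have h2 : 2 / t ^ 2 * (1 - Real.cos (t * x)) ≤ 2 / t ^ 2 * ((t * x) ^ 2 / 2) := by
      apply mul_le_mul_of_nonneg_left _ (by positivity)
      linarith
    have h3 : 2 / t ^ 2 * ((t * x) ^ 2 / 2) = x ^ 2 := by field_simp
    linarith
  rw [abs_of_nonneg h0]
  have h5 : 0 ≤ 2 / t ^ 2 * (1 - Real.cos (t * x)) := by
    have := Real.cos_le_one (t * x)
    have h6 : 0 ≤ 1 - Real.cos (t * x) := by linarith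
    positivity
  by_cases hx : x ^ 2 ≤ 2 * M ^ 2
  · -- small `x`
    have habs : |x| ≤ 2 * M := by
      apply abs_le_of_sq_le_sq _ (by positivity)
      nlinarith [sq_nonneg M]
    have h1 : |t * x| ≤ 1 := by
      rw [abs_mul, abs_of_pos ht]
      calc t * |x| ≤ t * (2 * M) := mul_le_mul_of_nonneg_left habs ht.le
        _ = 2 * (t * M) := by ring
        _ ≤ 1 := htM
    have h2 := (abs_le.1 (Real.cos_bound h1)).1
    have h3 : |t * x| ^ 4 = t ^ 4 * x ^ 4 := by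
      rw [abs_mul, mul_pow, abs_of_pos ht]
      congr 1
      rw [show (4 : ℕ) = 2 * 2 from rfl, pow_mul, sq_abs, ← pow_mul]
    rw [h3] at h2
    have h4 : 1 - Real.cos (t * x) ≥ (t * x) ^ 2 / 2 - t ^ 4 * x ^ 4 * (5 / 96) → True :=
      fun _ => trivial
    have h7 := (abs_le.1 (Real.cos_bound h1)).2
    rw [h3] at h7
    -- 1 - cos ≥ (tx)^2/2 - 5/96 t^4 x^4
    have h8 : (t * x) ^ 2 / 2 - t ^ 4 * x ^ 4 * (5 / 96) ≤ 1 - Real.cos (t * x) := by linarith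
    have h9 : 2 / t ^ 2 * ((t * x) ^ 2 / 2 - t ^ 4 * x ^ 4 * (5 / 96)) ≤
        2 / t ^ 2 * (1 - Real.cos (t * x)) := mul_le_mul_of_nonneg_left h8 (by positivity)
    have h10 : 2 / t ^ 2 * ((t * x) ^ 2 / 2 - t ^ 4 * x ^ 4 * (5 / 96))
        = x ^ 2 - t ^ 2 * x ^ 4 * (5 / 48) := by
      field_simp
      ring
    have h11 : x ^ 4 ≤ 4 * M ^ 4 := by
      have : x ^ 4 = (x ^ 2) ^ 2 := by ring
      rw [this]
      have h12 : (x ^ 2) ^ 2 ≤ (2 * M ^ 2) ^ 2 := by gcongr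
      calc (x ^ 2) ^ 2 ≤ (2 * M ^ 2) ^ 2 := h12
        _ = 4 * M ^ 4 := by ring
    have h13 : 0 ≤ max (x ^ 2 - M ^ 2) 0 := le_max_right _ _
    have h14 : t ^ 2 * x ^ 4 ≤ t ^ 2 * (4 * M ^ 4) := mul_le_mul_of_nonneg_left h11 (by positivity)
    have h15 : 0 ≤ t ^ 2 * M ^ 4 := by positivity
    nlinarith
  · have h13 : x ^ 2 - M ^ 2 ≤ max (x ^ 2 - M ^ 2) 0 := le_max_left _ _
    have h15 : 0 ≤ t ^ 2 * M ^ 4 := by positivity
    linarith

theorem tendsto_var (v : ℝ) :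
    Tendsto (fun t : ℝ => 2 / t ^ 2 * (1 - Real.exp (-(t ^ 2 * v / 2)))) (𝓝[>] 0) (𝓝 v) := by
  -- derivative of `x ↦ 1 - exp (-(x v))` at `0`
  have h1 : HasDerivAt (fun x : ℝ => 1 - Real.exp (-(x * v))) v 0 := by
    have h2 : HasDerivAt (fun x : ℝ => Real.exp (-(x * v))) (Real.exp (-(0 * v)) * (-(1 * v))) 0 :=
      (((hasDerivAt_id (0 : ℝ)).mul_const v).neg).exp
    have h3 := h2.const_sub 1
    simpa using h3
  have h4 := h1.tendsto_slope_zero_right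
  -- substitute x = t^2 / 2
  have h5 : Tendsto (fun t : ℝ => t ^ 2 / 2) (𝓝[>] 0) (𝓝[>] 0) := by
    refine tendsto_nhdsWithin_iff.2 ⟨?_, ?_⟩
    · have : Tendsto (fun t : ℝ => t ^ 2 / 2) (𝓝 0) (𝓝 (0 ^ 2 / 2)) :=
        Continuous.tendsto (by fun_prop) 0
      simpa using this.mono_left nhdsWithin_le_nhds
    · filter_upwards [self_mem_nhdsWithin] with t ht
      have : 0 < t := ht
      show 0 < t ^ 2 / 2
      positivity
  have h6 := h4.comp h5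
  refine h6.congr' ?_
  filter_upwards [self_mem_nhdsWithin] with t ht
  have ht0 : (0 : ℝ) < t := ht
  simp only [Function.comp, smul_eq_mul, zero_add, zero_mul, neg_zero, Real.exp_zero, sub_self,
    sub_zero]
  have e : t ^ 2 / 2 * v = t ^ 2 * v / 2 := by ring
  rw [e]
  field_simp

theorem propL_of {c kap : ℝ} (hc : 1 ≤ c) (hL0 : PropL0 c kap) (hU : UIprop c) : PropL c kap := by
  intro ρ hρ φ ψ hφ hφc hφs hψ hψc hψs hψ0 s η hη
  set v : ℝ := kap * Gf ρ ψ ψ with hv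
  obtain ⟨M, hM0, hM⟩ := hU (ρ + η) (by linarith) ψ hψ hψc hψ0
    (hψs.trans (ball_subset_ball (by linarith))) (η / 8) (by positivity)
  -- choice of `t`
  obtain ⟨t, ht0, htM, htM4, htv⟩ : ∃ t : ℝ, 0 < t ∧ 2 * (t * M) ≤ 1 ∧ t ^ 2 * M ^ 4 ≤ η / 4 ∧
      |2 / t ^ 2 * (1 - Real.exp (-(t ^ 2 * v / 2))) - v| ≤ η / 4 := by
    have h0 : ∀ᶠ t : ℝ in 𝓝[>] 0, 0 < t := self_mem_nhdsWithin
    have h1 : ∀ᶠ t : ℝ in 𝓝[>] 0, 2 * (t * M) ≤ 1 := by
      have : Tendsto (fun t : ℝ => 2 * (t * M)) (𝓝 0) (𝓝 (2 * (0 * M))) :=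
        Continuous.tendsto (by fun_prop) 0
      have h2 := this.mono_left (nhdsWithin_le_nhds (s := Set.Ioi 0))
      simp only [zero_mul, mul_zero] at h2
      exact h2.eventually_le_const one_pos
    have h2 : ∀ᶠ t : ℝ in 𝓝[>] 0, t ^ 2 * M ^ 4 ≤ η / 4 := by
      have : Tendsto (fun t : ℝ => t ^ 2 * M ^ 4) (𝓝 0) (𝓝 (0 ^ 2 * M ^ 4)) :=
        Continuous.tendsto (by fun_prop) 0
      have h2 := this.mono_left (nhdsWithin_le_nhds (s := Set.Ioi 0))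
      simp only [ne_eq, OfNat.ofNat_ne_zero, not_false_eq_true, zero_pow, zero_mul] at h2
      exact h2.eventually_le_const (by positivity)
    have h3 : ∀ᶠ t : ℝ in 𝓝[>] 0,
        |2 / t ^ 2 * (1 - Real.exp (-(t ^ 2 * v / 2))) - v| ≤ η / 4 := by
      have := (Metric.tendsto_nhds.1 (tendsto_var v)) (η / 4) (by positivity)
      filter_upwards [this] with t ht
      rw [Real.dist_eq] at ht
      exact ht.le
    obtain ⟨t, a, b, c', d⟩ := (h0.and (h1.and (h2.and h3))).exists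
    exact ⟨t, a, b, c', d⟩
  have hL := hL0 ρ hρ Bool inferInstance (fun j => if j then φ else ψ) (fun j => if j then s else t)
    (fun j => by
      cases j
      · exact ⟨hψ, hψc, hψs⟩
      · exact ⟨hφ, hφc, hφs⟩) η (min η (t ^ 2 * η / 8)) hη (by positivity)
  filter_upwards [hL, hM] with δ hδ1 hδ2
  obtain ⟨I, w, hmix, hcos⟩ := hδ1
  have hcφ := hcos true
  have hcψ := hcos false
  simp only [if_true, Bool.false_eq_true, if_false] at hcφ hcψ
  refine ⟨I, w, hmix.nonneg, hmix.sum_one, hmix.dom, hcφ.trans (min_le_left _ _), ?_⟩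
  -- second moment
  have hclose : ∀ D ∈ I, |E c D (fun u => X δ D ψ u ^ 2)
      - 2 / t ^ 2 * (1 - E c D (fun u => Real.cos (t * X δ D ψ u)))| ≤ η / 2 := by
    intro D hD
    have h1 : E c D (fun u => X δ D ψ u ^ 2)
        - 2 / t ^ 2 * (1 - E c D (fun u => Real.cos (t * X δ D ψ u)))
        = E c D (fun u => X δ D ψ u ^ 2 - 2 / t ^ 2 * (1 - Real.cos (t * X δ D ψ u))) := by
      rw [E_sub, E_smul, E_sub, E_const hc]
    rw [h1]
    refine (abs_E_le hc D _).trans ?_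
    have h2 : E c D (fun u => |X δ D ψ u ^ 2 - 2 / t ^ 2 * (1 - Real.cos (t * X δ D ψ u))|) ≤
        E c D (fun u => t ^ 2 * M ^ 4 + 2 * max (X δ D ψ u ^ 2 - M ^ 2) 0) :=
      E_mono hc fun u _ => sq_cos_bound ht0 hM0 htM
    refine h2.trans ?_
    rw [E_add, E_const hc, E_smul]
    have h3 := hδ2 D (hmix.dom D hD).1 (hmix.dom D hD).2.2
    linarith
  have hsum := mix_close hmix.nonneg hmix.sum_one hclose
  have hsplit : ∑ D ∈ I, w D * (2 / t ^ 2 * (1 - E c D (fun u => Real.cos (t * X δ D ψ u))))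
      = 2 / t ^ 2 * (1 - ∑ D ∈ I, w D * E c D (fun u => Real.cos (t * X δ D ψ u))) := by
    have e : ∀ D, w D * (2 / t ^ 2 * (1 - E c D (fun u => Real.cos (t * X δ D ψ u))))
        = 2 / t ^ 2 * (w D - w D * E c D (fun u => Real.cos (t * X δ D ψ u))) := fun D => by ring
    simp_rw [e]
    rw [← Finset.mul_sum, Finset.sum_sub_distrib, hmix.sum_one]
  rw [hsplit] at hsum
  have hc2 := hcψ.trans (min_le_right _ _)
  have hvv : t ^ 2 * (kap * Gf ρ ψ ψ) / 2 = t ^ 2 * v / 2 := by rw [hv]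
  rw [hvv] at hc2
  generalize (∑ D ∈ I, w D * E c D (fun u => Real.cos (t * X δ D ψ u))) = a at hsum hc2
  generalize (∑ D ∈ I, w D * E c D (fun u => X δ D ψ u ^ 2)) = b at hsum ⊢
  generalize Real.exp (-(t ^ 2 * v / 2)) = g at hc2 htv
  have h5 : |2 / t ^ 2 * (1 - a) - 2 / t ^ 2 * (1 - g)| ≤ η / 4 := by
    have : 2 / t ^ 2 * (1 - a) - 2 / t ^ 2 * (1 - g) = -(2 / t ^ 2 * (a - g)) := by ring
    rw [this, abs_neg, abs_mul, abs_of_nonneg (by positivity : (0 : ℝ) ≤ 2 / t ^ 2)]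
    calc 2 / t ^ 2 * |a - g| ≤ 2 / t ^ 2 * (t ^ 2 * η / 8) :=
          mul_le_mul_of_nonneg_left hc2 (by positivity)
      _ = η / 4 := by field_simp; norm_num
  rw [abs_le] at *
  constructor <;> linarith [hsum.1, hsum.2, h5.1, h5.2, htv.1, htv.2]

/-! ### the final theorem -/

/-- **Assembly.**  Everything in terms of the four block outputs. -/
theorem tendsto_cos {c kap : ℝ} (hc : 1 ≤ c) (hS : Sandwich c) (hM : Mono2 c)
    (hR : RingProp c kap) (hH : HBd c) (hU : UIprop c)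
    {φ : ℂ → ℝ} (hφ : ContDiff ℝ ∞ φ) (hφc : HasCompactSupport φ)
    (hφD : tsupport φ ⊆ ball (0 : ℂ) 1) (s : ℝ) :
    Tendsto (fun δ : ℝ => E c (faces δ) (fun u => Real.cos (s * X δ (faces δ) φ u)))
      (𝓝[>] 0) (𝓝 (Real.exp (-(s ^ 2 * (kap * Gf 1 φ φ) / 2)))) :=
  main hS hM (propL_of hc (propL0_of hc hR hH) hU) hφ hφc hφD s

theorem pairK_eq (δ : ℝ) (φ : ℂ → ℝ) (F : Finset P2) {u : Cfg} (hu : Valid F u) :
    HtStmt132.pairK δ φ F u.1 = X δ F φ u / 2 := by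
  unfold HtStmt132.pairK X Lin
  rw [Finset.mul_sum, Finset.sum_div]
  have hsub : intVerts F ⊆ F := Finset.filter_subset _ _
  rw [← Finset.sum_subset hsub]
  · exact Finset.sum_congr rfl fun v _ => by ring
  · intro v _ hv
    rw [hu.zero v hv]
    simp

/-- **S0242 from the block outputs.** -/
theorem s0242 (U : ℝ) {kap : ℝ} (hk : kap = 1 / Real.arcsin ((tParam U)⁻¹ / 2))
    (hS : Sandwich (tParam U)⁻¹) (hM : Mono2 (tParam U)⁻¹)
    (hR : RingProp (tParam U)⁻¹ kap) (hH : HBd (tParam U)⁻¹) (hU : UIprop (tParam U)⁻¹)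
    (φ : ℂ → ℝ) (hφ : ContDiff ℝ ∞ φ) (hφc : HasCompactSupport φ)
    (hφD : tsupport φ ⊆ ball (0 : ℂ) 1) (s : ℝ) :
    Tendsto (fun δ : ℝ => atExpect δ U
        (fun cfg => Complex.exp (Complex.I * (s * atPairing φ cfg : ℝ))))
      (𝓝[>] 0)
      (𝓝 (Complex.exp (-(2 * Crest.ProbabilityR.DiscGreen.discGreenForm φ /
        (Real.pi * gParam U) * s ^ 2 / 2 : ℝ)))) := by
  have hc : 1 ≤ (tParam U)⁻¹ :=
    (one_le_inv₀ (Top729.tParam_pos U)).2 (Top729.tParam_lt_one U).le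
  rw [← Complex.ofReal_neg]
  refine HtStmt132.s0242_of_E U φ s _ ?_
  have h1 := tendsto_cos hc hS hM hR hH hU hφ hφc hφD (s / 2)
  have e1 : (fun δ : ℝ => E (tParam U)⁻¹ (faces δ)
      (fun u => Real.cos (s * HtStmt132.pairK δ φ (faces δ) u.1)))
      = fun δ : ℝ => E (tParam U)⁻¹ (faces δ)
        (fun u => Real.cos (s / 2 * X δ (faces δ) φ u)) := by
    funext δ
    refine E_congr fun u hu => ?_
    rw [pairK_eq δ φ _ hu]
    congr 1
    ring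
  rw [e1]
  have e2 : Real.exp (-(2 * Crest.ProbabilityR.DiscGreen.discGreenForm φ /
        (Real.pi * gParam U) * s ^ 2 / 2))
      = Real.exp (-((s / 2) ^ 2 * (kap * Gf 1 φ φ) / 2)) := by
    congr 1
    rw [Gf_one, hk, Top729.gParam_eq, Top729.tParam_inv]
    have hpi := Real.pi_ne_zero
    by_cases h0 : Real.arcsin (√(1 + Real.exp (4 * U)) / 2) = 0
    · rw [h0]; simp
    · field_simp
      ring
  rw [e2]
  exact h1

end Crest.Agent.R161.Asm695
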