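import Mathlib
import Crest.Prelude.Def_DiscGreen

/-!
# R161 (S0242): Dirichlet Green functions of discs (helper722), part 1

`G ρ z w = (2π)⁻¹ log (|ρ² - z conj w| / (ρ |z - w|))`, forms, integrability, dependence on `ρ`.
-/

set_option autoImplicit false

open MeasureTheory Metric Set Filter Topology
open scoped ComplexConjugate

namespace Crest.Agent.R161.Green722

noncomputable section

/-- Dirichlet Green function of the disc of radius `ρ` (of `-Δ`). -/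
def G (ρ : ℝ) (z w : ℂ) : ℝ :=
  (1 / (2 * Real.pi)) * Real.log (‖(ρ : ℂ) ^ 2 - z * conj w‖ / (ρ * ‖z - w‖))

theorem G_one (z w : ℂ) : G 1 z w = Crest.ProbabilityR.DiscGreen.discGreen z w := by
  unfold G Crest.ProbabilityR.DiscGreen.discGreen
  simp

/-- the fundamental solution `-(2π)⁻¹ log |z - w|` -/
def Gpl (z w : ℂ) : ℝ := -((1 / (2 * Real.pi)) * Real.log ‖z - w‖)

/-- the regular part of `G ρ` -/
def Hr (ρ : ℝ) (z w : ℂ) : ℝ :=
  (1 / (2 * Real.pi)) * (Real.log ‖(ρ : ℂ) ^ 2 - z * conj w‖ - Real.log ρ)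

theorem norm_sq_sub (ρ : ℝ) (z w : ℂ) :
    ‖(ρ : ℂ) ^ 2 - z * conj w‖ ^ 2 - ρ ^ 2 * ‖z - w‖ ^ 2 =
      (ρ ^ 2 - ‖z‖ ^ 2) * (ρ ^ 2 - ‖w‖ ^ 2) := by
  simp only [← Complex.normSq_eq_norm_sq, Complex.normSq_apply]
  simp only [Complex.sub_re, Complex.sub_im, Complex.mul_re, Complex.mul_im, Complex.conj_re,
    Complex.conj_im, pow_two, Complex.ofReal_re, Complex.ofReal_im]
  ring

theorem G_symm (ρ : ℝ) (z w : ℂ) : G ρ z w = G ρ w z := by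
  unfold G
  have h1 : ‖(ρ : ℂ) ^ 2 - z * conj w‖ = ‖(ρ : ℂ) ^ 2 - w * conj z‖ := by
    rw [← RCLike.norm_conj (K := ℂ) ((ρ : ℂ) ^ 2 - z * conj w)]
    congr 1
    simp [mul_comm]
  rw [h1, norm_sub_rev z w]

theorem ker_ne {ρ : ℝ} (hρ : 0 < ρ) {z w : ℂ} (hz : ‖z‖ < ρ) (hw : ‖w‖ ≤ ρ) :
    (ρ : ℂ) ^ 2 - z * conj w ≠ 0 := by
  intro h
  have h1 : (ρ : ℂ) ^ 2 = z * conj w := sub_eq_zero.mp h
  have h2 := congrArg norm h1
  simp only [norm_pow, Complex.norm_real, Real.norm_eq_abs, sq_abs, norm_mul,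
    RCLike.norm_conj] at h2
  have h3 := norm_nonneg z
  have h4 := norm_nonneg w
  nlinarith

theorem G_eq {ρ : ℝ} (hρ : 0 < ρ) {z w : ℂ} (hz : ‖z‖ < ρ) (hw : ‖w‖ ≤ ρ) (hne : z ≠ w) :
    G ρ z w = Gpl z w + Hr ρ z w := by
  unfold G Gpl Hr
  have h1 : ‖(ρ : ℂ) ^ 2 - z * conj w‖ ≠ 0 := norm_ne_zero_iff.mpr (ker_ne hρ hz hw)
  have h2 : ‖z - w‖ ≠ 0 := norm_ne_zero_iff.mpr (sub_ne_zero.mpr hne)
  rw [Real.log_div h1 (mul_ne_zero hρ.ne' h2), Real.log_mul hρ.ne' h2]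
  ring

theorem G_nonneg {ρ : ℝ} (hρ : 0 < ρ) {z w : ℂ} (hz : ‖z‖ ≤ ρ) (hw : ‖w‖ ≤ ρ) : 0 ≤ G ρ z w := by
  unfold G
  rcases eq_or_ne z w with rfl | hne
  · simp
  have h2 : 0 < ‖z - w‖ := norm_pos_iff.mpr (sub_ne_zero.mpr hne)
  refine mul_nonneg (by positivity) (Real.log_nonneg ?_)
  rw [one_le_div (by positivity)]
  have h3 := norm_sq_sub ρ z w
  have h4 : 0 ≤ (ρ ^ 2 - ‖z‖ ^ 2) * (ρ ^ 2 - ‖w‖ ^ 2) := by
    have := norm_nonneg z
    have := norm_nonneg w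
    apply mul_nonneg <;> nlinarith
  have h5 : (ρ * ‖z - w‖) ^ 2 ≤ ‖(ρ : ℂ) ^ 2 - z * conj w‖ ^ 2 := by
    rw [mul_pow]; linarith
  exact le_of_sq_le_sq h5 (norm_nonneg _) |>.trans le_rfl

theorem G_bdry {ρ : ℝ} (hρ : 0 < ρ) {z w : ℂ} (hw : ‖w‖ = ρ) : G ρ z w = 0 := by
  unfold G
  rcases eq_or_ne z w with rfl | hne
  · simp
  have h2 : 0 < ‖z - w‖ := norm_pos_iff.mpr (sub_ne_zero.mpr hne)
  have h3 := norm_sq_sub ρ z w
  rw [hw, sub_self, mul_zero] at h3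
  have h5 : ‖(ρ : ℂ) ^ 2 - z * conj w‖ ^ 2 = (ρ * ‖z - w‖) ^ 2 := by rw [mul_pow]; linarith
  have h6 : ‖(ρ : ℂ) ^ 2 - z * conj w‖ = ρ * ‖z - w‖ := by
    exact (sq_eq_sq₀ (norm_nonneg _) (by positivity)).mp h5
  rw [h6, div_self (by positivity)]
  simp

theorem G_mono {ρ ρ' : ℝ} (hρ : 0 < ρ) (h : ρ ≤ ρ') {z w : ℂ} (hz : ‖z‖ < ρ) (hw : ‖w‖ < ρ) :
    G ρ z w ≤ G ρ' z w := by
  have hρ' : 0 < ρ' := lt_of_lt_of_le hρ h
  rcases eq_or_ne z w with rfl | hne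
  · simp [G]
  unfold G
  have h2 : 0 < ‖z - w‖ := norm_pos_iff.mpr (sub_ne_zero.mpr hne)
  have h1 : 0 < ‖(ρ : ℂ) ^ 2 - z * conj w‖ := norm_pos_iff.mpr (ker_ne hρ hz hw.le)
  have h1' : 0 < ‖(ρ' : ℂ) ^ 2 - z * conj w‖ :=
    norm_pos_iff.mpr (ker_ne hρ' (hz.trans_le h) (hw.le.trans h))
  refine mul_le_mul_of_nonneg_left (Real.log_le_log (by positivity) ?_) (by positivity)
  rw [div_le_div_iff₀ (by positivity) (by positivity)]
  have h3 := norm_sq_sub ρ z w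
  have h3' := norm_sq_sub ρ' z w
  have hz0 := norm_nonneg z
  have hw0 := norm_nonneg w
  have key : ρ' ^ 2 * ‖(ρ : ℂ) ^ 2 - z * conj w‖ ^ 2 ≤ ρ ^ 2 * ‖(ρ' : ℂ) ^ 2 - z * conj w‖ ^ 2 := by
    have e1 : ‖(ρ : ℂ) ^ 2 - z * conj w‖ ^ 2 = ρ ^ 2 * ‖z - w‖ ^ 2 +
      (ρ ^ 2 - ‖z‖ ^ 2) * (ρ ^ 2 - ‖w‖ ^ 2) := by linarith
    have e2 : ‖(ρ' : ℂ) ^ 2 - z * conj w‖ ^ 2 = ρ' ^ 2 * ‖z - w‖ ^ 2 +
      (ρ' ^ 2 - ‖z‖ ^ 2) * (ρ' ^ 2 - ‖w‖ ^ 2) := by linarith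
    rw [e1, e2]
    have h4 : ρ ^ 2 ≤ ρ' ^ 2 := by nlinarith
    have h5 : ‖z‖ ^ 2 * ‖w‖ ^ 2 ≤ ρ ^ 2 * ρ' ^ 2 := by
      have := mul_le_mul (pow_le_pow_left₀ hz0 hz.le 2) (pow_le_pow_left₀ hw0 (hw.le.trans h) 2)
        (by positivity) (by positivity)
      exact this
    nlinarith [mul_nonneg (sub_nonneg.mpr h4) (sub_nonneg.mpr h5)]
  have h6 : (ρ' * ‖(ρ : ℂ) ^ 2 - z * conj w‖) ^ 2 ≤ (ρ * ‖(ρ' : ℂ) ^ 2 - z * conj w‖) ^ 2 := by
    rw [mul_pow, mul_pow]; exact key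
  have h7 := le_of_sq_le_sq h6 (by positivity)
  calc ‖(ρ : ℂ) ^ 2 - z * conj w‖ * (ρ' * ‖z - w‖)
      = (ρ' * ‖(ρ : ℂ) ^ 2 - z * conj w‖) * ‖z - w‖ := by ring
    _ ≤ (ρ * ‖(ρ' : ℂ) ^ 2 - z * conj w‖) * ‖z - w‖ := mul_le_mul_of_nonneg_right h7 h2.le
    _ = _ := by ring

theorem G_scale {ρ : ℝ} (hρ : 0 < ρ) (z w : ℂ) : G ρ (ρ * z) (ρ * w) = G 1 z w := by
  unfold G
  have h1 : (ρ : ℂ) ^ 2 - ρ * z * conj (ρ * w) = ρ ^ 2 * ((1 : ℝ) ^ 2 - z * conj w) := by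
    simp only [map_mul, Complex.conj_ofReal]
    push_cast
    ring
  have h2 : (ρ : ℂ) * z - ρ * w = ρ * (z - w) := by ring
  rw [h1, h2, norm_mul, norm_mul, norm_pow, Complex.norm_real, Real.norm_of_nonneg hρ.le]
  congr 2
  rcases eq_or_ne ‖z - w‖ 0 with h | h
  · simp [h]
  · field_simp

/-! ### measurability and integrability of the kernels -/

theorem measurable_G (ρ : ℝ) : Measurable (fun p : ℂ × ℂ => G ρ p.1 p.2) := by
  unfold G
  have h1 : Continuous fun p : ℂ × ℂ => ‖(ρ : ℂ) ^ 2 - p.1 * conj p.2‖ := by fun_prop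
  have h2 : Continuous fun p : ℂ × ℂ => ρ * ‖p.1 - p.2‖ := by fun_prop
  exact (Real.measurable_log.comp (h1.measurable.div h2.measurable)).const_mul _

theorem measurable_Gpl : Measurable (fun p : ℂ × ℂ => Gpl p.1 p.2) := by
  unfold Gpl
  have h2 : Continuous fun p : ℂ × ℂ => ‖p.1 - p.2‖ := by fun_prop
  exact ((Real.measurable_log.comp h2.measurable).const_mul _).neg

theorem integrableOn_norm_rpow {s : ℝ} (hs : s < 2) (R : ℝ) :
    IntegrableOn (fun z : ℂ => ‖z‖ ^ (-s)) (ball 0 R) := by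
  have h1 : Integrable (fun z : ℂ => ((Iio R).indicator (fun t : ℝ => t ^ (-s))) ‖z‖) := by
    rw [integrable_fun_norm_addHaar (volume : Measure ℂ) (f := (Iio R).indicator (fun t : ℝ => t ^ (-s)))]
    have h2 : IntegrableOn (fun t : ℝ => t ^ (1 - s)) (Ioo 0 R) := by
      rcases le_or_gt R 0 with hR | hR
      · rw [Ioo_eq_empty (not_lt.mpr hR)]
        exact integrableOn_empty
      · have := (intervalIntegral.intervalIntegrable_rpow' (a := 0) (b := R) (r := 1 - s)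
          (by linarith)).1
        exact this.mono_set Ioo_subset_Ioc_self
    have h3 : IntegrableOn ((Iio R).indicator (fun t : ℝ => t ^ (1 - s))) (Ioi 0) := by
      rw [integrableOn_indicator_iff measurableSet_Iio]
      have : Iio R ∩ Ioi 0 = Ioo 0 R := by
        ext x; simp [and_comm]
      rwa [this]
    refine h3.congr_fun ?_ measurableSet_Ioi
    intro t ht
    have ht' : 0 < t := ht
    simp only [Complex.finrank_real_complex, Nat.add_one_sub_one, pow_one, smul_eq_mul,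
      indicator]
    split_ifs with h
    · rw [Real.rpow_sub ht', Real.rpow_one, Real.rpow_neg ht'.le]
      rfl
    · simp
  have h4 : (fun z : ℂ => ((Iio R).indicator (fun t : ℝ => t ^ (-s))) ‖z‖)
      = (ball (0 : ℂ) R).indicator (fun z : ℂ => ‖z‖ ^ (-s)) := by
    funext z
    simp only [indicator, mem_Iio, mem_ball_zero_iff]
  rw [h4, integrable_indicator_iff isOpen_ball.measurableSet] at h1
  exact h1

theorem abs_log_le {t : ℝ} (ht : 0 < t) : |Real.log t| ≤ t + 2 * t ^ (-(1 / 2) : ℝ) := by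
  rw [abs_le]
  constructor
  · have h2 : Real.log (t ^ (-(1 / 2) : ℝ)) ≤ t ^ (-(1 / 2) : ℝ) - 1 :=
      Real.log_le_sub_one_of_pos (by positivity)
    rw [Real.log_rpow ht] at h2
    linarith
  · have h2 := Real.log_le_sub_one_of_pos ht
    have h3 : 0 ≤ t ^ (-(1 / 2) : ℝ) := by positivity
    linarith

theorem integrableOn_log (R : ℝ) : IntegrableOn (fun z : ℂ => Real.log ‖z‖) (ball 0 R) := by
  have h1 : IntegrableOn (fun z : ℂ => ‖z‖ + 2 * ‖z‖ ^ (-(1 / 2) : ℝ)) (ball 0 R) := by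
    refine IntegrableOn.add ?_ ?_
    · exact ((continuous_norm.continuousOn).integrableOn_compact
        (isCompact_closedBall (0 : ℂ) R)).mono_set ball_subset_closedBall
    · exact (integrableOn_norm_rpow (s := 1 / 2) (by norm_num) R).const_mul 2
  refine Integrable.mono' h1 (Real.measurable_log.comp measurable_norm).aestronglyMeasurable ?_
  have h2 : ∀ᵐ z : ℂ, z ≠ 0 := by
    rw [ae_iff]; simp
  filter_upwards [ae_restrict_of_ae h2] with z hz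
  exact abs_log_le (norm_pos_iff.mpr hz)

/-- bounded measurable test functions supported in a closed ball -/
structure Tst (r : ℝ) (f : ℂ → ℝ) : Prop where
  meas : Measurable f
  bdd : ∃ A, ∀ z, |f z| ≤ A
  supp : ∀ z, r < ‖z‖ → f z = 0

theorem Tst.integrable {r : ℝ} {f : ℂ → ℝ} (h : Tst r f) : Integrable f := by
  obtain ⟨A, hA⟩ := h.bdd
  have h1 : Integrable ((closedBall (0 : ℂ) r).indicator fun _ => A) := by
    rw [integrable_indicator_iff isClosed_closedBall.measurableSet]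
    exact integrableOn_const (isCompact_closedBall (0 : ℂ) r).measure_lt_top.ne
  refine Integrable.mono' h1 h.meas.aestronglyMeasurable (Eventually.of_forall fun z => ?_)
  by_cases hz : ‖z‖ ≤ r
  · rw [indicator_of_mem (by simpa using hz)]
    exact hA z
  · rw [h.supp z (not_le.mp hz), norm_zero]
    exact indicator_nonneg (fun _ _ => (abs_nonneg _).trans (hA 0)) _

theorem Tst.mul_bdd {r : ℝ} {f g : ℂ → ℝ} (h : Tst r f) (hg : Measurable g)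
    (hb : ∃ A, ∀ z, |g z| ≤ A) : Tst r (fun z => g z * f z) := by
  obtain ⟨A, hA⟩ := h.bdd
  obtain ⟨B, hB⟩ := hb
  refine ⟨hg.mul h.meas, ⟨B * A, fun z => ?_⟩, fun z hz => by simp [h.supp z hz]⟩
  rw [abs_mul]
  exact mul_le_mul (hB z) (hA z) (abs_nonneg _) ((abs_nonneg _).trans (hB 0))

theorem Tst.mono {r r' : ℝ} {f : ℂ → ℝ} (h : Tst r f) (hr : r ≤ r') : Tst r' f :=
  ⟨h.meas, h.bdd, fun z hz => h.supp z (hr.trans_lt hz)⟩

theorem Tst.add {r : ℝ} {f g : ℂ → ℝ} (h : Tst r f) (hg : Tst r g) : Tst r (fun z => f z + g z) := by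
  obtain ⟨A, hA⟩ := h.bdd
  obtain ⟨B, hB⟩ := hg.bdd
  refine ⟨h.meas.add hg.meas, ⟨A + B, fun z => (abs_add_le _ _).trans (add_le_add (hA z) (hB z))⟩,
    fun z hz => by simp [h.supp z hz, hg.supp z hz]⟩

theorem Tst.const_mul {r : ℝ} {f : ℂ → ℝ} (h : Tst r f) (c : ℝ) : Tst r (fun z => c * f z) :=
  h.mul_bdd measurable_const ⟨|c|, fun _ => le_rfl⟩

theorem Tst.abs {r : ℝ} {f : ℂ → ℝ} (h : Tst r f) : Tst r (fun z => |f z|) := by
  obtain ⟨A, hA⟩ := h.bdd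
  exact ⟨h.meas.abs, ⟨A, fun z => by simpa using hA z⟩, fun z hz => by simp [h.supp z hz]⟩

/-- continuous functions with compact support in an open ball are test functions of a smaller
radius -/
theorem exists_Tst {ρ : ℝ} (hρ : 0 < ρ) {f : ℂ → ℝ} (hf : Continuous f) (hc : HasCompactSupport f)
    (hs : tsupport f ⊆ ball (0 : ℂ) ρ) : ∃ r, 0 ≤ r ∧ r < ρ ∧ Tst r f := by
  obtain ⟨A, hA⟩ := hf.bounded_above_of_compact_support hc
  obtain ⟨r, hr, hsub⟩ : ∃ r < ρ, tsupport f ⊆ closedBall 0 r := by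
    rcases (tsupport f).eq_empty_or_nonempty with h | h
    · exact ⟨0, hρ, by simp [h]⟩
    · obtain ⟨z0, hz0, hmax⟩ := hc.isCompact.exists_isMaxOn h continuous_norm.continuousOn
      exact ⟨‖z0‖, by simpa using hs hz0, fun z hz => by simpa using hmax hz⟩
  refine ⟨max r 0, le_max_right _ _, max_lt hr hρ, hf.measurable, ⟨A, hA⟩, fun z hz => ?_⟩
  by_contra h0
  have h1 : z ∈ tsupport f := subset_tsupport f h0
  have h2 := hsub h1
  simp only [mem_closedBall, dist_zero_right] at h2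
  exact absurd (le_max_of_le_left h2) (not_le.mpr hz)

theorem integrable_log_kernel {r : ℝ} {f g : ℂ → ℝ} (hf : Tst r f) (hg : Tst r g) :
    Integrable (fun p : ℂ × ℂ => f p.1 * Real.log ‖p.1 - p.2‖ * g p.2) := by
  obtain ⟨A, hA⟩ := hf.bdd
  have hA0 : 0 ≤ A := (abs_nonneg _).trans (hA 0)
  set k : ℂ → ℝ := (ball (0 : ℂ) (2 * r + 1)).indicator fun z => Real.log ‖z‖ with hk
  have hki : Integrable k := by
    rw [hk, integrable_indicator_iff isOpen_ball.measurableSet]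
    exact integrableOn_log _
  have h1 := Integrable.convolution_integrand (ContinuousLinearMap.mul ℝ ℝ) hg.integrable hki
  have h2 : Integrable (fun p : ℂ × ℂ => g p.2 * k (p.1 - p.2)) (volume.prod volume) := h1
  have h3 : Integrable (fun p : ℂ × ℂ => A * (g p.2 * k (p.1 - p.2))) (volume.prod volume) :=
    h2.const_mul A
  refine Integrable.mono (g := fun p : ℂ × ℂ => A * (g p.2 * k (p.1 - p.2))) h3 ?_ ?_
  · have h2' : Continuous fun p : ℂ × ℂ => ‖p.1 - p.2‖ := by fun_prop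
    exact (((hf.meas.comp measurable_fst).mul
      (Real.measurable_log.comp h2'.measurable)).mul
      (hg.meas.comp measurable_snd)).aestronglyMeasurable
  · refine Eventually.of_forall fun p => ?_
    by_cases hp1 : ‖p.1‖ ≤ r
    · by_cases hp2 : ‖p.2‖ ≤ r
      · have hk' : k (p.1 - p.2) = Real.log ‖p.1 - p.2‖ := by
          rw [hk, indicator_of_mem]
          rw [mem_ball_zero_iff]
          calc ‖p.1 - p.2‖ ≤ ‖p.1‖ + ‖p.2‖ := norm_sub_le _ _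
            _ < 2 * r + 1 := by linarith
        rw [hk']
        simp only [Real.norm_eq_abs, abs_mul, abs_of_nonneg hA0]
        calc |f p.1| * |Real.log ‖p.1 - p.2‖| * |g p.2|
            ≤ A * |Real.log ‖p.1 - p.2‖| * |g p.2| := by gcongr; exact hA _
          _ = _ := by ring
      · simp [hg.supp _ (not_le.mp hp2)]
    · rw [hf.supp _ (not_le.mp hp1), zero_mul, zero_mul, norm_zero]
      exact norm_nonneg _


theorem Hr_bdd {r ρ1 ρ2 : ℝ} (h0 : 0 < ρ1) (hr : r < ρ1) :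
    ∃ C, 0 ≤ C ∧ ∀ ρ, ρ1 ≤ ρ → ρ ≤ ρ2 → ∀ z w : ℂ, ‖z‖ ≤ r → ‖w‖ ≤ r → |Hr ρ z w| ≤ C := by
  have hK : IsCompact (Icc ρ1 ρ2 ×ˢ (closedBall (0 : ℂ) r ×ˢ closedBall (0 : ℂ) r)) :=
    isCompact_Icc.prod ((isCompact_closedBall _ _).prod (isCompact_closedBall _ _))
  have hc : ContinuousOn (fun q : ℝ × ℂ × ℂ => Hr q.1 q.2.1 q.2.2)
      (Icc ρ1 ρ2 ×ˢ (closedBall (0 : ℂ) r ×ˢ closedBall (0 : ℂ) r)) := by
    unfold Hr
    refine ContinuousOn.mul continuousOn_const (ContinuousOn.sub ?_ ?_)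
    · refine ContinuousOn.log (by fun_prop) ?_
      rintro ⟨ρ, z, w⟩ ⟨⟨h1, _⟩, hz, hw⟩
      simp only [mem_closedBall, dist_zero_right] at hz hw h1
      simp only [ne_eq, norm_eq_zero]
      exact ker_ne (h0.trans_le h1) (hz.trans_lt (hr.trans_le h1)) (hw.trans (hr.le.trans h1))
    · refine ContinuousOn.log (by fun_prop) ?_
      rintro ⟨ρ, z, w⟩ ⟨⟨h1, _⟩, _⟩
      exact (h0.trans_le h1).ne'
  obtain ⟨C, hC⟩ := hK.exists_bound_of_continuousOn hc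
  refine ⟨max C 0, le_max_right _ _, fun ρ h1 h2 z w hz hw => le_max_of_le_left ?_⟩
  exact hC (ρ, z, w) ⟨⟨h1, h2⟩, by simpa using hz, by simpa using hw⟩

theorem abs_G_le {r ρ1 ρ2 : ℝ} (h0 : 0 < ρ1) (hr : r < ρ1) :
    ∃ C, 0 ≤ C ∧ ∀ ρ, ρ1 ≤ ρ → ρ ≤ ρ2 → ∀ z w : ℂ, ‖z‖ ≤ r → ‖w‖ ≤ r →
      |G ρ z w| ≤ |Real.log ‖z - w‖| + C := by
  obtain ⟨C, hC0, hC⟩ := Hr_bdd (ρ2 := ρ2) h0 hr
  refine ⟨C, hC0, fun ρ h1 h2 z w hz hw => ?_⟩
  rcases eq_or_ne z w with rfl | hne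
  · simpa [G] using hC0
  rw [G_eq (h0.trans_le h1) (hz.trans_lt (hr.trans_le h1)) (hw.trans (hr.le.trans h1)) hne]
  refine (abs_add_le _ _).trans (add_le_add ?_ (hC ρ h1 h2 z w hz hw))
  unfold Gpl
  rw [abs_neg, abs_mul]
  have h3 : |1 / (2 * Real.pi)| ≤ 1 := by
    rw [abs_of_pos (by positivity), div_le_one (by positivity)]
    linarith [Real.pi_gt_three]
  calc |1 / (2 * Real.pi)| * |Real.log ‖z - w‖| ≤ 1 * |Real.log ‖z - w‖| := by gcongr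
    _ = _ := one_mul _

theorem integrable_dom {r : ℝ} {f g : ℂ → ℝ} (hf : Tst r f) (hg : Tst r g) (C : ℝ) :
    Integrable (fun p : ℂ × ℂ => |f p.1| * (|Real.log ‖p.1 - p.2‖| + C) * |g p.2|) := by
  have h1 := (integrable_log_kernel hf hg).abs
  have h2 : Integrable (fun p : ℂ × ℂ => C * (|f p.1| * |g p.2|)) :=
    ((hf.abs.integrable.mul_prod hg.abs.integrable)).const_mul C
  refine (h1.add h2).congr (Eventually.of_forall fun p => ?_)
  simp only [Pi.add_apply, abs_mul]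
  ring

theorem norm_integrand_le {r ρ1 ρ2 : ℝ} (h0 : 0 < ρ1) (hr : r < ρ1) {f g : ℂ → ℝ}
    (hf : Tst r f) (hg : Tst r g) : ∃ C, ∀ ρ, ρ1 ≤ ρ → ρ ≤ ρ2 → ∀ p : ℂ × ℂ,
      ‖f p.1 * G ρ p.1 p.2 * g p.2‖ ≤ |f p.1| * (|Real.log ‖p.1 - p.2‖| + C) * |g p.2| := by
  obtain ⟨C, hC0, hC⟩ := abs_G_le (ρ2 := ρ2) h0 hr
  refine ⟨C, fun ρ h1 h2 p => ?_⟩
  simp only [Real.norm_eq_abs, abs_mul]
  by_cases hp1 : ‖p.1‖ ≤ r
  · by_cases hp2 : ‖p.2‖ ≤ r
    · gcongr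
      exact hC ρ h1 h2 _ _ hp1 hp2
    · simp [hg.supp _ (not_le.mp hp2)]
  · simp [hf.supp _ (not_le.mp hp1)]

theorem measurable_integrand (ρ : ℝ) {r : ℝ} {f g : ℂ → ℝ} (hf : Tst r f) (hg : Tst r g) :
    Measurable (fun p : ℂ × ℂ => f p.1 * G ρ p.1 p.2 * g p.2) :=
  ((hf.meas.comp measurable_fst).mul (measurable_G ρ)).mul (hg.meas.comp measurable_snd)

theorem integrable_integrand {ρ r : ℝ} (h0 : 0 < ρ) (hr : r < ρ) {f g : ℂ → ℝ}
    (hf : Tst r f) (hg : Tst r g) :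
    Integrable (fun p : ℂ × ℂ => f p.1 * G ρ p.1 p.2 * g p.2) := by
  obtain ⟨C, hC⟩ := norm_integrand_le (ρ2 := ρ) h0 hr hf hg
  exact Integrable.mono' (integrable_dom hf hg C)
    (measurable_integrand ρ hf hg).aestronglyMeasurable
    (Eventually.of_forall fun p => hC ρ le_rfl le_rfl p)

/-- the Green form of the disc of radius `ρ` -/
def Gf (ρ : ℝ) (f g : ℂ → ℝ) : ℝ := ∫ z : ℂ, ∫ w : ℂ, f z * G ρ z w * g w

theorem Gf_one (f : ℂ → ℝ) : Gf 1 f f = Crest.ProbabilityR.DiscGreen.discGreenForm f := by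
  unfold Gf Crest.ProbabilityR.DiscGreen.discGreenForm
  simp only [G_one]

theorem Gf_eq_prod {ρ r : ℝ} (h0 : 0 < ρ) (hr : r < ρ) {f g : ℂ → ℝ}
    (hf : Tst r f) (hg : Tst r g) :
    Gf ρ f g = ∫ p : ℂ × ℂ, f p.1 * G ρ p.1 p.2 * g p.2 :=
  (integral_prod _ (integrable_integrand h0 hr hf hg)).symm

theorem Gf_symm {ρ r : ℝ} (h0 : 0 < ρ) (hr : r < ρ) {f g : ℂ → ℝ}
    (hf : Tst r f) (hg : Tst r g) : Gf ρ f g = Gf ρ g f := by
  rw [Gf_eq_prod h0 hr hf hg, Gf_eq_prod h0 hr hg hf]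
  have h := integral_prod_swap (μ := (volume : Measure ℂ)) (ν := (volume : Measure ℂ))
    (fun p : ℂ × ℂ => g p.1 * G ρ p.1 p.2 * f p.2)
  calc ∫ p : ℂ × ℂ, f p.1 * G ρ p.1 p.2 * g p.2
      = ∫ p : ℂ × ℂ, (fun p : ℂ × ℂ => g p.1 * G ρ p.1 p.2 * f p.2) p.swap := by
        congr 1
        funext p
        simp only [Prod.fst_swap, Prod.snd_swap]
        rw [G_symm]
        ring
    _ = _ := h

theorem Gf_add_left {ρ r : ℝ} (h0 : 0 < ρ) (hr : r < ρ) {f1 f2 g : ℂ → ℝ}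
    (hf1 : Tst r f1) (hf2 : Tst r f2) (hg : Tst r g) :
    Gf ρ (fun z => f1 z + f2 z) g = Gf ρ f1 g + Gf ρ f2 g := by
  rw [Gf_eq_prod h0 hr hf1 hg, Gf_eq_prod h0 hr hf2 hg, Gf_eq_prod h0 hr (hf1.add hf2) hg,
    ← integral_add (integrable_integrand h0 hr hf1 hg) (integrable_integrand h0 hr hf2 hg)]
  congr 1
  funext p
  ring

theorem Gf_const_mul_left {ρ : ℝ} (f g : ℂ → ℝ) (c : ℝ) :
    Gf ρ (fun z => c * f z) g = c * Gf ρ f g := by
  unfold Gf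
  rw [← integral_const_mul]
  congr 1
  funext z
  rw [← integral_const_mul]
  congr 1
  funext w
  ring

theorem Gf_const_mul_right {ρ : ℝ} (f g : ℂ → ℝ) (c : ℝ) :
    Gf ρ f (fun z => c * g z) = c * Gf ρ f g := by
  unfold Gf
  rw [← integral_const_mul]
  congr 1
  funext z
  rw [← integral_const_mul]
  congr 1
  funext w
  ring

theorem Gf_add_right {ρ r : ℝ} (h0 : 0 < ρ) (hr : r < ρ) {f g1 g2 : ℂ → ℝ}
    (hf : Tst r f) (hg1 : Tst r g1) (hg2 : Tst r g2) :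
    Gf ρ f (fun z => g1 z + g2 z) = Gf ρ f g1 + Gf ρ f g2 := by
  rw [Gf_symm h0 hr hf (hg1.add hg2), Gf_add_left h0 hr hg1 hg2 hf, Gf_symm h0 hr hg1 hf,
    Gf_symm h0 hr hg2 hf]

theorem Gf_nonneg {ρ r : ℝ} (h0 : 0 < ρ) (hr : r < ρ) {f g : ℂ → ℝ}
    (hf : Tst r f) (hg : Tst r g) (hf0 : ∀ z, 0 ≤ f z) (hg0 : ∀ z, 0 ≤ g z) : 0 ≤ Gf ρ f g := by
  rw [Gf_eq_prod h0 hr hf hg]
  refine integral_nonneg fun p => ?_
  by_cases hp1 : ‖p.1‖ ≤ r
  · by_cases hp2 : ‖p.2‖ ≤ r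
    · exact mul_nonneg (mul_nonneg (hf0 _) (G_nonneg h0 (hp1.trans hr.le) (hp2.trans hr.le)))
        (hg0 _)
    · simp [hg.supp _ (not_le.mp hp2)]
  · simp [hf.supp _ (not_le.mp hp1)]

theorem Gf_mono {ρ ρ' r : ℝ} (h0 : 0 < ρ) (hr : r < ρ) (h : ρ ≤ ρ') {f g : ℂ → ℝ}
    (hf : Tst r f) (hg : Tst r g) (hf0 : ∀ z, 0 ≤ f z) (hg0 : ∀ z, 0 ≤ g z) :
    Gf ρ f g ≤ Gf ρ' f g := by
  rw [Gf_eq_prod h0 hr hf hg, Gf_eq_prod (h0.trans_le h) (hr.trans_le h) hf hg]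
  refine integral_mono (integrable_integrand h0 hr hf hg)
    (integrable_integrand (h0.trans_le h) (hr.trans_le h) hf hg) fun p => ?_
  by_cases hp1 : ‖p.1‖ ≤ r
  · by_cases hp2 : ‖p.2‖ ≤ r
    · exact mul_le_mul_of_nonneg_right (mul_le_mul_of_nonneg_left
        (G_mono h0 h (hp1.trans_lt hr) (hp2.trans_lt hr)) (hf0 _)) (hg0 _)
    · simp [hg.supp _ (not_le.mp hp2)]
  · simp [hf.supp _ (not_le.mp hp1)]

theorem continuousAt_G {ρ : ℝ} (hρ : 0 < ρ) {z w : ℂ} (hz : ‖z‖ < ρ) (hw : ‖w‖ < ρ) :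
    ContinuousAt (fun ρ' => G ρ' z w) ρ := by
  rcases eq_or_ne z w with rfl | hne
  · have : (fun ρ' => G ρ' z z) = fun _ => (0 : ℝ) := by
      funext ρ'; simp [G]
    rw [this]
    exact continuousAt_const
  have h2 : 0 < ‖z - w‖ := norm_pos_iff.mpr (sub_ne_zero.mpr hne)
  have h1 : 0 < ‖(ρ : ℂ) ^ 2 - z * conj w‖ := norm_pos_iff.mpr (ker_ne hρ hz hw.le)
  unfold G
  refine ContinuousAt.mul continuousAt_const (ContinuousAt.log ?_ (by positivity))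
  refine ContinuousAt.div (by fun_prop) (by fun_prop) (by positivity)

theorem Gf_continuousAt {ρ r : ℝ} (h0 : 0 < ρ) (hr : r < ρ) {f g : ℂ → ℝ}
    (hf : Tst r f) (hg : Tst r g) : ContinuousAt (fun ρ' => Gf ρ' f g) ρ := by
  obtain ⟨ρ1, h1, h1'⟩ : ∃ ρ1, max r 0 < ρ1 ∧ ρ1 < ρ := exists_between (max_lt hr h0)
  have h10 : 0 < ρ1 := (le_max_right _ _).trans_lt h1
  have h1r : r < ρ1 := (le_max_left _ _).trans_lt h1
  obtain ⟨C, hC⟩ := norm_integrand_le (ρ2 := ρ + 1) h10 h1r hf hg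
  have hev : ∀ᶠ ρ' in 𝓝 ρ, ρ1 ≤ ρ' ∧ ρ' ≤ ρ + 1 := by
    filter_upwards [Icc_mem_nhds h1' (lt_add_one ρ)] with x hx using hx
  have h2 : Tendsto (fun ρ' => ∫ p : ℂ × ℂ, f p.1 * G ρ' p.1 p.2 * g p.2) (𝓝 ρ)
      (𝓝 (∫ p : ℂ × ℂ, f p.1 * G ρ p.1 p.2 * g p.2)) := by
    refine tendsto_integral_filter_of_dominated_convergence _ ?_ ?_ (integrable_dom hf hg C) ?_
    · exact Eventually.of_forall fun ρ' => (measurable_integrand ρ' hf hg).aestronglyMeasurable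
    · filter_upwards [hev] with ρ' hρ'
      exact Eventually.of_forall fun p => hC ρ' hρ'.1 hρ'.2 p
    · refine Eventually.of_forall fun p => ?_
      by_cases hp1 : ‖p.1‖ ≤ r
      · by_cases hp2 : ‖p.2‖ ≤ r
        · exact ((continuousAt_G h0 (hp1.trans_lt hr) (hp2.trans_lt hr)).const_mul _).mul_const _
        · simp [hg.supp _ (not_le.mp hp2)]
      · simp [hf.supp _ (not_le.mp hp1)]
  change Tendsto (fun ρ' => Gf ρ' f g) (𝓝 ρ) (𝓝 (Gf ρ f g))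
  rw [Gf_eq_prod h0 hr hf hg]
  refine h2.congr' ?_
  filter_upwards [hev] with ρ' hρ'
  rw [Gf_eq_prod (h10.trans_le hρ'.1) (h1r.trans_le hρ'.1) hf hg]

end

end Crest.Agent.R161.Green722
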