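import Crest.Agent.R161.Defs_372
import Crest.Agent.R161.Geo_132
import Crest.Agent.R161.Green1_722
import Crest.Agent.R161.Top_729
import Mathlib.Analysis.Calculus.BumpFunction.FiniteDimension

/-!
R161, block I (helper695): PROPOSITION L ==> S0242.

* `X δ S f u = δ² ∑_{v ∈ S} K(v) f(δ v)`.
* `disc δ r` : faces of the disc of radius `r` at mesh `δ`.
* `Sandwich c` : `|E_{D₂} cos X_a - E_{D₁} cos X_a| ≤ 2 (E_{D₂} X_{|a|}² - E_{D₁} X_{|a|}²)`,
  `Mono2 c` : `E_D [K v K w]` is nondecreasing in `D`.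
* `PropL c kap` : mixtures of zero boundary condition laws of domains squeezed between the discs of
  radii `ρ - η`, `ρ + η` have Gaussian characteristic function and second moment up to `η`.
* `main` : the limit of `E_{faces δ} cos (s X_φ)`.
-/

set_option autoImplicit false

noncomputable section

namespace Crest.Agent.R161.Asm695

open Finset Filter Topology Metric
open Crest.Agent.R161.Geo729 Crest.Agent.R161.Defs372 Crest.Agent.R161.Green722
open Crest.ProbabilityR.AshkinTeller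
open scoped ContDiff

/-- linear functional of the vertex heights -/
def Lin (S : Finset P2) (a : P2 → ℝ) (u : Cfg) : ℝ := ∑ v ∈ S, (u.1 v : ℝ) * a v

/-- `X δ S f u = δ² ∑_{v ∈ S} K(v) f(δ v)`. -/
def X (δ : ℝ) (S : Finset P2) (f : ℂ → ℝ) (u : Cfg) : ℝ := Lin S (fun v => δ ^ 2 * f (pos δ v)) u

/-- faces of the disc of radius `r` at mesh `δ` (empty for `r ≤ 0`) -/
def disc (δ r : ℝ) : Finset P2 := if 0 < r then faces (δ / r) else ∅

/-- Sandwich inequality (369 (A)). -/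
def Sandwich (c : ℝ) : Prop := ∀ D₁ D₂ : Finset P2, Dom D₁ → Dom D₂ → D₁ ⊆ D₂ →
  ∀ (S : Finset P2) (a : P2 → ℝ),
    |E c D₂ (fun u => Real.cos (Lin S a u)) - E c D₁ (fun u => Real.cos (Lin S a u))| ≤
      2 * (E c D₂ (fun u => Lin S (fun v => |a v|) u ^ 2)
        - E c D₁ (fun u => Lin S (fun v => |a v|) u ^ 2))

/-- Monotonicity of the two point function. -/
def Mono2 (c : ℝ) : Prop := ∀ D₁ D₂ : Finset P2, Dom D₁ → Dom D₂ → D₁ ⊆ D₂ →
  ∀ v w : P2, E c D₁ (fun u => (u.1 v : ℝ) * u.1 w) ≤ E c D₂ (fun u => (u.1 v : ℝ) * u.1 w)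

/-- **Proposition L.** -/
def PropL (c kap : ℝ) : Prop := ∀ ρ : ℝ, 0 < ρ →
  ∀ φ ψ : ℂ → ℝ, ContDiff ℝ ∞ φ → HasCompactSupport φ → tsupport φ ⊆ ball (0 : ℂ) ρ →
  ContDiff ℝ ∞ ψ → HasCompactSupport ψ → tsupport ψ ⊆ ball (0 : ℂ) ρ → (∀ z, 0 ≤ ψ z) →
  ∀ s η : ℝ, 0 < η → ∀ᶠ δ : ℝ in 𝓝[>] 0,
    ∃ (I : Finset (Finset P2)) (w : Finset P2 → ℝ),
      (∀ D ∈ I, 0 ≤ w D) ∧ ∑ D ∈ I, w D = 1 ∧
      (∀ D ∈ I, Dom D ∧ disc δ (ρ - η) ⊆ D ∧ D ⊆ disc δ (ρ + η)) ∧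
      |∑ D ∈ I, w D * E c D (fun u => Real.cos (s * X δ D φ u))
        - Real.exp (-(s ^ 2 * (kap * Gf ρ φ φ) / 2))| ≤ η ∧
      |∑ D ∈ I, w D * E c D (fun u => X δ D ψ u ^ 2) - kap * Gf ρ ψ ψ| ≤ η

/-! ### change of the summation set -/

theorem Lin_eq {F S : Finset P2} {u : Cfg} (h : Valid F u) (hS : F ⊆ S) (a : P2 → ℝ) :
    Lin S a u = Lin F a u := by
  unfold Lin
  refine (Finset.sum_subset hS fun v _ hv => ?_).symm
  have : v ∉ intVerts F := fun h => hv (Finset.mem_filter.1 h).1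
  rw [h.zero v this]
  simp

theorem E_Lin_congr {c : ℝ} {F S : Finset P2} (hS : F ⊆ S) (a : P2 → ℝ) (g : ℝ → ℝ) :
    E c F (fun u => g (Lin S a u)) = E c F (fun u => g (Lin F a u)) :=
  E_congr fun u h => by rw [Lin_eq h hS]

theorem Lin_sq (S : Finset P2) (a : P2 → ℝ) (u : Cfg) :
    Lin S a u ^ 2 = ∑ v ∈ S, ∑ w ∈ S, (a v * a w) * ((u.1 v : ℝ) * u.1 w) := by
  rw [sq, Lin, Finset.sum_mul_sum]
  exact Finset.sum_congr rfl fun v _ => Finset.sum_congr rfl fun w _ => by ring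

theorem E_Lin_sq (c : ℝ) (F S : Finset P2) (a : P2 → ℝ) :
    E c F (fun u => Lin S a u ^ 2)
      = ∑ v ∈ S, ∑ w ∈ S, (a v * a w) * E c F (fun u => (u.1 v : ℝ) * u.1 w) := by
  simp_rw [Lin_sq, E_sum, E_smul]

/-- differences of second moments are monotone in the test function -/
theorem diff_mono {c : ℝ} (hM : Mono2 c) {D₁ D₂ : Finset P2} (h1 : Dom D₁) (h2 : Dom D₂)
    (h : D₁ ⊆ D₂) (S : Finset P2) {a b : P2 → ℝ} (ha : ∀ v, 0 ≤ a v) (hab : ∀ v, a v ≤ b v) :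
    E c D₂ (fun u => Lin S a u ^ 2) - E c D₁ (fun u => Lin S a u ^ 2) ≤
      E c D₂ (fun u => Lin S b u ^ 2) - E c D₁ (fun u => Lin S b u ^ 2) := by
  rw [E_Lin_sq, E_Lin_sq, E_Lin_sq, E_Lin_sq, ← Finset.sum_sub_distrib, ← Finset.sum_sub_distrib]
  refine Finset.sum_le_sum fun v _ => ?_
  rw [← Finset.sum_sub_distrib, ← Finset.sum_sub_distrib]
  refine Finset.sum_le_sum fun w _ => ?_
  have h3 := hM D₁ D₂ h1 h2 h v w
  have h4 : a v * a w ≤ b v * b w :=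
    mul_le_mul (hab v) (hab w) (ha w) ((ha v).trans (hab v))
  nlinarith

theorem sq_mono {c : ℝ} (hM : Mono2 c) {D₁ D₂ : Finset P2} (h1 : Dom D₁) (h2 : Dom D₂)
    (h : D₁ ⊆ D₂) (S : Finset P2) {a : P2 → ℝ} (ha : ∀ v, 0 ≤ a v) :
    E c D₁ (fun u => Lin S a u ^ 2) ≤ E c D₂ (fun u => Lin S a u ^ 2) := by
  rw [E_Lin_sq, E_Lin_sq]
  refine Finset.sum_le_sum fun v _ => Finset.sum_le_sum fun w _ => ?_
  exact mul_le_mul_of_nonneg_left (hM D₁ D₂ h1 h2 h v w) (mul_nonneg (ha v) (ha w))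

/-! ### discs -/

theorem disc_one (δ : ℝ) : disc δ 1 = faces δ := by simp [disc]

theorem disc_of_pos {δ r : ℝ} (hr : 0 < r) : disc δ r = faces (δ / r) := if_pos hr

theorem disc_mono {δ r r' : ℝ} (hδ : 0 < δ) (h : r ≤ r') : disc δ r ⊆ disc δ r' := by
  by_cases hr : 0 < r
  · rw [disc_of_pos hr, disc_of_pos (hr.trans_le h)]
    exact Geo132.faces_anti (div_pos hδ (hr.trans_le h)) (div_le_div_of_nonneg_left hδ.le hr h)
  · rw [disc, if_neg hr]
    exact Finset.empty_subset _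

theorem dom_disc {δ r : ℝ} (hδ : 0 < δ) (hr : 0 < r) : Dom (disc δ r) := by
  rw [disc_of_pos hr]
  exact ⟨Geo132.isConn_faces (div_pos hδ hr), Geo132.sc_faces (div_pos hδ hr)⟩

/-! ### a smooth majorant -/

theorem exists_majorant {φ : ℂ → ℝ} (hφ : ContDiff ℝ ∞ φ) (hc : HasCompactSupport φ)
    (hs : tsupport φ ⊆ ball (0 : ℂ) 1) :
    ∃ (ψ : ℂ → ℝ) (r : ℝ), 0 < r ∧ r < 1 ∧ ContDiff ℝ ∞ ψ ∧ HasCompactSupport ψ ∧
      tsupport ψ ⊆ closedBall (0 : ℂ) r ∧ tsupport φ ⊆ closedBall (0 : ℂ) r ∧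
      (∀ z, |φ z| ≤ ψ z) := by
  obtain ⟨r, hr0, hr1, hT⟩ := exists_Tst one_pos hφ.continuous hc hs
  obtain ⟨A, hA⟩ := hφ.continuous.bounded_above_of_compact_support hc
  -- tsupport φ ⊆ closedBall 0 r
  have hsupp : tsupport φ ⊆ closedBall (0 : ℂ) r := by
    refine closure_minimal (fun z hz => ?_) isClosed_closedBall
    rw [mem_closedBall, dist_zero_right]
    by_contra hcon
    exact hz (hT.supp z (not_le.1 hcon))
  set r1 : ℝ := (1 + 2 * r) / 3 with hr1d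
  set r2 : ℝ := (2 + r) / 3 with hr2d
  have h1 : 0 < r1 := by rw [hr1d]; positivity
  have h12 : r1 < r2 := by rw [hr1d, hr2d]; linarith
  have h2 : r2 < 1 := by rw [hr2d]; linarith
  have hrr1 : r < r1 := by rw [hr1d]; linarith
  let B : ContDiffBump (0 : ℂ) := ⟨r1, r2, h1, h12⟩
  refine ⟨fun z => |A| * B z, r2, h1.trans h12, h2, ?_, ?_, ?_, ?_, ?_⟩
  · exact contDiff_const.mul B.contDiff
  · exact B.hasCompactSupport.mul_left
  · have hsub : Function.support (fun z => |A| * B z) ⊆ Function.support (B : ℂ → ℝ) := by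
      intro z hz hB
      exact hz (by simp only; rw [hB, mul_zero])
    refine (closure_mono hsub).trans ?_
    rw [show closure (Function.support (B : ℂ → ℝ)) = tsupport (B : ℂ → ℝ) from rfl, B.tsupport_eq]
  · exact hsupp.trans (closedBall_subset_closedBall (by linarith))
  · intro z
    by_cases hz : ‖z‖ ≤ r
    · have hB : B z = 1 := B.one_of_mem_closedBall (by
        rw [mem_closedBall, dist_zero_right]; exact hz.trans hrr1.le)
      simp only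
      rw [hB, mul_one]
      have := hA z
      rw [Real.norm_eq_abs] at this
      exact this.trans (le_abs_self A)
    · rw [hT.supp z (not_le.1 hz), abs_zero]
      exact mul_nonneg (abs_nonneg _) B.nonneg

/-! ### the main reduction -/

theorem main {c kap : ℝ} (hS : Sandwich c) (hM : Mono2 c)
    (hL : PropL c kap)
    {φ : ℂ → ℝ} (hφ : ContDiff ℝ ∞ φ) (hφc : HasCompactSupport φ)
    (hφD : tsupport φ ⊆ ball (0 : ℂ) 1) (s : ℝ) :
    Tendsto (fun δ : ℝ => E c (faces δ) (fun u => Real.cos (s * X δ (faces δ) φ u)))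
      (𝓝[>] 0) (𝓝 (Real.exp (-(s ^ 2 * (kap * Gf 1 φ φ) / 2)))) := by
  obtain ⟨ψ, r, hr0, hr1, hψ, hψc, hψr, hφr, hψφ⟩ := exists_majorant hφ hφc hφD
  have hψ0 : ∀ z, 0 ≤ ψ z := fun z => (abs_nonneg _).trans (hψφ z)
  -- Tst facts
  have hball : ∀ ρ, r < ρ → closedBall (0 : ℂ) r ⊆ ball (0 : ℂ) ρ := fun ρ h =>
    closedBall_subset_ball h
  obtain ⟨A, hA⟩ := hψ.continuous.bounded_above_of_compact_support hψc
  have hTψ : Tst r ψ := ⟨hψ.continuous.measurable, ⟨A, fun z => by simpa using hA z⟩, fun z hz => by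
    by_contra h
    have : z ∈ closedBall (0 : ℂ) r := hψr (subset_closure h)
    rw [mem_closedBall, dist_zero_right] at this
    linarith⟩
  have hTφ : Tst r φ := ⟨hφ.continuous.measurable, ⟨A, fun z => (hψφ z).trans
    ((le_abs_self _).trans (by simpa using hA z))⟩, fun z hz => by
    by_contra h
    have : z ∈ closedBall (0 : ℂ) r := hφr (subset_closure h)
    rw [mem_closedBall, dist_zero_right] at this
    linarith⟩
  have hcψ : ContinuousAt (fun ρ => Gf ρ ψ ψ) 1 := Gf_continuousAt one_pos hr1 hTψ hTψ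
  have hcφ : ContinuousAt (fun ρ => Gf ρ φ φ) 1 := Gf_continuousAt one_pos hr1 hTφ hTφ
  rw [Metric.tendsto_nhds]
  intro ε hε
  -- the error as a function of η
  have herr : Tendsto (fun η : ℝ =>
      2 * s ^ 2 * (kap * (Gf (1 + 2 * η) ψ ψ - Gf (1 - 2 * η) ψ ψ) + 2 * η) + η +
      |Real.exp (-(s ^ 2 * (kap * Gf (1 + 2 * η) φ φ) / 2))
        - Real.exp (-(s ^ 2 * (kap * Gf 1 φ φ) / 2))|) (𝓝 0)
      (𝓝 (2 * s ^ 2 * (kap * (Gf 1 ψ ψ - Gf 1 ψ ψ) + 2 * 0) + 0 +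
      |Real.exp (-(s ^ 2 * (kap * Gf 1 φ φ) / 2))
        - Real.exp (-(s ^ 2 * (kap * Gf 1 φ φ) / 2))|)) := by
    have e1 : Tendsto (fun η : ℝ => 1 + 2 * η) (𝓝 0) (𝓝 1) := by
      have : Tendsto (fun η : ℝ => 1 + 2 * η) (𝓝 0) (𝓝 (1 + 2 * 0)) :=
        (Continuous.tendsto (by fun_prop) 0)
      simpa using this
    have e2 : Tendsto (fun η : ℝ => 1 - 2 * η) (𝓝 0) (𝓝 1) := by
      have : Tendsto (fun η : ℝ => 1 - 2 * η) (𝓝 0) (𝓝 (1 - 2 * 0)) :=
        (Continuous.tendsto (by fun_prop) 0)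
      simpa using this
    have a1 := hcψ.tendsto.comp e1
    have a2 := hcψ.tendsto.comp e2
    have a3 := hcφ.tendsto.comp e1
    refine ((((a1.sub a2).const_mul kap).add (tendsto_id.const_mul 2)).const_mul _).add tendsto_id
      |>.add ?_
    refine (Tendsto.sub ?_ tendsto_const_nhds).abs
    refine (Real.continuous_exp.tendsto _).comp ?_
    exact ((((a3.const_mul kap).const_mul (s ^ 2)).div_const 2).neg)
  have herr' : Tendsto (fun η : ℝ =>
      2 * s ^ 2 * (kap * (Gf (1 + 2 * η) ψ ψ - Gf (1 - 2 * η) ψ ψ) + 2 * η) + η +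
      |Real.exp (-(s ^ 2 * (kap * Gf (1 + 2 * η) φ φ) / 2))
        - Real.exp (-(s ^ 2 * (kap * Gf 1 φ φ) / 2))|) (𝓝[>] 0) (𝓝 0) := by
    refine (herr.mono_left nhdsWithin_le_nhds).congr' (Eventually.of_forall fun _ => rfl) |>.trans ?_
    simp
  -- choose η
  have hsmall : ∀ᶠ η : ℝ in 𝓝[>] 0, 0 < η ∧ 2 * η < (1 - r) := by
    have h1 : ∀ᶠ η : ℝ in 𝓝[>] 0, 0 < η := self_mem_nhdsWithin
    have h2 : ∀ᶠ η : ℝ in 𝓝[>] 0, η < (1 - r) / 2 :=
      (eventually_lt_nhds (by linarith : (0 : ℝ) < (1 - r) / 2)).filter_mono nhdsWithin_le_nhds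
    filter_upwards [h1, h2] with η h1 h2
    exact ⟨h1, by linarith⟩
  obtain ⟨η, hηerr, hη0, hη1⟩ := ((herr'.eventually_lt_const hε).and hsmall).exists
  have hr1' : r < 1 - 2 * η := by linarith
  have hr2' : r < 1 + 2 * η := by linarith
  have hρ1 : 0 < 1 - 2 * η := hr0.trans hr1'
  have hρ2 : 0 < 1 + 2 * η := hr0.trans hr2'
  have L1 := hL (1 - 2 * η) hρ1 φ ψ hφ hφc (hφr.trans (hball _ hr1')) hψ hψc
    (hψr.trans (hball _ hr1')) hψ0 s η hη0
  have L2 := hL (1 + 2 * η) hρ2 φ ψ hφ hφc (hφr.trans (hball _ hr2')) hψ hψc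
    (hψr.trans (hball _ hr2')) hψ0 s η hη0
  filter_upwards [L1, L2, self_mem_nhdsWithin] with δ hδ1 hδ2 hδ
  have hδ0 : 0 < δ := hδ
  obtain ⟨I1, w1, hw1, hs1, hD1, -, hsec1⟩ := hδ1
  obtain ⟨I2, w2, hw2, hs2, hD2, hcos2, hsec2⟩ := hδ2
  set D := faces δ with hDdef
  have hDom : Dom D := by
    rw [hDdef, ← disc_one]; exact dom_disc hδ0 one_pos
  have hsub2 : ∀ D2 ∈ I2, D ⊆ D2 := by
    intro D2 h
    have h3 := (hD2 D2 h).2.1
    refine Finset.Subset.trans ?_ h3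
    rw [hDdef, ← disc_one]
    exact disc_mono hδ0 (by linarith)
  have hsub1 : ∀ D1 ∈ I1, D1 ⊆ D := by
    intro D1 h
    have h3 := (hD1 D1 h).2.2
    refine Finset.Subset.trans h3 ?_
    rw [hDdef, ← disc_one]
    exact disc_mono hδ0 (by linarith)
  -- coefficients
  set aφ : P2 → ℝ := fun v => s * (δ ^ 2 * φ (pos δ v)) with haφ
  set aψ : P2 → ℝ := fun v => δ ^ 2 * ψ (pos δ v) with haψ
  have hXφ : ∀ (S : Finset P2) u, s * X δ S φ u = Lin S aφ u := by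
    intro S u
    simp only [X, Lin, haφ, Finset.mul_sum]
    exact Finset.sum_congr rfl fun v _ => by ring
  have hXψ : ∀ (S : Finset P2) u, X δ S ψ u = Lin S aψ u := fun S u => rfl
  have haψ0 : ∀ v, 0 ≤ aψ v := fun v => mul_nonneg (sq_nonneg _) (hψ0 _)
  have hab : ∀ v, |aφ v| ≤ |s| * aψ v := by
    intro v
    simp only [haφ, haψ]
    rw [abs_mul, abs_mul, abs_of_nonneg (sq_nonneg δ)]
    exact mul_le_mul_of_nonneg_left (mul_le_mul_of_nonneg_left (hψφ _) (sq_nonneg _))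
      (abs_nonneg _)
  -- second moments with coefficient |s| aψ
  have hscale : ∀ (F S : Finset P2), E c F (fun u => Lin S (fun v => |s| * aψ v) u ^ 2)
      = s ^ 2 * E c F (fun u => Lin S aψ u ^ 2) := by
    intro F S
    rw [← E_smul]
    refine congrArg (E c F) (funext fun u => ?_)
    have : Lin S (fun v => |s| * aψ v) u = |s| * Lin S aψ u := by
      simp only [Lin, Finset.mul_sum]
      exact Finset.sum_congr rfl fun v _ => by ring
    rw [this, mul_pow, sq_abs]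
  -- first term
  have hcomp : ∀ D2 ∈ I2, |E c D2 (fun u => Real.cos (s * X δ D2 φ u))
      - E c D (fun u => Real.cos (s * X δ D φ u))| ≤
      2 * s ^ 2 * (E c D2 (fun u => X δ D2 ψ u ^ 2) - E c D (fun u => X δ D ψ u ^ 2)) := by
    intro D2 h2
    have hsub := hsub2 D2 h2
    have hdom2 := (hD2 D2 h2).1
    have e1 : E c D (fun u => Real.cos (s * X δ D φ u))
        = E c D (fun u => Real.cos (Lin D2 aφ u)) := by
      simp_rw [hXφ]
      exact (E_Lin_congr hsub aφ Real.cos).symm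
    have e2 : E c D (fun u => X δ D ψ u ^ 2) = E c D (fun u => Lin D2 aψ u ^ 2) := by
      simp_rw [hXψ]
      exact (E_Lin_congr hsub aψ fun x => x ^ 2).symm
    rw [e1, e2]
    simp_rw [hXφ, hXψ]
    refine (hS D D2 hDom hdom2 hsub D2 aφ).trans ?_
    have h4 := diff_mono hM hDom hdom2 hsub D2 (a := fun v => |aφ v|) (b := fun v => |s| * aψ v)
      (fun v => abs_nonneg _) hab
    rw [hscale, hscale] at h4
    linarith
  have hmono1 : ∀ D1 ∈ I1, E c D1 (fun u => X δ D1 ψ u ^ 2) ≤ E c D (fun u => X δ D ψ u ^ 2) := by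
    intro D1 h1
    have hsub := hsub1 D1 h1
    have e2 : E c D1 (fun u => X δ D1 ψ u ^ 2) = E c D1 (fun u => Lin D aψ u ^ 2) := by
      simp_rw [hXψ]
      exact (E_Lin_congr hsub aψ fun x => x ^ 2).symm
    rw [e2]
    exact sq_mono hM (hD1 D1 h1).1 hDom hsub D haψ0
  -- averaging
  set EC0 := E c D (fun u => Real.cos (s * X δ D φ u)) with hEC0
  set ES0 := E c D (fun u => X δ D ψ u ^ 2) with hES0
  have havg2 : |∑ D2 ∈ I2, w2 D2 * E c D2 (fun u => Real.cos (s * X δ D2 φ u)) - EC0| ≤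
      2 * s ^ 2 * (∑ D2 ∈ I2, w2 D2 * E c D2 (fun u => X δ D2 ψ u ^ 2) - ES0) := by
    have e1 : ∑ D2 ∈ I2, w2 D2 * E c D2 (fun u => Real.cos (s * X δ D2 φ u)) - EC0
        = ∑ D2 ∈ I2, w2 D2 * (E c D2 (fun u => Real.cos (s * X δ D2 φ u)) - EC0) := by
      simp_rw [mul_sub]
      rw [Finset.sum_sub_distrib, ← Finset.sum_mul, hs2, one_mul]
    have e2 : ∑ D2 ∈ I2, w2 D2 * E c D2 (fun u => X δ D2 ψ u ^ 2) - ES0
        = ∑ D2 ∈ I2, w2 D2 * (E c D2 (fun u => X δ D2 ψ u ^ 2) - ES0) := by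
      simp_rw [mul_sub]
      rw [Finset.sum_sub_distrib, ← Finset.sum_mul, hs2, one_mul]
    rw [e1, e2, Finset.mul_sum]
    refine (Finset.abs_sum_le_sum_abs _ _).trans (Finset.sum_le_sum fun D2 h2 => ?_)
    rw [abs_mul, abs_of_nonneg (hw2 D2 h2)]
    calc w2 D2 * |E c D2 (fun u => Real.cos (s * X δ D2 φ u)) - EC0|
        ≤ w2 D2 * (2 * s ^ 2 * (E c D2 (fun u => X δ D2 ψ u ^ 2) - ES0)) :=
          mul_le_mul_of_nonneg_left (hcomp D2 h2) (hw2 D2 h2)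
      _ = 2 * s ^ 2 * (w2 D2 * (E c D2 (fun u => X δ D2 ψ u ^ 2) - ES0)) := by ring
  have havg1 : ∑ D1 ∈ I1, w1 D1 * E c D1 (fun u => X δ D1 ψ u ^ 2) ≤ ES0 := by
    calc ∑ D1 ∈ I1, w1 D1 * E c D1 (fun u => X δ D1 ψ u ^ 2) ≤ ∑ D1 ∈ I1, w1 D1 * ES0 :=
          Finset.sum_le_sum fun D1 h1 => mul_le_mul_of_nonneg_left (hmono1 D1 h1) (hw1 D1 h1)
      _ = ES0 := by rw [← Finset.sum_mul, hs1, one_mul]
  have b1 := abs_le.1 hsec1
  have b2 := abs_le.1 hsec2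
  have hdiff : ∑ D2 ∈ I2, w2 D2 * E c D2 (fun u => X δ D2 ψ u ^ 2) - ES0
      ≤ kap * (Gf (1 + 2 * η) ψ ψ - Gf (1 - 2 * η) ψ ψ) + 2 * η := by
    have := b1.1
    have := b2.2
    linarith
  have hs2' : 0 ≤ 2 * s ^ 2 := by positivity
  have hfin : |EC0 - Real.exp (-(s ^ 2 * (kap * Gf 1 φ φ) / 2))| ≤
      2 * s ^ 2 * (kap * (Gf (1 + 2 * η) ψ ψ - Gf (1 - 2 * η) ψ ψ) + 2 * η) + η +
      |Real.exp (-(s ^ 2 * (kap * Gf (1 + 2 * η) φ φ) / 2))
        - Real.exp (-(s ^ 2 * (kap * Gf 1 φ φ) / 2))| := by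
    have t1 := havg2.trans (mul_le_mul_of_nonneg_left hdiff hs2')
    rw [abs_sub_comm] at t1
    have t2 := abs_sub_le EC0 (∑ D2 ∈ I2, w2 D2 * E c D2 (fun u => Real.cos (s * X δ D2 φ u)))
      (Real.exp (-(s ^ 2 * (kap * Gf 1 φ φ) / 2)))
    have t3 := abs_sub_le (∑ D2 ∈ I2, w2 D2 * E c D2 (fun u => Real.cos (s * X δ D2 φ u)))
      (Real.exp (-(s ^ 2 * (kap * Gf (1 + 2 * η) φ φ) / 2)))
      (Real.exp (-(s ^ 2 * (kap * Gf 1 φ φ) / 2)))
    linarith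
  rw [Real.dist_eq]
  exact hfin.trans_lt hηerr

end Crest.Agent.R161.Asm695
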