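import Crest.Agent.R161.DualB_729

/-!
Row 161: consequences of planar duality and the integer 1-form lemma.
-/

set_option autoImplicit false

namespace Crest.Agent.R161.DualC729

open Finset Crest.Agent.R161.Geo729 Crest.Agent.R161.Dual729 Crest.Agent.R161.DualB729

/-! ### The 1-form lemma -/

/-- A function that does not change along non-interior edges is constant on faces of the complement
joined in the complement. -/
theorem const_of_conn {A : Type*} {F : Set P2} (k : P2 → A)
    (hk : ∀ e, ¬ IntE F e → k (tgt e) = k (src e)) {f g : P2} (h : Conn Fᶜ f g) : k g = k f := by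
  induction h with
  | refl => rfl
  | @tail f' g' _ h2 ih =>
    rw [← ih]
    obtain ⟨hf, hg, hadj⟩ := h2
    obtain ⟨x, y⟩ := f'
    rcases hadj with rfl | rfl | rfl | rfl
    · exact hk ((x, y), false) (fun h => hf h.1)
    · have h3 := hk ((x - 1, y), false) (fun h => hg h.1)
      simp only [tgt_h, sub_add_cancel, src_mk] at h3
      exact h3.symm
    · exact hk ((x, y), true) (fun h => hf h.1)
    · have h3 := hk ((x, y - 1), true) (fun h => hg h.1)
      simp only [tgt_v, sub_add_cancel, src_mk] at h3
      exact h3.symm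

/-- Same, from a face of the complement to its corners. -/
theorem const_corner {A : Type*} {F : Set P2} (k : P2 → A)
    (hk : ∀ e, ¬ IntE F e → k (tgt e) = k (src e)) {v g : P2} (hg : g ∉ F) (hv : IsCorner v g) :
    k v = k g := by
  have hb : k (g.1 + 1, g.2) = k g := hk (g, false) (fun h => hg h.1)
  have hl : k (g.1, g.2 + 1) = k g := hk (g, true) (fun h => hg h.1)
  have ht : k (g.1 + 1, g.2 + 1) = k (g.1, g.2 + 1) :=
    hk ((g.1, g.2 + 1), false) (fun h => hg (by
      have := h.2
      simpa using this))
  rcases hv with rfl | rfl | rfl | rfl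
  · rfl
  · exact hb
  · exact hl
  · exact ht.trans hl

/-- **Integer (any group) 1-form lemma (D2)**: on a simply connected finite face set, a 1-form on
edges vanishing on non-interior edges and closed around every face of `F` is the differential of a
function vanishing at all non-interior vertices. -/
theorem exists_height {A : Type*} [AddCommGroup A] {F : Finset P2} (hF : SC (F : Set P2))
    (θ : Edge → A) (h0 : ∀ e, ¬ IntE (F : Set P2) e → θ e = 0)
    (hcl : ∀ f ∈ F, θ (f, false) + θ ((f.1 + 1, f.2), true) =
      θ (f, true) + θ ((f.1, f.2 + 1), false)) :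
    ∃ k : P2 → A, (∀ e, k (tgt e) = k (src e) + θ e) ∧
      ∀ v, ¬ IntV (F : Set P2) v → k v = 0 := by
  classical
  obtain ⟨N, hN⟩ : ∃ N : ℤ, ∀ f ∈ F, N < f.1 := by
    rcases (F.image Prod.fst).eq_empty_or_nonempty with h | h
    · refine ⟨0, fun f hf => ?_⟩
      rw [Finset.image_eq_empty] at h
      simp [h] at hf
    · exact ⟨Finset.min' _ h - 1, fun f hf => by
        have := Finset.min'_le _ f.1 (Finset.mem_image_of_mem _ hf)
        omega⟩
  have hz : ∀ e : Edge, e.1.1 ≤ N → θ e = 0 := by
    intro e he
    apply h0
    rintro ⟨h1, _⟩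
    have := hN _ h1
    simp only [fA] at this
    omega
  obtain ⟨k, hk1, hk2, hk3⟩ := poincare (fun p : P2 => θ (p, false)) (fun p : P2 => θ (p, true)) N
    (fun i j h => hz _ (by simp only; omega)) (fun i j h => hz _ (by simp only; omega))
    (fun i j => by
      by_cases hf : (i, j) ∈ F
      · exact hcl (i, j) hf
      · rw [h0 ((i, j), false) (fun h => hf h.1), h0 ((i, j), true) (fun h => hf h.1),
          h0 ((i + 1, j), true) (fun h => hf (by
            have := h.2
            simpa using this)),
          h0 ((i, j + 1), false) (fun h => hf (by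
            have := h.2
            simpa using this))])
  have hstep : ∀ e, k (tgt e) = k (src e) + θ e := by
    rintro ⟨⟨x, y⟩, b⟩
    cases b
    · exact hk1 x y
    · exact hk2 x y
  refine ⟨k, hstep, ?_⟩
  intro v hv
  rw [intV_iff] at hv
  push Not at hv
  obtain ⟨g, hg, hgF⟩ := hv
  have hk : ∀ e, ¬ IntE (F : Set P2) e → k (tgt e) = k (src e) := by
    intro e he
    rw [hstep, h0 e he, add_zero]
  have hfar : ((N, 0) : P2) ∉ (F : Set P2) := by
    intro h
    have := hN _ h
    simp only at this
    omega
  rw [const_corner k hk hgF hg, ← const_of_conn k hk (hF g hgF (N, 0) hfar)]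
  exact hk3 N 0 le_rfl

/-! ### Connected face sets have `N0 = 2` -/

theorem dF_eq_empty_iff (F S : Finset P2) :
    dF F S = ∅ ↔ ∀ e ∈ IE F, (fA e ∈ S ↔ fB e ∈ S) := by
  constructor
  · intro h e he
    by_contra h'
    have : e ∈ dF F S := mem_dF.mpr ⟨he, h'⟩
    rw [h] at this
    simp at this
  · intro h
    ext e
    simp only [mem_dF, Finset.notMem_empty, iff_false, not_and, not_not]
    exact h e

/-- Membership in a coboundary-free set is constant along connections in `F`. -/
theorem mem_iff_of_conn {F S : Finset P2} (h : dF F S = ∅) {f g : P2}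
    (hc : Conn (F : Set P2) f g) : f ∈ S ↔ g ∈ S := by
  rw [dF_eq_empty_iff] at h
  induction hc with
  | refl => rfl
  | @tail f' g' _ h2 ih =>
    rw [ih]
    obtain ⟨hf, hg, hadj⟩ := h2
    obtain ⟨x, y⟩ := f'
    rcases hadj with rfl | rfl | rfl | rfl
    · have := h ((x + 1, y), true) (mem_IE.mpr ⟨hg, by simpa using hf⟩)
      simp only [fA_mk, fB_v, add_sub_cancel_right] at this
      exact this.symm
    · have := h ((x, y), true) (mem_IE.mpr ⟨hf, by simpa using hg⟩)
      simpa using this
    · have := h ((x, y + 1), false) (mem_IE.mpr ⟨hg, by simpa using hf⟩)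
      simp only [fA_mk, fB_h, add_sub_cancel_right] at this
      exact this.symm
    · have := h ((x, y), false) (mem_IE.mpr ⟨hf, by simpa using hg⟩)
      simpa using this

theorem N0_eq_two {F : Finset P2} (hF : IsConn (F : Set P2)) (hne : F.Nonempty) : N0 F = 2 := by
  classical
  unfold N0
  have : F.powerset.filter (fun S => dF F S = ∅) = {∅, F} := by
    ext S
    simp only [Finset.mem_filter, Finset.mem_powerset, Finset.mem_insert, Finset.mem_singleton]
    constructor
    · rintro ⟨hS, hd⟩
      rcases S.eq_empty_or_nonempty with h | ⟨f, hf⟩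
      · exact Or.inl h
      · right
        apply Finset.Subset.antisymm hS
        intro g hg
        exact (mem_iff_of_conn hd (hF f (hS hf) g hg)).mp hf
    · rintro (rfl | rfl)
      · exact ⟨Finset.empty_subset _, by rw [dF_eq_empty_iff]; simp⟩
      · refine ⟨Finset.Subset.refl _, ?_⟩
        rw [dF_eq_empty_iff]
        intro e he
        obtain ⟨h1, h2⟩ := mem_IE.mp he
        simp [h1, h2]
  rw [this, Finset.card_pair]
  exact hne.ne_empty.symm

/-! ### Counting face signs constant on dual clusters -/

/-- Face signs constant across the closed edges (edges of `IE F` not in `z`) versus vertex signs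
constant across the edges of `z`. -/
theorem card_face_signs {F : Finset P2} (hF : SC (F : Set P2)) (z : Finset Edge) :
    ((F.powerset.filter (fun S => ∀ e ∈ IE F, e ∉ z → (fA e ∈ S ↔ fB e ∈ S))).card : ℝ) =
      (N0 F : ℝ) / 2 ^ (IV F).card * (2 ^ (IE F ∩ z).card *
        (((IV F).powerset.filter (fun T => ∀ e ∈ IE F, e ∈ z → (src e ∈ T ↔ tgt e ∈ T))).card : ℝ)) := by
  classical
  have h := kramers_wannier hF (fun _ => 1) (fun e => if e ∈ z then 1 else 0)
  have hL : ∑ S ∈ F.powerset, ∏ e ∈ IE F, (if (fA e ∈ S ↔ fB e ∈ S) then (1 : ℝ) else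
      if e ∈ z then 1 else 0) =
      ((F.powerset.filter (fun S => ∀ e ∈ IE F, e ∉ z → (fA e ∈ S ↔ fB e ∈ S))).card : ℝ) := by
    rw [Finset.card_filter]
    push_cast
    apply Finset.sum_congr rfl
    intro S _
    split_ifs with hS
    · apply Finset.prod_eq_one
      intro e he
      by_cases h1 : (fA e ∈ S ↔ fB e ∈ S)
      · rw [if_pos h1]
      · rw [if_neg h1, if_pos]
        by_contra h2
        exact h1 (hS e he h2)
    · push Not at hS
      obtain ⟨e, he, hz, hne⟩ := hS
      apply Finset.prod_eq_zero he
      rw [if_neg, if_neg hz]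
      intro hiff
      rcases hne with ⟨h1, h2⟩ | ⟨h1, h2⟩
      · exact h2 (hiff.mp h1)
      · exact h1 (hiff.mpr h2)
  have hR : ∑ T ∈ (IV F).powerset, ∏ e ∈ IE F,
      (if (src e ∈ T ↔ tgt e ∈ T) then (1 : ℝ) + (if e ∈ z then 1 else 0)
        else 1 - (if e ∈ z then 1 else 0)) =
      2 ^ (IE F ∩ z).card *
        (((IV F).powerset.filter (fun T => ∀ e ∈ IE F, e ∈ z → (src e ∈ T ↔ tgt e ∈ T))).card : ℝ) := by
    rw [Finset.card_filter]
    push_cast
    rw [Finset.mul_sum]
    apply Finset.sum_congr rfl
    intro T _
    split_ifs with hT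
    · rw [mul_one, ← Finset.prod_inter_mul_prod_sdiff (IE F) z]
      rw [Finset.prod_congr (g := fun _ => (2 : ℝ)) rfl, Finset.prod_const,
        Finset.prod_eq_one, mul_one]
      · intro e he
        rw [Finset.mem_sdiff] at he
        simp [he.2]
      · intro e he
        rw [Finset.mem_inter] at he
        rw [if_pos (hT e he.1 he.2), if_pos he.2]
        norm_num
    · rw [mul_zero]
      push Not at hT
      obtain ⟨e, he, hz, hne⟩ := hT
      apply Finset.prod_eq_zero he
      rw [if_neg, if_pos hz]
      · norm_num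
      · intro hiff
        rcases hne with ⟨h1, h2⟩ | ⟨h1, h2⟩
        · exact h2 (hiff.mp h1)
        · exact h1 (hiff.mpr h2)
  rw [hL, hR] at h
  convert h

end Crest.Agent.R161.DualC729
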