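import Crest.Agent.R161.Defs_372
import Crest.Agent.R161.DualC_729

/-!
Row 161: the sign representation of the height model on a simply connected face set: bijection
between admissible configurations `(k, h, z)` and triples `(T, S, Z)` (`T` = interior vertices with
`τ = -`, `S` = faces with `τ' = -`, `Z` = cut edges), and the `(τ, ζ)`-marginal.
-/

set_option autoImplicit false

namespace Crest.Agent.R161.Marg729

open Finset Crest.Agent.R161.Geo729 Crest.Agent.R161.Dual729 Crest.Agent.R161.DualB729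
  Crest.Agent.R161.DualC729 Crest.Agent.R161.Defs372

theorem intEdges_eq (F : Finset P2) : intEdges F = IE F := rfl
theorem intVerts_eq (F : Finset P2) : intVerts F = IV F := rfl

/-- Vertices with `τ = -`. -/
def tm (F : Finset P2) (ω : Cfg) : Finset P2 := (IV F).filter (fun v => ω.1 v % 4 = 2)
/-- Faces with `τ' = -`. -/
def sm (F : Finset P2) (ω : Cfg) : Finset P2 := F.filter (fun f => ω.2.1 f % 4 = 3)
/-- Cut interior edges. -/
def zm (F : Finset P2) (ω : Cfg) : Finset Edge := (IE F).filter (fun e => ω.2.2 e = true)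

theorem mem_zm {F : Finset P2} {ω : Cfg} {e : Edge} :
    e ∈ zm F ω ↔ e ∈ IE F ∧ ω.2.2 e = true := by simp [zm]

theorem zero_of_not_IV {F : Finset P2} {ω : Cfg} (h : Valid F ω) {v : P2} (hv : v ∉ IV F) :
    ω.1 v = 0 := h.zero v hv

theorem mem_tm {F : Finset P2} {ω : Cfg} (h : Valid F ω) {v : P2} :
    v ∈ tm F ω ↔ ω.1 v % 4 = 2 := by
  simp only [tm, Finset.mem_filter, and_iff_right_iff_imp]
  intro h1
  by_contra h2
  rw [zero_of_not_IV h h2] at h1
  norm_num at h1

theorem mem_sm {F : Finset P2} {ω : Cfg} (h : Valid F ω) {f : P2} :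
    f ∈ sm F ω ↔ ω.2.1 f % 4 = 3 := by
  simp only [sm, Finset.mem_filter, and_iff_right_iff_imp]
  intro h1
  by_contra h2
  rw [h.off f h2] at h1
  norm_num at h1

theorem corner_src_fA (e : Edge) : IsCorner (src e) (fA e) := Or.inl rfl
theorem corner_tgt_fA (e : Edge) : IsCorner (tgt e) (fA e) := by
  obtain ⟨⟨x, y⟩, b⟩ := e
  cases b
  · exact Or.inr (Or.inl rfl)
  · exact Or.inr (Or.inr (Or.inl rfl))
theorem corner_src_fB (e : Edge) : IsCorner (src e) (fB e) := by
  obtain ⟨⟨x, y⟩, b⟩ := e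
  cases b
  · right; right; left; simp
  · right; left; simp
theorem corner_tgt_fB (e : Edge) : IsCorner (tgt e) (fB e) := by
  obtain ⟨⟨x, y⟩, b⟩ := e
  cases b
  · right; right; right; simp
  · right; right; right; simp

theorem face_odd {F : Finset P2} {ω : Cfg} (h : Valid F ω) {f : P2} (hf : f ∈ F) :
    ω.2.1 f % 2 = 1 := by
  have h1 := h.corner f hf f (Or.inl rfl)
  have h2 := h.even f
  rw [Int.even_iff] at h2
  rcases abs_eq (by norm_num : (0 : ℤ) ≤ 1) |>.1 h1 with h3 | h3 <;> omega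

theorem agree_vert {F : Finset P2} {ω : Cfg} (h : Valid F ω) {e : Edge}
    (he : fA e ∈ F) :
    ω.1 (src e) = ω.1 (tgt e) ↔ (src e ∈ tm F ω ↔ tgt e ∈ tm F ω) := by
  rw [mem_tm h, mem_tm h]
  have h1 := h.corner _ he _ (corner_src_fA e)
  have h2 := h.corner _ he _ (corner_tgt_fA e)
  have h3 := Int.even_iff.mp (h.even (src e))
  have h4 := Int.even_iff.mp (h.even (tgt e))
  rcases abs_eq (by norm_num : (0 : ℤ) ≤ 1) |>.1 h1 with h1 | h1 <;>
  rcases abs_eq (by norm_num : (0 : ℤ) ≤ 1) |>.1 h2 with h2 | h2 <;> omega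

theorem agree_face {F : Finset P2} {ω : Cfg} (h : Valid F ω) {e : Edge} (he : e ∈ IE F) :
    ω.2.1 (fA e) = ω.2.1 (fB e) ↔ (fA e ∈ sm F ω ↔ fB e ∈ sm F ω) := by
  rw [mem_sm h, mem_sm h]
  obtain ⟨hA, hB⟩ := mem_IE.mp he
  have h1 := h.corner _ hA _ (corner_src_fA e)
  have h2 := h.corner _ hB _ (corner_src_fB e)
  have h3 := face_odd h hA
  have h4 := face_odd h hB
  rcases abs_eq (by norm_num : (0 : ℤ) ≤ 1) |>.1 h1 with h1 | h1 <;>
  rcases abs_eq (by norm_num : (0 : ℤ) ≤ 1) |>.1 h2 with h2 | h2 <;> omega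

/-- Compatibility of `(T, S, Z)` on the interior edges. -/
def Comp (F : Finset P2) (T S : Finset P2) (Z : Finset Edge) : Prop :=
  ∀ e ∈ IE F, (e ∈ Z → (src e ∈ T ↔ tgt e ∈ T)) ∧ (e ∉ Z → (fA e ∈ S ↔ fB e ∈ S))

/-- The configuration satisfies all edge constraints in `F`. -/
def Ok (F : Finset P2) (ω : Cfg) : Prop := ∀ e ∈ IE F, EdgeOk ω e

theorem ok_iff_comp {F : Finset P2} {ω : Cfg} (h : Valid F ω) :
    Ok F ω ↔ Comp F (tm F ω) (sm F ω) (zm F ω) := by
  unfold Ok Comp EdgeOk
  apply forall₂_congr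
  intro e he
  rw [agree_vert h (mem_IE.mp he).1, agree_face h he]
  have h1 : e ∈ zm F ω ↔ ω.2.2 e = true := by rw [mem_zm]; exact and_iff_right he
  rw [h1, Bool.not_eq_true]

theorem ew_of_ok {F : Finset P2} {ω : Cfg} (h : Valid F ω) (c : ℝ) {e : Edge} (he : e ∈ IE F)
    (hok : EdgeOk ω e) :
    ew c ω e = if e ∈ zm F ω then 1 else
      if (src e ∈ tm F ω ↔ tgt e ∈ tm F ω) then c - 1 else 1 := by
  unfold ew
  have h1 : e ∈ zm F ω ↔ ω.2.2 e = true := by rw [mem_zm]; exact and_iff_right he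
  have h2 := agree_vert h (mem_IE.mp he).1
  by_cases hz : ω.2.2 e = true
  · rw [if_pos hz, if_pos (h1.mpr hz), if_pos (hok.1 hz)]
  · rw [if_neg hz, if_neg (fun h => hz (h1.mp h)), if_pos (hok.2 (by simpa using hz))]
    by_cases h3 : ω.1 (src e) = ω.1 (tgt e)
    · rw [if_pos h3, if_pos (h2.mp h3)]
    · rw [if_neg h3, if_neg (fun h => h3 (h2.mpr h))]

/-- Edge weight in sign language. -/
noncomputable def sw (c : ℝ) (F T : Finset P2) (Z : Finset Edge) : ℝ :=
  ∏ e ∈ IE F, (if e ∈ Z then 1 else if (src e ∈ T ↔ tgt e ∈ T) then c - 1 else 1)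

theorem wt_of_ok {F : Finset P2} {ω : Cfg} (h : Valid F ω) (c : ℝ) (hok : Ok F ω) :
    wt c F ω = sw c F (tm F ω) (zm F ω) := by
  unfold wt sw
  rw [intEdges_eq]
  exact Finset.prod_congr rfl fun e he => ew_of_ok h c he (hok e he)

theorem wt_of_not_ok {F : Finset P2} {ω : Cfg} (c : ℝ) (hok : ¬ Ok F ω) : wt c F ω = 0 := by
  unfold Ok at hok
  push Not at hok
  obtain ⟨e, he, h⟩ := hok
  exact Finset.prod_eq_zero (intEdges_eq F ▸ he) (ew_eq_zero h)

/-! ### Injectivity -/

/-- Heights at faces are determined by the residues. -/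
theorem face_inj {F : Finset P2} {ω ω' : Cfg} (h : Valid F ω) (h' : Valid F ω')
    (ht : tm F ω = tm F ω') (hs : sm F ω = sm F ω') (n : ℕ) :
    ∀ f : P2, f ∈ F → (∃ j : ℕ, j < n ∧ (f.1 + j + 1, f.2) ∉ F) →
      ω.2.1 f = ω'.2.1 f ∧ ω.1 (f.1 + 1, f.2) = ω'.1 (f.1 + 1, f.2) := by
  -- local step: equality at a corner iff equality at the face
  have step : ∀ f ∈ F, ∀ v, IsCorner v f → ω.1 v - ω.2.1 f = ω'.1 v - ω'.2.1 f := by
    intro f hf v hv
    have h1 := h.corner f hf v hv
    have h2 := h'.corner f hf v hv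
    have h3 := Int.even_iff.mp (h.even v)
    have h4 := Int.even_iff.mp (h'.even v)
    have h5 := face_odd h hf
    have h6 := face_odd h' hf
    have h7 : ω.1 v % 4 = 2 ↔ ω'.1 v % 4 = 2 := by rw [← mem_tm h, ← mem_tm h', ht]
    have h8 : ω.2.1 f % 4 = 3 ↔ ω'.2.1 f % 4 = 3 := by rw [← mem_sm h, ← mem_sm h', hs]
    rcases abs_eq (by norm_num : (0 : ℤ) ≤ 1) |>.1 h1 with h1 | h1 <;>
    rcases abs_eq (by norm_num : (0 : ℤ) ≤ 1) |>.1 h2 with h2 | h2 <;> omega
  induction n with
  | zero => rintro f _ ⟨j, hj, _⟩; omega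
  | succ n ih =>
    rintro f hf ⟨j, hj, hjF⟩
    have hc1 : IsCorner (f.1 + 1, f.2) f := Or.inr (Or.inl rfl)
    have hst := step f hf _ hc1
    by_cases h1 : (f.1 + 1, f.2) ∈ F
    · have hj0 : j ≠ 0 := by
        rintro rfl
        apply hjF
        simpa using h1
      obtain ⟨h2, _⟩ := ih (f.1 + 1, f.2) h1 ⟨j - 1, by omega, by
        have : ((f.1 + 1 : ℤ) + ((j - 1 : ℕ) : ℤ) + 1) = f.1 + j + 1 := by
          have : ((j - 1 : ℕ) : ℤ) = j - 1 := by omega
          rw [this]; ring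
        simp only
        rw [this]
        exact hjF⟩
      have hst2 := step (f.1 + 1, f.2) h1 (f.1 + 1, f.2) (Or.inl rfl)
      have h3 : ω.1 (f.1 + 1, f.2) = ω'.1 (f.1 + 1, f.2) := by omega
      exact ⟨by omega, h3⟩
    · have h4 : (f.1 + 1, f.2) ∉ IV F := fun h5 => h1 (mem_IV.mp h5).1
      have h5 := zero_of_not_IV h h4
      have h6 := zero_of_not_IV h' h4
      exact ⟨by omega, by omega⟩

theorem conf_inj {F : Finset P2} {ω ω' : Cfg} (h : Valid F ω) (h' : Valid F ω')
    (ht : tm F ω = tm F ω') (hs : sm F ω = sm F ω') (hz : zm F ω = zm F ω') : ω = ω' := by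
  have key := face_inj h h' ht hs (F.card + 1)
  have step : ∀ f ∈ F, ω.1 f - ω.2.1 f = ω'.1 f - ω'.2.1 f := by
    intro f hf
    have h1 := h.corner f hf f (Or.inl rfl)
    have h2 := h'.corner f hf f (Or.inl rfl)
    have h3 := Int.even_iff.mp (h.even f)
    have h4 := Int.even_iff.mp (h'.even f)
    have h5 := face_odd h hf
    have h6 := face_odd h' hf
    have h7 : ω.1 f % 4 = 2 ↔ ω'.1 f % 4 = 2 := by rw [← mem_tm h, ← mem_tm h', ht]
    have h8 : ω.2.1 f % 4 = 3 ↔ ω'.2.1 f % 4 = 3 := by rw [← mem_sm h, ← mem_sm h', hs]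
    rcases abs_eq (by norm_num : (0 : ℤ) ≤ 1) |>.1 h1 with h1 | h1 <;>
    rcases abs_eq (by norm_num : (0 : ℤ) ≤ 1) |>.1 h2 with h2 | h2 <;> omega
  refine Prod.ext ?_ (Prod.ext ?_ ?_)
  · funext v
    by_cases hv : v ∈ IV F
    · have hvF : v ∈ F := (mem_IV.mp hv).1
      have h1 := (key v hvF (exists_exit F v)).1
      have h2 := step v hvF
      show ω.1 v = ω'.1 v
      omega
    · rw [zero_of_not_IV h hv, zero_of_not_IV h' hv]
  · funext f
    by_cases hf : f ∈ F
    · exact (key f hf (exists_exit F f)).1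
    · show ω.2.1 f = ω'.2.1 f
      rw [h.off f hf, h'.off f hf]
  · funext e
    by_cases he : e ∈ IE F
    · have h1 : e ∈ zm F ω ↔ e ∈ zm F ω' := by rw [hz]
      rw [mem_zm, mem_zm] at h1
      simp only [he, true_and] at h1
      show ω.2.2 e = ω'.2.2 e
      cases h2 : ω.2.2 e <;> cases h3 : ω'.2.2 e <;> simp_all
    · show ω.2.2 e = ω'.2.2 e
      rw [h.cut e he, h'.cut e he]

/-! ### Surjectivity -/

open Classical in
/-- vertex sign -/
noncomputable def vs (T : Finset P2) (v : P2) : ℤ := if v ∈ T then -1 else 1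

theorem vs_cases (T : Finset P2) (v : P2) : vs T v = 1 ∨ vs T v = -1 := by
  unfold vs; split_ifs <;> simp

theorem vs_eq_iff (T : Finset P2) (v w : P2) : vs T v = vs T w ↔ (v ∈ T ↔ w ∈ T) := by
  unfold vs; by_cases h1 : v ∈ T <;> by_cases h2 : w ∈ T <;> simp [h1, h2]

theorem vs_neg_iff (T : Finset P2) (v : P2) : vs T v = -1 ↔ v ∈ T := by
  unfold vs; by_cases h1 : v ∈ T <;> simp [h1]

/-- Every compatible triple comes from a configuration. -/
theorem conf_surj {F : Finset P2} (hF : SC (F : Set P2)) {T S : Finset P2} {Z : Finset Edge}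
    (hT : T ⊆ IV F) (hS : S ⊆ F) (hZ : Z ⊆ IE F) (hc : Comp F T S Z) :
    ∃ ω : Cfg, Valid F ω ∧ tm F ω = T ∧ sm F ω = S ∧ zm F ω = Z := by
  classical
  have hTout : ∀ v, ¬ IntV (F : Set P2) v → vs T v = 1 := by
    intro v hv
    rcases vs_cases T v with h | h
    · exact h
    · rw [vs_neg_iff] at h
      exact absurd (mem_IV.mp (hT h)) hv
  -- the 1-form
  let θ : Edge → ℤ := fun e => if e ∈ IE F then vs S (fA e) * (vs T (src e) - vs T (tgt e)) else 0
  have hθ0 : ∀ e, ¬ IntE (F : Set P2) e → θ e = 0 := by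
    intro e he
    simp only [θ]
    rw [if_neg]
    rwa [mem_IE']
  -- formula for both bordering faces
  have hθ : ∀ e, ∀ f ∈ F, (f = fA e ∨ f = fB e) →
      θ e = vs S f * (vs T (src e) - vs T (tgt e)) := by
    intro e f hf hfe
    by_cases he : e ∈ IE F
    · simp only [θ]
      rw [if_pos he]
      rcases hfe with rfl | rfl
      · rfl
      · obtain ⟨h1, h2⟩ := hc e he
        by_cases hz : e ∈ Z
        · rw [(vs_eq_iff T _ _).mpr (h1 hz)]; ring
        · rw [(vs_eq_iff S _ _).mpr (h2 hz)]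
    · rw [hθ0 e (by rwa [mem_IE'] at he)]
      -- both endpoints are non-interior
      have h1 : ∀ v, (IsCorner v (fA e) ∧ IsCorner v (fB e)) → vs T v = 1 := by
        intro v hv
        apply hTout
        intro hI
        rw [intV_iff] at hI
        exact he (mem_IE'.mpr ⟨hI _ hv.1, hI _ hv.2⟩)
      rw [h1 _ ⟨corner_src_fA e, corner_src_fB e⟩, h1 _ ⟨corner_tgt_fA e, corner_tgt_fB e⟩]
      ring
  obtain ⟨k, hk1, hk2⟩ := exists_height hF θ hθ0 (by
    intro f hf
    rw [hθ (f, false) f hf (Or.inl rfl), hθ (f, true) f hf (Or.inl rfl),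
      hθ ((f.1 + 1, f.2), true) f hf (Or.inr (by simp)),
      hθ ((f.1, f.2 + 1), false) f hf (Or.inr (by simp))]
    simp only [src_mk, tgt_h, tgt_v]
    ring)
  -- residues
  have hstep4 : ∀ e, (k (tgt e) + vs T (tgt e)) % 4 = (k (src e) + vs T (src e)) % 4 := by
    intro e
    rw [hk1 e]
    by_cases he : e ∈ IE F
    · rw [hθ e (fA e) (mem_IE.mp he).1 (Or.inl rfl)]
      rcases vs_cases S (fA e) with h1 | h1 <;> rcases vs_cases T (src e) with h2 | h2 <;>
        rcases vs_cases T (tgt e) with h3 | h3 <;> rw [h1, h2, h3] <;> omega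
    · have he' : ¬ IntE (F : Set P2) e := by rwa [mem_IE'] at he
      rw [hθ0 e he']
      have h1 : ∀ v, (IsCorner v (fA e) ∧ IsCorner v (fB e)) → vs T v = 1 := by
        intro v hv
        apply hTout
        intro hI
        rw [intV_iff] at hI
        exact he' ⟨hI _ hv.1, hI _ hv.2⟩
      rw [h1 _ ⟨corner_src_fA e, corner_src_fB e⟩, h1 _ ⟨corner_tgt_fA e, corner_tgt_fB e⟩]
      omega
  have hright : ∀ (n : ℕ) (v : P2), (∃ j : ℕ, j < n ∧ (v.1 + j + 1, v.2) ∉ F) →
      (k v + vs T v) % 4 = 1 := by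
    intro n
    induction n with
    | zero => rintro v ⟨j, hj, _⟩; omega
    | succ n ih =>
      rintro v ⟨j, hj, hjF⟩
      by_cases h1 : (v.1 + 1, v.2) ∈ F
      · have hj0 : j ≠ 0 := by
          rintro rfl
          apply hjF
          simpa using h1
        have h2 := ih (v.1 + 1, v.2) ⟨j - 1, by omega, by
          have : ((v.1 + 1 : ℤ) + ((j - 1 : ℕ) : ℤ) + 1) = v.1 + j + 1 := by
            have : ((j - 1 : ℕ) : ℤ) = j - 1 := by omega
            rw [this]; ring
          simp only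
          rw [this]
          exact hjF⟩
        have h3 := hstep4 (v, false)
        simp only [tgt_h, src_mk] at h3
        omega
      · have h2 : ¬ IntV (F : Set P2) (v.1 + 1, v.2) := fun h => h1 h.1
        have h3 := hstep4 (v, false)
        simp only [tgt_h, src_mk] at h3
        rw [hk2 _ h2, hTout _ h2] at h3
        omega
  have hres : ∀ v, (k v + vs T v) % 4 = 1 := fun v => hright (F.card + 1) v (exists_exit F v)
  -- the configuration
  let hh : P2 → ℤ := fun f => if f ∈ F then k f + vs T f * vs S f else 1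
  have hcorner : ∀ f ∈ F, ∀ v, IsCorner v f → hh f = k v + vs T v * vs S f := by
    intro f hf v hv
    simp only [hh]
    rw [if_pos hf]
    -- along an edge bordering `f`
    have hedge : ∀ e : Edge, (f = fA e ∨ f = fB e) →
        k (src e) + vs T (src e) * vs S f = k (tgt e) + vs T (tgt e) * vs S f := by
      intro e he
      rw [hk1 e, hθ e f hf he]
      ring
    have e1 := hedge (f, false) (Or.inl rfl)
    have e2 := hedge (f, true) (Or.inl rfl)
    have e3 := hedge ((f.1, f.2 + 1), false) (Or.inr (by simp))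
    simp only [src_mk, tgt_h, tgt_v] at e1 e2 e3
    rcases hv with rfl | rfl | rfl | rfl
    · rfl
    · exact e1
    · exact e2
    · rw [e2, e3]
  let ω : Cfg := (k, hh, fun e => decide (e ∈ Z ∨ e ∉ IE F))
  have hval : Valid F ω := by
    refine ⟨?_, ?_, ?_, ?_, ?_⟩
    · intro v hv
      exact hk2 v (fun h => hv (mem_IV.mpr h))
    · intro v
      show Even (k v)
      rw [Int.even_iff]
      have := hres v
      rcases vs_cases T v with h | h <;> rw [h] at this <;> omega
    · intro f hf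
      show hh f = 1
      simp only [hh]
      rw [if_neg hf]
    · intro f hf v hv
      show |k v - hh f| = 1
      rw [hcorner f hf v hv]
      rcases vs_cases T v with h1 | h1 <;> rcases vs_cases S f with h2 | h2 <;> rw [h1, h2] <;>
        norm_num
    · intro e he
      show decide (e ∈ Z ∨ e ∉ IE F) = true
      simp only [decide_eq_true_eq]
      exact Or.inr he
  refine ⟨ω, hval, ?_, ?_, ?_⟩
  · ext v
    rw [mem_tm hval]
    show k v % 4 = 2 ↔ v ∈ T
    rw [← vs_neg_iff]
    have := hres v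
    rcases vs_cases T v with h | h <;> rw [h] at this ⊢ <;> omega
  · ext f
    rw [mem_sm hval]
    show hh f % 4 = 3 ↔ f ∈ S
    by_cases hf : f ∈ F
    · rw [← vs_neg_iff, hcorner f hf f (Or.inl rfl)]
      have := hres f
      rcases vs_cases T f with h | h <;> rcases vs_cases S f with h' | h' <;>
        rw [h] at this ⊢ <;> rw [h'] <;> omega
    · constructor
      · intro h
        simp only [hh] at h
        rw [if_neg hf] at h
        norm_num at h
      · intro h
        exact absurd (hS h) hf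
  · ext e
    rw [mem_zm]
    show (e ∈ IE F ∧ decide (e ∈ Z ∨ e ∉ IE F) = true) ↔ e ∈ Z
    simp only [decide_eq_true_eq]
    constructor
    · rintro ⟨h1, h2 | h2⟩
      · exact h2
      · exact absurd h1 h2
    · intro h
      exact ⟨hZ h, Or.inl h⟩

/-! ### The sum over configurations -/

open Classical in
/-- **Sign representation**: sums over configurations are sums over compatible triples. -/
theorem sum_conf {F : Finset P2} (hF : SC (F : Set P2)) (c : ℝ)
    (g : Finset P2 → Finset P2 → Finset Edge → ℝ) :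
    ∑ ω ∈ conf F, wt c F ω * g (tm F ω) (sm F ω) (zm F ω) =
      ∑ T ∈ (IV F).powerset, ∑ Z ∈ (IE F).powerset, ∑ S ∈ F.powerset,
        if Comp F T S Z then sw c F T Z * g T S Z else 0 := by
  have h1 : ∑ ω ∈ conf F, wt c F ω * g (tm F ω) (sm F ω) (zm F ω) =
      ∑ ω ∈ (conf F).filter (fun ω => Ok F ω),
        sw c F (tm F ω) (zm F ω) * g (tm F ω) (sm F ω) (zm F ω) := by
    rw [Finset.sum_filter]
    apply Finset.sum_congr rfl
    intro ω hω
    split_ifs with h
    · rw [wt_of_ok (mem_conf.mp hω) c h]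
    · rw [wt_of_not_ok c h, zero_mul]
  have h2 : ∑ T ∈ (IV F).powerset, ∑ Z ∈ (IE F).powerset, ∑ S ∈ F.powerset,
        (if Comp F T S Z then sw c F T Z * g T S Z else 0) =
      ∑ p ∈ ((IV F).powerset ×ˢ ((IE F).powerset ×ˢ F.powerset)).filter
        (fun p => Comp F p.1 p.2.2 p.2.1), sw c F p.1 p.2.1 * g p.1 p.2.2 p.2.1 := by
    rw [Finset.sum_filter, Finset.sum_product]
    apply Finset.sum_congr rfl
    intro T _
    rw [Finset.sum_product]
  rw [h1, h2]
  apply Finset.sum_bij (fun ω _ => (tm F ω, zm F ω, sm F ω))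
  · intro ω hω
    rw [Finset.mem_filter] at hω ⊢
    have hv := mem_conf.mp hω.1
    refine ⟨?_, (ok_iff_comp hv).mp hω.2⟩
    simp only [Finset.mem_product, Finset.mem_powerset]
    exact ⟨Finset.filter_subset _ _, Finset.filter_subset _ _, Finset.filter_subset _ _⟩
  · intro ω hω ω' hω' heq
    rw [Finset.mem_filter] at hω hω'
    simp only [Prod.mk.injEq] at heq
    exact conf_inj (mem_conf.mp hω.1) (mem_conf.mp hω'.1) heq.1 heq.2.2 heq.2.1
  · rintro ⟨T, Z, S⟩ hp
    rw [Finset.mem_filter] at hp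
    simp only [Finset.mem_product, Finset.mem_powerset] at hp
    obtain ⟨⟨hT, hZ, hS⟩, hc⟩ := hp
    obtain ⟨ω, hv, e1, e2, e3⟩ := conf_surj hF hT hS hZ hc
    refine ⟨ω, ?_, by simp only [e1, e2, e3]⟩
    rw [Finset.mem_filter]
    refine ⟨mem_conf.mpr hv, ?_⟩
    rw [ok_iff_comp hv, e1, e2, e3]
    exact hc
  · intro ω _
    rfl

/-- FK-type weight of `(τ, ζ)`: agreeing edges carry `2` (cut) or `c - 1` (open), disagreeing
edges must be open and carry `1`. -/
noncomputable def fkw (c : ℝ) (F T : Finset P2) (Z : Finset Edge) : ℝ :=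
  ∏ e ∈ IE F, (if (src e ∈ T ↔ tgt e ∈ T) then (if e ∈ Z then 2 else c - 1)
    else (if e ∈ Z then 0 else 1))

open Classical in
/-- Number of sign functions of the interior vertices (`+` elsewhere) constant along the cut edges:
`2 ^ (number of ζ-clusters not containing the boundary)`. -/
noncomputable def ncl (F : Finset P2) (Z : Finset Edge) : ℕ :=
  ((IV F).powerset.filter (fun T => ∀ e ∈ IE F, e ∈ Z → (src e ∈ T ↔ tgt e ∈ T))).card

open Classical in
/-- **The `(τ, ζ)`-marginal** (planar duality): FK weight with cluster factor. -/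
theorem sum_conf_tz {F : Finset P2} (hF : SC (F : Set P2)) (c : ℝ)
    (g : Finset P2 → Finset Edge → ℝ) :
    ∑ ω ∈ conf F, wt c F ω * g (tm F ω) (zm F ω) =
      (N0 F : ℝ) / 2 ^ (IV F).card *
        ∑ T ∈ (IV F).powerset, ∑ Z ∈ (IE F).powerset, fkw c F T Z * (ncl F Z : ℝ) * g T Z := by
  rw [sum_conf hF c (fun T _ Z => g T Z), Finset.mul_sum]
  apply Finset.sum_congr rfl
  intro T _
  rw [Finset.mul_sum]
  apply Finset.sum_congr rfl
  intro Z hZ
  rw [Finset.mem_powerset] at hZ
  by_cases hTZ : ∀ e ∈ IE F, e ∈ Z → (src e ∈ T ↔ tgt e ∈ T)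
  · have h1 : ∀ S, Comp F T S Z ↔ ∀ e ∈ IE F, e ∉ Z → (fA e ∈ S ↔ fB e ∈ S) := by
      intro S
      constructor
      · intro h e he hz; exact (h e he).2 hz
      · intro h e he; exact ⟨hTZ e he, h e he⟩
    simp only [h1]
    rw [← Finset.sum_filter, Finset.sum_const, nsmul_eq_mul]
    have h2 := card_face_signs hF Z
    have h4 : fkw c F T Z = 2 ^ (IE F ∩ Z).card * sw c F T Z := by
      unfold fkw sw
      rw [← Finset.prod_inter_mul_prod_sdiff (IE F) Z, ← Finset.prod_inter_mul_prod_sdiff (IE F) Z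
        (fun e => if e ∈ Z then (1 : ℝ) else if (src e ∈ T ↔ tgt e ∈ T) then c - 1 else 1)]
      have h5 : ∏ e ∈ IE F ∩ Z, (if (src e ∈ T ↔ tgt e ∈ T) then (if e ∈ Z then (2 : ℝ) else c - 1)
          else (if e ∈ Z then 0 else 1)) = 2 ^ (IE F ∩ Z).card := by
        rw [Finset.prod_congr (g := fun _ => (2 : ℝ)) rfl, Finset.prod_const]
        intro e he
        rw [Finset.mem_inter] at he
        rw [if_pos (hTZ e he.1 he.2), if_pos he.2]
      have h6 : ∏ e ∈ IE F ∩ Z, (if e ∈ Z then (1 : ℝ) else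
          if (src e ∈ T ↔ tgt e ∈ T) then c - 1 else 1) = 1 := by
        apply Finset.prod_eq_one
        intro e he
        rw [Finset.mem_inter] at he
        rw [if_pos he.2]
      rw [h5, h6, one_mul]
      congr 1
      apply Finset.prod_congr rfl
      intro e he
      rw [Finset.mem_sdiff] at he
      rw [if_neg he.2, if_neg he.2, if_neg he.2]
    have h7 : (N0 F : ℝ) / 2 ^ (IV F).card * (fkw c F T Z * (ncl F Z : ℝ) * g T Z) =
        (N0 F : ℝ) / 2 ^ (IV F).card * (2 ^ (IE F ∩ Z).card * (ncl F Z : ℝ)) *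
          (sw c F T Z * g T Z) := by
      rw [h4]; ring
    rw [h7]
    congr 1
    unfold ncl
    convert h2
  · have h1 : ∀ S, ¬ Comp F T S Z := by
      intro S h
      exact hTZ (fun e he hz => (h e he).1 hz)
    rw [Finset.sum_eq_zero (fun S _ => if_neg (h1 S))]
    have h4 : fkw c F T Z = 0 := by
      push Not at hTZ
      obtain ⟨e, he, hz, hne⟩ := hTZ
      unfold fkw
      apply Finset.prod_eq_zero he
      rw [if_neg, if_pos hz]
      intro hiff
      rcases hne with ⟨a1, a2⟩ | ⟨a1, a2⟩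
      · exact a2 (hiff.mp a1)
      · exact a1 (hiff.mpr a2)
    rw [h4]
    ring

end Crest.Agent.R161.Marg729
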