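import Crest.Agent.R161.AtFkC_729
import Crest.Agent.R161.Marg_729
import Crest.Agent.R161.Ifc_372

/-!
Row 161: transport of the abstract association / boundary monotonicity theorems to the height model
of `Defs_372` (simply connected domains).
-/

set_option autoImplicit false

namespace Crest.Agent.R161.AtFkD729

open Finset Crest.Agent.R161.Geo729 Crest.Agent.R161.Dual729 Crest.Agent.R161.DualB729
  Crest.Agent.R161.DualC729 Crest.Agent.R161.Defs372 Crest.Agent.R161.Marg729
  Crest.Agent.R161.AtFkA729 Crest.Agent.R161.AtFkB729 Crest.Agent.R161.AtFkC729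
  Crest.Agent.R161.Ifc372

/-! ### counting form of `psi` -/

theorem psi_card {α ε : Type*} [DecidableEq α] [DecidableEq ε] (sr tg : ε → α) (VA : Finset α)
    (c : ℝ) (D : Finset ε) :
    psi sr tg VA c D ∅ =
      ((VA.powerset.filter fun A => ∀ e ∈ D, (sr e ∈ A ↔ tg e ∈ A)).card : ℝ) := by
  classical
  have h1 : psi sr tg VA c D ∅ =
      (((univ : Finset (↥VA → ℤˣ)).filter fun σ => ∀ e ∈ D, sp VA σ (sr e) = sp VA σ (tg e)).card : ℝ) := by
    unfold psi
    rw [Finset.card_filter]
    push_cast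
    refine Finset.sum_congr rfl fun σ _ => ?_
    rw [Finset.prod_empty, mul_one]
    unfold hd
    split_ifs with h
    · exact Finset.prod_eq_one fun e he => if_pos (h e he)
    · push Not at h
      obtain ⟨e, he, hne⟩ := h
      exact Finset.prod_eq_zero he (if_neg hne)
  rw [h1]
  norm_cast
  have hm1 : (1 : ℤˣ) ≠ -1 := by decide
  refine Finset.card_bij' (fun σ _ => VA.filter fun v => sp VA σ v = -1)
    (fun A _ => fun v : ↥VA => if (v : α) ∈ A then (-1 : ℤˣ) else 1) ?_ ?_ ?_ ?_
  · intro σ hσ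
    rw [Finset.mem_filter] at hσ ⊢
    refine ⟨Finset.mem_powerset.mpr (Finset.filter_subset _ _), fun e he => ?_⟩
    have h2 := hσ.2 e he
    have key : ∀ v, v ∈ VA.filter (fun v => sp VA σ v = -1) ↔ sp VA σ v = -1 := by
      intro v
      rw [Finset.mem_filter]
      constructor
      · exact fun h => h.2
      · intro h
        refine ⟨?_, h⟩
        by_contra hv
        unfold sp at h
        rw [dif_neg hv] at h
        exact hm1 h
    rw [key, key, h2]
  · intro A hA
    rw [Finset.mem_filter, Finset.mem_powerset] at hA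
    rw [Finset.mem_filter]
    refine ⟨Finset.mem_univ _, fun e he => ?_⟩
    have key : ∀ v, sp VA (fun v : ↥VA => if (v : α) ∈ A then (-1 : ℤˣ) else 1) v =
        if v ∈ A then -1 else 1 := by
      intro v
      unfold sp
      by_cases hv : v ∈ VA
      · rw [dif_pos hv]
      · rw [dif_neg hv, if_neg (fun h => hv (hA.1 h))]
    rw [key, key]
    have := hA.2 e he
    by_cases h3 : sr e ∈ A
    · rw [if_pos h3, if_pos (this.mp h3)]
    · rw [if_neg h3, if_neg (fun h => h3 (this.mpr h))]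
  · intro σ _
    funext v
    have hv : sp VA σ v = σ v := by unfold sp; rw [dif_pos v.2]
    simp only [Finset.mem_filter, v.2, true_and]
    rw [hv]
    rcases Int.units_eq_one_or (σ v) with h | h
    · rw [h, if_neg hm1]
    · rw [h, if_pos rfl]
  · intro A hA
    rw [Finset.mem_filter, Finset.mem_powerset] at hA
    ext v
    rw [Finset.mem_filter]
    have key : ∀ v, sp VA (fun v : ↥VA => if (v : α) ∈ A then (-1 : ℤˣ) else 1) v =
        if v ∈ A then -1 else 1 := by
      intro v
      unfold sp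
      by_cases hv : v ∈ VA
      · rw [dif_pos hv]
      · rw [dif_neg hv, if_neg (fun h => hv (hA.1 h))]
    rw [key]
    constructor
    · rintro ⟨_, h⟩
      by_contra hv
      rw [if_neg hv] at h
      exact hm1 h
    · intro h
      exact ⟨hA.1 h, if_pos h⟩

/-! ### pairs -/

/-- An edge as a pair of vertices. -/
def pe (e : Edge) : P2 × P2 := (src e, tgt e)

theorem pe_inj : Function.Injective pe := by
  rintro ⟨⟨x, y⟩, b⟩ ⟨⟨x', y'⟩, b'⟩ h
  simp only [pe, src_mk, Prod.mk.injEq] at h
  obtain ⟨⟨rfl, rfl⟩, h2⟩ := h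
  cases b <;> cases b' <;> simp [tgt] at h2 ⊢

theorem pe_swap (e e' : Edge) : pe e ≠ (pe e').swap := by
  obtain ⟨⟨x, y⟩, b⟩ := e
  obtain ⟨⟨x', y'⟩, b'⟩ := e'
  cases b <;> cases b' <;> simp only [pe, src_mk, tgt_h, tgt_v, Prod.swap_prod_mk, ne_eq,
    Prod.mk.injEq, not_and] <;> omega

/-- Number of sign functions of `VA` (`+` elsewhere) respecting the pairs of `D`. -/
noncomputable def nw (VA : Finset P2) (D : Finset (P2 × P2)) : ℝ :=
  psi Prod.fst Prod.snd VA 1 D ∅

theorem psi_nw (VA : Finset P2) (c : ℝ) (D : Finset (P2 × P2)) :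
    psi Prod.fst Prod.snd VA c D ∅ = nw VA D := by
  unfold nw psi
  simp only [Finset.prod_empty]

theorem nw_card (VA : Finset P2) (D : Finset (P2 × P2)) :
    nw VA D = ((VA.powerset.filter fun A => ∀ p ∈ D, (p.1 ∈ A ↔ p.2 ∈ A)).card : ℝ) :=
  psi_card _ _ _ _ _

theorem ncl_eq (F : Finset P2) {Z : Finset Edge} (hZ : Z ⊆ IE F) :
    (ncl F Z : ℝ) = nw (IV F) (Z.image pe) := by
  classical
  rw [nw_card]
  unfold ncl
  congr 2
  ext A
  simp only [Finset.mem_filter, Finset.mem_image, forall_exists_index, and_imp]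
  refine and_congr_right fun _ => ?_
  constructor
  · rintro h p e he rfl
    exact h e (hZ he) he
  · intro h e _ he
    exact h (pe e) e he rfl

/-! ### the environment system on `ℤ²` -/

/-- Lift of a function of edge sets to a function of pair sets. -/
noncomputable def lft (B : Finset P2) (f : Finset P2 → Finset Edge → Finset Edge → ℝ) :
    Finset P2 → Finset (P2 × P2) → Finset (P2 × P2) → ℝ :=
  fun T P M => f T ((IE B).filter fun e => pe e ∈ P) ((IE B).filter fun e => pe e ∈ M)

theorem lft_inc (B : Finset P2) {f : Finset P2 → Finset Edge → Finset Edge → ℝ} (hf : Inc f) :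
    Inc (lft B f) := by
  intro T T' P P' M M' hT hP hM
  refine hf _ _ _ _ _ _ hT ?_ ?_
  · intro e he
    rw [Finset.mem_filter] at he ⊢
    exact ⟨he.1, hP he.2⟩
  · intro e he
    rw [Finset.mem_filter] at he ⊢
    exact ⟨he.1, hM he.2⟩

/-- Unnormalised environment expectation inside `B` (cluster signs on `VA`). -/
noncomputable def EB (c : ℝ) (VA B : Finset P2) (η : BC P2 (P2 × P2))
    (f : Finset P2 → Finset Edge → Finset Edge → ℝ) : ℝ :=
  En Prod.fst Prod.snd VA (IV B) ((IE B).image pe) c η (lft B f)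

theorem E2_image (B X : Finset P2) :
    E2 Prod.fst Prod.snd ((IE B).image pe) X = (E2 src tgt (IE B) X).image pe := by
  ext p
  simp only [E2, Finset.mem_filter, Finset.mem_image]
  constructor
  · rintro ⟨⟨e, he, rfl⟩, h⟩
    exact ⟨e, ⟨he, h⟩, rfl⟩
  · rintro ⟨e, ⟨he, h⟩, rfl⟩
    exact ⟨⟨e, he, rfl⟩, h⟩

theorem E1_image (B X : Finset P2) :
    E1 Prod.fst Prod.snd ((IE B).image pe) X = (E1 src tgt (IE B) X).image pe := by
  ext p
  simp only [E1, Finset.mem_filter, Finset.mem_image]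
  constructor
  · rintro ⟨⟨e, he, rfl⟩, h⟩
    exact ⟨e, ⟨he, h⟩, rfl⟩
  · rintro ⟨e, ⟨he, h⟩, rfl⟩
    exact ⟨⟨e, he, rfl⟩, h⟩

theorem fw_image (c : ℝ) (B X : Finset P2) (Z : Finset Edge) :
    fw Prod.fst Prod.snd c ((IE B).image pe) X (Z.image pe) = fw src tgt c (IE B) X Z := by
  unfold fw
  rw [Finset.prod_image (fun a _ b _ h => pe_inj h)]
  refine Finset.prod_congr rfl fun e _ => ?_
  have : pe e ∈ Z.image pe ↔ e ∈ Z := by
    rw [Finset.mem_image]
    constructor
    · rintro ⟨e', he', h⟩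
      rwa [← pe_inj h]
    · intro h
      exact ⟨e, h, rfl⟩
  simp only [this]
  rfl

theorem mem_image_pe {Z : Finset Edge} {e : Edge} : pe e ∈ Z.image pe ↔ e ∈ Z := by
  rw [Finset.mem_image]
  constructor
  · rintro ⟨e', he', h⟩
    rwa [← pe_inj h]
  · intro h
    exact ⟨e, h, rfl⟩

/-- `Z`-form of the environment expectation. -/
theorem EB_eq (c : ℝ) (VA B : Finset P2) {η : BC P2 (P2 × P2)}
    (hs : Sep Prod.fst Prod.snd (IV B) η) (f : Finset P2 → Finset Edge → Finset Edge → ℝ) :
    EB c VA B η f = nw VA ∅ * ∑ T ∈ (IV B).powerset, ∑ Z ∈ (IE B).powerset,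
      fw src tgt c (IE B) (T ∪ η.T0) Z * nw VA (η.Dp ∪ η.Dm ∪ Z.image pe) *
        f T (Z ∩ E2 src tgt (IE B) (T ∪ η.T0)) (Z ∩ E1 src tgt (IE B) (T ∪ η.T0)) := by
  classical
  unfold EB
  rw [En_Z c hs, psi_nw]
  congr 1
  refine Finset.sum_congr rfl fun T _ => ?_
  symm
  refine Finset.sum_bij' (fun Z _ => Z.image pe) (fun Z' _ => (IE B).filter fun e => pe e ∈ Z')
    ?_ ?_ ?_ ?_ ?_
  · intro Z hZ
    rw [Finset.mem_powerset] at hZ ⊢
    exact Finset.image_subset_image hZ
  · intro Z' _
    rw [Finset.mem_powerset]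
    exact Finset.filter_subset _ _
  · intro Z hZ
    rw [Finset.mem_powerset] at hZ
    ext e
    rw [Finset.mem_filter, mem_image_pe]
    exact ⟨fun h => h.2, fun h => ⟨hZ h, h⟩⟩
  · intro Z' hZ'
    rw [Finset.mem_powerset] at hZ'
    ext p
    rw [Finset.mem_image]
    constructor
    · rintro ⟨e, he, rfl⟩
      exact (Finset.mem_filter.mp he).2
    · intro hp
      obtain ⟨e, he, rfl⟩ := Finset.mem_image.mp (hZ' hp)
      exact ⟨e, Finset.mem_filter.mpr ⟨he, hp⟩, rfl⟩
  · intro Z hZ
    rw [Finset.mem_powerset] at hZ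
    rw [fw_image, psi_nw]
    congr 1
    unfold lft
    congr 1
    · rw [E2_image]
      ext e
      rw [Finset.mem_filter, ← Finset.image_inter _ _ pe_inj, mem_image_pe, Finset.mem_inter]
      exact ⟨fun h => ⟨hZ h.1, h⟩, fun h => h.2⟩
    · rw [E1_image]
      ext e
      rw [Finset.mem_filter, ← Finset.image_inter _ _ pe_inj, mem_image_pe, Finset.mem_inter]
      exact ⟨fun h => ⟨hZ h.1, h⟩, fun h => h.2⟩

end Crest.Agent.R161.AtFkD729
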