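import Crest.Agent.R161.AtA2_375
import Crest.Agent.R161.AtFkD_729

/-!
# Association of `(τ, ζ)` on simply connected domains (helper375; (A1) and (A2))

* `assoc` : `E c F f * E c F g ≤ E c F (f g)` for `ZCv760.Inc f, g` and `SC F`.
* `domMono : 1 ≤ c → DomMono c`.
-/

set_option autoImplicit false
set_option linter.unusedVariables false

noncomputable section

namespace Crest.Agent.R161.AtA1375

open Finset
open Crest.Agent.R161.Geo729 Crest.Agent.R161.Defs372 Crest.Agent.R161.Ifc372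
open Crest.Agent.R161.Dual729 Crest.Agent.R161.DualB729 Crest.Agent.R161.DualC729
open Crest.Agent.R161.Marg729 Crest.Agent.R161.AtA2375
open Crest.Agent.R161.AtFkA729 Crest.Agent.R161.AtFkB729 Crest.Agent.R161.AtFkC729
open Crest.Agent.R161.AtFkD729

variable {F : Finset P2}

/-- consistent pairs -/
def Cons (T : Finset P2) (Z : Finset Edge) : Prop := ∀ e ∈ Z, (src e ∈ T ↔ tgt e ∈ T)

/-- `q` is above the triple `(T, P, M)` -/
def Above (F : Finset P2) (T : Finset P2) (P M : Finset Edge) (q : Finset P2 × Finset Edge) :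
    Prop :=
  Cons q.1 q.2 ∧ q.1 ⊆ T ∧ P ∩ IE F ⊆ q.2 ∩ E2 src tgt (IE F) q.1 ∧
    q.2 ∩ E1 src tgt (IE F) q.1 ⊆ M

open Classical in
/-- consistent pairs above the triple -/
def ab (F : Finset P2) (T : Finset P2) (P M : Finset Edge) : Finset (Finset P2 × Finset Edge) :=
  ((IV F).powerset ×ˢ (IE F).powerset).filter (Above F T P M)

theorem top_mem (F : Finset P2) (T : Finset P2) (P M : Finset Edge) :
    (∅, IE F) ∈ ab F T P M := by
  classical
  unfold ab
  rw [Finset.mem_filter, Finset.mem_product, Finset.mem_powerset, Finset.mem_powerset]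
  refine ⟨⟨Finset.empty_subset _, Finset.Subset.refl _⟩, fun e _ => by simp,
    Finset.empty_subset _, ?_, ?_⟩
  · intro e he
    rw [Finset.mem_inter] at he ⊢
    exact ⟨he.2, by simp [E2, he.2]⟩
  · intro e he
    simp [E1] at he

/-- monotone extension of `f` to all triples -/
def hat (F : Finset P2) (f : Cfg → ℝ) (T : Finset P2) (P M : Finset Edge) : ℝ :=
  (ab F T P M).inf' ⟨_, top_mem F T P M⟩ fun q => f (canon F q.1 q.2)

theorem hat_inc (F : Finset P2) (f : Cfg → ℝ) : AtFkB729.Inc (hat F f) := by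
  classical
  intro T T' P P' M M' hT hP hM
  unfold hat
  refine Finset.inf'_mono _ ?_ ⟨_, top_mem F T' P' M'⟩
  intro q hq
  unfold ab at hq ⊢
  rw [Finset.mem_filter] at hq ⊢
  obtain ⟨h0, h1, h2, h3, h4⟩ := hq
  exact ⟨h0, h1, h2.trans hT, (Finset.inter_subset_inter_right hP).trans h3, h4.trans hM⟩

theorem hat_eq {f : Cfg → ℝ} (hf : ZCv760.Inc f) {T : Finset P2} (hT : T ⊆ IV F)
    {Z : Finset Edge} (hZ : Z ⊆ IE F) (hc : Cons T Z) :
    hat F f T (Z ∩ E2 src tgt (IE F) T) (Z ∩ E1 src tgt (IE F) T) = f (canon F T Z) := by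
  classical
  unfold hat
  refine le_antisymm ?_ ?_
  · have hm : (T, Z) ∈ ab F T (Z ∩ E2 src tgt (IE F) T) (Z ∩ E1 src tgt (IE F) T) := by
      unfold ab
      rw [Finset.mem_filter, Finset.mem_product, Finset.mem_powerset, Finset.mem_powerset]
      exact ⟨⟨hT, hZ⟩, hc, Finset.Subset.refl _, Finset.inter_subset_left, Finset.Subset.refl _⟩
    exact Finset.inf'_le (fun q : Finset P2 × Finset Edge => f (canon F q.1 q.2)) hm
  · refine Finset.le_inf' _ _ fun q hq => ?_
    unfold ab at hq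
    rw [Finset.mem_filter, Finset.mem_product, Finset.mem_powerset, Finset.mem_powerset] at hq
    obtain ⟨⟨q1, q2⟩, q3, q4, q5, q6⟩ := hq
    refine hf _ _ ⟨fun x hx => ?_, fun e he => ?_, fun e he => ?_⟩
    · rw [four_dvd_canon] at hx ⊢
      exact fun h => hx (q4 h)
    · obtain ⟨h1, h2⟩ := he
      rw [four_dvd_canon] at h2
      rw [cut_canon] at h1
      refine ⟨?_, ?_⟩
      · rw [cut_canon]
        rcases h1 with h1 | h1
        · have h3 : e ∈ Z ∩ E2 src tgt (IE F) T ∩ IE F := by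
            have h4 := (hc e h1)
            simp only [Finset.mem_inter, E2, Finset.mem_filter]
            exact ⟨⟨h1, hZ h1, h2, fun h5 => h2 (h4.2 h5)⟩, hZ h1⟩
          exact Or.inl (Finset.mem_inter.1 (q5 h3)).1
        · exact Or.inr h1
      · rw [four_dvd_canon]
        exact fun h => h2 (q4 h)
    · obtain ⟨h1, h2⟩ := he
      rw [four_dvd_canon, not_not] at h2
      rw [cut_canon] at h1
      have hIE : e ∈ IE F := by
        by_contra h
        exact (ends_not_IV h).1 (q1 h2)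
      have h3 : e ∈ q.2 := h1.elim id fun h => absurd hIE h
      have h4 : e ∈ q.2 ∩ E1 src tgt (IE F) q.1 := by
        simp only [Finset.mem_inter, E1, Finset.mem_filter]
        exact ⟨h3, hIE, h2, (q3 e h3).1 h2⟩
      have h5 := q6 h4
      simp only [Finset.mem_inter, E1, Finset.mem_filter] at h5
      refine ⟨?_, ?_⟩
      · rw [cut_canon]
        exact Or.inl h5.1
      · rw [four_dvd_canon, not_not]
        exact h5.2.2.1

/-- wiring-free boundary data -/
def η0 : BC P2 Edge := ⟨∅, ∅, ∅⟩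

theorem ok0 (F : Finset P2) : η0.Ok (IV F) (IE F) :=
  ⟨Finset.disjoint_empty_left _, Finset.disjoint_empty_left _, Finset.disjoint_empty_left _⟩

theorem sep0 (F : Finset P2) : Sep src tgt (IV F) η0 :=
  ⟨fun e he => by simp [η0] at he, fun e he => by simp [η0] at he⟩

theorem psi_ncl (c : ℝ) {Z : Finset Edge} (hZ : Z ⊆ IE F) :
    psi src tgt (IV F) c Z ∅ = (ncl F Z : ℝ) := by
  classical
  rw [psi_card]
  unfold ncl
  congr 2
  ext A
  simp only [Finset.mem_filter]
  exact and_congr_right fun _ => ⟨fun h e _ he => h e he, fun h e he => h e (hZ he) he⟩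

theorem fkw_zero (c : ℝ) {T : Finset P2} {Z : Finset Edge} (hZ : Z ⊆ IE F) (h : ¬ Cons T Z) :
    fkw c F T Z = 0 := by
  unfold Cons at h
  push Not at h
  obtain ⟨e, he, hne⟩ := h
  unfold fkw
  apply Finset.prod_eq_zero (hZ he)
  rw [if_neg, if_pos he]
  intro hiff
  rcases hne with ⟨a1, a2⟩ | ⟨a1, a2⟩
  · exact a2 (hiff.mp a1)
  · exact a1 (hiff.mpr a2)

/-- **Representation.** `G` is any function of triples which agrees with `f` on consistent pairs. -/
theorem rep (hF : SC (F : Set P2)) (c : ℝ) {f : Cfg → ℝ}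
    (hf : ∀ ω, Valid F ω → f ω = f (canon F (tm F ω) (zm F ω)))
    {G : Finset P2 → Finset Edge → Finset Edge → ℝ}
    (hG : ∀ T ⊆ IV F, ∀ Z ⊆ IE F, Cons T Z →
      G T (Z ∩ E2 src tgt (IE F) T) (Z ∩ E1 src tgt (IE F) T) = f (canon F T Z)) :
    (∑ ω ∈ conf F, wt c F ω * f ω) * psi src tgt (IV F) c ∅ ∅ =
      (N0 F : ℝ) / 2 ^ (IV F).card * En src tgt (IV F) (IV F) (IE F) c η0 G := by
  classical
  have e1 : ∑ ω ∈ conf F, wt c F ω * f ω =
      ∑ ω ∈ conf F, wt c F ω * (fun (T : Finset P2) (Z : Finset Edge) =>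
        f (canon F T Z)) (tm F ω) (zm F ω) := by
    refine Finset.sum_congr rfl fun ω hω => ?_
    rw [hf ω (mem_conf.1 hω)]
  have e2 := sum_conf_tz hF c (fun (T : Finset P2) (Z : Finset Edge) => f (canon F T Z))
  rw [e1, e2, En_Z c (sep0 F)]
  have e3 : ∑ T ∈ (IV F).powerset, ∑ Z ∈ (IE F).powerset,
        fw src tgt c (IE F) (T ∪ η0.T0) Z * psi src tgt (IV F) c (η0.Dp ∪ η0.Dm ∪ Z) ∅ *
          G T (Z ∩ E2 src tgt (IE F) (T ∪ η0.T0)) (Z ∩ E1 src tgt (IE F) (T ∪ η0.T0)) =
      ∑ T ∈ (IV F).powerset, ∑ Z ∈ (IE F).powerset,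
        fkw c F T Z * (ncl F Z : ℝ) * f (canon F T Z) := by
    refine Finset.sum_congr rfl fun T hT => Finset.sum_congr rfl fun Z hZ => ?_
    rw [Finset.mem_powerset] at hT hZ
    have h1 : T ∪ η0.T0 = T := by simp [η0]
    have h2 : η0.Dp ∪ η0.Dm ∪ Z = Z := by simp [η0]
    have h3 : fw src tgt c (IE F) T Z = fkw c F T Z := by
      unfold fw fkw
      refine Finset.prod_congr rfl fun e _ => ?_
      split_ifs <;> rfl
    rw [h1, h2, h3, psi_ncl c hZ]
    by_cases hc : Cons T Z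
    · rw [hG T hT Z hZ hc]
    · rw [fkw_zero c hZ hc]; ring
  rw [e3]
  ring

/-- **(A1)** association. -/
theorem assoc {c : ℝ} (hc : 1 ≤ c) (hF : SC (F : Set P2)) {f g : Cfg → ℝ} (hf : ZCv760.Inc f)
    (hg : ZCv760.Inc g) : E c F f * E c F g ≤ E c F (fun ω => f ω * g ω) := by
  classical
  have r1 := rep hF c (f := f) (fun ω h => eq_canon h hf) (G := hat F f)
    (fun T hT Z hZ h => hat_eq hf hT hZ h)
  have r2 := rep hF c (f := g) (fun ω h => eq_canon h hg) (G := hat F g)
    (fun T hT Z hZ h => hat_eq hg hT hZ h)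
  have r3 := rep hF c (f := fun ω => f ω * g ω)
    (fun ω h => by
      show f ω * g ω = f _ * g _
      rw [← eq_canon h hf, ← eq_canon h hg])
    (G := fun T P M => hat F f T P M * hat F g T P M)
    (fun T hT Z hZ h => by
      show hat F f T _ _ * hat F g T _ _ = f (canon F T Z) * g (canon F T Z)
      rw [hat_eq hf hT hZ h, hat_eq hg hT hZ h])
  have r4 := rep hF c (f := fun _ => 1) (fun ω h => rfl) (G := fun _ _ _ => 1)
    (fun T hT Z hZ h => rfl)
  have key := En_fkg (src := src) (tgt := tgt) (VA := IV F) hc (ok0 F) (hat_inc F f) (hat_inc F g)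
  have hψ := psi_pos src tgt (IV F) hc ∅ ∅
  have hN : 0 < (N0 F : ℝ) / 2 ^ (IV F).card := by
    have : (0 : ℝ) < N0 F := by exact_mod_cast N0_pos F
    positivity
  have hZ := Z_pos hc F
  simp only [mul_one] at r4
  have hZ' : Z c F * psi src tgt (IV F) c ∅ ∅ =
      (N0 F : ℝ) / 2 ^ (IV F).card * En src tgt (IV F) (IV F) (IE F) c η0 (fun _ _ _ => 1) := r4
  rw [E_eq_div, E_eq_div, E_eq_div, div_mul_div_comm, div_le_div_iff₀ (mul_pos hZ hZ) hZ]
  set K := (N0 F : ℝ) / 2 ^ (IV F).card with hK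
  set ψ := psi src tgt (IV F) c ∅ ∅ with hψd
  set A := ∑ ω ∈ conf F, wt c F ω * f ω with hA
  set B := ∑ ω ∈ conf F, wt c F ω * g ω with hB
  set C := ∑ ω ∈ conf F, wt c F ω * (f ω * g ω) with hC
  set ZZ := Z c F with hZZ
  -- multiply by ψ²
  have h1 : (A * ψ) * (B * ψ) ≤ (ZZ * ψ) * (C * ψ) := by
    rw [r1, r2, r3, hZ']
    have := mul_le_mul_of_nonneg_left key (mul_pos hN hN).le
    calc _ = K * K * (En src tgt (IV F) (IV F) (IE F) c η0 (hat F f) *
          En src tgt (IV F) (IV F) (IE F) c η0 (hat F g)) := by ring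
      _ ≤ _ := this
      _ = _ := by ring
  have h2 : A * B ≤ ZZ * C := by
    have h3 : (A * B) * (ψ * ψ) ≤ (ZZ * C) * (ψ * ψ) := by linarith
    exact le_of_mul_le_mul_right h3 (mul_pos hψ hψ)
  calc A * B * ZZ ≤ (ZZ * C) * ZZ := mul_le_mul_of_nonneg_right h2 hZ.le
    _ = C * (ZZ * ZZ) := by ring

/-- **(A2)** domain monotonicity, unconditional. -/
theorem domMono {c : ℝ} (hc : 1 ≤ c) : ZCv760.DomMono c :=
  domMono_of_fkg hc fun _ hF _ _ hf hg => assoc hc hF.sc hf hg

end Crest.Agent.R161.AtA1375
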