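import Crest.Agent.R161.Iso_760
import Crest.Agent.R161.Ifc_372

/-!
# Row 161: convergence of the laws of the cut variables from domain monotonicity (helper760)

* `LeP ω ω'` : `ω'` is more plus than `ω` (fewer `2 mod 4` vertices, more plus-cut edges, fewer
  minus-cut edges); `Inc f`
* `DomMono c` : `E_{F'} f ≤ E_F f` for increasing `f`, `Dom F ⊆ Dom F'`
* `zconv_of_domMono : 1 ≤ c → DomMono c → ZConv c`
-/

set_option autoImplicit false

noncomputable section

namespace Crest.Agent.R161.ZCv760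

open Finset hiding box
open Crest.Agent.R161.Geo729 Crest.Agent.R161.Defs372 MeasureTheory Filter Topology
open Crest.Agent.R161.Box760 Crest.Agent.R161.Iso760 Crest.Agent.R161.Ifc372

/-- `ω'` is more plus than `ω` -/
structure LeP (ω ω' : Cfg) : Prop where
  v : ∀ x, (4 : ℤ) ∣ ω.1 x → (4 : ℤ) ∣ ω'.1 x
  p : ∀ e, plusE ω e → plusE ω' e
  m : ∀ e, minusE ω' e → minusE ω e

/-- increasing observables -/
def Inc (f : Cfg → ℝ) : Prop := ∀ ω ω', LeP ω ω' → f ω ≤ f ω'

/-- domain monotonicity -/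
def DomMono (c : ℝ) : Prop :=
  ∀ F F' : Finset P2, Dom F → Dom F' → F ⊆ F' → ∀ f : Cfg → ℝ, Inc f → E c F' f ≤ E c F f

lemma Inc.mul {f g : Cfg → ℝ} (hf : Inc f) (hg : Inc g) (hf0 : ∀ ω, 0 ≤ f ω) (hg0 : ∀ ω, 0 ≤ g ω) :
    Inc fun ω => f ω * g ω :=
  fun ω ω' h => mul_le_mul (hf ω ω' h) (hg ω ω' h) (hg0 ω) (hf0 ω')

/-- `E c F f` converges along the domains -/
def Cv (c : ℝ) (f : Cfg → ℝ) : Prop :=
  ∃ a : ℝ, ∀ ε : ℝ, 0 < ε → ∃ n : ℕ, ∀ F : Finset P2, Dom F → box n ⊆ F → |E c F f - a| < ε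

variable {c : ℝ}

lemma Cv.add {f g : Cfg → ℝ} (hf : Cv c f) (hg : Cv c g) : Cv c fun ω => f ω + g ω := by
  obtain ⟨a, ha⟩ := hf
  obtain ⟨b, hb⟩ := hg
  refine ⟨a + b, fun ε hε => ?_⟩
  obtain ⟨n, hn⟩ := ha (ε / 2) (by positivity)
  obtain ⟨m, hm⟩ := hb (ε / 2) (by positivity)
  refine ⟨max n m, fun F hF hF' => ?_⟩
  have h1 := hn F hF ((box_mono (le_max_left _ _)).trans hF')
  have h2 := hm F hF ((box_mono (le_max_right _ _)).trans hF')
  rw [E_add]
  rw [abs_lt] at *
  constructor <;> linarith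

lemma Cv.smul {f : Cfg → ℝ} (hf : Cv c f) (r : ℝ) : Cv c fun ω => r * f ω := by
  obtain ⟨a, ha⟩ := hf
  refine ⟨r * a, fun ε hε => ?_⟩
  obtain ⟨n, hn⟩ := ha (ε / (|r| + 1)) (by positivity)
  refine ⟨n, fun F hF hF' => ?_⟩
  rw [E_smul, ← mul_sub, abs_mul]
  have h1 := hn F hF hF'
  rw [lt_div_iff₀ (by positivity)] at h1
  have h2 := abs_nonneg (E c F f - a)
  nlinarith [abs_nonneg r]

lemma Cv.congr {f g : Cfg → ℝ} (hf : Cv c f)
    (h : ∀ F : Finset P2, ∀ ω, Valid F ω → f ω = g ω) : Cv c g := by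
  obtain ⟨a, ha⟩ := hf
  refine ⟨a, fun ε hε => ?_⟩
  obtain ⟨n, hn⟩ := ha ε hε
  refine ⟨n, fun F hF hF' => ?_⟩
  rw [← E_congr (h F)]
  exact hn F hF hF'

/-- nonnegative increasing observables converge -/
lemma cv_of_inc (hc : 1 ≤ c) (hM : DomMono c) {f : Cfg → ℝ} (hf : Inc f) (h0 : ∀ ω, 0 ≤ f ω) :
    Cv c f := by
  have hanti : Antitone fun n : ℕ => E c (box n) f := fun n m h =>
    hM _ _ (dom_box n) (dom_box m) (box_mono h) f hf
  have hbdd : BddBelow (Set.range fun n : ℕ => E c (box n) f) :=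
    ⟨0, by rintro _ ⟨n, rfl⟩; exact E_nonneg hc fun ω _ => h0 ω⟩
  have hlim := tendsto_atTop_ciInf hanti hbdd
  set a := ⨅ n : ℕ, E c (box n) f with ha
  refine ⟨a, fun ε hε => ?_⟩
  obtain ⟨n, hn⟩ := (Metric.tendsto_atTop.1 hlim) ε hε
  refine ⟨n, fun F hF hF' => ?_⟩
  have h1 : E c F f ≤ E c (box n) f := hM _ _ (dom_box n) hF hF' f hf
  obtain ⟨m, hm⟩ := exists_box F
  have h2 : E c (box m) f ≤ E c F f := hM _ _ hF (dom_box m) hm f hf
  have h3 : a ≤ E c (box m) f := ciInf_le hbdd m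
  have h4 := hn n le_rfl
  rw [Real.dist_eq, abs_lt] at h4
  rw [abs_lt]
  constructor <;> linarith

/-! ### the cut variables as combinations of increasing observables -/

open Classical in
/-- plus-cut indicator -/
def pb (e : Edge) (ω : Cfg) : ℝ := if plusE ω e then 1 else 0

open Classical in
/-- one minus the minus-cut indicator -/
def md (e : Edge) (ω : Cfg) : ℝ := if minusE ω e then 0 else 1

lemma pb_inc (e : Edge) : Inc (pb e) := by
  intro ω ω' h
  unfold pb
  by_cases h1 : plusE ω e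
  · rw [if_pos h1, if_pos (h.p e h1)]
  · rw [if_neg h1]; split_ifs <;> norm_num

lemma md_inc (e : Edge) : Inc (md e) := by
  intro ω ω' h
  unfold md
  by_cases h1 : minusE ω' e
  · rw [if_pos h1, if_pos (h.m e h1)]
  · rw [if_neg h1]; split_ifs <;> norm_num

lemma pb_nonneg (e : Edge) (ω : Cfg) : 0 ≤ pb e ω := by unfold pb; split_ifs <;> norm_num
lemma md_nonneg (e : Edge) (ω : Cfg) : 0 ≤ md e ω := by unfold md; split_ifs <;> norm_num

/-- `1{z_e} = pb + (1 - md)` -/
lemma z_eq (e : Edge) (ω : Cfg) :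
    (if ω.2.2 e = true then (1 : ℝ) else 0) = pb e ω + (1 - md e ω) := by
  unfold pb md plusE minusE
  by_cases h1 : ω.2.2 e = true
  · by_cases h2 : (4 : ℤ) ∣ ω.1 (src e)
    · simp [h1, h2]
    · simp [h1, h2]
  · simp [h1]

/-- products with a nonnegative increasing factor converge -/
lemma cv_prod (hc : 1 ≤ c) (hM : DomMono c) (S : Finset Edge) (y : Edge → Bool) :
    ∀ g : Cfg → ℝ, Inc g → (∀ ω, 0 ≤ g ω) →
      Cv c fun ω => g ω * ∏ e ∈ S, (if ω.2.2 e = y e then (1 : ℝ) else 0) := by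
  classical
  induction S using Finset.induction_on with
  | empty =>
    intro g hg hg0
    simpa using cv_of_inc hc hM hg hg0
  | insert e S he ih =>
    intro g hg hg0
    set R : Cfg → ℝ := fun ω => ∏ e ∈ S, (if ω.2.2 e = y e then (1 : ℝ) else 0) with hR
    have h1 : Cv c fun ω => (g ω * pb e ω) * R ω :=
      ih _ (hg.mul (pb_inc e) hg0 (pb_nonneg e)) fun ω => mul_nonneg (hg0 ω) (pb_nonneg e ω)
    have h2 : Cv c fun ω => (g ω * md e ω) * R ω :=
      ih _ (hg.mul (md_inc e) hg0 (md_nonneg e)) fun ω => mul_nonneg (hg0 ω) (md_nonneg e ω)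
    have h3 : Cv c fun ω => g ω * R ω := ih g hg hg0
    have hz := fun ω => z_eq e ω
    cases hy : y e
    · -- 1{z_e = false} = md - pb
      refine ((h2.add (h1.smul (-1)))).congr fun F ω _ => ?_
      rw [Finset.prod_insert he, hy]
      have h4 : (if ω.2.2 e = false then (1 : ℝ) else 0) = md e ω - pb e ω := by
        have := hz ω
        cases h5 : ω.2.2 e <;> simp only [h5] at this ⊢ <;> simp at this ⊢ <;> linarith
      rw [h4]
      simp only [hR]
      ring
    · refine ((h1.add h3).add (h2.smul (-1))).congr fun F ω _ => ?_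
      rw [Finset.prod_insert he, hy]
      rw [show (if ω.2.2 e = true then (1 : ℝ) else 0) = pb e ω + (1 - md e ω) from hz ω]
      simp only [hR]
      ring

/-- **Convergence of the laws of the cut variables.** -/
theorem zconv_of_domMono (hc : 1 ≤ c) (hM : DomMono c) : ZConv c := by
  classical
  intro S f hf
  -- expand `f` over the values on `S`
  let ex : (S → Bool) → (Edge → Bool) := fun y e => if h : e ∈ S then y ⟨e, h⟩ else true
  have h1 : ∀ z : Edge → Bool, f z = ∑ y : S → Bool, f (ex y) *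
      ∏ e ∈ S, (if z e = ex y e then (1 : ℝ) else 0) := by
    intro z
    rw [Finset.sum_eq_single (fun e : S => z e)]
    · have h2 : f (ex fun e : S => z e) = f z := hf _ _ fun e he => by simp [ex, he]
      rw [h2]
      have h3 : ∏ e ∈ S, (if z e = ex (fun e : S => z e) e then (1 : ℝ) else 0) = 1 := by
        refine Finset.prod_eq_one fun e he => ?_
        simp [ex, he]
      rw [h3, mul_one]
    · intro y _ hy
      have : ∃ e : S, y e ≠ z e := by
        by_contra hcon
        push Not at hcon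
        exact hy (funext hcon)
      obtain ⟨e, he⟩ := this
      rw [Finset.prod_eq_zero e.2, mul_zero]
      rw [if_neg]
      simp only [ex, e.2, dif_pos]
      exact fun h => he h.symm
    · intro h; exact absurd (Finset.mem_univ _) h
  have h2 : ∀ T : Finset (S → Bool), Cv c fun ω => ∑ y ∈ T, f (ex y) *
      ∏ e ∈ S, (if ω.2.2 e = ex y e then (1 : ℝ) else 0) := by
    intro T
    induction T using Finset.induction_on with
    | empty =>
      refine ⟨0, fun ε hε => ⟨0, fun F _ _ => ?_⟩⟩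
      simpa [E] using hε
    | insert y T hy ih =>
      have h3 := cv_prod hc hM S (ex y) (fun _ => 1) (fun _ _ _ => le_rfl) (fun _ => zero_le_one)
      simp only [one_mul] at h3
      refine ((h3.smul (f (ex y))).add ih).congr fun F ω _ => ?_
      rw [Finset.sum_insert hy]
  exact (h2 Finset.univ).congr fun F ω _ => (h1 ω.2.2).symm

end Crest.Agent.R161.ZCv760
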