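import Crest.Agent.R161.Marg_729
import Crest.Agent.R161.ZCv_760

/-!
# Domain monotonicity of `(τ, ζ)` from association (helper375)

`domMono_of_fkg` : association of `P_F` for the order `LeP` (all `Dom F`) implies `DomMono c`.
The proof uses the `(τ, ζ)`-marginal `Marg729.sum_conf_tz` and the fact that conditioning `P_{F'}` on
`{T ⊆ IV F, all edges of IE F' \ IE F cut}` gives `P_F`.
-/

set_option autoImplicit false
set_option linter.unusedVariables false

noncomputable section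

namespace Crest.Agent.R161.AtA2375

open Finset
open Crest.Agent.R161.Geo729 Crest.Agent.R161.Defs372 Crest.Agent.R161.Ifc372
open Crest.Agent.R161.Dual729 Crest.Agent.R161.DualB729 Crest.Agent.R161.DualC729
open Crest.Agent.R161.Marg729 Crest.Agent.R161.ZCv760

variable {F F' : Finset P2}

theorem IE_mono (h : F ⊆ F') : IE F ⊆ IE F' := fun e he => by
  rw [mem_IE] at he ⊢
  exact ⟨h he.1, h he.2⟩

theorem IV_mono (h : F ⊆ F') : IV F ⊆ IV F' := fun v hv => by
  rw [mem_IV] at hv ⊢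
  exact ⟨h hv.1, h hv.2.1, h hv.2.2.1, h hv.2.2.2⟩

theorem not_IV_of_corner {v f : P2} (hf : f ∉ F) (h : IsCorner v f) : v ∉ IV F := by
  rw [mem_IV, intV_iff]
  exact fun h' => hf (h' f h)

theorem ends_not_IV {e : Edge} (he : e ∉ IE F) : src e ∉ IV F ∧ tgt e ∉ IV F := by
  rw [mem_IE, not_and_or] at he
  rcases he with h | h
  · exact ⟨not_IV_of_corner h (corner_src_fA e), not_IV_of_corner h (corner_tgt_fA e)⟩
  · exact ⟨not_IV_of_corner h (corner_src_fB e), not_IV_of_corner h (corner_tgt_fB e)⟩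

/-- sign functions constant along the edges of `Z ∪ (IE F' \ IE F)` are `+` off `IV F` -/
theorem sub_IV (h : F ⊆ F') (hF : SC (F : Set P2)) {T : Finset P2} (hT : T ⊆ IV F')
    (hc : ∀ e ∈ IE F', e ∉ IE F → (src e ∈ T ↔ tgt e ∈ T)) : T ⊆ IV F := by
  intro v hv
  by_contra hvF
  rw [mem_IV, intV_iff] at hvF
  push Not at hvF
  obtain ⟨g, hg, hgF⟩ := hvF
  have hgF' : g ∉ F := fun h' => hgF h'
  -- a face outside `F'`
  obtain ⟨g0, hg0⟩ : ∃ g0 : P2, g0 ∉ F' := Infinite.exists_notMem_finset F'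
  have hk : ∀ e, ¬ IntE (F : Set P2) e → (tgt e ∈ T) = (src e ∈ T) := by
    intro e he
    have he' : e ∉ IE F := fun h' => he (mem_IE'.1 h')
    by_cases h1 : e ∈ IE F'
    · exact propext (hc e h1 he').symm
    · have h2 := ends_not_IV h1
      exact propext ⟨fun h3 => absurd (hT h3) h2.2, fun h3 => absurd (hT h3) h2.1⟩
  have hconn : Conn (F : Set P2)ᶜ g g0 := hF g (by simpa using hgF') g0 (by
    simpa using fun h' => hg0 (h h'))
  have e1 := const_of_conn (fun v => v ∈ T) hk hconn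
  have e2 := const_corner (F := (F : Set P2)) (fun v => v ∈ T) hk (g := g) (by simpa using hgF') hg
  have h0 : g0 ∉ T := fun h' => not_IV_of_corner hg0 (Or.inl rfl) (hT h')
  have h3 : (v ∈ T) = (g0 ∈ T) := e2.trans e1.symm
  rw [h3] at hv
  exact h0 hv

open Classical in
theorem ncl_eq (h : F ⊆ F') (hF : SC (F : Set P2)) {Z : Finset Edge} (hZ : Z ⊆ IE F) :
    ncl F' (Z ∪ (IE F' \ IE F)) = ncl F Z := by
  unfold ncl
  congr 1
  ext T
  simp only [Finset.mem_filter, Finset.mem_powerset]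
  constructor
  · rintro ⟨hT, hc⟩
    refine ⟨sub_IV h hF hT fun e he he' => hc e he (Finset.mem_union_right _
      (Finset.mem_sdiff.2 ⟨he, he'⟩)), fun e he hz => hc e (IE_mono h he)
      (Finset.mem_union_left _ hz)⟩
  · rintro ⟨hT, hc⟩
    refine ⟨hT.trans (IV_mono h), fun e he hz => ?_⟩
    rcases Finset.mem_union.1 hz with h1 | h1
    · exact hc e (hZ h1) h1
    · have h2 := ends_not_IV (Finset.mem_sdiff.1 h1).2
      exact ⟨fun h3 => absurd (hT h3) h2.1, fun h3 => absurd (hT h3) h2.2⟩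

theorem fkw_eq (h : F ⊆ F') (c : ℝ) {T : Finset P2} (hT : T ⊆ IV F) (Z : Finset Edge)
    (hZ : Z ⊆ IE F) :
    fkw c F' T (Z ∪ (IE F' \ IE F)) = 2 ^ (IE F' \ IE F).card * fkw c F T Z := by
  unfold fkw
  rw [← Finset.prod_sdiff (IE_mono h)]
  congr 1
  · rw [← Finset.prod_const]
    refine Finset.prod_congr rfl fun e he => ?_
    have h2 := ends_not_IV (Finset.mem_sdiff.1 he).2
    have h3 : (src e ∈ T ↔ tgt e ∈ T) :=
      ⟨fun h3 => absurd (hT h3) h2.1, fun h3 => absurd (hT h3) h2.2⟩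
    rw [if_pos h3, if_pos (Finset.mem_union_right _ he)]
  · refine Finset.prod_congr rfl fun e he => ?_
    have h4 : e ∈ Z ∪ (IE F' \ IE F) ↔ e ∈ Z := by
      rw [Finset.mem_union, Finset.mem_sdiff]
      exact ⟨fun h5 => h5.elim id fun h6 => absurd he h6.2, Or.inl⟩
    simp only [h4]

/-- **The conditioned sum.** -/
theorem sum_restrict (h : F ⊆ F') (hF : SC (F : Set P2)) (c : ℝ)
    (g : Finset P2 → Finset Edge → ℝ) :
    ∑ T ∈ (IV F').powerset, ∑ Z ∈ (IE F').powerset, fkw c F' T Z * (ncl F' Z : ℝ) *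
        (if T ⊆ IV F ∧ IE F' \ IE F ⊆ Z then g T Z else 0) =
      2 ^ (IE F' \ IE F).card *
        ∑ T ∈ (IV F).powerset, ∑ Z ∈ (IE F).powerset, fkw c F T Z * (ncl F Z : ℝ) *
          g T (Z ∪ (IE F' \ IE F)) := by
  classical
  rw [Finset.mul_sum]
  rw [← Finset.sum_subset (Finset.powerset_mono.2 (IV_mono h))]
  swap
  · intro T _ hT
    rw [Finset.mem_powerset] at hT
    refine Finset.sum_eq_zero fun Z _ => ?_
    rw [if_neg (fun h' => hT h'.1), mul_zero]
  refine Finset.sum_congr rfl fun T hT => ?_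
  rw [Finset.mem_powerset] at hT
  rw [Finset.mul_sum]
  have e1 : ∑ Z ∈ (IE F').powerset, fkw c F' T Z * (ncl F' Z : ℝ) *
        (if T ⊆ IV F ∧ IE F' \ IE F ⊆ Z then g T Z else 0) =
      ∑ Z ∈ (IE F').powerset.filter (fun Z => IE F' \ IE F ⊆ Z),
        fkw c F' T Z * (ncl F' Z : ℝ) * g T Z := by
    rw [Finset.sum_filter]
    refine Finset.sum_congr rfl fun Z _ => ?_
    by_cases hZ : IE F' \ IE F ⊆ Z
    · rw [if_pos ⟨hT, hZ⟩, if_pos hZ]
    · rw [if_neg (fun h' => hZ h'.2), if_neg hZ, mul_zero]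
  rw [e1]
  symm
  refine Finset.sum_nbij' (fun Z => Z ∪ (IE F' \ IE F)) (fun Z => Z ∩ IE F) ?_ ?_ ?_ ?_ ?_
  · intro Z hZ
    rw [Finset.mem_powerset] at hZ
    rw [Finset.mem_filter, Finset.mem_powerset]
    exact ⟨Finset.union_subset (hZ.trans (IE_mono h)) Finset.sdiff_subset,
      Finset.subset_union_right⟩
  · intro Z hZ
    rw [Finset.mem_powerset]
    exact Finset.inter_subset_right
  · intro Z hZ
    rw [Finset.mem_powerset] at hZ
    ext e
    simp only [Finset.mem_inter, Finset.mem_union, Finset.mem_sdiff]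
    constructor
    · rintro ⟨h1 | h1, h2⟩
      · exact h1
      · exact absurd h2 h1.2
    · intro h1
      exact ⟨Or.inl h1, hZ h1⟩
  · intro Z hZ
    rw [Finset.mem_filter, Finset.mem_powerset] at hZ
    ext e
    simp only [Finset.mem_inter, Finset.mem_union, Finset.mem_sdiff]
    constructor
    · rintro (h1 | h1)
      · exact h1.1
      · exact hZ.2 (Finset.mem_sdiff.2 h1)
    · intro h1
      by_cases h2 : e ∈ IE F
      · exact Or.inl ⟨h1, h2⟩
      · exact Or.inr ⟨hZ.1 h1, h2⟩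
  · intro Z hZ
    rw [Finset.mem_powerset] at hZ
    rw [fkw_eq h c hT Z hZ, ncl_eq h hF hZ]
    ring

/-! ### canonical configurations -/

/-- canonical configuration with given minus vertices and cut edges -/
def canon (F T : Finset P2) (Z : Finset Edge) : Cfg :=
  (fun v => if v ∈ T then 2 else 0, fun _ => 1, fun e => decide (e ∈ Z ∨ e ∉ IE F))

theorem canon_eq (h : F ⊆ F') (T : Finset P2) (Z : Finset Edge) :
    canon F' T (Z ∪ (IE F' \ IE F)) = canon F T Z := by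
  unfold canon
  refine Prod.ext rfl (Prod.ext rfl (funext fun e => ?_))
  simp only [Finset.mem_union, Finset.mem_sdiff]
  congr 1
  refine propext ⟨?_, ?_⟩
  · rintro ((h1 | h1) | h1)
    · exact Or.inl h1
    · exact Or.inr h1.2
    · exact Or.inr fun h2 => h1 (IE_mono h h2)
  · rintro (h1 | h1)
    · exact Or.inl (Or.inl h1)
    · by_cases h2 : e ∈ IE F'
      · exact Or.inl (Or.inr ⟨h2, h1⟩)
      · exact Or.inr h2

theorem four_dvd_iff {ω : Cfg} (h : Valid F ω) (v : P2) : (4 : ℤ) ∣ ω.1 v ↔ v ∉ tm F ω := by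
  rw [mem_tm h]
  have h1 := Int.even_iff.mp (h.even v)
  constructor
  · intro h2 h3; omega
  · intro h2; omega

theorem four_dvd_canon (T : Finset P2) (Z : Finset Edge) (v : P2) :
    (4 : ℤ) ∣ (canon F T Z).1 v ↔ v ∉ T := by
  unfold canon
  simp only
  by_cases h : v ∈ T
  · simp [h]
  · simp [h]

theorem cut_iff {ω : Cfg} (h : Valid F ω) (e : Edge) :
    ω.2.2 e = true ↔ (e ∈ zm F ω ∨ e ∉ IE F) := by
  rw [mem_zm]
  constructor
  · intro h1
    by_cases h2 : e ∈ IE F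
    · exact Or.inl ⟨h2, h1⟩
    · exact Or.inr h2
  · rintro (h1 | h1)
    · exact h1.2
    · exact h.cut e h1

theorem cut_canon (T : Finset P2) (Z : Finset Edge) (e : Edge) :
    (canon F T Z).2.2 e = true ↔ (e ∈ Z ∨ e ∉ IE F) := by
  unfold canon
  simp only [decide_eq_true_eq]

theorem eq_canon {ω : Cfg} (h : Valid F ω) {f : Cfg → ℝ} (hf : Inc f) :
    f ω = f (canon F (tm F ω) (zm F ω)) := by
  have h4 : ∀ v, (4 : ℤ) ∣ ω.1 v ↔ (4 : ℤ) ∣ (canon F (tm F ω) (zm F ω)).1 v := fun v => by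
    rw [four_dvd_iff h, four_dvd_canon]
  have hz : ∀ e, ω.2.2 e = true ↔ (canon F (tm F ω) (zm F ω)).2.2 e = true := fun e => by
    rw [cut_iff h, cut_canon]
  refine le_antisymm (hf _ _ ⟨fun x hx => (h4 x).1 hx, fun e he => ⟨(hz e).1 he.1, (h4 _).1 he.2⟩,
    fun e he => ⟨(hz e).2 he.1, fun h' => he.2 ((h4 _).1 h')⟩⟩)
    (hf _ _ ⟨fun x hx => (h4 x).2 hx, fun e he => ⟨(hz e).2 he.1, (h4 _).2 he.2⟩,
    fun e he => ⟨(hz e).1 he.1, fun h' => he.2 ((h4 _).2 h')⟩⟩)

open Classical in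
/-- the conditioning event -/
def GE (F : Finset P2) (ω : Cfg) : ℝ :=
  if (∀ v, v ∉ IV F → (4 : ℤ) ∣ ω.1 v) ∧ ∀ e, e ∉ IE F → plusE ω e then 1 else 0

theorem inc_GE (F : Finset P2) : Inc (GE F) := by
  intro ω ω' h
  unfold GE
  split_ifs with h1 h2
  · exact le_rfl
  · exact absurd ⟨fun v hv => h.v v (h1.1 v hv), fun e he => h.p e (h1.2 e he)⟩ h2
  · norm_num
  · exact le_rfl

open Classical in
theorem GE_eq (h : F ⊆ F') {ω : Cfg} (hω : Valid F' ω) :
    GE F ω = if tm F' ω ⊆ IV F ∧ IE F' \ IE F ⊆ zm F' ω then 1 else 0 := by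
  unfold GE
  refine if_congr ?_ rfl rfl
  constructor
  · rintro ⟨h1, h2⟩
    refine ⟨fun v hv => ?_, fun e he => ?_⟩
    · by_contra hv'
      exact ((four_dvd_iff hω v).1 (h1 v hv')) hv
    · rw [Finset.mem_sdiff] at he
      exact mem_zm.2 ⟨he.1, (h2 e he.2).1⟩
  · rintro ⟨h1, h2⟩
    have h3 : ∀ v, v ∉ IV F → (4 : ℤ) ∣ ω.1 v := fun v hv =>
      (four_dvd_iff hω v).2 fun h' => hv (h1 h')
    refine ⟨h3, fun e he => ⟨?_, h3 _ (ends_not_IV he).1⟩⟩
    by_cases h4 : e ∈ IE F'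
    · exact (mem_zm.1 (h2 (Finset.mem_sdiff.2 ⟨h4, he⟩))).2
    · exact hω.cut e h4

/-- **Conditioning `P_{F'}` on the event `GE F` gives `P_F`.** -/
theorem cond_eq (h : F ⊆ F') (hF : SC (F : Set P2)) (hF' : SC (F' : Set P2)) {c : ℝ} (hc : 1 ≤ c)
    {f : Cfg → ℝ} (hf : Inc f) :
    E c F' (fun ω => f ω * GE F ω) = E c F' (GE F) * E c F f := by
  classical
  have hZ := (Z_pos hc F).ne'
  have hZ' := (Z_pos hc F').ne'
  -- numerator formulas
  have key : ∀ f : Cfg → ℝ, Inc f →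
      ∑ ω ∈ conf F', wt c F' ω * (f ω * GE F ω) =
        (N0 F' : ℝ) / 2 ^ (IV F').card * (2 ^ (IE F' \ IE F).card *
          ∑ T ∈ (IV F).powerset, ∑ Z ∈ (IE F).powerset, fkw c F T Z * (ncl F Z : ℝ) *
            f (canon F T Z)) := by
    intro f hf
    have e1 : ∑ ω ∈ conf F', wt c F' ω * (f ω * GE F ω) =
        ∑ ω ∈ conf F', wt c F' ω * (fun (T : Finset P2) (Z : Finset Edge) =>
          if T ⊆ IV F ∧ IE F' \ IE F ⊆ Z then f (canon F' T Z) else 0) (tm F' ω) (zm F' ω) := by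
      refine Finset.sum_congr rfl fun ω hω => ?_
      have hv := mem_conf.1 hω
      rw [GE_eq h hv, eq_canon hv hf]
      simp only
      split_ifs <;> ring
    rw [e1]
    refine (sum_conf_tz hF' c (fun (T : Finset P2) (Z : Finset Edge) =>
      if T ⊆ IV F ∧ IE F' \ IE F ⊆ Z then f (canon F' T Z) else 0)).trans ?_
    congr 1
    have e2 := sum_restrict h hF c (fun T Z => f (canon F' T Z))
    simp only [canon_eq h] at e2
    exact e2
  have key2 : ∀ f : Cfg → ℝ, Inc f →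
      ∑ ω ∈ conf F, wt c F ω * f ω =
        (N0 F : ℝ) / 2 ^ (IV F).card * (∑ T ∈ (IV F).powerset, ∑ Z ∈ (IE F).powerset,
          fkw c F T Z * (ncl F Z : ℝ) * f (canon F T Z)) := by
    intro f hf
    have e1 : ∑ ω ∈ conf F, wt c F ω * f ω =
        ∑ ω ∈ conf F, wt c F ω * (fun (T : Finset P2) (Z : Finset Edge) =>
          f (canon F T Z)) (tm F ω) (zm F ω) := by
      refine Finset.sum_congr rfl fun ω hω => ?_
      rw [eq_canon (mem_conf.1 hω) hf]
    rw [e1]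
    exact sum_conf_tz hF c (fun (T : Finset P2) (Z : Finset Edge) => f (canon F T Z))
  have h1 : Inc (fun _ : Cfg => (1 : ℝ)) := fun _ _ _ => le_rfl
  have k1 := key f hf
  have k2 := key (fun _ => 1) h1
  have k3 := key2 f hf
  have k4 := key2 (fun _ => 1) h1
  simp only [one_mul] at k2
  simp only [mul_one] at k2 k4
  set A := ∑ T ∈ (IV F).powerset, ∑ Z ∈ (IE F).powerset, fkw c F T Z * (ncl F Z : ℝ) *
            f (canon F T Z) with hA
  set B := ∑ T ∈ (IV F).powerset, ∑ Z ∈ (IE F).powerset, fkw c F T Z * (ncl F Z : ℝ) with hB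
  have hN : (N0 F : ℝ) / 2 ^ (IV F).card ≠ 0 := by
    have : (0 : ℝ) < N0 F := by exact_mod_cast N0_pos F
    positivity
  have hZB : Z c F = (N0 F : ℝ) / 2 ^ (IV F).card * B := k4
  have hB0 : B ≠ 0 := by
    intro h0
    rw [h0, mul_zero] at hZB
    exact hZ hZB
  have hN' : (N0 F : ℝ) ≠ 0 := by exact_mod_cast (N0_pos F).ne'
  rw [E_eq_div, E_eq_div, E_eq_div, k1, k2, k3, hZB]
  field_simp

theorem E_GE_pos (h : F ⊆ F') (hF : SC (F : Set P2)) (hF' : SC (F' : Set P2)) {c : ℝ}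
    (hc : 1 ≤ c) : 0 < E c F' (GE F) := by
  have h0 : ∀ ω, 0 ≤ GE F ω := fun ω => by unfold GE; split_ifs <;> norm_num
  -- the flat configuration
  have hfl : GE F flat = 1 := by
    unfold GE
    refine if_pos ⟨fun v _ => ?_, fun e _ => ⟨rfl, ?_⟩⟩
    · simp [flat]
    · simp [flat]
  unfold E
  refine Finset.sum_pos' (fun ω _ => mul_nonneg (pr_nonneg hc F' ω) (h0 ω))
    ⟨flat, mem_conf.2 (valid_flat F'), ?_⟩
  rw [hfl, mul_one, pr_of_valid c (valid_flat F'), wt_flat]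
  exact div_pos one_pos (Z_pos hc F')

/-- **(A2) from (A1).** -/
theorem domMono_of_fkg {c : ℝ} (hc : 1 ≤ c)
    (hA1 : ∀ F : Finset P2, Dom F → ∀ f g : Cfg → ℝ, Inc f → Inc g →
      E c F f * E c F g ≤ E c F (fun ω => f ω * g ω)) : DomMono c := by
  intro F F' hF hF' h f hf
  have h1 := hA1 F' hF' f (GE F) hf (inc_GE F)
  rw [cond_eq h hF.sc hF'.sc hc hf] at h1
  have h2 := E_GE_pos h hF.sc hF'.sc hc
  have h3 : E c F' (GE F) * E c F' f ≤ E c F' (GE F) * E c F f := by linarith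
  exact le_of_mul_le_mul_left h3 h2

end Crest.Agent.R161.AtA2375
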