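import Crest.Agent.R161.Abs_375

/-!
Row 161: FK-type representation on arbitrary finite graphs with mixed boundary spins and wirings:
association and monotonicity in the boundary data (abstract part).
-/

set_option autoImplicit false

set_option linter.unusedSectionVars false
set_option linter.unusedSimpArgs false

namespace Crest.Agent.R161.AtFkA729

open Finset Crest.Agent.R161.Gks375 Crest.Agent.R161.Lsm375 Crest.Agent.R161.Abs375

/-! ### spins -/

section psi

variable {α ε : Type*} [DecidableEq α] [DecidableEq ε] (src tgt : ε → α) (VA : Finset α)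

/-- Spin at a vertex (`+` off `VA`). -/
def sp (σ : ↥VA → ℤˣ) (v : α) : ℤˣ := if h : v ∈ VA then σ ⟨v, h⟩ else 1

/-- hard edge -/
noncomputable def hd (e : ε) (σ : ↥VA → ℤˣ) : ℝ :=
  if sp VA σ (src e) = sp VA σ (tgt e) then 1 else 0

/-- soft edge -/
noncomputable def sf (c : ℝ) (e : ε) (σ : ↥VA → ℤˣ) : ℝ :=
  if sp VA σ (src e) = sp VA σ (tgt e) then c + 1 else c - 1

theorem exists_chi_sp (v : α) : ∃ S : Finset ↥VA, ∀ σ, chi S σ = ((sp VA σ v : ℤ) : ℝ) := by
  by_cases h : v ∈ VA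
  · refine ⟨{⟨v, h⟩}, fun σ => ?_⟩
    simp [chi, sp, h]
  · refine ⟨∅, fun σ => ?_⟩
    simp [chi, sp, h]

theorem exists_chi_edge (e : ε) : ∃ S : Finset ↥VA, ∀ σ,
    chi S σ = ((sp VA σ (src e) : ℤ) : ℝ) * ((sp VA σ (tgt e) : ℤ) : ℝ) := by
  obtain ⟨S, hS⟩ := exists_chi_sp VA (src e)
  obtain ⟨S', hS'⟩ := exists_chi_sp VA (tgt e)
  refine ⟨symmDiff S S', fun σ => ?_⟩
  rw [← chi_mul_chi, hS, hS']

theorem hd_ferro (e : ε) : Ferro (hd src tgt VA e) := by
  obtain ⟨S, hS⟩ := exists_chi_edge src tgt VA e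
  refine (Ferro.affine (a := 1 / 2) (b := 1 / 2) (by norm_num) (by norm_num) S).congr fun σ => ?_
  rw [hS]
  unfold hd
  rcases Int.units_eq_one_or (sp VA σ (src e)) with h1 | h1 <;>
    rcases Int.units_eq_one_or (sp VA σ (tgt e)) with h2 | h2 <;> simp [h1, h2] <;> norm_num

theorem sf_ferro {c : ℝ} (hc : 1 ≤ c) (e : ε) : Ferro (sf src tgt VA c e) := by
  obtain ⟨S, hS⟩ := exists_chi_edge src tgt VA e
  refine (Ferro.affine (a := c) (b := 1) (by norm_num) hc S).congr fun σ => ?_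
  rw [hS]
  unfold sf
  rcases Int.units_eq_one_or (sp VA σ (src e)) with h1 | h1 <;>
    rcases Int.units_eq_one_or (sp VA σ (tgt e)) with h2 | h2 <;> simp [h1, h2] <;> ring

theorem hd_nonneg (e : ε) (σ : ↥VA → ℤˣ) : 0 ≤ hd src tgt VA e σ := by
  unfold hd; split_ifs <;> norm_num

theorem sf_nonneg {c : ℝ} (hc : 1 ≤ c) (e : ε) (σ : ↥VA → ℤˣ) : 0 ≤ sf src tgt VA c e σ := by
  unfold sf; split_ifs <;> linarith

theorem sf_eq (c : ℝ) (e : ε) (σ : ↥VA → ℤˣ) :
    sf src tgt VA c e σ = 2 * hd src tgt VA e σ + (c - 1) := by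
  unfold sf hd; split_ifs <;> ring

/-- Partition function with hard edges `D` and soft edges `C`. -/
noncomputable def psi (c : ℝ) (D C : Finset ε) : ℝ :=
  ∑ σ : ↥VA → ℤˣ, (∏ e ∈ D, hd src tgt VA e σ) * ∏ e ∈ C, sf src tgt VA c e σ

theorem psi_pos {c : ℝ} (hc : 1 ≤ c) (D C : Finset ε) : 0 < psi src tgt VA c D C := by
  unfold psi
  refine Finset.sum_pos' (fun σ _ => mul_nonneg
    (Finset.prod_nonneg fun e _ => hd_nonneg src tgt VA e σ)
    (Finset.prod_nonneg fun e _ => sf_nonneg src tgt VA hc e σ)) ⟨1, Finset.mem_univ _, ?_⟩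
  have h1 : ∀ v, sp VA (1 : ↥VA → ℤˣ) v = 1 := by
    intro v; unfold sp; split_ifs <;> rfl
  refine mul_pos (Finset.prod_pos fun e _ => ?_) (Finset.prod_pos fun e _ => ?_)
  · unfold hd; rw [h1, h1, if_pos rfl]; norm_num
  · unfold sf; rw [h1, h1, if_pos rfl]; linarith

/-- **Supermodularity.** -/
theorem psi_super {c : ℝ} (hc : 1 ≤ c) (D C D' C' : Finset ε) :
    psi src tgt VA c D C * psi src tgt VA c D' C' ≤
      psi src tgt VA c (D ∩ D') (C ∩ C') * psi src tgt VA c (D ∪ D') (C ∪ C') := by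
  have hw : Ferro (fun σ => (∏ e ∈ D ∩ D', hd src tgt VA e σ) *
      ∏ e ∈ C ∩ C', sf src tgt VA c e σ) :=
    (Ferro.prod _ fun e _ => hd_ferro src tgt VA e).mul
      (Ferro.prod _ fun e _ => sf_ferro src tgt VA hc e)
  have hf : Pos (fun σ => (∏ e ∈ D \ D', hd src tgt VA e σ) *
      ∏ e ∈ C \ C', sf src tgt VA c e σ) :=
    ((Ferro.prod _ fun e _ => hd_ferro src tgt VA e).mul
      (Ferro.prod _ fun e _ => sf_ferro src tgt VA hc e)).pos
  have hg : Pos (fun σ => (∏ e ∈ D' \ D, hd src tgt VA e σ) *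
      ∏ e ∈ C' \ C, sf src tgt VA c e σ) :=
    ((Ferro.prod _ fun e _ => hd_ferro src tgt VA e).mul
      (Ferro.prod _ fun e _ => sf_ferro src tgt VA hc e)).pos
  have key := gks2 hw hf hg
  have dec : ∀ (A B : Finset ε) (f : ε → ℝ), ∏ e ∈ A, f e =
      (∏ e ∈ A ∩ B, f e) * ∏ e ∈ A \ B, f e := by
    intro A B f
    exact (Finset.prod_inter_mul_prod_sdiff A B f).symm
  have decU : ∀ (A B : Finset ε) (f : ε → ℝ), ∏ e ∈ A ∪ B, f e =
      (∏ e ∈ A ∩ B, f e) * ((∏ e ∈ A \ B, f e) * ∏ e ∈ B \ A, f e) := by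
    intro A B f
    have h1 : A ∪ B = A ∪ (B \ A) := by ext x; simp [Finset.mem_union, Finset.mem_sdiff]
    rw [h1, Finset.prod_union Finset.disjoint_sdiff, dec A B f]
    ring
  have e1 : psi src tgt VA c D C = ∑ σ : ↥VA → ℤˣ,
      ((∏ e ∈ D ∩ D', hd src tgt VA e σ) * ∏ e ∈ C ∩ C', sf src tgt VA c e σ) *
      ((∏ e ∈ D \ D', hd src tgt VA e σ) * ∏ e ∈ C \ C', sf src tgt VA c e σ) := by
    unfold psi
    refine Finset.sum_congr rfl fun σ _ => ?_
    rw [dec D D', dec C C']; ring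
  have e2 : psi src tgt VA c D' C' = ∑ σ : ↥VA → ℤˣ,
      ((∏ e ∈ D ∩ D', hd src tgt VA e σ) * ∏ e ∈ C ∩ C', sf src tgt VA c e σ) *
      ((∏ e ∈ D' \ D, hd src tgt VA e σ) * ∏ e ∈ C' \ C, sf src tgt VA c e σ) := by
    unfold psi
    refine Finset.sum_congr rfl fun σ _ => ?_
    rw [dec D' D, dec C' C, Finset.inter_comm D' D, Finset.inter_comm C' C]; ring
  have e3 : psi src tgt VA c (D ∪ D') (C ∪ C') = ∑ σ : ↥VA → ℤˣ,
      ((∏ e ∈ D ∩ D', hd src tgt VA e σ) * ∏ e ∈ C ∩ C', sf src tgt VA c e σ) *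
      (((∏ e ∈ D \ D', hd src tgt VA e σ) * ∏ e ∈ C \ C', sf src tgt VA c e σ) *
      ((∏ e ∈ D' \ D, hd src tgt VA e σ) * ∏ e ∈ C' \ C, sf src tgt VA c e σ)) := by
    unfold psi
    refine Finset.sum_congr rfl fun σ _ => ?_
    rw [decU D D', decU C C']; ring
  rw [e1, e2, e3]
  exact key

/-- Monotone in the soft edges. -/
theorem psi_mono_soft {c : ℝ} (hc : 1 ≤ c) (D : Finset ε) {C C' : Finset ε} (h : C ⊆ C') :
    psi src tgt VA c D C ≤ psi src tgt VA c D C' := by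
  have step : ∀ (C : Finset ε) (e : ε), e ∉ C →
      psi src tgt VA c D C ≤ psi src tgt VA c D (insert e C) := by
    intro C e he
    obtain ⟨S, hS⟩ := exists_chi_edge src tgt VA e
    have hw : Pos (fun σ => (∏ e ∈ D, hd src tgt VA e σ) * ∏ e ∈ C, sf src tgt VA c e σ) :=
      ((Ferro.prod _ fun e _ => hd_ferro src tgt VA e).mul
        (Ferro.prod _ fun e _ => sf_ferro src tgt VA hc e)).pos
    have h1 := (hw.mul (Pos.chi S)).sum_nonneg
    have h2 : psi src tgt VA c D (insert e C) = c * psi src tgt VA c D C +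
        ∑ σ : ↥VA → ℤˣ, ((∏ e ∈ D, hd src tgt VA e σ) * ∏ e ∈ C, sf src tgt VA c e σ) * chi S σ := by
      unfold psi
      rw [Finset.mul_sum, ← Finset.sum_add_distrib]
      refine Finset.sum_congr rfl fun σ _ => ?_
      rw [Finset.prod_insert he, hS]
      have : sf src tgt VA c e σ =
          c + ((sp VA σ (src e) : ℤ) : ℝ) * ((sp VA σ (tgt e) : ℤ) : ℝ) := by
        unfold sf
        rcases Int.units_eq_one_or (sp VA σ (src e)) with h1 | h1 <;>
          rcases Int.units_eq_one_or (sp VA σ (tgt e)) with h2 | h2 <;> simp [h1, h2] <;> ring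
      rw [this]
      ring
    have h3 := psi_pos src tgt VA hc D C
    nlinarith
  have key : ∀ K : Finset ε, psi src tgt VA c D C ≤ psi src tgt VA c D (K ∪ C) := by
    intro K
    induction K using Finset.induction_on with
    | empty => simp
    | insert e K he ih =>
      by_cases h' : e ∈ K ∪ C
      · rw [Finset.insert_union, Finset.insert_eq_of_mem h']
        exact ih
      · rw [Finset.insert_union]
        exact ih.trans (step _ _ h')
  have := key C'
  rwa [Finset.union_eq_left.mpr h] at this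

/-- Expansion of soft edges. -/
theorem sum_psi (c : ℝ) (D E : Finset ε) (hDE : Disjoint D E) :
    ∑ P ∈ E.powerset, 2 ^ P.card * (c - 1) ^ (E \ P).card * psi src tgt VA c (D ∪ P) ∅ =
      psi src tgt VA c D E := by
  unfold psi
  simp_rw [Finset.mul_sum]
  rw [Finset.sum_comm]
  refine Finset.sum_congr rfl fun σ _ => ?_
  have h1 : ∏ e ∈ E, sf src tgt VA c e σ =
      ∑ P ∈ E.powerset, (∏ e ∈ P, (2 * hd src tgt VA e σ)) * ∏ e ∈ E \ P, (c - 1) := by
    rw [← Finset.prod_add]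
    exact Finset.prod_congr rfl fun e _ => sf_eq src tgt VA c e σ
  rw [h1, Finset.mul_sum]
  refine Finset.sum_congr rfl fun P hP => ?_
  rw [Finset.mem_powerset] at hP
  rw [Finset.prod_union (Finset.disjoint_of_subset_right hP hDE), Finset.prod_mul_distrib,
    Finset.prod_const, Finset.prod_const, Finset.prod_empty]
  ring

end psi

/-! ### independence -/

/-- Independence of functions of disjoint sets of spins. -/
theorem sum_indep {ι : Type*} [Fintype ι] [DecidableEq ι] (S : Finset ι)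
    (f g : (ι → ℤˣ) → ℝ) (hf : ∀ σ τ : ι → ℤˣ, (∀ i ∈ S, σ i = τ i) → f σ = f τ)
    (hg : ∀ σ τ : ι → ℤˣ, (∀ i, i ∉ S → σ i = τ i) → g σ = g τ) :
    (∑ σ : ι → ℤˣ, f σ * g σ) * (∑ _σ : ι → ℤˣ, (1 : ℝ)) = (∑ σ, f σ) * ∑ σ, g σ := by
  rw [Finset.sum_mul_sum, Finset.sum_mul_sum, ← Finset.sum_product', ← Finset.sum_product']
  let sw : (ι → ℤˣ) × (ι → ℤˣ) → (ι → ℤˣ) × (ι → ℤˣ) := fun p =>
    (fun i => if i ∈ S then p.1 i else p.2 i, fun i => if i ∈ S then p.2 i else p.1 i)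
  have hsw : ∀ p, sw (sw p) = p := by
    intro p
    refine Prod.ext ?_ ?_
    · funext i
      simp only [sw]
      split_ifs <;> rfl
    · funext i
      simp only [sw]
      split_ifs <;> rfl
  refine Finset.sum_bij' (fun p _ => sw p) (fun p _ => sw p) ?_ ?_ ?_ ?_ ?_
  · intro p _; simp
  · intro p _; simp
  · intro p _; exact hsw p
  · intro p _; exact hsw p
  · intro p _
    have h1 : f (sw p).1 = f p.1 := hf _ _ fun i hi => by simp [sw, hi]
    have h2 : g (sw p).2 = g p.1 := hg _ _ fun i hi => by simp [sw, hi]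
    rw [h1, h2, mul_one]

end Crest.Agent.R161.AtFkA729
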