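import Crest.Agent.R161.AtFkA_729

/-!
Row 161: association and monotonicity in the boundary data for the `(τ, ζ)` FK-type measure on an
arbitrary finite graph.
-/

set_option autoImplicit false
set_option linter.unusedSectionVars false

namespace Crest.Agent.R161.AtFkB729

open Finset Crest.Agent.R161.Gks375 Crest.Agent.R161.Lsm375 Crest.Agent.R161.Abs375
  Crest.Agent.R161.AtFkA729

variable {α ε : Type*} [DecidableEq α] [DecidableEq ε]

/-- Boundary data: fixed minus vertices, fixed plus-cut wiring edges, fixed minus-cut wiring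
edges. -/
structure BC (α ε : Type*) where
  T0 : Finset α
  Dp : Finset ε
  Dm : Finset ε

/-- The wiring edges are not free edges and the fixed minus vertices are not free vertices. -/
structure BC.Ok (η : BC α ε) (VI : Finset α) (EI : Finset ε) : Prop where
  t : Disjoint η.T0 VI
  p : Disjoint η.Dp EI
  m : Disjoint η.Dm EI

/-- `η'` is more plus than `η`. -/
structure BC.Le (η η' : BC α ε) : Prop where
  t : η'.T0 ⊆ η.T0
  p : η.Dp ⊆ η'.Dp
  m : η'.Dm ⊆ η.Dm

theorem BC.Le.refl (η : BC α ε) : η.Le η := ⟨fun _ h => h, fun _ h => h, fun _ h => h⟩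

variable (src tgt : ε → α) (VA VI : Finset α) (EI : Finset ε)

/-- free edges with both endpoints off `X` -/
def E2 (X : Finset α) : Finset ε := EI.filter fun e => src e ∉ X ∧ tgt e ∉ X
/-- free edges with both endpoints in `X` -/
def E1 (X : Finset α) : Finset ε := EI.filter fun e => src e ∈ X ∧ tgt e ∈ X

theorem E2_anti {X Y : Finset α} (h : X ⊆ Y) : E2 src tgt EI Y ⊆ E2 src tgt EI X := by
  intro e he
  simp only [E2, Finset.mem_filter] at he ⊢
  exact ⟨he.1, fun h' => he.2.1 (h h'), fun h' => he.2.2 (h h')⟩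

theorem E1_mono {X Y : Finset α} (h : X ⊆ Y) : E1 src tgt EI X ⊆ E1 src tgt EI Y := by
  intro e he
  simp only [E1, Finset.mem_filter] at he ⊢
  exact ⟨he.1, h he.2.1, h he.2.2⟩

theorem E2_sub (X : Finset α) : E2 src tgt EI X ⊆ EI := Finset.filter_subset _ _
theorem E1_sub (X : Finset α) : E1 src tgt EI X ⊆ EI := Finset.filter_subset _ _

/-- FK weight with wiring `D` on the edge set `E`. -/
noncomputable def aw (c : ℝ) (D E P : Finset ε) : ℝ :=
  if P ⊆ E then 2 ^ P.card * (c - 1) ^ (E \ P).card * psi src tgt VA c (D ∪ P) ∅ else 0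

theorem aw_nonneg {c : ℝ} (hc : 1 ≤ c) (D E P : Finset ε) : 0 ≤ aw src tgt VA c D E P := by
  unfold aw
  split_ifs
  · have := psi_pos src tgt VA hc (D ∪ P) ∅
    have h : 0 ≤ c - 1 := by linarith
    positivity
  · exact le_rfl

theorem sum_aw {c : ℝ} {D E : Finset ε} (hE : E ⊆ EI) (hD : Disjoint D E) :
    ∑ P ∈ EI.powerset, aw src tgt VA c D E P = psi src tgt VA c D E := by
  rw [← sum_psi src tgt VA c D E hD]
  have h1 : E.powerset ⊆ EI.powerset := Finset.powerset_mono.mpr hE
  rw [← Finset.sum_subset h1]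
  · refine Finset.sum_congr rfl fun P hP => ?_
    unfold aw
    rw [if_pos (Finset.mem_powerset.mp hP)]
  · intro P _ hP
    unfold aw
    rw [if_neg (fun h => hP (Finset.mem_powerset.mpr h))]

/-- Holley domination of FK weights. -/
theorem aw_dom {c : ℝ} (hc : 1 ≤ c) {D D' E E' : Finset ε} (hE : E ⊆ E') (hD : D ⊆ D')
    (hDE : Disjoint D' E') :
    Dom (aw src tgt VA c D E) (aw src tgt VA c D' E') := by
  refine ⟨fun P => aw_nonneg src tgt VA hc _ _ P, fun P => aw_nonneg src tgt VA hc _ _ P,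
    fun P Q => ?_⟩
  by_cases hP : P ⊆ E
  · by_cases hQ : Q ⊆ E'
    · have h1 : P ⊓ Q ⊆ E := Finset.inter_subset_left.trans hP
      have h2 : P ⊔ Q ⊆ E' := Finset.union_subset (hP.trans hE) hQ
      unfold aw
      rw [if_pos hP, if_pos hQ, if_pos h1, if_pos h2]
      have e1 : P.card + Q.card = (P ⊓ Q).card + (P ⊔ Q).card := by
        rw [Finset.inf_eq_inter, Finset.sup_eq_union, Finset.card_inter_add_card_union]
      have e2 : (E \ P).card + (E' \ Q).card = (E \ (P ⊓ Q)).card + (E' \ (P ⊔ Q)).card := by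
        rw [Finset.card_sdiff_of_subset hP, Finset.card_sdiff_of_subset hQ,
          Finset.card_sdiff_of_subset h1, Finset.card_sdiff_of_subset h2]
        have a1 := Finset.card_le_card hP
        have a2 := Finset.card_le_card hQ
        have a3 := Finset.card_le_card h1
        have a4 := Finset.card_le_card h2
        omega
      have e3 : psi src tgt VA c (D ∪ P) ∅ * psi src tgt VA c (D' ∪ Q) ∅ ≤
          psi src tgt VA c (D ∪ (P ⊓ Q)) ∅ * psi src tgt VA c (D' ∪ (P ⊔ Q)) ∅ := by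
        have h := psi_super src tgt VA hc (D ∪ P) ∅ (D' ∪ Q) ∅
        have i1 : (D ∪ P) ∩ (D' ∪ Q) = D ∪ (P ⊓ Q) := by
          ext e
          have hd : e ∈ P → e ∉ D' := fun h1 h2 =>
            (Finset.disjoint_left.mp hDE) h2 (hE (hP h1))
          have hd2 : e ∈ D → e ∈ D' := fun h => hD h
          simp only [Finset.mem_inter, Finset.mem_union, Finset.inf_eq_inter]
          tauto
        have i2 : (D ∪ P) ∪ (D' ∪ Q) = D' ∪ (P ⊔ Q) := by
          ext e
          have hd2 : e ∈ D → e ∈ D' := fun h => hD h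
          simp only [Finset.mem_union, Finset.sup_eq_union]
          tauto
        rw [i1, i2, Finset.inter_self, Finset.union_self] at h
        exact h
      have hx : 0 ≤ c - 1 := by linarith
      calc 2 ^ P.card * (c - 1) ^ (E \ P).card * psi src tgt VA c (D ∪ P) ∅ *
            (2 ^ Q.card * (c - 1) ^ (E' \ Q).card * psi src tgt VA c (D' ∪ Q) ∅)
          = (2 ^ (P.card + Q.card) * (c - 1) ^ ((E \ P).card + (E' \ Q).card)) *
            (psi src tgt VA c (D ∪ P) ∅ * psi src tgt VA c (D' ∪ Q) ∅) := by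
            rw [pow_add, pow_add]; ring
        _ ≤ (2 ^ (P.card + Q.card) * (c - 1) ^ ((E \ P).card + (E' \ Q).card)) *
            (psi src tgt VA c (D ∪ (P ⊓ Q)) ∅ * psi src tgt VA c (D' ∪ (P ⊔ Q)) ∅) :=
            mul_le_mul_of_nonneg_left e3 (by positivity)
        _ = _ := by rw [e1, e2, pow_add, pow_add]; ring
    · have : aw src tgt VA c D' E' Q = 0 := by unfold aw; rw [if_neg hQ]
      rw [this, mul_zero]
      exact mul_nonneg (aw_nonneg src tgt VA hc _ _ _) (aw_nonneg src tgt VA hc _ _ _)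
  · have : aw src tgt VA c D E P = 0 := by unfold aw; rw [if_neg hP]
    rw [this, zero_mul]
    exact mul_nonneg (aw_nonneg src tgt VA hc _ _ _) (aw_nonneg src tgt VA hc _ _ _)

/-! ### normalised averages -/

/-- average of `f` under the FK weight -/
noncomputable def ex (c : ℝ) (D E : Finset ε) (f : Finset ε → ℝ) : ℝ :=
  (∑ P ∈ EI.powerset, aw src tgt VA c D E P * f P) / psi src tgt VA c D E

theorem ex_mono {c : ℝ} (hc : 1 ≤ c) (D E : Finset ε) {f g : Finset ε → ℝ}
    (h : ∀ P, f P ≤ g P) : ex src tgt VA EI c D E f ≤ ex src tgt VA EI c D E g := by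
  unfold ex
  refine div_le_div_of_nonneg_right (Finset.sum_le_sum fun P _ => ?_) (psi_pos src tgt VA hc D E).le
  exact mul_le_mul_of_nonneg_left (h P) (aw_nonneg src tgt VA hc _ _ _)

theorem powerset_closed {β : Type*} [DecidableEq β] (A : Finset β) :
    ∀ a ∈ A.powerset, ∀ b ∈ A.powerset, a ⊓ b ∈ A.powerset ∧ a ⊔ b ∈ A.powerset := by
  intro a ha b hb
  have ha' := Finset.mem_powerset.mp ha
  have hb' := Finset.mem_powerset.mp hb
  exact ⟨Finset.mem_powerset.mpr (Finset.inter_subset_left.trans ha'),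
    Finset.mem_powerset.mpr (Finset.union_subset ha' hb')⟩

theorem ex_dom {c : ℝ} (hc : 1 ≤ c) {D D' E E' : Finset ε} (hE : E ⊆ E') (hE' : E' ⊆ EI)
    (hD : D ⊆ D') (hDE : Disjoint D' E') {f : Finset ε → ℝ} (hf : ∀ P Q, P ⊆ Q → f P ≤ f Q) :
    ex src tgt VA EI c D E f ≤ ex src tgt VA EI c D' E' f := by
  unfold ex
  have h0 := psi_pos src tgt VA hc D E
  have h0' := psi_pos src tgt VA hc D' E'
  rw [div_le_div_iff₀ h0 h0']
  have h1 := (aw_dom src tgt VA hc hE hD hDE).expect_le EI.powerset (powerset_closed EI)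
    (f := f) (fun a _ b _ hab => hf a b hab)
  rw [sum_aw src tgt VA EI (hE.trans hE') (Finset.disjoint_of_subset_left hD
    (Finset.disjoint_of_subset_right hE hDE)), sum_aw src tgt VA EI hE' hDE] at h1
  linarith

theorem ex_fkg {c : ℝ} (hc : 1 ≤ c) {D E : Finset ε} (hE : E ⊆ EI) (hDE : Disjoint D E)
    {f g : Finset ε → ℝ} (hf : ∀ P Q, P ⊆ Q → f P ≤ f Q) (hg : ∀ P Q, P ⊆ Q → g P ≤ g Q) :
    ex src tgt VA EI c D E f * ex src tgt VA EI c D E g ≤
      ex src tgt VA EI c D E (fun P => f P * g P) := by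
  have h0 := psi_pos src tgt VA hc D E
  have hlsm : LSM (aw src tgt VA c D E) := by
    have := aw_dom src tgt VA hc (Finset.Subset.refl E) (Finset.Subset.refl D) hDE
    exact ⟨this.1, this.2.2⟩
  have h1 := hlsm.fkg EI.powerset (powerset_closed EI) (f := f) (g := g)
    (fun a _ b _ hab => hf a b hab) (fun a _ b _ hab => hg a b hab)
  rw [sum_aw src tgt VA EI hE hDE] at h1
  unfold ex
  rw [div_mul_div_comm, div_le_div_iff₀ (mul_pos h0 h0) h0]
  nlinarith [h1]

theorem ex_neg (c : ℝ) (D E : Finset ε) (f : Finset ε → ℝ) :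
    ex src tgt VA EI c D E (fun P => - f P) = - ex src tgt VA EI c D E f := by
  unfold ex
  rw [← neg_div, ← Finset.sum_neg_distrib]
  congr 1
  exact Finset.sum_congr rfl fun P _ => by ring

/-- FKG for antitone functions. -/
theorem ex_fkg_anti {c : ℝ} (hc : 1 ≤ c) {D E : Finset ε} (hE : E ⊆ EI) (hDE : Disjoint D E)
    {f g : Finset ε → ℝ} (hf : ∀ P Q, P ⊆ Q → f Q ≤ f P) (hg : ∀ P Q, P ⊆ Q → g Q ≤ g P) :
    ex src tgt VA EI c D E f * ex src tgt VA EI c D E g ≤
      ex src tgt VA EI c D E (fun P => f P * g P) := by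
  have h := ex_fkg src tgt VA EI hc hE hDE (f := fun P => - f P) (g := fun P => - g P)
    (fun P Q hPQ => neg_le_neg (hf P Q hPQ)) (fun P Q hPQ => neg_le_neg (hg P Q hPQ))
  rw [ex_neg, ex_neg, neg_mul_neg] at h
  simpa only [neg_mul_neg] using h

/-- domination for antitone functions -/
theorem ex_dom_anti {c : ℝ} (hc : 1 ≤ c) {D D' E E' : Finset ε} (hE : E ⊆ E') (hE' : E' ⊆ EI)
    (hD : D ⊆ D') (hDE : Disjoint D' E') {f : Finset ε → ℝ} (hf : ∀ P Q, P ⊆ Q → f Q ≤ f P) :
    ex src tgt VA EI c D' E' f ≤ ex src tgt VA EI c D E f := by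
  have h := ex_dom src tgt VA EI hc hE hE' hD hDE (f := fun P => - f P)
    (fun P Q hPQ => neg_le_neg (hf P Q hPQ))
  rw [ex_neg, ex_neg] at h
  linarith

/-! ### the full system -/

/-- Increasing functions of `(τ, ζ⁺, ζ⁻)`: `T` minus vertices, `P` plus-cut edges, `M` minus-cut
edges. -/
def Inc (f : Finset α → Finset ε → Finset ε → ℝ) : Prop :=
  ∀ T T' P P' M M', T' ⊆ T → P ⊆ P' → M' ⊆ M → f T P M ≤ f T' P' M'

/-- conditional expectation given the signs -/
noncomputable def ce (c : ℝ) (η : BC α ε) (T : Finset α)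
    (f : Finset α → Finset ε → Finset ε → ℝ) : ℝ :=
  ex src tgt VA EI c η.Dm (E1 src tgt EI (T ∪ η.T0)) fun M =>
    ex src tgt VA EI c η.Dp (E2 src tgt EI (T ∪ η.T0)) fun P => f T P M

variable {src tgt VA VI EI}

theorem BC.Ok.dp {η : BC α ε} (h : η.Ok VI EI) (X : Finset α) :
    Disjoint η.Dp (E2 src tgt EI X) := Finset.disjoint_of_subset_right (E2_sub src tgt EI X) h.p

theorem BC.Ok.dm {η : BC α ε} (h : η.Ok VI EI) (X : Finset α) :
    Disjoint η.Dm (E1 src tgt EI X) := Finset.disjoint_of_subset_right (E1_sub src tgt EI X) h.m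

theorem ce_mono {c : ℝ} (hc : 1 ≤ c) {η η' : BC α ε} (hη : η.Ok VI EI) (hη' : η'.Ok VI EI)
    (hle : η.Le η') {T T' : Finset α} (hT : T' ⊆ T) {f : Finset α → Finset ε → Finset ε → ℝ}
    (hf : Inc f) :
    ce src tgt VA EI c η T f ≤ ce src tgt VA EI c η' T' f := by
  have hX : T' ∪ η'.T0 ⊆ T ∪ η.T0 := Finset.union_subset_union hT hle.t
  unfold ce
  calc ex src tgt VA EI c η.Dm (E1 src tgt EI (T ∪ η.T0)) (fun M =>
        ex src tgt VA EI c η.Dp (E2 src tgt EI (T ∪ η.T0)) fun P => f T P M)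
      ≤ ex src tgt VA EI c η.Dm (E1 src tgt EI (T ∪ η.T0)) (fun M =>
        ex src tgt VA EI c η'.Dp (E2 src tgt EI (T' ∪ η'.T0)) fun P => f T' P M) := by
        refine ex_mono src tgt VA EI hc _ _ fun M => ?_
        refine (ex_mono src tgt VA EI hc _ _ fun P =>
          hf T T' P P M M hT (Finset.Subset.refl _) (Finset.Subset.refl _)).trans ?_
        exact ex_dom src tgt VA EI hc (E2_anti src tgt EI hX) (E2_sub src tgt EI _) hle.p
          (hη'.dp _) (fun P Q hPQ =>
            hf T' T' P Q M M (Finset.Subset.refl _) hPQ (Finset.Subset.refl _))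
    _ ≤ ex src tgt VA EI c η'.Dm (E1 src tgt EI (T' ∪ η'.T0)) (fun M =>
        ex src tgt VA EI c η'.Dp (E2 src tgt EI (T' ∪ η'.T0)) fun P => f T' P M) := by
        refine ex_dom_anti src tgt VA EI hc (E1_mono src tgt EI hX) (E1_sub src tgt EI _) hle.m
          (hη.dm _) (fun M M' hM => ?_)
        exact ex_mono src tgt VA EI hc _ _ fun P =>
          hf T' T' P P M' M (Finset.Subset.refl _) (Finset.Subset.refl _) hM

theorem ce_fkg {c : ℝ} (hc : 1 ≤ c) {η : BC α ε} (hη : η.Ok VI EI) (T : Finset α)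
    {f g : Finset α → Finset ε → Finset ε → ℝ} (hf : Inc f) (hg : Inc g) :
    ce src tgt VA EI c η T f * ce src tgt VA EI c η T g ≤
      ce src tgt VA EI c η T (fun T P M => f T P M * g T P M) := by
  unfold ce
  refine (ex_fkg_anti src tgt VA EI hc (E1_sub src tgt EI _) (hη.dm _) ?_ ?_).trans
    (ex_mono src tgt VA EI hc _ _ fun M => ?_)
  · intro M M' hM
    exact ex_mono src tgt VA EI hc _ _ fun P =>
      hf T T P P M' M (Finset.Subset.refl _) (Finset.Subset.refl _) hM
  · intro M M' hM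
    exact ex_mono src tgt VA EI hc _ _ fun P =>
      hg T T P P M' M (Finset.Subset.refl _) (Finset.Subset.refl _) hM
  · exact ex_fkg src tgt VA EI hc (E2_sub src tgt EI _) (hη.dp _)
      (fun P Q hPQ => hf T T P Q M M (Finset.Subset.refl _) hPQ (Finset.Subset.refl _))
      (fun P Q hPQ => hg T T P Q M M (Finset.Subset.refl _) hPQ (Finset.Subset.refl _))

variable (src tgt VA VI EI)

/-- marginal weight of the signs -/
noncomputable def Rt (c : ℝ) (η : BC α ε) (T : Finset α) : ℝ :=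
  if T ⊆ VI then psi src tgt VA c η.Dp (E2 src tgt EI (T ∪ η.T0)) *
    psi src tgt VA c η.Dm (E1 src tgt EI (T ∪ η.T0)) else 0

variable {src tgt VA VI EI}

theorem Rt_nonneg {c : ℝ} (hc : 1 ≤ c) (η : BC α ε) (T : Finset α) :
    0 ≤ Rt src tgt VA VI EI c η T := by
  unfold Rt
  split_ifs
  · exact mul_nonneg (psi_pos src tgt VA hc _ _).le (psi_pos src tgt VA hc _ _).le
  · exact le_rfl

theorem Rt_dom {c : ℝ} (hc : 1 ≤ c) {η η' : BC α ε} (hη : η.Ok VI EI) (hle : η.Le η') :
    Dom (Rt src tgt VA VI EI c η') (Rt src tgt VA VI EI c η) := by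
  refine ⟨Rt_nonneg hc η', Rt_nonneg hc η, fun A B => ?_⟩
  by_cases hA : A ⊆ VI
  · by_cases hB : B ⊆ VI
    · have h1 : A ⊓ B ⊆ VI := Finset.inter_subset_left.trans hA
      have h2 : A ⊔ B ⊆ VI := Finset.union_subset hA hB
      unfold Rt
      rw [if_pos hA, if_pos hB, if_pos h1, if_pos h2]
      -- plus part
      have hp := psi_super src tgt VA hc η'.Dp (E2 src tgt EI (A ∪ η'.T0)) η.Dp
        (E2 src tgt EI (B ∪ η.T0))
      have hm := psi_super src tgt VA hc η'.Dm (E1 src tgt EI (A ∪ η'.T0)) η.Dm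
        (E1 src tgt EI (B ∪ η.T0))
      rw [Finset.inter_eq_right.mpr hle.p, Finset.union_eq_left.mpr hle.p] at hp
      rw [Finset.inter_eq_left.mpr hle.m, Finset.union_eq_right.mpr hle.m] at hm
      have s1 : E2 src tgt EI (A ∪ η'.T0) ∩ E2 src tgt EI (B ∪ η.T0) =
          E2 src tgt EI ((A ⊔ B) ∪ η.T0) := by
        ext e
        have t1 : src e ∈ η'.T0 → src e ∈ η.T0 := fun h => hle.t h
        have t2 : tgt e ∈ η'.T0 → tgt e ∈ η.T0 := fun h => hle.t h
        simp only [E2, Finset.mem_inter, Finset.mem_filter, Finset.mem_union, Finset.sup_eq_union]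
        tauto
      have s2 : E2 src tgt EI (A ∪ η'.T0) ∪ E2 src tgt EI (B ∪ η.T0) ⊆
          E2 src tgt EI ((A ⊓ B) ∪ η'.T0) := by
        apply Finset.union_subset
        · exact E2_anti src tgt EI (Finset.union_subset_union Finset.inter_subset_left
            (Finset.Subset.refl _))
        · exact E2_anti src tgt EI (Finset.union_subset_union Finset.inter_subset_right hle.t)
      have s3 : E1 src tgt EI (A ∪ η'.T0) ∩ E1 src tgt EI (B ∪ η.T0) =
          E1 src tgt EI ((A ⊓ B) ∪ η'.T0) := by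
        ext e
        have t1 : src e ∈ η'.T0 → src e ∈ η.T0 := fun h => hle.t h
        have t2 : tgt e ∈ η'.T0 → tgt e ∈ η.T0 := fun h => hle.t h
        have t3 : src e ∈ A → src e ∉ η.T0 := fun h h' =>
          (Finset.disjoint_left.mp hη.t) h' (hA h)
        have t4 : tgt e ∈ A → tgt e ∉ η.T0 := fun h h' =>
          (Finset.disjoint_left.mp hη.t) h' (hA h)
        simp only [E1, Finset.mem_inter, Finset.mem_filter, Finset.mem_union, Finset.inf_eq_inter]
        tauto
      have s4 : E1 src tgt EI (A ∪ η'.T0) ∪ E1 src tgt EI (B ∪ η.T0) ⊆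
          E1 src tgt EI ((A ⊔ B) ∪ η.T0) := by
        apply Finset.union_subset
        · exact E1_mono src tgt EI (Finset.union_subset_union Finset.subset_union_left hle.t)
        · exact E1_mono src tgt EI (Finset.union_subset_union Finset.subset_union_right
            (Finset.Subset.refl _))
      rw [s1] at hp
      rw [s3] at hm
      have hp' := hp.trans (mul_le_mul_of_nonneg_left (psi_mono_soft src tgt VA hc η'.Dp s2)
        (psi_pos src tgt VA hc _ _).le)
      have hm' := hm.trans (mul_le_mul_of_nonneg_left (psi_mono_soft src tgt VA hc η.Dm s4)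
        (psi_pos src tgt VA hc _ _).le)
      have n1 := (psi_pos src tgt VA hc η'.Dm (E1 src tgt EI (A ∪ η'.T0))).le
      have n2 := (psi_pos src tgt VA hc η.Dm (E1 src tgt EI (B ∪ η.T0))).le
      have n3 := (psi_pos src tgt VA hc η.Dp (E2 src tgt EI ((A ⊔ B) ∪ η.T0))).le
      have n4 := (psi_pos src tgt VA hc η'.Dp (E2 src tgt EI ((A ⊓ B) ∪ η'.T0))).le
      have := mul_le_mul hp' hm' (mul_nonneg n1 n2) (mul_nonneg n3 n4)
      calc _ = psi src tgt VA c η'.Dp (E2 src tgt EI (A ∪ η'.T0)) *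
              psi src tgt VA c η.Dp (E2 src tgt EI (B ∪ η.T0)) *
              (psi src tgt VA c η'.Dm (E1 src tgt EI (A ∪ η'.T0)) *
              psi src tgt VA c η.Dm (E1 src tgt EI (B ∪ η.T0))) := by ring
        _ ≤ _ := this
        _ = _ := by ring
    · have : Rt src tgt VA VI EI c η B = 0 := by unfold Rt; rw [if_neg hB]
      rw [this, mul_zero]
      exact mul_nonneg (Rt_nonneg hc _ _) (Rt_nonneg hc _ _)
  · have : Rt src tgt VA VI EI c η' A = 0 := by unfold Rt; rw [if_neg hA]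
    rw [this, zero_mul]
    exact mul_nonneg (Rt_nonneg hc _ _) (Rt_nonneg hc _ _)

variable (src tgt VA VI EI)

/-- Unnormalised expectation. -/
noncomputable def En (c : ℝ) (η : BC α ε) (f : Finset α → Finset ε → Finset ε → ℝ) : ℝ :=
  ∑ T ∈ VI.powerset, ∑ M ∈ EI.powerset, ∑ P ∈ EI.powerset,
    aw src tgt VA c η.Dm (E1 src tgt EI (T ∪ η.T0)) M *
      aw src tgt VA c η.Dp (E2 src tgt EI (T ∪ η.T0)) P * f T P M

variable {src tgt VA VI EI}

theorem En_eq {c : ℝ} (hc : 1 ≤ c) (η : BC α ε) (f : Finset α → Finset ε → Finset ε → ℝ) :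
    En src tgt VA VI EI c η f =
      ∑ T ∈ VI.powerset, Rt src tgt VA VI EI c η T * ce src tgt VA EI c η T f := by
  unfold En
  refine Finset.sum_congr rfl fun T hT => ?_
  unfold Rt ce ex
  rw [if_pos (Finset.mem_powerset.mp hT)]
  have h1 := (psi_pos src tgt VA hc η.Dp (E2 src tgt EI (T ∪ η.T0))).ne'
  have h2 := (psi_pos src tgt VA hc η.Dm (E1 src tgt EI (T ∪ η.T0))).ne'
  have h3 : ∑ M ∈ EI.powerset, aw src tgt VA c η.Dm (E1 src tgt EI (T ∪ η.T0)) M *
      ((∑ P ∈ EI.powerset, aw src tgt VA c η.Dp (E2 src tgt EI (T ∪ η.T0)) P * f T P M) /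
        psi src tgt VA c η.Dp (E2 src tgt EI (T ∪ η.T0))) =
      (∑ M ∈ EI.powerset, ∑ P ∈ EI.powerset,
        aw src tgt VA c η.Dm (E1 src tgt EI (T ∪ η.T0)) M *
        aw src tgt VA c η.Dp (E2 src tgt EI (T ∪ η.T0)) P * f T P M) /
        psi src tgt VA c η.Dp (E2 src tgt EI (T ∪ η.T0)) := by
    rw [Finset.sum_div]
    refine Finset.sum_congr rfl fun M _ => ?_
    rw [← mul_div_assoc, Finset.mul_sum]
    congr 1
    refine Finset.sum_congr rfl fun P _ => ?_
    ring
  rw [h3]
  field_simp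

theorem ce_one {c : ℝ} (hc : 1 ≤ c) {η : BC α ε} (hη : η.Ok VI EI) (T : Finset α) :
    ce src tgt VA EI c η T (fun _ _ _ => 1) = 1 := by
  have h : ∀ (D E : Finset ε), E ⊆ EI → Disjoint D E →
      ex src tgt VA EI c D E (fun _ => 1) = 1 := by
    intro D E hE hD
    unfold ex
    simp only [mul_one]
    rw [sum_aw src tgt VA EI hE hD]
    exact div_self (psi_pos src tgt VA hc D E).ne'
  unfold ce
  simp only [h _ _ (E2_sub src tgt EI (T ∪ η.T0)) (hη.dp _)]
  exact h _ _ (E1_sub src tgt EI _) (hη.dm _)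

theorem En_one {c : ℝ} (hc : 1 ≤ c) {η : BC α ε} (hη : η.Ok VI EI) :
    En src tgt VA VI EI c η (fun _ _ _ => 1) = ∑ T ∈ VI.powerset, Rt src tgt VA VI EI c η T := by
  rw [En_eq hc]
  exact Finset.sum_congr rfl fun T _ => by rw [ce_one hc hη, mul_one]

theorem En_one_pos {c : ℝ} (hc : 1 ≤ c) {η : BC α ε} (hη : η.Ok VI EI) :
    0 < En src tgt VA VI EI c η (fun _ _ _ => 1) := by
  rw [En_one hc hη]
  refine Finset.sum_pos (fun T hT => ?_) ⟨∅, by simp⟩
  unfold Rt
  rw [if_pos (Finset.mem_powerset.mp hT)]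
  exact mul_pos (psi_pos src tgt VA hc _ _) (psi_pos src tgt VA hc _ _)

/-- **Monotonicity in the boundary data (II).** -/
theorem En_mono {c : ℝ} (hc : 1 ≤ c) {η η' : BC α ε} (hη : η.Ok VI EI) (hη' : η'.Ok VI EI)
    (hle : η.Le η') {f : Finset α → Finset ε → Finset ε → ℝ} (hf : Inc f) :
    En src tgt VA VI EI c η f * En src tgt VA VI EI c η' (fun _ _ _ => 1) ≤
      En src tgt VA VI EI c η (fun _ _ _ => 1) * En src tgt VA VI EI c η' f := by
  rw [En_one hc hη, En_one hc hη', En_eq hc, En_eq hc]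
  have h1 : ∑ T ∈ VI.powerset, Rt src tgt VA VI EI c η T * ce src tgt VA EI c η T f ≤
      ∑ T ∈ VI.powerset, Rt src tgt VA VI EI c η T * ce src tgt VA EI c η' T f :=
    Finset.sum_le_sum fun T _ => mul_le_mul_of_nonneg_left
      (ce_mono hc hη hη' hle (Finset.Subset.refl _) hf) (Rt_nonneg hc _ _)
  have h2 := (Rt_dom (src := src) (tgt := tgt) (VA := VA) hc hη hle).expect_le
    VI.powerset (powerset_closed VI) (f := fun T => - ce src tgt VA EI c η' T f)
    (fun a _ b _ hab => neg_le_neg (ce_mono hc hη' hη' (BC.Le.refl η') hab hf))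
  simp only [mul_neg, Finset.sum_neg_distrib, neg_mul] at h2
  have h3 : 0 ≤ ∑ T ∈ VI.powerset, Rt src tgt VA VI EI c η' T :=
    Finset.sum_nonneg fun T _ => Rt_nonneg hc _ _
  nlinarith [mul_le_mul_of_nonneg_right h1 h3]

/-- **Association (I).** -/
theorem En_fkg {c : ℝ} (hc : 1 ≤ c) {η : BC α ε} (hη : η.Ok VI EI)
    {f g : Finset α → Finset ε → Finset ε → ℝ} (hf : Inc f) (hg : Inc g) :
    En src tgt VA VI EI c η f * En src tgt VA VI EI c η g ≤
      En src tgt VA VI EI c η (fun _ _ _ => 1) *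
        En src tgt VA VI EI c η (fun T P M => f T P M * g T P M) := by
  rw [En_one hc hη, En_eq hc, En_eq hc, En_eq hc]
  have hlsm : LSM (Rt src tgt VA VI EI c η) := by
    have := Rt_dom (src := src) (tgt := tgt) (VA := VA) hc hη (BC.Le.refl η)
    exact ⟨this.1, this.2.2⟩
  have h1 := hlsm.fkg VI.powerset (powerset_closed VI)
    (f := fun T => - ce src tgt VA EI c η T f) (g := fun T => - ce src tgt VA EI c η T g)
    (fun a _ b _ hab => neg_le_neg (ce_mono hc hη hη (BC.Le.refl η) hab hf))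
    (fun a _ b _ hab => neg_le_neg (ce_mono hc hη hη (BC.Le.refl η) hab hg))
  have e1 : ∀ h : Finset α → ℝ, ∑ a ∈ VI.powerset, Rt src tgt VA VI EI c η a * - h a =
      - ∑ a ∈ VI.powerset, Rt src tgt VA VI EI c η a * h a := by
    intro h
    rw [← Finset.sum_neg_distrib]
    exact Finset.sum_congr rfl fun _ _ => by ring
  have e2 : ∑ a ∈ VI.powerset, Rt src tgt VA VI EI c η a *
      (-ce src tgt VA EI c η a f * -ce src tgt VA EI c η a g) =
      ∑ a ∈ VI.powerset, Rt src tgt VA VI EI c η a *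
      (ce src tgt VA EI c η a f * ce src tgt VA EI c η a g) :=
    Finset.sum_congr rfl fun _ _ => by ring
  rw [e1 (fun T => ce src tgt VA EI c η T f), e1 (fun T => ce src tgt VA EI c η T g), e2,
    neg_mul_neg] at h1
  have h2 : ∑ a ∈ VI.powerset, Rt src tgt VA VI EI c η a *
      (ce src tgt VA EI c η a f * ce src tgt VA EI c η a g) ≤
      ∑ a ∈ VI.powerset, Rt src tgt VA VI EI c η a *
        ce src tgt VA EI c η a (fun T P M => f T P M * g T P M) :=
    Finset.sum_le_sum fun T _ => mul_le_mul_of_nonneg_left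
      (ce_fkg (src := src) (tgt := tgt) (VA := VA) hc hη T hf hg) (Rt_nonneg hc _ _)
  exact h1.trans (mul_le_mul_of_nonneg_left h2
    (Finset.sum_nonneg fun T _ => Rt_nonneg hc _ _))

end Crest.Agent.R161.AtFkB729
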