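import Crest.Agent.R161.AtFkB_729
import Crest.Agent.R161.Geo_729

/-!
Row 161: the `Z`-form of the abstract `(τ, ζ)` measure and transport to primal edges of `ℤ²` with
arbitrary vertex-pair wirings.
-/

set_option autoImplicit false
set_option linter.unusedSectionVars false

namespace Crest.Agent.R161.AtFkC729

open Finset Crest.Agent.R161.AtFkA729 Crest.Agent.R161.AtFkB729

section abstr

variable {α ε : Type*} [DecidableEq α] [DecidableEq ε] (src tgt : ε → α) (VA VI : Finset α)
  (EI : Finset ε)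

/-- FK edge weights. -/
noncomputable def fw (c : ℝ) (E : Finset ε) (X : Finset α) (Z : Finset ε) : ℝ :=
  ∏ e ∈ E, (if (src e ∈ X ↔ tgt e ∈ X) then (if e ∈ Z then 2 else c - 1)
    else (if e ∈ Z then 0 else 1))

/-- The wiring edges join fixed plus vertices, resp. fixed minus vertices. -/
structure Sep (η : BC α ε) : Prop where
  p : ∀ e ∈ η.Dp, (src e ∉ VI ∧ tgt e ∉ VI) ∧ (src e ∉ η.T0 ∧ tgt e ∉ η.T0)
  m : ∀ e ∈ η.Dm, src e ∈ η.T0 ∧ tgt e ∈ η.T0

theorem hd_mul_self (e : ε) (σ : ↥VA → ℤˣ) :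
    hd src tgt VA e σ * hd src tgt VA e σ = hd src tgt VA e σ := by
  unfold hd; split_ifs <;> norm_num

theorem prod_hd_mul_self (A : Finset ε) (σ : ↥VA → ℤˣ) :
    (∏ e ∈ A, hd src tgt VA e σ) * ∏ e ∈ A, hd src tgt VA e σ = ∏ e ∈ A, hd src tgt VA e σ := by
  rw [← Finset.prod_mul_distrib]
  exact Finset.prod_congr rfl fun e _ => hd_mul_self src tgt VA e σ

theorem prod_hd_union (A B : Finset ε) (σ : ↥VA → ℤˣ) :
    ∏ e ∈ A ∪ B, hd src tgt VA e σ =
      (∏ e ∈ A, hd src tgt VA e σ) * ∏ e ∈ B, hd src tgt VA e σ := by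
  have h1 : A ∪ B = A ∪ (B \ A) := by ext x; simp
  rw [h1, Finset.prod_union Finset.disjoint_sdiff,
    ← Finset.prod_inter_mul_prod_sdiff B A (fun e => hd src tgt VA e σ), ← mul_assoc]
  congr 1
  have h2 : ∏ e ∈ A, hd src tgt VA e σ =
      (∏ e ∈ B ∩ A, hd src tgt VA e σ) * ∏ e ∈ A \ B, hd src tgt VA e σ := by
    rw [Finset.inter_comm]
    exact (Finset.prod_inter_mul_prod_sdiff A B (fun e => hd src tgt VA e σ)).symm
  rw [h2]
  have h3 := prod_hd_mul_self src tgt VA (B ∩ A) σ
  calc _ = ((∏ e ∈ B ∩ A, hd src tgt VA e σ) * ∏ e ∈ B ∩ A, hd src tgt VA e σ) *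
          ∏ e ∈ A \ B, hd src tgt VA e σ := by rw [h3]
    _ = _ := by ring

/-- Splitting of the cluster count between plus and minus vertices. -/
theorem psi_split (c : ℝ) (X : Finset α) (A B : Finset ε)
    (hA : ∀ e ∈ A, src e ∉ X ∧ tgt e ∉ X) (hB : ∀ e ∈ B, src e ∈ X ∧ tgt e ∈ X) :
    psi src tgt VA c (A ∪ B) ∅ * psi src tgt VA c ∅ ∅ =
      psi src tgt VA c A ∅ * psi src tgt VA c B ∅ := by
  unfold psi
  simp only [Finset.prod_empty, mul_one, prod_hd_union]
  refine sum_indep (Finset.univ.filter fun i : ↥VA => (i : α) ∉ X) _ _ ?_ ?_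
  · intro σ τ h
    refine Finset.prod_congr rfl fun e he => ?_
    have key : ∀ v, v ∉ X → sp VA σ v = sp VA τ v := by
      intro v hv
      unfold sp
      split_ifs with hv'
      · exact h ⟨v, hv'⟩ (by simp [hv])
      · rfl
    unfold hd
    rw [key _ (hA e he).1, key _ (hA e he).2]
  · intro σ τ h
    refine Finset.prod_congr rfl fun e he => ?_
    have key : ∀ v, v ∈ X → sp VA σ v = sp VA τ v := by
      intro v hv
      unfold sp
      split_ifs with hv'
      · exact h ⟨v, hv'⟩ (by simp [hv])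
      · rfl
    unfold hd
    rw [key _ (hB e he).1, key _ (hB e he).2]

theorem E12_disj (X : Finset α) : Disjoint (E1 src tgt EI X) (E2 src tgt EI X) := by
  rw [Finset.disjoint_left]
  intro e h1 h2
  simp only [E1, E2, Finset.mem_filter] at h1 h2
  exact h2.2.1 h1.2.1

theorem fw_eq (c : ℝ) (X : Finset α) {Z : Finset ε} (hZ : Z ⊆ E1 src tgt EI X ∪ E2 src tgt EI X) :
    fw src tgt c EI X Z =
      (2 ^ (Z ∩ E1 src tgt EI X).card * (c - 1) ^ (E1 src tgt EI X \ Z).card) *
      (2 ^ (Z ∩ E2 src tgt EI X).card * (c - 1) ^ (E2 src tgt EI X \ Z).card) := by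
  have hsplit : EI = (EI.filter fun e => ¬ (src e ∈ X ↔ tgt e ∈ X)) ∪
      (E1 src tgt EI X ∪ E2 src tgt EI X) := by
    ext e
    simp only [E1, E2, Finset.mem_union, Finset.mem_filter]
    tauto
  have hd1 : Disjoint (EI.filter fun e => ¬ (src e ∈ X ↔ tgt e ∈ X))
      (E1 src tgt EI X ∪ E2 src tgt EI X) := by
    rw [Finset.disjoint_left]
    intro e h1 h2
    simp only [E1, E2, Finset.mem_union, Finset.mem_filter] at h1 h2
    tauto
  have part : ∀ A : Finset ε, (∀ e ∈ A, (src e ∈ X ↔ tgt e ∈ X)) →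
      ∏ e ∈ A, (if (src e ∈ X ↔ tgt e ∈ X) then (if e ∈ Z then (2 : ℝ) else c - 1)
        else (if e ∈ Z then 0 else 1)) = 2 ^ (Z ∩ A).card * (c - 1) ^ (A \ Z).card := by
    intro A hA
    rw [← Finset.prod_inter_mul_prod_sdiff A Z]
    congr 1
    · rw [Finset.inter_comm, Finset.prod_congr (g := fun _ => (2 : ℝ)) rfl, Finset.prod_const]
      intro e he
      rw [Finset.mem_inter] at he
      rw [if_pos (hA e he.2), if_pos he.1]
    · rw [Finset.prod_congr (g := fun _ => c - 1) rfl, Finset.prod_const]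
      intro e he
      rw [Finset.mem_sdiff] at he
      rw [if_pos (hA e he.1), if_neg he.2]
  unfold fw
  conv_lhs => rw [hsplit]
  rw [Finset.prod_union hd1, Finset.prod_union (E12_disj src tgt EI X)]
  rw [part (E1 src tgt EI X) (by
    intro e he
    simp only [E1, Finset.mem_filter] at he
    exact iff_of_true he.2.1 he.2.2), part (E2 src tgt EI X) (by
    intro e he
    simp only [E2, Finset.mem_filter] at he
    exact iff_of_false he.2.1 he.2.2)]
  have h1 : ∏ e ∈ EI.filter fun e => ¬ (src e ∈ X ↔ tgt e ∈ X),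
      (if (src e ∈ X ↔ tgt e ∈ X) then (if e ∈ Z then (2 : ℝ) else c - 1)
        else (if e ∈ Z then 0 else 1)) = 1 := by
    refine Finset.prod_eq_one fun e he => ?_
    rw [Finset.mem_filter] at he
    rw [if_neg he.2, if_neg]
    intro hZe
    have := hZ hZe
    simp only [E1, E2, Finset.mem_union, Finset.mem_filter] at this
    tauto
  rw [h1, one_mul]

theorem fw_eq_zero (c : ℝ) (X : Finset α) {Z : Finset ε} (hZ : Z ⊆ EI)
    (h : ¬ Z ⊆ E1 src tgt EI X ∪ E2 src tgt EI X) : fw src tgt c EI X Z = 0 := by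
  rw [Finset.not_subset] at h
  obtain ⟨e, he, hne⟩ := h
  unfold fw
  apply Finset.prod_eq_zero (hZ he)
  simp only [E1, E2, Finset.mem_union, Finset.mem_filter] at hne
  have h1 : ¬ (src e ∈ X ↔ tgt e ∈ X) := by
    have := hZ he
    tauto
  rw [if_neg h1, if_pos he]

variable {src tgt VA VI EI}

/-- **Z-form** of the unnormalised expectation. -/
theorem En_Z (c : ℝ) {η : BC α ε} (hs : Sep src tgt VI η)
    (f : Finset α → Finset ε → Finset ε → ℝ) :
    En src tgt VA VI EI c η f = psi src tgt VA c ∅ ∅ *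
      ∑ T ∈ VI.powerset, ∑ Z ∈ EI.powerset,
        fw src tgt c EI (T ∪ η.T0) Z * psi src tgt VA c (η.Dp ∪ η.Dm ∪ Z) ∅ *
          f T (Z ∩ E2 src tgt EI (T ∪ η.T0)) (Z ∩ E1 src tgt EI (T ∪ η.T0)) := by
  unfold En
  rw [Finset.mul_sum]
  refine Finset.sum_congr rfl fun T hT => ?_
  rw [Finset.mem_powerset] at hT
  set X := T ∪ η.T0 with hX
  -- restrict the left-hand side
  have hL : ∑ M ∈ EI.powerset, ∑ P ∈ EI.powerset,
      aw src tgt VA c η.Dm (E1 src tgt EI X) M * aw src tgt VA c η.Dp (E2 src tgt EI X) P * f T P M =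
      ∑ q ∈ (E1 src tgt EI X).powerset ×ˢ (E2 src tgt EI X).powerset,
      aw src tgt VA c η.Dm (E1 src tgt EI X) q.1 * aw src tgt VA c η.Dp (E2 src tgt EI X) q.2 *
        f T q.2 q.1 := by
    rw [Finset.sum_product]
    symm
    refine (Finset.sum_subset (Finset.powerset_mono.mpr (E1_sub src tgt EI X)) ?_).trans ?_
    · intro M _ hM
      refine Finset.sum_eq_zero fun P _ => ?_
      have : aw src tgt VA c η.Dm (E1 src tgt EI X) M = 0 := by
        unfold aw; rw [if_neg (fun h => hM (Finset.mem_powerset.mpr h))]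
      rw [this]; ring
    · refine Finset.sum_congr rfl fun M _ => ?_
      refine Finset.sum_subset (Finset.powerset_mono.mpr (E2_sub src tgt EI X)) ?_
      intro P _ hP
      have : aw src tgt VA c η.Dp (E2 src tgt EI X) P = 0 := by
        unfold aw; rw [if_neg (fun h => hP (Finset.mem_powerset.mpr h))]
      rw [this]; ring
  rw [hL]
  -- restrict the right-hand side
  have hsub : E1 src tgt EI X ∪ E2 src tgt EI X ⊆ EI :=
    Finset.union_subset (E1_sub src tgt EI X) (E2_sub src tgt EI X)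
  have hR : ∑ Z ∈ EI.powerset, fw src tgt c EI X Z * psi src tgt VA c (η.Dp ∪ η.Dm ∪ Z) ∅ *
        f T (Z ∩ E2 src tgt EI X) (Z ∩ E1 src tgt EI X) =
      ∑ Z ∈ (E1 src tgt EI X ∪ E2 src tgt EI X).powerset,
        fw src tgt c EI X Z * psi src tgt VA c (η.Dp ∪ η.Dm ∪ Z) ∅ *
        f T (Z ∩ E2 src tgt EI X) (Z ∩ E1 src tgt EI X) := by
    symm
    refine Finset.sum_subset (Finset.powerset_mono.mpr hsub) ?_
    intro Z hZ hZ'
    rw [fw_eq_zero src tgt EI c X (Finset.mem_powerset.mp hZ)
      (fun h => hZ' (Finset.mem_powerset.mpr h))]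
    ring
  rw [hR, Finset.mul_sum]
  have hdisj := E12_disj src tgt EI X
  refine Finset.sum_bij' (fun q _ => q.1 ∪ q.2)
    (fun Z _ => (Z ∩ E1 src tgt EI X, Z ∩ E2 src tgt EI X)) ?_ ?_ ?_ ?_ ?_
  · intro q hq
    simp only [Finset.mem_product, Finset.mem_powerset] at hq ⊢
    exact Finset.union_subset_union hq.1 hq.2
  · intro Z _
    simp only [Finset.mem_product, Finset.mem_powerset]
    exact ⟨Finset.inter_subset_right, Finset.inter_subset_right⟩
  · rintro ⟨M, P⟩ hq
    simp only [Finset.mem_product, Finset.mem_powerset] at hq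
    have h1 : (M ∪ P) ∩ E1 src tgt EI X = M := by
      ext e
      have a : e ∈ M → e ∈ E1 src tgt EI X := fun h => hq.1 h
      have b : e ∈ P → e ∈ E2 src tgt EI X := fun h => hq.2 h
      have d : e ∈ E1 src tgt EI X → e ∉ E2 src tgt EI X := fun h1 h2 =>
        (Finset.disjoint_left.mp hdisj) h1 h2
      simp only [Finset.mem_inter, Finset.mem_union]
      tauto
    have h2 : (M ∪ P) ∩ E2 src tgt EI X = P := by
      ext e
      have a : e ∈ M → e ∈ E1 src tgt EI X := fun h => hq.1 h
      have b : e ∈ P → e ∈ E2 src tgt EI X := fun h => hq.2 h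
      have d : e ∈ E1 src tgt EI X → e ∉ E2 src tgt EI X := fun h1 h2 =>
        (Finset.disjoint_left.mp hdisj) h1 h2
      simp only [Finset.mem_inter, Finset.mem_union]
      tauto
    simp only [h1, h2]
  · intro Z hZ
    rw [Finset.mem_powerset] at hZ
    simp only
    rw [← Finset.inter_union_distrib_left]
    exact Finset.inter_eq_left.mpr hZ
  · rintro ⟨M, P⟩ hq
    simp only [Finset.mem_product, Finset.mem_powerset] at hq
    have h1 : (M ∪ P) ∩ E1 src tgt EI X = M := by
      ext e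
      have a : e ∈ M → e ∈ E1 src tgt EI X := fun h => hq.1 h
      have b : e ∈ P → e ∈ E2 src tgt EI X := fun h => hq.2 h
      have d : e ∈ E1 src tgt EI X → e ∉ E2 src tgt EI X := fun h1 h2 =>
        (Finset.disjoint_left.mp hdisj) h1 h2
      simp only [Finset.mem_inter, Finset.mem_union]
      tauto
    have h2 : (M ∪ P) ∩ E2 src tgt EI X = P := by
      ext e
      have a : e ∈ M → e ∈ E1 src tgt EI X := fun h => hq.1 h
      have b : e ∈ P → e ∈ E2 src tgt EI X := fun h => hq.2 h
      have d : e ∈ E1 src tgt EI X → e ∉ E2 src tgt EI X := fun h1 h2 =>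
        (Finset.disjoint_left.mp hdisj) h1 h2
      simp only [Finset.mem_inter, Finset.mem_union]
      tauto
    have h3 : E1 src tgt EI X \ (M ∪ P) = E1 src tgt EI X \ M := by
      ext e
      have b : e ∈ P → e ∈ E2 src tgt EI X := fun h => hq.2 h
      have d : e ∈ E1 src tgt EI X → e ∉ E2 src tgt EI X := fun h1 h2 =>
        (Finset.disjoint_left.mp hdisj) h1 h2
      simp only [Finset.mem_sdiff, Finset.mem_union]
      tauto
    have h4 : E2 src tgt EI X \ (M ∪ P) = E2 src tgt EI X \ P := by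
      ext e
      have b : e ∈ M → e ∈ E1 src tgt EI X := fun h => hq.1 h
      have d : e ∈ E1 src tgt EI X → e ∉ E2 src tgt EI X := fun h1 h2 =>
        (Finset.disjoint_left.mp hdisj) h1 h2
      simp only [Finset.mem_sdiff, Finset.mem_union]
      tauto
    simp only
    rw [fw_eq src tgt EI c X (Finset.union_subset_union hq.1 hq.2), h1, h2, h3, h4]
    have h5 : η.Dp ∪ η.Dm ∪ (M ∪ P) = (η.Dp ∪ P) ∪ (η.Dm ∪ M) := by
      ext e
      simp only [Finset.mem_union]
      tauto
    have h6 := psi_split src tgt VA c X (η.Dp ∪ P) (η.Dm ∪ M) (by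
      intro e he
      rw [Finset.mem_union] at he
      rcases he with he | he
      · obtain ⟨⟨a1, a2⟩, a3, a4⟩ := hs.p e he
        rw [hX]
        simp only [Finset.mem_union]
        exact ⟨fun h => h.elim (fun h => a1 (hT h)) a3, fun h => h.elim (fun h => a2 (hT h)) a4⟩
      · have := hq.2 he
        simp only [E2, Finset.mem_filter] at this
        exact this.2) (by
      intro e he
      rw [Finset.mem_union] at he
      rcases he with he | he
      · obtain ⟨a1, a2⟩ := hs.m e he
        rw [hX]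
        simp only [Finset.mem_union]
        exact ⟨Or.inr a1, Or.inr a2⟩
      · have := hq.1 he
        simp only [E1, Finset.mem_filter] at this
        exact this.2)
    rw [h5]
    unfold aw
    rw [if_pos hq.1, if_pos hq.2]
    calc _ = (2 ^ M.card * (c - 1) ^ (E1 src tgt EI X \ M).card) *
            (2 ^ P.card * (c - 1) ^ (E2 src tgt EI X \ P).card) *
            (psi src tgt VA c (η.Dp ∪ P) ∅ * psi src tgt VA c (η.Dm ∪ M) ∅) * f T P M := by ring
      _ = _ := by rw [← h6]; ring

end abstr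

end Crest.Agent.R161.AtFkC729
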