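import Crest.Agent.R161.AtFkD_729

/-!
Row 161: association (A1) and domain monotonicity (A2) for the height model, and the environment
decomposition used for (D+), (D-).
-/

set_option autoImplicit false

namespace Crest.Agent.R161.AtFkE729

open Finset Crest.Agent.R161.Geo729 Crest.Agent.R161.Dual729 Crest.Agent.R161.DualB729
  Crest.Agent.R161.DualC729 Crest.Agent.R161.Defs372 Crest.Agent.R161.Marg729
  Crest.Agent.R161.AtFkA729 Crest.Agent.R161.AtFkB729 Crest.Agent.R161.AtFkC729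
  Crest.Agent.R161.AtFkD729 Crest.Agent.R161.Ifc372

/-- `ω'` is more plus than `ω`. -/
structure LeP (ω ω' : Cfg) : Prop where
  v : ∀ x, (4 : ℤ) ∣ ω.1 x → (4 : ℤ) ∣ ω'.1 x
  p : ∀ e, plusE ω e → plusE ω' e
  m : ∀ e, minusE ω' e → minusE ω e

/-- increasing observables -/
def IncP (f : Cfg → ℝ) : Prop := ∀ ω ω', LeP ω ω' → f ω ≤ f ω'

/-- observables of `(k mod 4, z)` -/
def TZ (f : Cfg → ℝ) : Prop :=
  ∀ ω ω' : Cfg, (∀ v, (4 : ℤ) ∣ ω.1 v - ω'.1 v) → (∀ e, ω.2.2 e = ω'.2.2 e) → f ω = f ω'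

/-- `f` depends only on `(k mod 4, z)` inside `B`. -/
def InTZ (B : Finset P2) (f : Cfg → ℝ) : Prop :=
  ∀ ω ω' : Cfg, (∀ v ∈ intVerts B, (4 : ℤ) ∣ ω.1 v - ω'.1 v) →
    (∀ e ∈ intEdges B, ω.2.2 e = ω'.2.2 e) → f ω = f ω'

theorem leP_of_agree {ω ω' : Cfg} (h1 : ∀ v, (4 : ℤ) ∣ ω.1 v ↔ (4 : ℤ) ∣ ω'.1 v)
    (h2 : ∀ e, ω.2.2 e = ω'.2.2 e) : LeP ω ω' := by
  refine ⟨fun x => (h1 x).1, fun e he => ?_, fun e he => ?_⟩
  · exact ⟨(h2 e) ▸ he.1, (h1 _).1 he.2⟩
  · exact ⟨(h2 e).symm ▸ he.1, fun h => he.2 ((h1 _).1 h)⟩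

theorem IncP.eq_of_agree {f : Cfg → ℝ} (hf : IncP f) {ω ω' : Cfg}
    (h1 : ∀ v, (4 : ℤ) ∣ ω.1 v ↔ (4 : ℤ) ∣ ω'.1 v) (h2 : ∀ e, ω.2.2 e = ω'.2.2 e) :
    f ω = f ω' :=
  le_antisymm (hf _ _ (leP_of_agree h1 h2))
    (hf _ _ (leP_of_agree (fun v => (h1 v).symm) (fun e => (h2 e).symm)))

theorem dvd_iff_of_sub {a b : ℤ} (h : (4 : ℤ) ∣ a - b) : (4 : ℤ) ∣ a ↔ (4 : ℤ) ∣ b := by omega

theorem IncP.tz {f : Cfg → ℝ} (hf : IncP f) : TZ f := fun _ _ h1 h2 =>
  hf.eq_of_agree (fun v => dvd_iff_of_sub (h1 v)) h2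

theorem InTZ.tz {B : Finset P2} {f : Cfg → ℝ} (hf : InTZ B f) : TZ f := fun _ _ h1 h2 =>
  hf _ _ (fun v _ => h1 v) (fun e _ => h2 e)

theorem OffTZ_tz {B : Finset P2} {f : Cfg → ℝ} (hf : OffTZ B f) : TZ f := fun _ _ h1 h2 =>
  hf _ _ (fun v _ => h1 v) (fun e _ => h2 e)

theorem TZ.mul {f g : Cfg → ℝ} (hf : TZ f) (hg : TZ g) : TZ fun ω => f ω * g ω :=
  fun ω ω' h1 h2 => by
    show f ω * g ω = f ω' * g ω'
    rw [hf ω ω' h1 h2, hg ω ω' h1 h2]

theorem TZ.addH {f : Cfg → ℝ} (hf : TZ f) (a : ℤ) : TZ fun ω => f (addH a ω) :=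
  fun ω ω' h1 h2 => hf _ _ (fun v => by
    have := h1 v
    simpa [Defs372.addH] using this) h2

/-- Under `InTZ`, an increasing function does not see the cut variables at edges whose source is
not an interior vertex. -/
theorem InTZ.eq_of_agree {B : Finset P2} {f : Cfg → ℝ} (hin : InTZ B f) (hf : IncP f) {ω ω' : Cfg}
    (h1 : ∀ v ∈ IV B, (4 : ℤ) ∣ ω.1 v ↔ (4 : ℤ) ∣ ω'.1 v)
    (h2 : ∀ e ∈ IE B, src e ∈ IV B → ω.2.2 e = ω'.2.2 e) : f ω = f ω' := by
  classical
  have key : ∀ ω ω' : Cfg, (∀ v ∈ IV B, (4 : ℤ) ∣ ω.1 v ↔ (4 : ℤ) ∣ ω'.1 v) →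
      (∀ e ∈ IE B, src e ∈ IV B → ω.2.2 e = ω'.2.2 e) → f ω ≤ f ω' := by
    intro ω ω' h1 h2
    let a : Cfg := (fun v => if v ∈ IV B then ω.1 v else 2, ω.2.1,
      fun e => if e ∈ IE B then ω.2.2 e else false)
    let b : Cfg := (fun v => if v ∈ IV B then ω'.1 v else 0, ω'.2.1,
      fun e => if e ∈ IE B then ω'.2.2 e else false)
    have ha : f ω = f a := by
      refine hin _ _ (fun v hv => ?_) (fun e he => ?_)
      · have hv' : v ∈ IV B := hv
        simp [a, hv']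
      · have he' : e ∈ IE B := he
        simp [a, he']
    have hb : f ω' = f b := by
      refine hin _ _ (fun v hv => ?_) (fun e he => ?_)
      · have hv' : v ∈ IV B := hv
        simp [b, hv']
      · have he' : e ∈ IE B := he
        simp [b, he']
    rw [ha, hb]
    apply hf
    refine ⟨fun x hx => ?_, fun e he => ?_, fun e he => ?_⟩
    · by_cases hv : x ∈ IV B
      · simp only [a, b, hv, if_true] at hx ⊢
        exact (h1 x hv).1 hx
      · simp [b, hv]
    · obtain ⟨he1, he2⟩ := he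
      by_cases hv : src e ∈ IV B
      · by_cases hE : e ∈ IE B
        · refine ⟨?_, ?_⟩
          · simp only [a, b, hE, if_true] at he1 ⊢
            rw [← h2 e hE hv]
            exact he1
          · simp only [a, b, hv, if_true] at he2 ⊢
            exact (h1 _ hv).1 he2
        · simp only [a, hE, if_false] at he1
          exact absurd he1 (by simp)
      · simp only [a, hv, if_false] at he2
        exact absurd he2 (by norm_num)
    · obtain ⟨he1, he2⟩ := he
      by_cases hv : src e ∈ IV B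
      · by_cases hE : e ∈ IE B
        · refine ⟨?_, ?_⟩
          · simp only [a, b, hE, if_true] at he1 ⊢
            rw [h2 e hE hv]
            exact he1
          · simp only [a, b, hv, if_true] at he2 ⊢
            exact fun h => he2 ((h1 _ hv).1 h)
        · simp only [b, hE, if_false] at he1
          exact absurd he1 (by simp)
      · simp only [b, hv, if_false] at he2
        exact absurd (dvd_zero _) he2
  exact le_antisymm (key ω ω' h1 h2)
    (key ω' ω (fun v hv => (h1 v hv).symm) (fun e he hv => (h2 e he hv).symm))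

/-! ### representatives -/

open Classical in
/-- configuration with given minus vertices, plus-cut and minus-cut edges -/
noncomputable def mk (G T : Finset P2) (P M : Finset Edge) : Cfg :=
  (fun v => if v ∈ T then 2 else 0, fun _ => 1,
    fun e => decide (e ∉ IE G ∨ (e ∈ P ∧ src e ∉ T) ∨ (e ∈ M ∧ src e ∈ T)))

open Classical in
/-- configuration with given minus vertices and cut edges -/
noncomputable def mkZ (G T : Finset P2) (Z : Finset Edge) : Cfg :=
  (fun v => if v ∈ T then 2 else 0, fun _ => 1, fun e => decide (e ∉ IE G ∨ e ∈ Z))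

theorem mk_dvd (G T : Finset P2) (P M : Finset Edge) (v : P2) :
    (4 : ℤ) ∣ (mk G T P M).1 v ↔ v ∉ T := by
  unfold mk
  by_cases h : v ∈ T
  · simp only [h, if_true, not_true_eq_false, iff_false]; norm_num
  · simp [h]

theorem mkZ_dvd (G T : Finset P2) (Z : Finset Edge) (v : P2) :
    (4 : ℤ) ∣ (mkZ G T Z).1 v ↔ v ∉ T := by
  unfold mkZ
  by_cases h : v ∈ T
  · simp only [h, if_true, not_true_eq_false, iff_false]; norm_num
  · simp [h]

theorem mk_z (G T : Finset P2) (P M : Finset Edge) (e : Edge) :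
    (mk G T P M).2.2 e = true ↔ (e ∉ IE G ∨ (e ∈ P ∧ src e ∉ T) ∨ (e ∈ M ∧ src e ∈ T)) := by
  unfold mk
  simp only [decide_eq_true_eq]

theorem mkZ_z (G T : Finset P2) (Z : Finset Edge) (e : Edge) :
    (mkZ G T Z).2.2 e = true ↔ (e ∉ IE G ∨ e ∈ Z) := by
  unfold mkZ
  simp only [decide_eq_true_eq]

theorem bool_eq_of_iff {a b : Bool} (h : a = true ↔ b = true) : a = b := by
  cases a <;> cases b <;> simp_all

theorem mk_leP (G : Finset P2) {T T' : Finset P2} {P P' M M' : Finset Edge} (hT : T' ⊆ T)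
    (hP : P ⊆ P') (hM : M' ⊆ M) : LeP (mk G T P M) (mk G T' P' M') := by
  refine ⟨fun x hx => ?_, fun e he => ?_, fun e he => ?_⟩
  · rw [mk_dvd] at hx ⊢
    exact fun h => hx (hT h)
  · obtain ⟨h1, h2⟩ := he
    rw [mk_dvd] at h2
    rw [mk_z] at h1
    refine ⟨?_, ?_⟩
    · rw [mk_z]
      rcases h1 with h1 | h1 | h1
      · exact Or.inl h1
      · exact Or.inr (Or.inl ⟨hP h1.1, fun h => h1.2 (hT h)⟩)
      · exact absurd h1.2 h2
    · rw [mk_dvd]
      exact fun h => h2 (hT h)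
  · obtain ⟨h1, h2⟩ := he
    rw [mk_dvd, not_not] at h2
    rw [mk_z] at h1
    refine ⟨?_, ?_⟩
    · rw [mk_z]
      rcases h1 with h1 | h1 | h1
      · exact Or.inl h1
      · exact absurd h2 h1.2
      · exact Or.inr (Or.inr ⟨hM h1.1, hT h1.2⟩)
    · rw [mk_dvd, not_not]
      exact hT h2

theorem tz_conf {F : Finset P2} {f : Cfg → ℝ} (hf : TZ f) {ω : Cfg} (h : Valid F ω) :
    f ω = f (mkZ F (tm F ω) (zm F ω)) := by
  refine hf _ _ (fun v => ?_) (fun e => ?_)
  · have h1 := Int.even_iff.mp (h.even v)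
    have h2 := mem_tm h (v := v)
    unfold mkZ
    by_cases hv : v ∈ tm F ω
    · have := h2.1 hv
      simp only [hv, if_true]
      omega
    · have : ¬ ω.1 v % 4 = 2 := fun h => hv (h2.2 h)
      simp only [hv, if_false]
      omega
  · apply bool_eq_of_iff
    rw [mkZ_z, mem_zm]
    constructor
    · intro hz
      by_cases he : e ∈ IE F
      · exact Or.inr ⟨he, hz⟩
      · exact Or.inl he
    · rintro (he | he)
      · exact h.cut e he
      · exact he.2

/-- unnormalised expectation -/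
noncomputable def S (c : ℝ) (F : Finset P2) (f : Cfg → ℝ) : ℝ := ∑ ω ∈ conf F, wt c F ω * f ω

theorem E_eq_S (c : ℝ) (F : Finset P2) (f : Cfg → ℝ) : E c F f = S c F f / Z c F := E_eq_div F f

theorem S_one (c : ℝ) (F : Finset P2) : S c F (fun _ => 1) = Z c F := by
  unfold S Defs372.Z
  exact Finset.sum_congr rfl fun ω _ => mul_one _

theorem S_tz {F : Finset P2} (hF : SC (F : Set P2)) (c : ℝ) {f : Cfg → ℝ} (hf : TZ f) :
    S c F f = (N0 F : ℝ) / 2 ^ (IV F).card *
      ∑ T ∈ (IV F).powerset, ∑ Z ∈ (IE F).powerset, fkw c F T Z * (ncl F Z : ℝ) *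
        f (mkZ F T Z) := by
  rw [← sum_conf_tz hF c (fun T Z => f (mkZ F T Z))]
  unfold S
  exact Finset.sum_congr rfl fun ω hω => by rw [← tz_conf hf (mem_conf.mp hω)]

/-! ### geometry of interior vertices and edges -/

theorem IV_mono {F G : Finset P2} (h : F ⊆ G) : IV F ⊆ IV G := by
  intro v hv
  rw [mem_IV] at hv ⊢
  exact ⟨h hv.1, h hv.2.1, h hv.2.2.1, h hv.2.2.2⟩

theorem IE_mono {F G : Finset P2} (h : F ⊆ G) : IE F ⊆ IE G := by
  intro e he
  rw [mem_IE] at he ⊢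
  exact ⟨h he.1, h he.2⟩

theorem mem_IE_of_src {B : Finset P2} {e : Edge} (h : src e ∈ IV B) : e ∈ IE B := by
  rw [mem_IV, intV_iff] at h
  exact mem_IE.mpr ⟨h _ (corner_src_fA e), h _ (corner_src_fB e)⟩

theorem mem_IE_of_tgt {B : Finset P2} {e : Edge} (h : tgt e ∈ IV B) : e ∈ IE B := by
  rw [mem_IV, intV_iff] at h
  exact mem_IE.mpr ⟨h _ (corner_tgt_fA e), h _ (corner_tgt_fB e)⟩

theorem sum_powerset_split {α : Type*} [DecidableEq α] {A B : Finset α} (h : B ⊆ A)
    (F : Finset α → ℝ) :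
    ∑ T ∈ A.powerset, F T = ∑ T1 ∈ (A \ B).powerset, ∑ T2 ∈ B.powerset, F (T2 ∪ T1) := by
  rw [← Finset.sum_product']
  refine Finset.sum_bij' (fun T _ => (T \ B, T ∩ B)) (fun p _ => p.2 ∪ p.1) ?_ ?_ ?_ ?_ ?_
  · intro T hT
    rw [Finset.mem_powerset] at hT
    rw [Finset.mem_product, Finset.mem_powerset, Finset.mem_powerset]
    exact ⟨Finset.sdiff_subset_sdiff hT (Finset.Subset.refl _), Finset.inter_subset_right⟩
  · intro p hp
    rw [Finset.mem_product, Finset.mem_powerset, Finset.mem_powerset] at hp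
    rw [Finset.mem_powerset]
    exact Finset.union_subset (hp.2.trans h) (hp.1.trans Finset.sdiff_subset)
  · intro T _
    ext x
    simp only [Finset.mem_union, Finset.mem_inter, Finset.mem_sdiff]
    tauto
  · rintro ⟨p, q⟩ hp
    rw [Finset.mem_product, Finset.mem_powerset, Finset.mem_powerset] at hp
    have h1 : ∀ x, x ∈ p → x ∉ B := fun x hx => (Finset.mem_sdiff.mp (hp.1 hx)).2
    have h2 : ∀ x, x ∈ q → x ∈ B := fun x hx => hp.2 hx
    simp only [Prod.mk.injEq]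
    constructor
    · ext x
      have := h1 x
      have := h2 x
      simp only [Finset.mem_union, Finset.mem_sdiff]
      tauto
    · ext x
      have := h1 x
      have := h2 x
      simp only [Finset.mem_union, Finset.mem_inter]
      tauto
  · intro T _
    congr 1
    ext x
    simp only [Finset.mem_union, Finset.mem_inter, Finset.mem_sdiff]
    tauto

theorem fkw_eq_fw (c : ℝ) (G T : Finset P2) (Z : Finset Edge) :
    fkw c G T Z = fw src tgt c (IE G) T Z := rfl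

theorem fkw_split (c : ℝ) {B G : Finset P2} (hBG : B ⊆ G) {T1 T2 : Finset P2} {Z1 Z2 : Finset Edge}
    (hT2 : T2 ⊆ IV B) (hZ2 : Z2 ⊆ IE B) (hZ1 : Z1 ⊆ IE G \ IE B) :
    fkw c G (T2 ∪ T1) (Z2 ∪ Z1) =
      fw src tgt c (IE G \ IE B) T1 Z1 * fw src tgt c (IE B) (T2 ∪ T1) Z2 := by
  rw [fkw_eq_fw]
  unfold fw
  rw [← Finset.prod_sdiff (IE_mono hBG)]
  congr 1
  · refine Finset.prod_congr rfl fun e he => ?_
    rw [Finset.mem_sdiff] at he
    have h1 : src e ∉ T2 := fun h => he.2 (mem_IE_of_src (hT2 h))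
    have h2 : tgt e ∉ T2 := fun h => he.2 (mem_IE_of_tgt (hT2 h))
    have h3 : e ∉ Z2 := fun h => he.2 (hZ2 h)
    simp only [Finset.mem_union, h1, h2, h3, false_or]
  · refine Finset.prod_congr rfl fun e he => ?_
    have h3 : e ∉ Z1 := fun h => (Finset.mem_sdiff.mp (hZ1 h)).2 he
    simp only [Finset.mem_union (s := Z2), h3, or_false]

theorem fw_zero_of_not (c : ℝ) (E : Finset Edge) (X : Finset P2) {Z : Finset Edge} (hZ : Z ⊆ E)
    (h : ¬ ∀ e ∈ Z, (src e ∈ X ↔ tgt e ∈ X)) : fw src tgt c E X Z = 0 := by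
  push Not at h
  obtain ⟨e, he, hne⟩ := h
  unfold fw
  apply Finset.prod_eq_zero (hZ he)
  have h1 : ¬ (src e ∈ X ↔ tgt e ∈ X) := by tauto
  rw [if_neg h1, if_pos he]

/-- environment seen by `B` -/
noncomputable def eta (T1 : Finset P2) (Z1 : Finset Edge) : BC P2 (P2 × P2) :=
  ⟨T1, (Z1.filter fun e => src e ∉ T1).image pe, (Z1.filter fun e => src e ∈ T1).image pe⟩

theorem eta_union (T1 : Finset P2) (Z1 : Finset Edge) :
    (eta T1 Z1).Dp ∪ (eta T1 Z1).Dm = Z1.image pe := by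
  unfold eta
  simp only
  rw [← Finset.image_union]
  congr 1
  ext e
  simp only [Finset.mem_union, Finset.mem_filter]
  tauto

theorem eta_ok {B G T1 : Finset P2} {Z1 : Finset Edge} (hT1 : T1 ⊆ IV G \ IV B)
    (hZ1 : Z1 ⊆ IE G \ IE B) : (eta T1 Z1).Ok (IV B) ((IE B).image pe) := by
  have hd : ∀ W ⊆ Z1, Disjoint (W.image pe) ((IE B).image pe) := by
    intro W hW
    rw [Finset.disjoint_left]
    intro p h1 h2
    rw [Finset.mem_image] at h1 h2
    obtain ⟨e, he, rfl⟩ := h1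
    obtain ⟨e', he', h⟩ := h2
    rw [pe_inj h] at he'
    exact (Finset.mem_sdiff.mp (hZ1 (hW he))).2 he'
  refine ⟨?_, hd _ (Finset.filter_subset _ _), hd _ (Finset.filter_subset _ _)⟩
  rw [Finset.disjoint_left]
  intro v hv
  exact (Finset.mem_sdiff.mp (hT1 hv)).2

theorem eta_sep {B G T1 : Finset P2} {Z1 : Finset Edge} (hZ1 : Z1 ⊆ IE G \ IE B)
    (h : ∀ e ∈ Z1, (src e ∈ T1 ↔ tgt e ∈ T1)) :
    Sep Prod.fst Prod.snd (IV B) (eta T1 Z1) := by
  constructor
  · intro p hp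
    simp only [eta, Finset.mem_image, Finset.mem_filter] at hp
    obtain ⟨e, ⟨he1, he2⟩, rfl⟩ := hp
    have h3 := (Finset.mem_sdiff.mp (hZ1 he1)).2
    exact ⟨⟨fun h => h3 (mem_IE_of_src h), fun h => h3 (mem_IE_of_tgt h)⟩, he2,
      fun h' => he2 ((h e he1).2 h')⟩
  · intro p hp
    simp only [eta, Finset.mem_image, Finset.mem_filter] at hp
    obtain ⟨e, ⟨he1, he2⟩, rfl⟩ := hp
    exact ⟨he2, (h e he1).1 he2⟩

/-- **Environment decomposition.** -/
theorem decomp (c : ℝ) {B G : Finset P2} (hBG : B ⊆ G) (g1 : Finset P2 → Finset Edge → ℝ)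
    (φ : Finset P2 → Finset Edge → Finset Edge → ℝ) :
    nw (IV G) ∅ * ∑ T ∈ (IV G).powerset, ∑ Z ∈ (IE G).powerset, fkw c G T Z * (ncl G Z : ℝ) *
      (g1 (T \ IV B) (Z \ IE B) *
        φ (T ∩ IV B) (Z ∩ E2 src tgt (IE B) T) (Z ∩ E1 src tgt (IE B) T)) =
    ∑ T1 ∈ (IV G \ IV B).powerset, ∑ Z1 ∈ (IE G \ IE B).powerset,
      fw src tgt c (IE G \ IE B) T1 Z1 * g1 T1 Z1 * EB c (IV G) B (eta T1 Z1) φ := by
  rw [sum_powerset_split (IV_mono hBG), Finset.mul_sum]
  refine Finset.sum_congr rfl fun T1 hT1 => ?_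
  rw [Finset.mem_powerset] at hT1
  have h0 : ∀ T2 ∈ (IV B).powerset,
      ∑ Z ∈ (IE G).powerset, fkw c G (T2 ∪ T1) Z * (ncl G Z : ℝ) *
        (g1 ((T2 ∪ T1) \ IV B) (Z \ IE B) *
          φ ((T2 ∪ T1) ∩ IV B) (Z ∩ E2 src tgt (IE B) (T2 ∪ T1))
            (Z ∩ E1 src tgt (IE B) (T2 ∪ T1))) =
      ∑ Z1 ∈ (IE G \ IE B).powerset, ∑ Z2 ∈ (IE B).powerset,
        fw src tgt c (IE G \ IE B) T1 Z1 * fw src tgt c (IE B) (T2 ∪ T1) Z2 *
          (ncl G (Z2 ∪ Z1) : ℝ) * (g1 T1 Z1 * φ T2 (Z2 ∩ E2 src tgt (IE B) (T2 ∪ T1))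
            (Z2 ∩ E1 src tgt (IE B) (T2 ∪ T1))) := by
    intro T2 hT2
    rw [Finset.mem_powerset] at hT2
    rw [sum_powerset_split (IE_mono hBG)]
    refine Finset.sum_congr rfl fun Z1 hZ1 => Finset.sum_congr rfl fun Z2 hZ2 => ?_
    rw [Finset.mem_powerset] at hZ1 hZ2
    rw [fkw_split c hBG hT2 hZ2 hZ1]
    have a1 : (T2 ∪ T1) \ IV B = T1 := by
      ext x
      have := fun h : x ∈ T1 => (Finset.mem_sdiff.mp (hT1 h)).2
      have := fun h : x ∈ T2 => hT2 h
      simp only [Finset.mem_union, Finset.mem_sdiff]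
      tauto
    have a2 : (T2 ∪ T1) ∩ IV B = T2 := by
      ext x
      have := fun h : x ∈ T1 => (Finset.mem_sdiff.mp (hT1 h)).2
      have := fun h : x ∈ T2 => hT2 h
      simp only [Finset.mem_union, Finset.mem_inter]
      tauto
    have a3 : (Z2 ∪ Z1) \ IE B = Z1 := by
      ext x
      have := fun h : x ∈ Z1 => (Finset.mem_sdiff.mp (hZ1 h)).2
      have := fun h : x ∈ Z2 => hZ2 h
      simp only [Finset.mem_union, Finset.mem_sdiff]
      tauto
    have a4 : ∀ W ⊆ IE B, (Z2 ∪ Z1) ∩ W = Z2 ∩ W := by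
      intro W hW
      ext x
      have := fun h : x ∈ Z1 => (Finset.mem_sdiff.mp (hZ1 h)).2
      have := fun h : x ∈ W => hW h
      simp only [Finset.mem_union, Finset.mem_inter]
      tauto
    rw [a1, a2, a3, a4 _ (E2_sub _ _ _ _), a4 _ (E1_sub _ _ _ _)]
  rw [Finset.sum_congr rfl h0, Finset.sum_comm, Finset.mul_sum]
  refine Finset.sum_congr rfl fun Z1 hZ1 => ?_
  rw [Finset.mem_powerset] at hZ1
  by_cases hs : ∀ e ∈ Z1, (src e ∈ T1 ↔ tgt e ∈ T1)
  · rw [EB_eq c (IV G) B (eta_sep hZ1 hs) φ, eta_union]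
    have hT0 : (eta T1 Z1).T0 = T1 := rfl
    rw [hT0]
    rw [Finset.mul_sum, Finset.mul_sum, Finset.mul_sum]
    refine Finset.sum_congr rfl fun T2 hT2 => ?_
    rw [Finset.mul_sum, Finset.mul_sum, Finset.mul_sum]
    refine Finset.sum_congr rfl fun Z2 hZ2 => ?_
    rw [Finset.mem_powerset] at hZ2
    have hZ : Z2 ∪ Z1 ⊆ IE G :=
      Finset.union_subset (hZ2.trans (IE_mono hBG)) (hZ1.trans Finset.sdiff_subset)
    rw [ncl_eq G hZ, Finset.image_union, Finset.union_comm (Z2.image pe)]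
    ring
  · rw [fw_zero_of_not c _ _ hZ1 hs]
    simp only [zero_mul]
    rw [Finset.sum_eq_zero (fun _ _ => Finset.sum_const_zero), mul_zero]

/-! ### restriction of the domain -/

theorem ncl_restrict {F G : Finset P2} (hF : SC (F : Set P2)) (hFG : F ⊆ G) {Z : Finset Edge}
    (hZ : IE G \ IE F ⊆ Z) : ncl G Z = ncl F (Z ∩ IE F) := by
  classical
  unfold ncl
  congr 1
  ext A
  simp only [Finset.mem_filter, Finset.mem_powerset]
  constructor
  · rintro ⟨hA, h⟩
    have hconst : ∀ e, ¬ IntE (F : Set P2) e → (decide (tgt e ∈ A) : Bool) = decide (src e ∈ A) := by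
      intro e he
      rw [← mem_IE'] at he
      apply bool_eq_of_iff
      simp only [decide_eq_true_eq]
      by_cases heG : e ∈ IE G
      · exact (h e heG (hZ (Finset.mem_sdiff.mpr ⟨heG, he⟩))).symm
      · constructor
        · intro h1; exact absurd (mem_IE_of_tgt (hA h1)) heG
        · intro h1; exact absurd (mem_IE_of_src (hA h1)) heG
    -- a face far away
    obtain ⟨v0, hv0F, hv0A⟩ : ∃ v0 : P2, v0 ∉ F ∧ v0 ∉ A := by
      obtain ⟨v0, hv0⟩ := Infinite.exists_notMem_finset (F ∪ A)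
      rw [Finset.mem_union, not_or] at hv0
      exact ⟨v0, hv0.1, hv0.2⟩
    have hAF : A ⊆ IV F := by
      intro v hv
      by_contra hvF
      rw [mem_IV, intV_iff] at hvF
      push Not at hvF
      obtain ⟨g, hg, hgF⟩ := hvF
      have h1 := const_corner (F := (F : Set P2)) (fun v => (decide (v ∈ A) : Bool)) hconst hgF hg
      have h2 := const_of_conn (F := (F : Set P2)) (fun v => (decide (v ∈ A) : Bool)) hconst
        (hF g hgF v0 hv0F)
      simp only [decide_eq_decide] at h1 h2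
      exact hv0A (h2.2 (h1.1 hv))
    refine ⟨hAF, fun e he hz => h e (IE_mono hFG he) (Finset.mem_inter.mp hz).1⟩
  · rintro ⟨hA, h⟩
    refine ⟨hA.trans (IV_mono hFG), fun e he hz => ?_⟩
    by_cases heF : e ∈ IE F
    · exact h e heF (Finset.mem_inter.mpr ⟨hz, heF⟩)
    · constructor
      · intro h1; exact absurd (mem_IE_of_src (hA h1)) heF
      · intro h1; exact absurd (mem_IE_of_tgt (hA h1)) heF

theorem fkw_restrict (c : ℝ) {F G : Finset P2} (hFG : F ⊆ G) {T : Finset P2} (hT : T ⊆ IV F)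
    {Z : Finset Edge} (hZ : IE G \ IE F ⊆ Z) :
    fkw c G T Z = 2 ^ (IE G \ IE F).card * fkw c F T (Z ∩ IE F) := by
  unfold fkw
  rw [← Finset.prod_sdiff (IE_mono hFG)]
  congr 1
  · rw [Finset.prod_congr (g := fun _ => (2 : ℝ)) rfl, Finset.prod_const]
    intro e he
    have heF := (Finset.mem_sdiff.mp he).2
    have h1 : src e ∉ T := fun h => heF (mem_IE_of_src (hT h))
    have h2 : tgt e ∉ T := fun h => heF (mem_IE_of_tgt (hT h))
    rw [if_pos (iff_of_false h1 h2), if_pos (hZ he)]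
  · refine Finset.prod_congr rfl fun e he => ?_
    simp only [Finset.mem_inter, he, and_true]

open Classical in
theorem restrict (c : ℝ) {F G : Finset P2} (hF : SC (F : Set P2)) (hFG : F ⊆ G)
    (h : Finset P2 → Finset Edge → ℝ) :
    ∑ T ∈ (IV G).powerset, ∑ Z ∈ (IE G).powerset, fkw c G T Z * (ncl G Z : ℝ) *
      (if T ⊆ IV F ∧ IE G \ IE F ⊆ Z then h T (Z ∩ IE F) else 0) =
    2 ^ (IE G \ IE F).card * ∑ T ∈ (IV F).powerset, ∑ Z ∈ (IE F).powerset,
      fkw c F T Z * (ncl F Z : ℝ) * h T Z := by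
  have h1 : ∑ T ∈ (IV F).powerset, ∑ Z ∈ (IE G).powerset, fkw c G T Z * (ncl G Z : ℝ) *
      (if T ⊆ IV F ∧ IE G \ IE F ⊆ Z then h T (Z ∩ IE F) else 0) =
      ∑ T ∈ (IV G).powerset, ∑ Z ∈ (IE G).powerset, fkw c G T Z * (ncl G Z : ℝ) *
      (if T ⊆ IV F ∧ IE G \ IE F ⊆ Z then h T (Z ∩ IE F) else 0) := by
    refine Finset.sum_subset (Finset.powerset_mono.mpr (IV_mono hFG)) fun T _ hT => ?_
    refine Finset.sum_eq_zero fun Z _ => ?_
    rw [if_neg, mul_zero]
    exact fun h => hT (Finset.mem_powerset.mpr h.1)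
  rw [← h1, Finset.mul_sum]
  refine Finset.sum_congr rfl fun T hT => ?_
  rw [Finset.mem_powerset] at hT
  rw [Finset.mul_sum, sum_powerset_split (IE_mono hFG)]
  -- only `Z1 = IE G \ IE F` contributes
  rw [Finset.sum_eq_single (IE G \ IE F)]
  · refine Finset.sum_congr rfl fun Z hZ => ?_
    rw [Finset.mem_powerset] at hZ
    have h2 : IE G \ IE F ⊆ Z ∪ (IE G \ IE F) := Finset.subset_union_right
    have h3 : (Z ∪ (IE G \ IE F)) ∩ IE F = Z := by
      ext e
      have := fun h : e ∈ Z => hZ h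
      simp only [Finset.mem_inter, Finset.mem_union, Finset.mem_sdiff]
      tauto
    rw [if_pos ⟨hT, h2⟩, fkw_restrict c hFG hT h2, ncl_restrict hF hFG h2, h3]
    ring
  · intro Z1 hZ1 hne
    rw [Finset.mem_powerset] at hZ1
    refine Finset.sum_eq_zero fun Z2 hZ2 => ?_
    rw [Finset.mem_powerset] at hZ2
    rw [if_neg, mul_zero]
    rintro ⟨_, h2⟩
    apply hne
    apply Finset.Subset.antisymm hZ1
    intro e he
    rcases Finset.mem_union.mp (h2 he) with h3 | h3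
    · exact absurd (hZ2 h3) (Finset.mem_sdiff.mp he).2
    · exact h3
  · intro h
    exact absurd (Finset.mem_powerset.mpr (Finset.Subset.refl _)) h

theorem mkZ_restrict {F G : Finset P2} (hFG : F ⊆ G) (T : Finset P2) {Z : Finset Edge}
    (hZ : IE G \ IE F ⊆ Z) : mkZ G T Z = mkZ F T (Z ∩ IE F) := by
  refine Prod.ext rfl (Prod.ext rfl ?_)
  funext e
  apply bool_eq_of_iff
  rw [mkZ_z, mkZ_z, Finset.mem_inter]
  by_cases he : e ∈ IE F
  · have := IE_mono hFG he
    tauto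
  · by_cases heG : e ∈ IE G
    · have := hZ (Finset.mem_sdiff.mpr ⟨heG, he⟩)
      tauto
    · tauto

/-- normalising constant -/
noncomputable def Kc (F G : Finset P2) : ℝ :=
  (N0 F : ℝ) / 2 ^ (IV F).card / 2 ^ (IE G \ IE F).card / nw (IV G) ∅

theorem nw_pos (VA : Finset P2) (D : Finset (P2 × P2)) : 0 < nw VA D :=
  psi_pos _ _ _ le_rfl _ _

theorem Kc_pos (F G : Finset P2) : 0 < Kc F G := by
  unfold Kc
  have h1 := nw_pos (IV G) ∅
  have h2 : (0 : ℝ) < N0 F := by exact_mod_cast N0_pos F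
  positivity

open Classical in
/-- **Master representation.** -/
theorem master (c : ℝ) {F G B : Finset P2} (hF : SC (F : Set P2)) (hFG : F ⊆ G) (hBG : B ⊆ G)
    {h : Cfg → ℝ} (hh : TZ h) (g1 : Finset P2 → Finset Edge → ℝ)
    (φ : Finset P2 → Finset Edge → Finset Edge → ℝ)
    (hc : ∀ T ⊆ IV G, ∀ Z ⊆ IE G, (∀ e ∈ Z, (src e ∈ T ↔ tgt e ∈ T)) →
      (if T ⊆ IV F ∧ IE G \ IE F ⊆ Z then h (mkZ G T Z) else 0) =
        g1 (T \ IV B) (Z \ IE B) *
          φ (T ∩ IV B) (Z ∩ E2 src tgt (IE B) T) (Z ∩ E1 src tgt (IE B) T)) :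
    S c F h = Kc F G * ∑ T1 ∈ (IV G \ IV B).powerset, ∑ Z1 ∈ (IE G \ IE B).powerset,
      fw src tgt c (IE G \ IE B) T1 Z1 * g1 T1 Z1 * EB c (IV G) B (eta T1 Z1) φ := by
  rw [S_tz hF c hh, ← decomp c hBG g1 φ]
  have h1 := restrict c hF hFG (fun T Z => h (mkZ F T Z))
  have h2 : ∑ T ∈ (IV G).powerset, ∑ Z ∈ (IE G).powerset, fkw c G T Z * (ncl G Z : ℝ) *
      (if T ⊆ IV F ∧ IE G \ IE F ⊆ Z then h (mkZ F T (Z ∩ IE F)) else 0) =
      ∑ T ∈ (IV G).powerset, ∑ Z ∈ (IE G).powerset, fkw c G T Z * (ncl G Z : ℝ) *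
      (g1 (T \ IV B) (Z \ IE B) *
        φ (T ∩ IV B) (Z ∩ E2 src tgt (IE B) T) (Z ∩ E1 src tgt (IE B) T)) := by
    refine Finset.sum_congr rfl fun T hT => Finset.sum_congr rfl fun Z hZ => ?_
    rw [Finset.mem_powerset] at hT hZ
    by_cases hs : ∀ e ∈ Z, (src e ∈ T ↔ tgt e ∈ T)
    · rw [← hc T hT Z hZ hs]
      congr 1
      split_ifs with h3
      · rw [mkZ_restrict hFG T h3.2]
      · rfl
    · rw [fkw_eq_fw, fw_zero_of_not c _ _ hZ hs]
      ring
  rw [← h2, h1]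
  unfold Kc
  have h3 := (nw_pos (IV G) ∅).ne'
  field_simp

/-! ### (A1) and (A2) -/

open Classical in
/-- indicator of the restriction event -/
noncomputable def Ain (F G : Finset P2) (E0 : Finset Edge) (T : Finset P2) (P _M : Finset Edge) : ℝ :=
  if T ⊆ IV F ∧ E0 \ IE F ⊆ P then 1 else 0

theorem Ain_inc (F G : Finset P2) (E0 : Finset Edge) : Inc (Ain F G E0) := by
  intro T T' P P' M M' hT hP _
  unfold Ain
  by_cases h : T ⊆ IV F ∧ E0 \ IE F ⊆ P
  · rw [if_pos h, if_pos ⟨hT.trans h.1, h.2.trans hP⟩]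
  · rw [if_neg h]
    split_ifs <;> norm_num

theorem Ain_nonneg (F G : Finset P2) (E0 : Finset Edge) (T : Finset P2) (P M : Finset Edge) :
    0 ≤ Ain F G E0 T P M := by
  unfold Ain
  split_ifs <;> norm_num

/-- Representation of `E_F` inside `G ⊇ F`. -/
theorem rep (c : ℝ) {F G : Finset P2} (hF : SC (F : Set P2)) (hFG : F ⊆ G) {f : Cfg → ℝ}
    (hf : IncP f) :
    S c F f = Kc F G * EB c (IV G) G (eta ∅ ∅)
      (fun T P M => Ain F G (IE G) T P M * f (mk G T P M)) := by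
  rw [master c hF hFG (Finset.Subset.refl G) hf.tz (fun _ _ => 1)
    (fun T P M => Ain F G (IE G) T P M * f (mk G T P M))]
  · simp only [Finset.sdiff_self, Finset.powerset_empty, Finset.sum_singleton]
    unfold fw
    simp
  · intro T hT Z hZ hs
    have e1 : T ∩ IV G = T := Finset.inter_eq_left.mpr hT
    rw [e1, one_mul]
    unfold Ain
    have hiff : (T ⊆ IV F ∧ IE G \ IE F ⊆ Z) ↔
        (T ⊆ IV F ∧ IE G \ IE F ⊆ Z ∩ E2 src tgt (IE G) T) := by
      refine and_congr_right fun hTF => ?_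
      constructor
      · intro h e he
        have heF := (Finset.mem_sdiff.mp he).2
        simp only [Finset.mem_inter, E2, Finset.mem_filter]
        exact ⟨h he, (Finset.mem_sdiff.mp he).1, fun h => heF (mem_IE_of_src (hTF h)),
          fun h => heF (mem_IE_of_tgt (hTF h))⟩
      · intro h
        exact h.trans Finset.inter_subset_left
    by_cases hA : T ⊆ IV F ∧ IE G \ IE F ⊆ Z
    · rw [if_pos hA, if_pos (hiff.1 hA), one_mul]
      apply hf.eq_of_agree
      · intro v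
        rw [mkZ_dvd, mk_dvd]
      · intro e
        apply bool_eq_of_iff
        rw [mkZ_z, mk_z]
        simp only [Finset.mem_inter, E1, E2, Finset.mem_filter]
        have := fun h : e ∈ Z => hs e h
        have := fun h : e ∈ Z => hZ h
        tauto
    · rw [if_neg hA, if_neg (fun h => hA (hiff.2 h)), zero_mul]

theorem mkG_inc (G : Finset P2) {f : Cfg → ℝ} (hf : IncP f) :
    Inc (fun T P M => f (mk G T P M)) := by
  intro T T' P P' M M' hT hP hM
  exact hf _ _ (mk_leP G hT hP hM)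

theorem EB_fkg {c : ℝ} (hc : 1 ≤ c) {VA B : Finset P2} {η : BC P2 (P2 × P2)}
    (hη : η.Ok (IV B) ((IE B).image pe)) {f g : Finset P2 → Finset Edge → Finset Edge → ℝ}
    (hf : Inc f) (hg : Inc g) :
    EB c VA B η f * EB c VA B η g ≤
      EB c VA B η (fun _ _ _ => 1) * EB c VA B η (fun T P M => f T P M * g T P M) :=
  En_fkg (src := Prod.fst) (tgt := Prod.snd) (VA := VA) hc hη (lft_inc B hf) (lft_inc B hg)

theorem EB_mono {c : ℝ} (hc : 1 ≤ c) {VA B : Finset P2} {η η' : BC P2 (P2 × P2)}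
    (hη : η.Ok (IV B) ((IE B).image pe)) (hη' : η'.Ok (IV B) ((IE B).image pe)) (hle : η.Le η')
    {f : Finset P2 → Finset Edge → Finset Edge → ℝ} (hf : Inc f) :
    EB c VA B η f * EB c VA B η' (fun _ _ _ => 1) ≤
      EB c VA B η (fun _ _ _ => 1) * EB c VA B η' f :=
  En_mono (src := Prod.fst) (tgt := Prod.snd) (VA := VA) hc hη hη' hle (lft_inc B hf)

theorem EB_one_pos {c : ℝ} (hc : 1 ≤ c) {VA B : Finset P2} {η : BC P2 (P2 × P2)}
    (hη : η.Ok (IV B) ((IE B).image pe)) : 0 < EB c VA B η (fun _ _ _ => 1) :=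
  En_one_pos (src := Prod.fst) (tgt := Prod.snd) (VA := VA) hc hη

theorem eta0_ok (B : Finset P2) : (eta ∅ ∅).Ok (IV B) ((IE B).image pe) := by
  refine ⟨?_, ?_, ?_⟩ <;> simp [eta]

theorem EB_congr {c : ℝ} {VA B : Finset P2} {η : BC P2 (P2 × P2)}
    {f g : Finset P2 → Finset Edge → Finset Edge → ℝ}
    (h : ∀ T ⊆ IV B, ∀ P ⊆ IE B, ∀ M ⊆ IE B, f T P M = g T P M) :
    EB c VA B η f = EB c VA B η g := by
  unfold EB En lft
  refine Finset.sum_congr rfl fun T hT => Finset.sum_congr rfl fun M _ =>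
    Finset.sum_congr rfl fun P _ => ?_
  rw [h T (Finset.mem_powerset.mp hT) _ (Finset.filter_subset _ _) _ (Finset.filter_subset _ _)]

theorem rep_self (c : ℝ) {F : Finset P2} (hF : SC (F : Set P2)) {f : Cfg → ℝ} (hf : IncP f) :
    S c F f = Kc F F * EB c (IV F) F (eta ∅ ∅) (fun T P M => f (mk F T P M)) := by
  rw [rep c hF (Finset.Subset.refl F) hf]
  congr 1
  apply EB_congr
  intro T hT P _ M _
  unfold Ain
  rw [if_pos ⟨hT, by rw [Finset.sdiff_self]; exact Finset.empty_subset _⟩, one_mul]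

theorem incP_one : IncP (fun _ => 1) := fun _ _ _ => le_rfl

theorem Z_eq (c : ℝ) {F : Finset P2} (hF : SC (F : Set P2)) :
    Z c F = Kc F F * EB c (IV F) F (eta ∅ ∅) (fun _ _ _ => 1) := by
  rw [← S_one]
  exact rep_self c hF incP_one

/-- **(A1) Association.** -/
theorem assoc {c : ℝ} (hc : 1 ≤ c) {F : Finset P2} (hF : SC (F : Set P2)) {f g : Cfg → ℝ}
    (hf : IncP f) (hg : IncP g) :
    E c F f * E c F g ≤ E c F (fun ω => f ω * g ω) := by
  classical
  -- the product is a `TZ` function; represent it through the master formula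
  have hfg : S c F (fun ω => f ω * g ω) = Kc F F * EB c (IV F) F (eta ∅ ∅)
      (fun T P M => f (mk F T P M) * g (mk F T P M)) := by
    rw [master c hF (Finset.Subset.refl F) (Finset.Subset.refl F) (hf.tz.mul hg.tz)
      (fun _ _ => 1) (fun T P M => f (mk F T P M) * g (mk F T P M))]
    · simp only [Finset.sdiff_self, Finset.powerset_empty, Finset.sum_singleton]
      unfold fw
      simp
    · intro T hT Z hZ hs
      have e1 : T ∩ IV F = T := Finset.inter_eq_left.mpr hT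
      have e2 : IE F \ IE F ⊆ Z := by rw [Finset.sdiff_self]; exact Finset.empty_subset _
      rw [e1, one_mul, if_pos ⟨hT, e2⟩]
      have key : ∀ h : Cfg → ℝ, IncP h → h (mkZ F T Z) =
          h (mk F T (Z ∩ E2 src tgt (IE F) T) (Z ∩ E1 src tgt (IE F) T)) := by
        intro h hh
        apply hh.eq_of_agree
        · intro v
          rw [mkZ_dvd, mk_dvd]
        · intro e
          apply bool_eq_of_iff
          rw [mkZ_z, mk_z]
          simp only [Finset.mem_inter, E1, E2, Finset.mem_filter]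
          have := fun h : e ∈ Z => hs e h
          have := fun h : e ∈ Z => hZ h
          tauto
      rw [key f hf, key g hg]
  have h1 := EB_fkg hc (VA := IV F) (eta0_ok F) (mkG_inc F hf) (mkG_inc F hg)
  have hZ := Z_pos hc F
  rw [E_eq_S, E_eq_S, E_eq_S, div_mul_div_comm, div_le_div_iff₀ (mul_pos hZ hZ) hZ, hfg,
    rep_self c hF hf, rep_self c hF hg]
  have hK := Kc_pos F F
  have hZ' := Z_eq c hF
  set a := EB c (IV F) F (eta ∅ ∅) (fun T P M => f (mk F T P M))
  set b := EB c (IV F) F (eta ∅ ∅) (fun T P M => g (mk F T P M))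
  set d := EB c (IV F) F (eta ∅ ∅) (fun T P M => f (mk F T P M) * g (mk F T P M))
  set o := EB c (IV F) F (eta ∅ ∅) (fun _ _ _ => 1)
  have h2 : Kc F F * a * (Kc F F * b) ≤ Z c F * (Kc F F * d) := by
    rw [hZ']
    have := mul_le_mul_of_nonneg_left h1 (mul_pos hK hK).le
    linarith
  calc Kc F F * a * (Kc F F * b) * Z c F ≤ Z c F * (Kc F F * d) * Z c F :=
        mul_le_mul_of_nonneg_right h2 hZ.le
    _ = Kc F F * d * (Z c F * Z c F) := by ring

/-- **(A2) Domain monotonicity.** -/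
theorem dom_mono {c : ℝ} (hc : 1 ≤ c) {F F' : Finset P2} (hF : SC (F : Set P2))
    (hF' : SC (F' : Set P2)) (hFF : F ⊆ F') {f : Cfg → ℝ} (hf : IncP f) :
    E c F' f ≤ E c F f := by
  have h1 := EB_fkg hc (VA := IV F') (eta0_ok F') (Ain_inc F F' (IE F')) (mkG_inc F' hf)
  have hZ := Z_pos hc F
  have hZ' := Z_pos hc F'
  have z1 : Z c F = Kc F F' * EB c (IV F') F' (eta ∅ ∅) (Ain F F' (IE F')) := by
    rw [← S_one, rep c hF hFF incP_one]
    simp only [mul_one]
  rw [E_eq_S, E_eq_S, div_le_div_iff₀ hZ' hZ, rep c hF hFF hf, rep_self c hF' hf, z1, Z_eq c hF']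
  have hK := Kc_pos F F'
  have hK' := Kc_pos F' F'
  have := mul_le_mul_of_nonneg_left h1 (mul_pos hK' hK).le
  nlinarith [this]

end Crest.Agent.R161.AtFkE729
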