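import Crest.Agent.R161.AtFkE_729

/-!
Row 161: comparison inequalities (D+), (D-): conditionally on everything off a domain `B`, the
`(k mod 4, z)` law inside `B` is between the zero and the `2`-shifted zero boundary condition laws
of `B`.
-/

set_option autoImplicit false

namespace Crest.Agent.R161.AtFkF729

open Finset Crest.Agent.R161.Geo729 Crest.Agent.R161.Dual729 Crest.Agent.R161.DualB729
  Crest.Agent.R161.DualC729 Crest.Agent.R161.Defs372 Crest.Agent.R161.Marg729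
  Crest.Agent.R161.AtFkA729 Crest.Agent.R161.AtFkB729 Crest.Agent.R161.AtFkC729
  Crest.Agent.R161.AtFkD729 Crest.Agent.R161.Ifc372 Crest.Agent.R161.AtFkE729

/-- complete wiring of `R` avoiding the edges of `B` -/
noncomputable def CR (R B : Finset P2) : Finset (P2 × P2) := (R ×ˢ R) \ (IE B).image pe

theorem mem_CR {R B : Finset P2} {p : P2 × P2} :
    p ∈ CR R B ↔ (p.1 ∈ R ∧ p.2 ∈ R) ∧ p ∉ (IE B).image pe := by
  unfold CR
  rw [Finset.mem_sdiff, Finset.mem_product]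

theorem const_on_R {R B A : Finset P2} (h : ∀ p ∈ CR R B, (p.1 ∈ A ↔ p.2 ∈ A)) {a b : P2}
    (ha : a ∈ R) (hb : b ∈ R) : a ∈ A ↔ b ∈ A := by
  by_cases h1 : (a, b) ∈ (IE B).image pe
  · have h2 : (b, a) ∉ (IE B).image pe := by
      intro h2
      rw [Finset.mem_image] at h1 h2
      obtain ⟨e, _, he⟩ := h1
      obtain ⟨e', _, he'⟩ := h2
      exact pe_swap e e' (by rw [he, he']; rfl)
    exact (h (b, a) (mem_CR.2 ⟨⟨hb, ha⟩, h2⟩)).symm
  · exact h (a, b) (mem_CR.2 ⟨⟨ha, hb⟩, h1⟩)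

theorem nw_max {VA R B : Finset P2} (hIV : IV B ⊆ VA) (hR : Disjoint R (IV B))
    (hVR : VA \ IV B ⊆ R) {v0 : P2} (hv0 : v0 ∈ R) (hv0' : v0 ∉ VA) {Z : Finset Edge}
    (hZ : Z ⊆ IE B) : nw VA (CR R B ∪ Z.image pe) = (ncl B Z : ℝ) := by
  classical
  rw [nw_card]
  unfold ncl
  congr 2
  ext A
  simp only [Finset.mem_filter, Finset.mem_powerset]
  constructor
  · rintro ⟨hA, h⟩
    have h1 : ∀ a ∈ R, a ∉ A := by
      intro a ha haA
      exact hv0' (hA ((const_on_R (fun p hp => h p (Finset.mem_union_left _ hp)) ha hv0).1 haA))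
    refine ⟨fun v hv => ?_, fun e _ hz => ?_⟩
    · by_contra hvB
      exact h1 v (hVR (Finset.mem_sdiff.mpr ⟨hA hv, hvB⟩)) hv
    · exact h (pe e) (Finset.mem_union_right _ (Finset.mem_image_of_mem _ hz))
  · rintro ⟨hA, h⟩
    refine ⟨hA.trans hIV, fun p hp => ?_⟩
    rcases Finset.mem_union.mp hp with hp | hp
    · rw [mem_CR] at hp
      have h1 : ∀ a ∈ R, a ∉ A := fun a ha haA => (Finset.disjoint_left.mp hR) ha (hA haA)
      exact iff_of_false (h1 _ hp.1.1) (h1 _ hp.1.2)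
    · obtain ⟨e, he, rfl⟩ := Finset.mem_image.mp hp
      exact h e (hZ he) he

/-- maximal environment -/
noncomputable def etaMax (R B : Finset P2) : BC P2 (P2 × P2) := ⟨∅, CR R B, ∅⟩
/-- minimal environment -/
noncomputable def etaMin (R B : Finset P2) : BC P2 (P2 × P2) := ⟨R, ∅, CR R B⟩

theorem CR_disj (R B : Finset P2) : Disjoint (CR R B) ((IE B).image pe) :=
  Finset.sdiff_disjoint

theorem etaMax_ok (R B : Finset P2) : (etaMax R B).Ok (IV B) ((IE B).image pe) :=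
  ⟨Finset.disjoint_empty_left _, CR_disj R B, Finset.disjoint_empty_left _⟩

theorem etaMin_ok {R B : Finset P2} (hR : Disjoint R (IV B)) :
    (etaMin R B).Ok (IV B) ((IE B).image pe) :=
  ⟨hR, Finset.disjoint_empty_left _, CR_disj R B⟩

theorem etaMax_sep {R B : Finset P2} (hR : Disjoint R (IV B)) :
    Sep Prod.fst Prod.snd (IV B) (etaMax R B) := by
  constructor
  · intro p hp
    have := mem_CR.1 hp
    exact ⟨⟨fun h => (Finset.disjoint_left.mp hR) this.1.1 h,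
      fun h => (Finset.disjoint_left.mp hR) this.1.2 h⟩, by simp [etaMax], by simp [etaMax]⟩
  · intro p hp
    exact absurd hp (by simp [etaMax])

theorem etaMin_sep (R B : Finset P2) : Sep Prod.fst Prod.snd (IV B) (etaMin R B) := by
  constructor
  · intro p hp
    exact absurd hp (by simp [etaMin])
  · intro p hp
    exact (mem_CR.1 hp).1

theorem EB_max (c : ℝ) {VA R B : Finset P2} (hIV : IV B ⊆ VA) (hR : Disjoint R (IV B))
    (hVR : VA \ IV B ⊆ R) {v0 : P2} (hv0 : v0 ∈ R) (hv0' : v0 ∉ VA)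
    (φ : Finset P2 → Finset Edge → Finset Edge → ℝ) :
    EB c VA B (etaMax R B) φ * nw (IV B) ∅ = nw VA ∅ * EB c (IV B) B (eta ∅ ∅) φ := by
  have hs0 : Sep Prod.fst Prod.snd (IV B) (eta ∅ ∅) := by
    constructor <;> intro p hp <;> exact absurd hp (by simp [eta])
  rw [EB_eq c VA B (etaMax_sep hR), EB_eq c (IV B) B hs0]
  have h1 : ∀ T ∈ (IV B).powerset, ∀ Z ∈ (IE B).powerset,
      fw src tgt c (IE B) (T ∪ (etaMax R B).T0) Z *
        nw VA ((etaMax R B).Dp ∪ (etaMax R B).Dm ∪ Z.image pe) *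
        φ T (Z ∩ E2 src tgt (IE B) (T ∪ (etaMax R B).T0))
          (Z ∩ E1 src tgt (IE B) (T ∪ (etaMax R B).T0)) =
      fw src tgt c (IE B) (T ∪ (eta ∅ ∅).T0) Z *
        nw (IV B) ((eta ∅ ∅).Dp ∪ (eta ∅ ∅).Dm ∪ Z.image pe) *
        φ T (Z ∩ E2 src tgt (IE B) (T ∪ (eta ∅ ∅).T0))
          (Z ∩ E1 src tgt (IE B) (T ∪ (eta ∅ ∅).T0)) := by
    intro T _ Z hZ
    rw [Finset.mem_powerset] at hZ
    have e1 : (etaMax R B).Dp ∪ (etaMax R B).Dm ∪ Z.image pe = CR R B ∪ Z.image pe := by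
      simp [etaMax]
    have e2 : (eta ∅ ∅).Dp ∪ (eta ∅ ∅).Dm ∪ Z.image pe = Z.image pe := by
      simp [eta]
    rw [e1, e2, nw_max hIV hR hVR hv0 hv0' hZ, ncl_eq B hZ]
    rfl
  rw [Finset.sum_congr rfl (fun T hT => Finset.sum_congr rfl (h1 T hT))]
  ring

theorem ncl_min {G R B : Finset P2} (hRdef : R = IV G \ IV B) (hIV : IV B ⊆ IV G) {r0 : P2}
    (hr0 : r0 ∈ R) (hG : ∀ e ∈ IE B, src e ∈ IV G ∧ tgt e ∈ IV G) {Z : Finset Edge}
    (hZ : Z ⊆ IE B) : nw (IV G) (CR R B ∪ Z.image pe) = 2 * (ncl B Z : ℝ) := by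
  classical
  have hRG : R ⊆ IV G := hRdef ▸ Finset.sdiff_subset
  have hRB : ∀ a ∈ R, a ∉ IV B := fun a ha => by
    rw [hRdef] at ha; exact (Finset.mem_sdiff.mp ha).2
  obtain ⟨Full, hFull⟩ : ∃ Full : Finset (Finset P2), Full = (IV G).powerset.filter
    (fun A => ∀ p ∈ CR R B ∪ Z.image pe, (p.1 ∈ A ↔ p.2 ∈ A)) := ⟨_, rfl⟩
  obtain ⟨N, hN⟩ : ∃ N : Finset (Finset P2), N = (IV B).powerset.filter
    (fun T => ∀ e ∈ IE B, e ∈ Z → (src e ∈ T ↔ tgt e ∈ T)) := ⟨_, rfl⟩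
  have ea : nw (IV G) (CR R B ∪ Z.image pe) = (Full.card : ℝ) := by
    rw [nw_card, hFull]
    congr!
  have eb : (ncl B Z : ℝ) = (N.card : ℝ) := by
    unfold ncl
    rw [hN]
  rw [ea, eb]
  have h1 : Full.filter (fun A => r0 ∉ A) = N := by
    ext A
    simp only [hFull, hN, Finset.mem_filter, Finset.mem_powerset]
    constructor
    · rintro ⟨⟨hA, h⟩, hr⟩
      have h1 : ∀ a ∈ R, a ∉ A := by
        intro a ha haA
        exact hr ((const_on_R (fun p hp => h p (Finset.mem_union_left _ hp)) ha hr0).1 haA)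
      refine ⟨fun v hv => ?_, fun e _ hz => ?_⟩
      · by_contra hvB
        exact h1 v (hRdef ▸ Finset.mem_sdiff.mpr ⟨hA hv, hvB⟩) hv
      · exact h (pe e) (Finset.mem_union_right _ (Finset.mem_image_of_mem _ hz))
    · rintro ⟨hA, h⟩
      have h1 : ∀ a ∈ R, a ∉ A := fun a ha haA => hRB a ha (hA haA)
      refine ⟨⟨hA.trans hIV, fun p hp => ?_⟩, h1 r0 hr0⟩
      rcases Finset.mem_union.mp hp with hp | hp
      · rw [mem_CR] at hp
        exact iff_of_false (h1 _ hp.1.1) (h1 _ hp.1.2)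
      · obtain ⟨e, he, rfl⟩ := Finset.mem_image.mp hp
        exact h e (hZ he) he
  have hcompl : ∀ A ∈ Full, IV G \ A ∈ Full := by
    intro A hA
    simp only [hFull, Finset.mem_filter, Finset.mem_powerset] at hA ⊢
    refine ⟨Finset.sdiff_subset, fun p hp => ?_⟩
    have h2 := hA.2 p hp
    have h3 : p.1 ∈ IV G ∧ p.2 ∈ IV G := by
      rcases Finset.mem_union.mp hp with hp | hp
      · rw [mem_CR] at hp
        exact ⟨hRG hp.1.1, hRG hp.1.2⟩
      · obtain ⟨e, he, rfl⟩ := Finset.mem_image.mp hp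
        exact hG e (hZ he)
    simp only [Finset.mem_sdiff, h3.1, h3.2, true_and]
    exact not_congr h2
  have hdd : ∀ A ∈ Full, IV G \ (IV G \ A) = A := by
    intro A hA
    have hA' : A ⊆ IV G := by
      simp only [hFull, Finset.mem_filter, Finset.mem_powerset] at hA
      exact hA.1
    ext x
    have := fun h : x ∈ A => hA' h
    simp only [Finset.mem_sdiff]
    tauto
  have hr0G : r0 ∈ IV G := hRG hr0
  have h2 : (Full.filter (fun A => r0 ∈ A)).card = (Full.filter (fun A => r0 ∉ A)).card := by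
    refine Finset.card_bij' (fun A _ => IV G \ A) (fun A _ => IV G \ A) ?_ ?_ ?_ ?_
    · intro A hA
      rw [Finset.mem_filter] at hA ⊢
      exact ⟨hcompl A hA.1, fun h => (Finset.mem_sdiff.mp h).2 hA.2⟩
    · intro A hA
      rw [Finset.mem_filter] at hA ⊢
      exact ⟨hcompl A hA.1, Finset.mem_sdiff.mpr ⟨hr0G, hA.2⟩⟩
    · intro A hA
      exact hdd A (Finset.mem_filter.mp hA).1
    · intro A hA
      exact hdd A (Finset.mem_filter.mp hA).1
  have h3 : (Full.filter (fun A => r0 ∈ A)).card + (Full.filter (fun A => ¬ r0 ∈ A)).card =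
      Full.card := Finset.card_filter_add_card_filter_not _
  rw [h2, h1] at h3
  have h4 : (Full.card : ℝ) = (N.card : ℝ) + (N.card : ℝ) := by exact_mod_cast h3.symm
  rw [h4]
  ring

theorem sum_powerset_compl {α : Type*} [DecidableEq α] (A : Finset α) (F : Finset α → ℝ) :
    ∑ T ∈ A.powerset, F T = ∑ T ∈ A.powerset, F (A \ T) := by
  have hdd : ∀ T ∈ A.powerset, A \ (A \ T) = T := by
    intro T hT
    rw [Finset.mem_powerset] at hT
    ext x
    have := fun h : x ∈ T => hT h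
    simp only [Finset.mem_sdiff]
    tauto
  refine Finset.sum_bij' (fun T _ => A \ T) (fun T _ => A \ T)
    (fun T _ => Finset.mem_powerset.mpr Finset.sdiff_subset)
    (fun T _ => Finset.mem_powerset.mpr Finset.sdiff_subset) hdd hdd ?_
  intro T hT
  rw [hdd T hT]

theorem EB_min (c : ℝ) {G R B : Finset P2} (hRdef : R = IV G \ IV B) (hB : SC (B : Set P2))
    (hIV : IV B ⊆ IV G) {r0 : P2} (hr0 : r0 ∈ R)
    (hG : ∀ e ∈ IE B, src e ∈ IV G ∧ tgt e ∈ IV G) {f : Cfg → ℝ} (hf : IncP f)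
    (hin : InTZ B f) :
    EB c (IV G) B (etaMin R B) (fun T P M => f (mk B T P M)) *
      ((N0 B : ℝ) / 2 ^ (IV B).card) =
    2 * nw (IV G) ∅ * S c B (fun ω => f (addH 2 ω)) := by
  rw [S_tz hB c (hf.tz.addH 2), EB_eq c (IV G) B (etaMin_sep R B)]
  rw [sum_powerset_compl (IV B)]
  have h1 : ∀ T ∈ (IV B).powerset, ∀ Z ∈ (IE B).powerset,
      fw src tgt c (IE B) ((IV B \ T) ∪ (etaMin R B).T0) Z *
        nw (IV G) ((etaMin R B).Dp ∪ (etaMin R B).Dm ∪ Z.image pe) *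
        f (mk B (IV B \ T) (Z ∩ E2 src tgt (IE B) ((IV B \ T) ∪ (etaMin R B).T0))
          (Z ∩ E1 src tgt (IE B) ((IV B \ T) ∪ (etaMin R B).T0))) =
      2 * (fkw c B T Z * (ncl B Z : ℝ) * f (addH 2 (mkZ B T Z))) := by
    intro T hT Z hZ
    rw [Finset.mem_powerset] at hT hZ
    have e0 : (etaMin R B).T0 = R := rfl
    have e1 : (etaMin R B).Dp ∪ (etaMin R B).Dm ∪ Z.image pe = CR R B ∪ Z.image pe := by
      simp [etaMin]
    rw [e0, e1, ncl_min hRdef hIV hr0 hG hZ]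
    have hmem : ∀ v ∈ IV G, (v ∈ (IV B \ T) ∪ R ↔ v ∉ T) := by
      intro v hv
      have := fun h : v ∈ T => hT h
      rw [hRdef]
      simp only [Finset.mem_union, Finset.mem_sdiff]
      tauto
    have hfw : fw src tgt c (IE B) ((IV B \ T) ∪ R) Z = fkw c B T Z := by
      rw [fkw_eq_fw]
      unfold fw
      refine Finset.prod_congr rfl fun e he => ?_
      have h2 : (src e ∈ (IV B \ T) ∪ R ↔ tgt e ∈ (IV B \ T) ∪ R) ↔ (src e ∈ T ↔ tgt e ∈ T) := by
        rw [hmem _ (hG e he).1, hmem _ (hG e he).2]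
        tauto
      simp only [h2]
    rw [hfw]
    by_cases hs : ∀ e ∈ Z, (src e ∈ T ↔ tgt e ∈ T)
    · have h3 : f (mk B (IV B \ T) (Z ∩ E2 src tgt (IE B) ((IV B \ T) ∪ R))
          (Z ∩ E1 src tgt (IE B) ((IV B \ T) ∪ R))) = f (addH 2 (mkZ B T Z)) := by
        apply hin.eq_of_agree hf
        · intro v hv
          rw [mk_dvd]
          have h4 : (4 : ℤ) ∣ (addH 2 (mkZ B T Z)).1 v ↔ v ∈ T := by
            unfold Defs372.addH mkZ
            by_cases h : v ∈ T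
            · simp [h]
            · simp only [h, if_false, iff_false]; norm_num
          rw [h4, Finset.mem_sdiff]
          tauto
        · intro e he hsrc
          apply bool_eq_of_iff
          have h4 : (addH 2 (mkZ B T Z)).2.2 e = (mkZ B T Z).2.2 e := rfl
          rw [h4, mk_z, mkZ_z]
          have a1 := hmem _ (hG e he).1
          have a2 := hmem _ (hG e he).2
          have a3 := fun h : e ∈ Z => hs e h
          simp only [Finset.mem_inter, E1, E2, Finset.mem_filter, a1, a2, Finset.mem_sdiff]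
          tauto
      rw [h3]
      ring
    · rw [fkw_eq_fw, fw_zero_of_not c _ _ hZ hs]
      ring
  rw [Finset.sum_congr rfl (fun T hT => Finset.sum_congr rfl (h1 T hT))]
  simp only [← Finset.mul_sum]
  ring

open Classical in
/-- outer factor -/
noncomputable def gout (F G B : Finset P2) (g : Cfg → ℝ) (T1 : Finset P2) (Z1 : Finset Edge) : ℝ :=
  if T1 ⊆ IV F ∧ (IE G \ IE B) \ IE F ⊆ Z1 then g (mkZ G T1 Z1) else 0

/-- **Environment representation.** -/
theorem env (c : ℝ) {F G B : Finset P2} (hF : SC (F : Set P2)) (hFG : F ⊆ G) (hBG : B ⊆ G)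
    {f g : Cfg → ℝ} (hf : IncP f) (hin : InTZ B f) (hg : OffTZ B g) :
    S c F (fun ω => g ω * f ω) =
      Kc F G * ∑ T1 ∈ (IV G \ IV B).powerset, ∑ Z1 ∈ (IE G \ IE B).powerset,
        fw src tgt c (IE G \ IE B) T1 Z1 * gout F G B g T1 Z1 *
          EB c (IV G) B (eta T1 Z1)
            (fun T P M => Ain F G (IE B) T P M * f (mk B T P M)) := by
  classical
  refine master c hF hFG hBG ((OffTZ_tz hg).mul hf.tz) (gout F G B g)
    (fun T P M => Ain F G (IE B) T P M * f (mk B T P M)) ?_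
  intro T hT Z hZ hs
  have hgv : g (mkZ G T Z) = g (mkZ G (T \ IV B) (Z \ IE B)) := by
    refine hg _ _ (fun v hv => ?_) (fun e he => ?_)
    · have hv' : v ∉ IV B := hv
      unfold mkZ
      simp only [Finset.mem_sdiff, hv', not_false_eq_true, and_true, sub_self, dvd_zero]
    · have he' : e ∉ IE B := he
      apply bool_eq_of_iff
      rw [mkZ_z, mkZ_z, Finset.mem_sdiff]
      tauto
  have hfv : f (mkZ G T Z) = f (mk B (T ∩ IV B) (Z ∩ E2 src tgt (IE B) T)
      (Z ∩ E1 src tgt (IE B) T)) := by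
    apply hin.eq_of_agree hf
    · intro v hv
      rw [mkZ_dvd, mk_dvd, Finset.mem_inter]
      tauto
    · intro e he hsrc
      apply bool_eq_of_iff
      rw [mkZ_z, mk_z]
      have h1 := IE_mono hBG he
      have h2 := fun h : e ∈ Z => hs e h
      simp only [Finset.mem_inter, E1, E2, Finset.mem_filter]
      tauto
  have hiff : (T ⊆ IV F ∧ IE G \ IE F ⊆ Z) ↔
      ((T \ IV B ⊆ IV F ∧ (IE G \ IE B) \ IE F ⊆ Z \ IE B) ∧
        (T ∩ IV B ⊆ IV F ∧ IE B \ IE F ⊆ Z ∩ E2 src tgt (IE B) T)) := by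
    constructor
    · rintro ⟨h1, h2⟩
      refine ⟨⟨Finset.sdiff_subset.trans h1, fun e he => ?_⟩,
        ⟨Finset.inter_subset_left.trans h1, fun e he => ?_⟩⟩
      · rw [Finset.mem_sdiff, Finset.mem_sdiff] at he
        exact Finset.mem_sdiff.mpr ⟨h2 (Finset.mem_sdiff.mpr ⟨he.1.1, he.2⟩), he.1.2⟩
      · rw [Finset.mem_sdiff] at he
        simp only [Finset.mem_inter, E2, Finset.mem_filter]
        exact ⟨h2 (Finset.mem_sdiff.mpr ⟨IE_mono hBG he.1, he.2⟩), he.1,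
          fun h => he.2 (mem_IE_of_src (h1 h)), fun h => he.2 (mem_IE_of_tgt (h1 h))⟩
    · rintro ⟨⟨h1, h2⟩, h3, h4⟩
      constructor
      · intro v hv
        by_cases hvB : v ∈ IV B
        · exact h3 (Finset.mem_inter.mpr ⟨hv, hvB⟩)
        · exact h1 (Finset.mem_sdiff.mpr ⟨hv, hvB⟩)
      · intro e he
        rw [Finset.mem_sdiff] at he
        by_cases heB : e ∈ IE B
        · exact (Finset.mem_inter.mp (h4 (Finset.mem_sdiff.mpr ⟨heB, he.2⟩))).1
        · exact (Finset.mem_sdiff.mp (h2 (Finset.mem_sdiff.mpr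
            ⟨Finset.mem_sdiff.mpr ⟨he.1, heB⟩, he.2⟩))).1
  unfold gout Ain
  by_cases hA : T ⊆ IV F ∧ IE G \ IE F ⊆ Z
  · have hA' := hiff.1 hA
    rw [if_pos hA, if_pos hA'.1, if_pos hA'.2, one_mul, hgv, hfv]
  · rw [if_neg hA]
    by_cases h1 : T \ IV B ⊆ IV F ∧ (IE G \ IE B) \ IE F ⊆ Z \ IE B
    · rw [if_neg (fun h2 => hA (hiff.2 ⟨h1, h2⟩))]
      ring
    · rw [if_neg h1]
      ring

theorem inTZ_one (B : Finset P2) : InTZ B (fun _ => 1) := fun _ _ _ _ => rfl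

theorem env_one (c : ℝ) {F G B : Finset P2} (hF : SC (F : Set P2)) (hFG : F ⊆ G) (hBG : B ⊆ G)
    {g : Cfg → ℝ} (hg : OffTZ B g) :
    S c F g =
      Kc F G * ∑ T1 ∈ (IV G \ IV B).powerset, ∑ Z1 ∈ (IE G \ IE B).powerset,
        fw src tgt c (IE G \ IE B) T1 Z1 * gout F G B g T1 Z1 *
          EB c (IV G) B (eta T1 Z1) (Ain F G (IE B)) := by
  have h := env c hF hFG hBG incP_one (inTZ_one B) hg
  simp only [mul_one] at h
  exact h

theorem gout_nonneg {F G B : Finset P2} {g : Cfg → ℝ} (hg : ∀ ω, 0 ≤ g ω) (T1 : Finset P2)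
    (Z1 : Finset Edge) : 0 ≤ gout F G B g T1 Z1 := by
  unfold gout
  split_ifs
  · exact hg _
  · exact le_rfl

theorem fw_nonneg {c : ℝ} (hc : 1 ≤ c) (E : Finset Edge) (X : Finset P2) (Z : Finset Edge) :
    0 ≤ fw src tgt c E X Z := by
  unfold fw
  refine Finset.prod_nonneg fun e _ => ?_
  split_ifs <;> first | exact zero_le_two | exact zero_le_one | exact le_rfl | linarith

/-- Comparison of sums over environments. -/
theorem sum_env_le {c : ℝ} (hc : 1 ≤ c) {F G B : Finset P2} {g : Cfg → ℝ} (hg : ∀ ω, 0 ≤ g ω)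
    {a b : BC P2 (P2 × P2) → ℝ}
    (h : ∀ T1 ⊆ IV G \ IV B, ∀ Z1 ⊆ IE G \ IE B, (∀ e ∈ Z1, (src e ∈ T1 ↔ tgt e ∈ T1)) →
      a (eta T1 Z1) ≤ b (eta T1 Z1)) :
    Kc F G * ∑ T1 ∈ (IV G \ IV B).powerset, ∑ Z1 ∈ (IE G \ IE B).powerset,
        fw src tgt c (IE G \ IE B) T1 Z1 * gout F G B g T1 Z1 * a (eta T1 Z1) ≤
      Kc F G * ∑ T1 ∈ (IV G \ IV B).powerset, ∑ Z1 ∈ (IE G \ IE B).powerset,
        fw src tgt c (IE G \ IE B) T1 Z1 * gout F G B g T1 Z1 * b (eta T1 Z1) := by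
  refine mul_le_mul_of_nonneg_left (Finset.sum_le_sum fun T1 hT1 => Finset.sum_le_sum
    fun Z1 hZ1 => ?_) (Kc_pos F G).le
  rw [Finset.mem_powerset] at hT1 hZ1
  by_cases hs : ∀ e ∈ Z1, (src e ∈ T1 ↔ tgt e ∈ T1)
  · exact mul_le_mul_of_nonneg_left (h T1 hT1 Z1 hZ1 hs)
      (mul_nonneg (fw_nonneg hc _ _ _) (gout_nonneg hg _ _))
  · rw [fw_zero_of_not c _ _ hZ1 hs]
    simp

/-- **(D+)** Upper comparison. -/
theorem up {c : ℝ} (hc : 1 ≤ c) {F B : Finset P2} (hF : SC (F : Set P2)) (hB : SC (B : Set P2))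
    (hBF : B ⊆ F) {f g : Cfg → ℝ} (hf : IncP f) (hin : InTZ B f) (hg0 : ∀ ω, 0 ≤ g ω)
    (hg : OffTZ B g) :
    E c F (fun ω => g ω * f ω) ≤ E c F g * E c B f := by
  classical
  obtain ⟨v0, hv0⟩ := Infinite.exists_notMem_finset (IV F)
  set R : Finset P2 := ((IE F).image src ∪ (IE F).image tgt ∪ IV F ∪ {v0}) \ IV B with hR
  have hRd : Disjoint R (IV B) := Finset.sdiff_disjoint
  have hVR : IV F \ IV B ⊆ R := by
    intro v hv
    rw [Finset.mem_sdiff] at hv
    rw [hR, Finset.mem_sdiff]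
    refine ⟨?_, hv.2⟩
    simp only [Finset.mem_union]
    exact Or.inl (Or.inr hv.1)
  have hv0R : v0 ∈ R := by
    rw [hR, Finset.mem_sdiff]
    refine ⟨by simp, fun h => hv0 (IV_mono hBF h)⟩
  -- one environment
  set fB : Finset P2 → Finset Edge → Finset Edge → ℝ := fun T P M => f (mk B T P M) with hfB
  have hincB : Inc fB := mkG_inc B hf
  have hloc : ∀ T1 ⊆ IV F \ IV B, ∀ Z1 ⊆ IE F \ IE B, (∀ e ∈ Z1, (src e ∈ T1 ↔ tgt e ∈ T1)) →
      EB c (IV F) B (eta T1 Z1) fB * EB c (IV B) B (eta ∅ ∅) (fun _ _ _ => 1) ≤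
        EB c (IV F) B (eta T1 Z1) (fun _ _ _ => 1) * EB c (IV B) B (eta ∅ ∅) fB := by
    intro T1 hT1 Z1 hZ1 hs
    have hle : (eta T1 Z1).Le (etaMax R B) := by
      refine ⟨Finset.empty_subset _, ?_, Finset.empty_subset _⟩
      intro p hp
      simp only [eta, Finset.mem_image, Finset.mem_filter] at hp
      obtain ⟨e, ⟨he1, _⟩, rfl⟩ := hp
      have heF := Finset.mem_sdiff.mp (hZ1 he1)
      show pe e ∈ CR R B
      rw [mem_CR]
      refine ⟨⟨?_, ?_⟩, ?_⟩
      · show src e ∈ R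
        rw [hR, Finset.mem_sdiff]
        refine ⟨?_, fun h => heF.2 (mem_IE_of_src h)⟩
        simp only [Finset.mem_union]
        exact Or.inl (Or.inl (Or.inl (Finset.mem_image_of_mem _ heF.1)))
      · show tgt e ∈ R
        rw [hR, Finset.mem_sdiff]
        refine ⟨?_, fun h => heF.2 (mem_IE_of_tgt h)⟩
        simp only [Finset.mem_union]
        exact Or.inl (Or.inl (Or.inr (Finset.mem_image_of_mem _ heF.1)))
      · intro h
        rw [Finset.mem_image] at h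
        obtain ⟨e', he', h⟩ := h
        rw [pe_inj h] at he'
        exact heF.2 he'
    have h1 := EB_mono hc (VA := IV F) (eta_ok hT1 hZ1) (etaMax_ok R B) hle hincB
    have h2 := EB_max c (IV_mono hBF) hRd hVR hv0R hv0 fB
    have h3 := EB_max c (IV_mono hBF) hRd hVR hv0R hv0 (fun _ _ _ => 1)
    have p1 := nw_pos (IV B) ∅
    have p2 := nw_pos (IV F) ∅
    have h4 := mul_le_mul_of_nonneg_right h1 p1.le
    have h5 : EB c (IV F) B (eta T1 Z1) fB * (nw (IV F) ∅ *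
        EB c (IV B) B (eta ∅ ∅) (fun _ _ _ => 1)) ≤
        EB c (IV F) B (eta T1 Z1) (fun _ _ _ => 1) * (nw (IV F) ∅ *
          EB c (IV B) B (eta ∅ ∅) fB) := by
      rw [← h2, ← h3]
      linarith
    have h6 : nw (IV F) ∅ * (EB c (IV F) B (eta T1 Z1) fB *
        EB c (IV B) B (eta ∅ ∅) (fun _ _ _ => 1)) ≤ nw (IV F) ∅ *
        (EB c (IV F) B (eta T1 Z1) (fun _ _ _ => 1) * EB c (IV B) B (eta ∅ ∅) fB) := by
      linarith
    exact le_of_mul_le_mul_left h6 p2
  -- drop the (trivial) restriction factor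
  have hdrop : ∀ (η : BC P2 (P2 × P2)) (h : Cfg → ℝ),
      EB c (IV F) B η (fun T P M => Ain F F (IE B) T P M * h (mk B T P M)) =
        EB c (IV F) B η (fun T P M => h (mk B T P M)) := by
    intro η h
    apply EB_congr
    intro T hT P _ M _
    unfold Ain
    rw [if_pos ⟨hT.trans (IV_mono hBF), by
      rw [Finset.sdiff_eq_empty_iff_subset.mpr (IE_mono hBF)]; exact Finset.empty_subset _⟩,
      one_mul]
  have hdrop1 : ∀ (η : BC P2 (P2 × P2)), EB c (IV F) B η (Ain F F (IE B)) =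
        EB c (IV F) B η (fun _ _ _ => 1) := by
    intro η
    have := hdrop η (fun _ => 1)
    simpa using this
  have s1 := env c hF (Finset.Subset.refl F) hBF hf hin hg
  have s2 := env_one c hF (Finset.Subset.refl F) hBF hg
  simp only [hdrop] at s1
  simp only [hdrop1] at s2
  have hmain : S c F (fun ω => g ω * f ω) * EB c (IV B) B (eta ∅ ∅) (fun _ _ _ => 1) ≤
      S c F g * EB c (IV B) B (eta ∅ ∅) fB := by
    have h7 := sum_env_le hc (F := F) (G := F) (B := B) hg0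
      (a := fun η => EB c (IV F) B η fB * EB c (IV B) B (eta ∅ ∅) (fun _ _ _ => 1))
      (b := fun η => EB c (IV F) B η (fun _ _ _ => 1) * EB c (IV B) B (eta ∅ ∅) fB) hloc
    rw [s1, s2, mul_assoc, mul_assoc, Finset.sum_mul, Finset.sum_mul]
    simp only [Finset.sum_mul, mul_assoc] at h7 ⊢
    exact h7
  have hZF := Z_pos hc F
  have hZB := Z_pos hc B
  have hKB := Kc_pos B B
  have o1 : 0 < EB c (IV B) B (eta ∅ ∅) (fun _ _ _ => 1) := EB_one_pos hc (eta0_ok B)
  have hEB : E c B f = EB c (IV B) B (eta ∅ ∅) fB / EB c (IV B) B (eta ∅ ∅) (fun _ _ _ => 1) := by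
    rw [E_eq_S, rep_self c hB hf, Z_eq c hB]
    exact mul_div_mul_left _ _ hKB.ne'
  rw [hEB, E_eq_S, E_eq_S, div_mul_div_comm, div_le_div_iff₀ hZF (mul_pos hZF o1)]
  nlinarith [mul_le_mul_of_nonneg_left hmain hZF.le]

theorem exists_big (F B : Finset P2) : ∃ G : Finset P2, F ⊆ G ∧ B ⊆ G ∧
    (∀ e ∈ IE B, src e ∈ IV G ∧ tgt e ∈ IV G) ∧ ∃ r0, r0 ∈ IV G \ IV B := by
  classical
  let nb : P2 → Finset P2 := fun v =>
    {(v.1, v.2), (v.1 - 1, v.2), (v.1, v.2 - 1), (v.1 - 1, v.2 - 1)}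
  obtain ⟨r0, hr0⟩ := Infinite.exists_notMem_finset (IV B)
  let V : Finset P2 := (IE B).image src ∪ (IE B).image tgt ∪ {r0}
  let G : Finset P2 := F ∪ B ∪ V.biUnion nb
  have hV : ∀ v ∈ V, v ∈ IV G := by
    intro v hv
    rw [mem_IV]
    have h1 : ∀ w ∈ nb v, w ∈ G := fun w hw =>
      Finset.mem_union_right _ (Finset.mem_biUnion.mpr ⟨v, hv, hw⟩)
    exact ⟨h1 _ (by simp [nb]), h1 _ (by simp [nb]), h1 _ (by simp [nb]), h1 _ (by simp [nb])⟩
  refine ⟨G, ?_, ?_, ?_, r0, ?_⟩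
  · exact Finset.subset_union_left.trans Finset.subset_union_left
  · exact Finset.subset_union_right.trans Finset.subset_union_left
  · intro e he
    refine ⟨hV _ ?_, hV _ ?_⟩
    · simp only [V, Finset.mem_union]
      exact Or.inl (Or.inl (Finset.mem_image_of_mem _ he))
    · simp only [V, Finset.mem_union]
      exact Or.inl (Or.inr (Finset.mem_image_of_mem _ he))
  · rw [Finset.mem_sdiff]
    exact ⟨hV _ (by simp [V]), hr0⟩

/-- **(D-)** Lower comparison (`B` in arbitrary position). -/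
theorem low {c : ℝ} (hc : 1 ≤ c) {F B : Finset P2} (hF : SC (F : Set P2)) (hB : SC (B : Set P2))
    {f g : Cfg → ℝ} (hf : IncP f) (hin : InTZ B f) (hg0 : ∀ ω, 0 ≤ g ω)
    (hg : OffTZ B g) :
    E c F g * E c B (fun ω => f (addH 2 ω)) ≤ E c F (fun ω => g ω * f ω) := by
  classical
  obtain ⟨G, hFG, hBG, hG, r0, hr0⟩ := exists_big F B
  set R : Finset P2 := IV G \ IV B with hR
  have hRd : Disjoint R (IV B) := Finset.sdiff_disjoint
  have hIV : IV B ⊆ IV G := IV_mono hBG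
  set fB : Finset P2 → Finset Edge → Finset Edge → ℝ := fun T P M => f (mk B T P M) with hfB
  have hincB : Inc fB := mkG_inc B hf
  set mf := EB c (IV G) B (etaMin R B) fB with hmf
  set m1 := EB c (IV G) B (etaMin R B) (fun _ _ _ => 1) with hm1
  have hm1pos : 0 < m1 := EB_one_pos hc (etaMin_ok hRd)
  have hloc : ∀ T1 ⊆ IV G \ IV B, ∀ Z1 ⊆ IE G \ IE B, (∀ e ∈ Z1, (src e ∈ T1 ↔ tgt e ∈ T1)) →
      EB c (IV G) B (eta T1 Z1) (Ain F G (IE B)) * mf ≤
        EB c (IV G) B (eta T1 Z1) (fun T P M => Ain F G (IE B) T P M * fB T P M) * m1 := by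
    intro T1 hT1 Z1 hZ1 hs
    have hle : (etaMin R B).Le (eta T1 Z1) := by
      refine ⟨hT1, Finset.empty_subset _, ?_⟩
      intro p hp
      simp only [eta, Finset.mem_image, Finset.mem_filter] at hp
      obtain ⟨e, ⟨he1, he2⟩, rfl⟩ := hp
      have heG := Finset.mem_sdiff.mp (hZ1 he1)
      show pe e ∈ CR R B
      rw [mem_CR]
      refine ⟨⟨hT1 he2, hT1 ((hs e he1).1 he2)⟩, ?_⟩
      intro h
      rw [Finset.mem_image] at h
      obtain ⟨e', he', h⟩ := h
      rw [pe_inj h] at he'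
      exact heG.2 he'
    have hok := eta_ok (B := B) (G := G) hT1 hZ1
    have h1 := EB_mono hc (VA := IV G) (etaMin_ok hRd) hok hle hincB
    have h2 := EB_fkg hc (VA := IV G) hok (Ain_inc F G (IE B)) hincB
    have o1 : 0 < EB c (IV G) B (eta T1 Z1) (fun _ _ _ => 1) := EB_one_pos hc hok
    have hA : 0 ≤ EB c (IV G) B (eta T1 Z1) (Ain F G (IE B)) := by
      unfold EB En
      refine Finset.sum_nonneg fun T _ => Finset.sum_nonneg fun M _ => Finset.sum_nonneg
        fun P _ => ?_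
      exact mul_nonneg (mul_nonneg (aw_nonneg _ _ _ hc _ _ _) (aw_nonneg _ _ _ hc _ _ _))
        (Ain_nonneg F G (IE B) _ _ _)
    set o := EB c (IV G) B (eta T1 Z1) (fun _ _ _ => 1)
    set a := EB c (IV G) B (eta T1 Z1) (Ain F G (IE B))
    set b := EB c (IV G) B (eta T1 Z1) fB
    set d := EB c (IV G) B (eta T1 Z1) (fun T P M => Ain F G (IE B) T P M * fB T P M)
    -- h1 : mf * o ≤ m1 * b ; h2 : a * b ≤ o * d
    have h3 : a * (mf * o) ≤ a * (m1 * b) := mul_le_mul_of_nonneg_left h1 hA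
    have h4 : m1 * (a * b) ≤ m1 * (o * d) := mul_le_mul_of_nonneg_left h2 hm1pos.le
    have h5 : o * (a * mf) ≤ o * (d * m1) := by linarith
    exact le_of_mul_le_mul_left h5 o1
  have s1 := env c hF hFG hBG hf hin hg
  have s2 := env_one c hF hFG hBG hg
  have hmain : S c F g * mf ≤ S c F (fun ω => g ω * f ω) * m1 := by
    have h7 := sum_env_le hc (F := F) (G := G) (B := B) hg0
      (a := fun η => EB c (IV G) B η (Ain F G (IE B)) * mf)
      (b := fun η => EB c (IV G) B η (fun T P M => Ain F G (IE B) T P M * fB T P M) * m1) hloc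
    rw [s1, s2, mul_assoc, mul_assoc, Finset.sum_mul, Finset.sum_mul]
    simp only [Finset.sum_mul, mul_assoc] at h7 ⊢
    exact h7
  have e1 := EB_min c hR hB hIV hr0 hG hf hin
  have e2 := EB_min c hR hB hIV hr0 hG incP_one (inTZ_one B)
  rw [S_one] at e2
  have hZF := Z_pos hc F
  have hZB := Z_pos hc B
  have hn : (0 : ℝ) < N0 B := by exact_mod_cast N0_pos B
  have hk : (0 : ℝ) < (N0 B : ℝ) / 2 ^ (IV B).card := by positivity
  have hnw := nw_pos (IV G) ∅
  have hratio : E c B (fun ω => f (addH 2 ω)) = mf / m1 := by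
    rw [E_eq_S, div_eq_div_iff hZB.ne' hm1pos.ne']
    have h8 : (2 * nw (IV G) ∅) * ((N0 B : ℝ) / 2 ^ (IV B).card) *
        (S c B (fun ω => f (addH 2 ω)) * m1) =
        (2 * nw (IV G) ∅) * ((N0 B : ℝ) / 2 ^ (IV B).card) * (mf * Z c B) := by
      calc _ = (2 * nw (IV G) ∅ * S c B (fun ω => f (addH 2 ω))) *
            (m1 * ((N0 B : ℝ) / 2 ^ (IV B).card)) := by ring
        _ = (mf * ((N0 B : ℝ) / 2 ^ (IV B).card)) * (2 * nw (IV G) ∅ * Z c B) := by
            rw [← e1, e2]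
        _ = _ := by ring
    exact mul_left_cancel₀ (by positivity) h8
  rw [hratio, E_eq_S, E_eq_S, div_mul_div_comm, div_le_div_iff₀ (mul_pos hZF hm1pos) hZF]
  nlinarith [mul_le_mul_of_nonneg_left hmain hZF.le]

end Crest.Agent.R161.AtFkF729
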