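import Crest.Agent.R161.Ring1_421
import Crest.Agent.R161.Aut_373

/-!
# Row 161 (helper421): the symmetrised plus-cut percolation `nu P`

* `GA A ω` : symmetrised indicator, `(nu P).real A = ∫ GA A ∂P`; local and neutral for local `A`;
* `nu_map_aut` : invariance of `nu P` under all lattice automorphisms (`Aut373.Aut`);
* `tInv_nu` : translation invariance in the sense of `Ring421.TInv`;
* `ext_of_loc` : laws of percolation configurations are determined by local events.
-/

set_option autoImplicit false

noncomputable section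

namespace Crest.Agent.R161.NuInv421

open MeasureTheory
open Crest.Agent.R161.Geo729 Crest.Agent.R161.Defs372 Crest.Agent.R161.Dual374
open Crest.Agent.R161.Hull374 Crest.Agent.R161.Ifc372 Crest.Agent.R161.Ring421
open Crest.Agent.R161.Aut373

/-! ### measurability and periodicity of `plusMap` -/

theorem plusMap_eq {ω ω' : Cfg} {e e' : Edge} (h : plusE ω e ↔ plusE ω' e') :
    plusMap ω e = plusMap ω' e' := by
  classical
  simp only [plusMap]
  exact decide_eq_decide.2 h

theorem measurable_plusMap : Measurable plusMap := by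
  refine measurable_pi_lambda _ fun e => ?_
  have h : Loc ({e.1} : Set P2) (fun ω : Cfg => plusMap ω e) := by
    intro ω ω' h
    have h1 := h e.1 rfl
    obtain ⟨v, b⟩ := e
    refine plusMap_eq ?_
    simp only [plusE, src_mk] at h1 ⊢
    rw [h1.1, h1.2.2 b]
  exact loc_measurable (S := {e.1}) (by simpa using h)

theorem measurable_addH (a : ℤ) : Measurable (addH a) := by
  refine Measurable.prodMk ?_ (Measurable.prodMk ?_ ?_)
  · exact measurable_pi_lambda _ fun v =>
      (measurable_of_countable fun n : ℤ => n + a).comp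
        ((measurable_pi_apply v).comp measurable_fst)
  · exact measurable_pi_lambda _ fun v =>
      (measurable_of_countable fun n : ℤ => n + a).comp
        ((measurable_pi_apply v).comp (measurable_fst.comp measurable_snd))
  · exact measurable_snd.comp measurable_snd

theorem addH_addH (a b : ℤ) (ω : Cfg) : addH a (addH b ω) = addH (b + a) ω := by
  simp [addH, add_assoc]

theorem plusMap_addH_four (k : ℤ) (ω : Cfg) : plusMap (addH (4 * k) ω) = plusMap ω := by
  funext e
  refine plusMap_eq ?_
  simp only [plusE, addH]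
  have : (4 : ℤ) ∣ ω.1 (src e) + 4 * k ↔ (4 : ℤ) ∣ ω.1 (src e) := by
    constructor <;> intro h <;> omega
  rw [this]

/-! ### symmetrised indicators -/

open Classical in
/-- symmetrised indicator of an event of the plus-cut percolation -/
def GA (A : Set (Edge → Bool)) (ω : Cfg) : ℝ :=
  ((if plusMap ω ∈ A then 1 else 0) + (if plusMap (addH 2 ω) ∈ A then 1 else 0)) / 2

theorem GA_nonneg (A : Set (Edge → Bool)) (ω : Cfg) : 0 ≤ GA A ω := by
  unfold GA
  split_ifs <;> norm_num

theorem GA_le_one (A : Set (Edge → Bool)) (ω : Cfg) : GA A ω ≤ 1 := by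
  unfold GA
  split_ifs <;> norm_num

theorem neut_GA (A : Set (Edge → Bool)) : Neut (GA A) := by
  intro ω _ a ha
  obtain ⟨b, rfl⟩ := ha
  rcases Int.even_or_odd' b with ⟨k, rfl | rfl⟩
  · have h1 : plusMap (addH (2 * k + 2 * k) ω) = plusMap ω := by
      rw [← plusMap_addH_four k ω]; congr 2; ring
    have h2 : plusMap (addH 2 (addH (2 * k + 2 * k) ω)) = plusMap (addH 2 ω) := by
      rw [addH_addH, ← plusMap_addH_four k (addH 2 ω), addH_addH]; congr 2; ring
    unfold GA
    rw [h1, h2]
  · have h1 : plusMap (addH (2 * k + 1 + (2 * k + 1)) ω) = plusMap (addH 2 ω) := by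
      rw [← plusMap_addH_four k (addH 2 ω), addH_addH]; congr 2; ring
    have h2 : plusMap (addH 2 (addH (2 * k + 1 + (2 * k + 1)) ω)) = plusMap ω := by
      rw [addH_addH, ← plusMap_addH_four (k + 1) ω]; congr 2; ring
    unfold GA
    rw [h1, h2]
    congr 1
    exact add_comm _ _

theorem loc_GA {S : Finset Edge} {A : Set (Edge → Bool)} (hA : LocOn S A) :
    Loc ((S.image Prod.fst : Finset P2) : Set P2) (GA A) := by
  classical
  intro ω ω' h
  have key : ∀ a : ℤ, (plusMap (addH a ω) ∈ A ↔ plusMap (addH a ω') ∈ A) := by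
    intro a
    apply hA
    rintro ⟨v, b⟩ he
    have h1 := h v (by
      simp only [Finset.coe_image, Set.mem_image, Finset.mem_coe]
      exact ⟨(v, b), he, rfl⟩)
    refine plusMap_eq ?_
    simp only [plusE, addH, src_mk]
    rw [h1.1, h1.2.2 b]
  have h0 := key 0
  have h2 := key 2
  have e0 : ∀ ω : Cfg, addH 0 ω = ω := by
    intro ω; simp [addH]
  rw [e0, e0] at h0
  unfold GA
  simp only [h0, h2]

theorem nu_apply {P : Measure Cfg} {A : Set (Edge → Bool)} (hA : MeasurableSet A) :
    nu P A = (2 : ENNReal)⁻¹ * P (plusMap ⁻¹' A) + (2 : ENNReal)⁻¹ *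
      P ((fun ω => plusMap (addH 2 ω)) ⁻¹' A) := by
  unfold nu Psym
  rw [Measure.map_apply measurable_plusMap hA, Measure.add_apply, Measure.smul_apply,
    Measure.smul_apply, Measure.map_apply (measurable_addH 2) (measurable_plusMap hA)]
  rfl

theorem nu_real {P : Measure Cfg} [IsFiniteMeasure P] {A : Set (Edge → Bool)}
    (hA : MeasurableSet A) : (nu P).real A = ∫ ω, GA A ω ∂P := by
  classical
  have hm1 : MeasurableSet (plusMap ⁻¹' A) := measurable_plusMap hA
  have hm2 : MeasurableSet ((fun ω => plusMap (addH 2 ω)) ⁻¹' A) :=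
    (measurable_plusMap.comp (measurable_addH 2)) hA
  have h1 : (nu P).real A = (P.real (plusMap ⁻¹' A) +
      P.real ((fun ω => plusMap (addH 2 ω)) ⁻¹' A)) / 2 := by
    unfold Measure.real
    rw [nu_apply hA, ENNReal.toReal_add (by finiteness) (by finiteness), ENNReal.toReal_mul,
      ENNReal.toReal_mul, ENNReal.toReal_inv]
    simp only [ENNReal.toReal_ofNat]
    ring
  rw [h1]
  have h2 : ∀ B : Set Cfg, MeasurableSet B → P.real B = ∫ ω, B.indicator (fun _ => (1 : ℝ)) ω ∂P := by
    intro B hB
    rw [integral_indicator hB]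
    simp
  rw [h2 _ hm1, h2 _ hm2, ← integral_add, ← integral_div]
  · refine integral_congr_ae (Filter.Eventually.of_forall fun ω => ?_)
    simp only [GA, Set.indicator, Set.mem_preimage]
  · exact (integrable_const (1 : ℝ)).indicator hm1
  · exact (integrable_const (1 : ℝ)).indicator hm2

instance nu_prob {P : Measure Cfg} [IsProbabilityMeasure P] : IsProbabilityMeasure (nu P) := by
  constructor
  rw [nu_apply MeasurableSet.univ]
  simp only [Set.preimage_univ, measure_univ, mul_one]
  exact ENNReal.inv_two_add_inv_two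

/-! ### extensionality from local events -/

/-- Finite measures on percolation configurations that agree on local events are equal. -/
theorem ext_of_loc {μ ν : Measure (Edge → Bool)} [IsProbabilityMeasure μ] [IsProbabilityMeasure ν]
    (h : ∀ A, LocEv A → μ.real A = ν.real A) : μ = ν := by
  classical
  have hgen : (inferInstance : MeasurableSpace (Edge → Bool)) =
      MeasurableSpace.generateFrom (squareCylinders fun _ : Edge => {s : Set Bool | MeasurableSet s}) :=
    (generateFrom_squareCylinders).symm
  refine ext_of_generate_finite _ hgen ?_ ?_ (by simp)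
  · refine isPiSystem_squareCylinders (fun _ => MeasurableSpace.isPiSystem_measurableSet)
      (fun _ => by simp)
  · rintro A hA
    have hL : LocEv A := by
      obtain ⟨s, t, _, rfl⟩ := hA
      refine ⟨s, fun z z' hz => ?_⟩
      simp only [Set.mem_pi, Finset.mem_coe]
      constructor
      · intro h i hi
        rw [← hz i hi]; exact h i hi
      · intro h i hi
        rw [hz i hi]; exact h i hi
    have h1 := h A hL
    unfold Measure.real at h1
    exact (ENNReal.toReal_eq_toReal_iff' (measure_ne_top _ _) (measure_ne_top _ _)).1 h1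

/-! ### invariance -/

/-- action of a lattice automorphism on percolation configurations -/
def zact (σ : Aut) (z : Edge → Bool) : Edge → Bool := fun e => z (σ.E e)

theorem measurable_zact (σ : Aut) : Measurable (zact σ) :=
  measurable_pi_lambda _ fun _ => measurable_pi_apply _

theorem zact_tr (a : P2) : zact (Aut.tr a) = shiftZ a := rfl

theorem locEv_preimage_zact (σ : Aut) {A : Set (Edge → Bool)} (hA : LocEv A) :
    LocEv (zact σ ⁻¹' A) := by
  classical
  obtain ⟨S, hS⟩ := hA
  refine ⟨S.image σ.E, fun z z' h => ?_⟩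
  exact hS _ _ fun e he => h _ (Finset.mem_image_of_mem _ he)

theorem incEv_preimage_zact (σ : Aut) {A : Set (Edge → Bool)} (hA : IncEv A) :
    IncEv (zact σ ⁻¹' A) := fun _ _ h hz => hA _ _ (fun e he => h (σ.E e) he) hz

theorem plusMap_cfg (σ : Aut) {ω : Cfg} (h : ∀ e, EdgeOk ω e) :
    plusMap (σ.cfg ω) = zact σ (plusMap ω) := by
  funext e
  refine plusMap_eq ?_
  simp only [plusE, Aut.cfg_z, Aut.cfg_k]
  rcases hz : ω.2.2 (σ.E e) with _ | _
  · simp
  · have h1 := (h (σ.E e)).1 hz
    rcases σ.edge_v e with ⟨h2, _⟩ | ⟨_, h2⟩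
    · rw [h2]
    · rw [h1, h2]

theorem edgeOk_addH {ω : Cfg} {e : Edge} (a : ℤ) (h : EdgeOk ω e) : EdgeOk (addH a ω) e := by
  unfold EdgeOk addH at *
  exact ⟨fun hz => by simp only; rw [h.1 hz], fun hz => by simp only; rw [h.2 hz]⟩

theorem GA_cfg (σ : Aut) (A : Set (Edge → Bool)) {ω : Cfg} (h : ∀ e, EdgeOk ω e) :
    GA A (σ.cfg ω) = GA (zact σ ⁻¹' A) ω := by
  unfold GA
  rw [← addH_cfg, plusMap_cfg σ h, plusMap_cfg σ fun e => edgeOk_addH 2 (h e)]
  rfl

variable {c : ℝ} {P : Measure Cfg}

theorem nu_aut_loc (hP : IsState c P) (σ : Aut) {A : Set (Edge → Bool)} (hA : LocEv A) :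
    (nu P).real (zact σ ⁻¹' A) = (nu P).real A := by
  have := hP.prob
  rw [nu_real (locEv_preimage_zact σ hA).measurableSet, nu_real hA.measurableSet]
  obtain ⟨S, hS⟩ := hA
  rw [← integral_aut hP σ (loc_GA hS) (neut_GA A)]
  refine integral_congr_ae ?_
  filter_upwards [hP.valid] with ω hω
  exact (GA_cfg σ A hω.edge).symm

/-- **Invariance of the plus-cut percolation under all lattice automorphisms.** -/
theorem nu_map_aut (hP : IsState c P) (σ : Aut) : (nu P).map (zact σ) = nu P := by
  have := hP.prob
  have : IsProbabilityMeasure ((nu P).map (zact σ)) :=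
    Measure.isProbabilityMeasure_map (measurable_zact σ).aemeasurable
  refine ext_of_loc fun A hA => ?_
  rw [← nu_aut_loc hP σ hA]
  unfold Measure.real
  rw [Measure.map_apply (measurable_zact σ) hA.measurableSet]

theorem tInv_nu (hP : IsState c P) : TInv (nu P) := fun a => nu_map_aut hP (Aut.tr a)

/-- invariance under reflections, in the form used by `tassion` (helper682) -/
theorem nu_map_refl (hP : IsState c P) (R : Sym597.Refl) :
    (nu P).map (fun z e => z (R.E e)) = nu P := nu_map_aut hP (Aut.ofRefl R)

end Crest.Agent.R161.NuInv421
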