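import Crest.Agent.R161.Blk2_696
import Crest.Agent.R161.NuInv_421

/-!
# Row 161, block E4 (helper696), part 3: uniform circuits and blocking

* `AtFk c` : comparison inequalities of the `(τ, ζ+, -ζ-)` representation (input, helper729);
* `RIn c P` : input (R) (helper770);
* `CoreAt c n L q` : circuits of both signs at scale `n` have probability `≥ q` given everything off
  `ball x (L n)`;
* `core_of_R`, `unifCirc_of`, `lemU_of_unifCirc`, `blocking_of`.
-/

set_option autoImplicit false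

noncomputable section

namespace Crest.Agent.R161.Blk696

open MeasureTheory
open Crest.Agent.R161.Geo729 Crest.Agent.R161.Defs372 Crest.Agent.R161.Dual374
open Crest.Agent.R161.Hull374 Crest.Agent.R161.Ifc372 Crest.Agent.R161.Dmp341
open Crest.Agent.R161.Ring421 Crest.Agent.R161.NuInv421

/-- increasing in `ζ+`, decreasing in `ζ-` -/
def IncC (f : Cfg → ℝ) : Prop := ∀ ω ω' : Cfg, (∀ e, plusE ω e → plusE ω' e) →
  (∀ e, minusE ω' e → minusE ω e) → f ω ≤ f ω'

/-- `f` depends only on `(k mod 4, z)` inside `B` -/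
def InTZ (B : Finset P2) (f : Cfg → ℝ) : Prop :=
  ∀ ω ω' : Cfg, (∀ v ∈ intVerts B, (4 : ℤ) ∣ ω.1 v - ω'.1 v) →
    (∀ e ∈ intEdges B, ω.2.2 e = ω'.2.2 e) → f ω = f ω'

/-- comparison inequalities (input from the FK representation) -/
structure AtFk (c : ℝ) : Prop where
  low : ∀ F B : Finset P2, Dom F → Dom B → ∀ f g : Cfg → ℝ, IncC f → InTZ B f → (∀ ω, 0 ≤ g ω) →
    OffTZ B g → E c F g * E c B (fun ω => f (addH 2 ω)) ≤ E c F (fun ω => g ω * f ω)
  up : ∀ F B : Finset P2, Dom F → Dom B → B ⊆ F → ∀ f g : Cfg → ℝ, IncC f → InTZ B f →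
    (∀ ω, 0 ≤ g ω) → OffTZ B g → E c F (fun ω => g ω * f ω) ≤ E c F g * E c B f

/-- circuits of both signs at scale `n`, uniformly given everything off `ball x (L n)` -/
def CoreAt (c : ℝ) (n L : ℕ) (q : ℝ) : Prop :=
  ∀ F : Finset P2, Dom F → ∀ x : P2, ∀ g : Cfg → ℝ, (∀ ω, 0 ≤ g ω) → OffTZ (ball x (L * n)) g →
    q * E c F g ≤ E c F (fun ω => g ω * indP (fun ω => Circ (plusE ω) x n (2 * n)) ω) ∧
    (ball x (L * n) ⊆ F →
      q * E c F g ≤ E c F (fun ω => g ω * indP (fun ω => Circ (minusE ω) x n (2 * n)) ω))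

/-- INPUT (R). -/
def RIn (c : ℝ) (P : Measure Cfg) : Prop :=
  ∀ c3 : ℝ, 0 < c3 → ∃ M r0 L : ℕ, 3 ≤ L ∧ ∀ n : ℕ, r0 ≤ n →
    (∀ t : ℕ, n ≤ t → t ≤ M * n → c3 ≤ ((nu P) (CircZ (0, 0) t (2 * t))).toReal) →
      RAt c (ball (0, 0) (L * n)) (0, 0) n (2 * n) (1 / 3)

/-! ### basic facts about `Circ` as function of the configuration -/

theorem indP_nonneg (A : Cfg → Prop) (ω : Cfg) : 0 ≤ indP A ω := by
  unfold indP; split_ifs <;> norm_num

theorem indP_le_one (A : Cfg → Prop) (ω : Cfg) : indP A ω ≤ 1 := by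
  unfold indP; split_ifs <;> norm_num

theorem indP_of {A : Cfg → Prop} {ω : Cfg} (h : A ω) : indP A ω = 1 := if_pos h
theorem indP_of_not {A : Cfg → Prop} {ω : Cfg} (h : ¬ A ω) : indP A ω = 0 := if_neg h

theorem indP_mono {A B : Cfg → Prop} {ω ω' : Cfg} (h : A ω → B ω') : indP A ω ≤ indP B ω' := by
  by_cases hA : A ω
  · rw [indP_of hA, indP_of (h hA)]
  · rw [indP_of_not hA]; exact indP_nonneg _ _

theorem indP_congr {A B : Cfg → Prop} {ω ω' : Cfg} (h : A ω ↔ B ω') : indP A ω = indP B ω' :=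
  le_antisymm (indP_mono h.1) (indP_mono h.2)

theorem Pr_eq (c : ℝ) (F : Finset P2) (A : Cfg → Prop) : Pr c F {ω | A ω} = E c F (indP A) := by
  classical
  unfold Pr
  refine E_congr fun ω _ => ?_
  unfold indP
  by_cases h : A ω
  · rw [if_pos h]; exact if_pos h
  · rw [if_neg h]; exact if_neg h

/-- the sign of a cut edge -/
def SE (s : Bool) (ω : Cfg) : Edge → Prop := if s then plusE ω else minusE ω

theorem SE_true (ω : Cfg) : SE true ω = plusE ω := rfl
theorem SE_false (ω : Cfg) : SE false ω = minusE ω := rfl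

theorem SE_congr {s : Bool} {ω ω' : Cfg} {e : Edge} (h1 : (4 : ℤ) ∣ ω.1 (src e) - ω'.1 (src e))
    (h2 : ω.2.2 e = ω'.2.2 e) : SE s ω e ↔ SE s ω' e := by
  have h3 : (4 : ℤ) ∣ ω.1 (src e) ↔ (4 : ℤ) ∣ ω'.1 (src e) := by
    constructor <;> intro h <;> omega
  cases s
  · simp only [SE_false, minusE, h2, h3]
  · simp only [SE_true, plusE, h2, h3]

theorem inner_of_bord {x : P2} {m : ℕ} {e : Edge} (h : fA e ∈ ball x m ∨ fB e ∈ ball x m) :
    e ∈ intEdges (ball x (m + 1)) ∧ src e ∈ intVerts (ball x (m + 1)) := by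
  obtain ⟨⟨a, b⟩, s⟩ := e
  obtain ⟨x1, x2⟩ := x
  rw [mem_intEdges, mem_intVerts]
  cases s <;> simp only [mem_ball, fA_mk, fB_h, fB_v, src_mk, IntV, Finset.mem_coe] at h ⊢ <;>
    push_cast <;> omega

theorem circ_inTZ {s : Bool} {x : P2} {n m : ℕ} {B : Finset P2} (hB : ball x (m + 1) ⊆ B)
    {ω ω' : Cfg} (h1 : ∀ v ∈ intVerts B, (4 : ℤ) ∣ ω.1 v - ω'.1 v)
    (h2 : ∀ e ∈ intEdges B, ω.2.2 e = ω'.2.2 e) :
    Circ (SE s ω) x n m ↔ Circ (SE s ω') x n m := by
  refine reach_subset_iff fun e he => ?_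
  obtain ⟨h3, h4⟩ := inner_of_bord (x := x) (m := m) (by simpa using he)
  exact SE_congr (h1 _ (intVerts_mono hB h4)) (h2 e (intEdges_mono hB h3))

/-- `Circ` does not depend on the edges inside the inner ball. -/
theorem circ_of_agree {Z Z' : Edge → Prop} {x : P2} {n m : ℕ}
    (h : ∀ e, ¬ (fA e ∈ ball x n ∧ fB e ∈ ball x n) → Z e → Z' e) (hc : Circ Z x n m) :
    Circ Z' x n m := by
  refine Set.Subset.trans ?_ hc
  refine reach_subset (subset_reach _ _) ?_
  rintro f g hf ⟨e, he, h3⟩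
  by_cases hin : fA e ∈ ball x n ∧ fB e ∈ ball x n
  · apply subset_reach
    rcases h3 with ⟨_, h4⟩ | ⟨_, h4⟩
    · rw [h4]; exact_mod_cast hin.2
    · rw [h4]; exact_mod_cast hin.1
  · exact reach_step hf ⟨e, fun hz => he (h e hin hz), h3⟩

theorem circ_offTZ {s : Bool} {x : P2} {n m : ℕ} {B : Finset P2} (hB : B ⊆ ball x n)
    {ω ω' : Cfg} (h1 : ∀ v, v ∉ intVerts B → (4 : ℤ) ∣ ω.1 v - ω'.1 v)
    (h2 : ∀ e, e ∉ intEdges B → ω.2.2 e = ω'.2.2 e) :
    Circ (SE s ω) x n m ↔ Circ (SE s ω') x n m := by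
  have key : ∀ e, ¬ (fA e ∈ ball x n ∧ fB e ∈ ball x n) → (SE s ω e ↔ SE s ω' e) := by
    intro e he
    have h3 : e ∉ intEdges B := fun h => he (mem_intEdges.1 (intEdges_mono hB h))
    exact SE_congr (h1 _ (not_int_of_not_intEdges h3).1) (h2 e h3)
  exact ⟨circ_of_agree fun e he => (key e he).1, circ_of_agree fun e he => (key e he).2⟩

theorem plusE_addH_two {ω : Cfg} (he : ∀ v, Even (ω.1 v)) (e : Edge) :
    plusE (addH 2 ω) e ↔ minusE ω e := by
  simp only [plusE, minusE, addH]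
  have h := he (src e)
  obtain ⟨r, hr⟩ := h
  have : (4 : ℤ) ∣ ω.1 (src e) + 2 ↔ ¬ (4 : ℤ) ∣ ω.1 (src e) := by omega
  rw [this]

theorem minusE_addH_two {ω : Cfg} (he : ∀ v, Even (ω.1 v)) (e : Edge) :
    minusE (addH 2 ω) e ↔ plusE ω e := by
  simp only [plusE, minusE, addH]
  have h := he (src e)
  obtain ⟨r, hr⟩ := h
  have : ¬ (4 : ℤ) ∣ ω.1 (src e) + 2 ↔ (4 : ℤ) ∣ ω.1 (src e) := by omega
  rw [this]

theorem circ_congr_all {Z Z' : Edge → Prop} {x : P2} {n m : ℕ} (h : ∀ e, Z e ↔ Z' e) :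
    Circ Z x n m ↔ Circ Z' x n m :=
  ⟨circ_mono fun e => (h e).1, circ_mono fun e => (h e).2⟩

/-! ### translations -/

theorem circ_shift {Z : Edge → Prop} (a x : P2) (n m : ℕ) :
    Circ (fun e => Z (e.1 + a, e.2)) x n m ↔ Circ Z (x + a) n m := by
  unfold Circ
  constructor
  · intro h f hf
    have h1 : f - a ∈ Reach (fun e => Z (e.1 + a, e.2)) (ball x n : Set P2) := by
      refine (reach_shift (Z := Z) a (ball x n : Set P2) (f - a)).2 ?_
      rw [image_ball]
      simpa using hf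
    have h2 := h h1
    have := (ball_shift x a (f - a) m).2 h2
    simpa using this
  · intro h f hf
    have h1 := (reach_shift (Z := Z) a (ball x n : Set P2) f).1 hf
    rw [image_ball] at h1
    exact (ball_shift x a f m).1 (h h1)

theorem tr_img_ball (a : P2) (m : ℕ) : (Aut373.Aut.tr a).img (ball (0, 0) m) = ball a m := by
  ext f
  rw [Aut373.Aut.mem_img']
  have h1 : (Aut373.Aut.tr a).Fc.symm f = f - a := by
    show (Equiv.addRight a).symm f = f - a
    simp [sub_eq_add_neg]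
  rw [h1]
  have h2 := ball_shift (0, 0) a (f - a) m
  have e1 : f - a + a = f := by simp
  have e2 : ((0, 0) : P2) + a = a := by
    obtain ⟨a1, a2⟩ := a
    simp
  rw [e1, e2] at h2
  exact h2.symm

theorem E_trans_minus {c : ℝ} (a : P2) (m n k : ℕ) :
    E c (ball a m) (indP (fun ω => Circ (minusE ω) a n k)) =
      E c (ball (0, 0) m) (indP (fun ω => Circ (minusE ω) (0, 0) n k)) := by
  rw [(Aut373.Aut.tr a).E_aut c (ball (0, 0) m), tr_img_ball]
  refine E_congr fun ω _ => ?_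
  rw [Aut373.Aut.tr_cfg]
  refine indP_congr ?_
  have h1 : ∀ e : Edge, minusE (Defs372.trans a ω) e ↔ minusE ω (e.1 + a, e.2) := by
    intro e
    simp only [minusE, Defs372.trans, src]
  have h2 := circ_shift (Z := minusE ω) a (0, 0) n k
  have e2 : ((0, 0) : P2) + a = a := by
    obtain ⟨a1, a2⟩ := a
    simp
  rw [e2] at h2
  rw [← h2]
  exact circ_congr_all fun e => (h1 e).symm

/-! ### the core estimate -/

theorem core_of_minus {c : ℝ} (hc : 1 ≤ c) (A : AtFk c) {n L : ℕ} (hn : 1 ≤ n) (hL : 3 ≤ L) {q : ℝ}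
    (hq : q ≤ Pr c (ball (0, 0) (L * n)) {ω | Circ (minusE ω) (0, 0) n (2 * n)}) :
    CoreAt c n L q := by
  intro F hF x g hg0 hg
  have hq' : q ≤ E c (ball x (L * n)) (indP (fun ω => Circ (minusE ω) x n (2 * n))) := by
    rw [E_trans_minus, ← Pr_eq]
    exact hq
  have hsub : ball x (2 * n + 1) ⊆ ball x (L * n) := by
    apply ball_subset
    nlinarith
  have h0 : 0 ≤ E c F g := E_nonneg hc fun ω _ => hg0 ω
  constructor
  · have h := A.low F (ball x (L * n)) hF (dom_ball x _)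
      (indP (fun ω => Circ (plusE ω) x n (2 * n))) g
      (fun ω ω' h1 _ => indP_mono (circ_mono h1))
      (fun ω ω' h1 h2 => indP_congr (circ_inTZ (s := true) hsub h1 h2)) hg0 hg
    have h1 : E c (ball x (L * n)) (fun ω => indP (fun ω => Circ (plusE ω) x n (2 * n)) (addH 2 ω)) =
        E c (ball x (L * n)) (indP (fun ω => Circ (minusE ω) x n (2 * n))) := by
      refine E_congr fun ω hω => indP_congr ?_
      exact circ_congr_all (plusE_addH_two hω.even)
    rw [h1] at h
    calc q * E c F g ≤ E c (ball x (L * n)) (indP (fun ω => Circ (minusE ω) x n (2 * n))) * E c F g :=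
          mul_le_mul_of_nonneg_right hq' h0
      _ = E c F g * E c (ball x (L * n)) (indP (fun ω => Circ (minusE ω) x n (2 * n))) := mul_comm _ _
      _ ≤ _ := h
  · intro hBF
    have h := A.up F (ball x (L * n)) hF (dom_ball x _) hBF
      (fun ω => 1 - indP (fun ω => Circ (minusE ω) x n (2 * n)) ω) g
      (fun ω ω' _ h2 => sub_le_sub_left (indP_mono (circ_mono h2)) 1)
      (fun ω ω' h1 h2 => by
        have h3 : indP (fun ω => Circ (minusE ω) x n (2 * n)) ω =
            indP (fun ω => Circ (minusE ω) x n (2 * n)) ω' :=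
          indP_congr (circ_inTZ (s := false) hsub h1 h2)
        simp only [h3]) hg0 hg
    have e1 : E c F (fun ω => g ω * (1 - indP (fun ω => Circ (minusE ω) x n (2 * n)) ω)) =
        E c F g - E c F (fun ω => g ω * indP (fun ω => Circ (minusE ω) x n (2 * n)) ω) := by
      rw [← E_sub]
      refine E_congr fun ω _ => by ring
    have e2 : E c (ball x (L * n)) (fun ω => 1 - indP (fun ω => Circ (minusE ω) x n (2 * n)) ω) =
        1 - E c (ball x (L * n)) (indP (fun ω => Circ (minusE ω) x n (2 * n))) := by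
      rw [E_sub, E_const hc]
    rw [e1, e2] at h
    have h3 : q * E c F g ≤ E c (ball x (L * n)) (indP (fun ω => Circ (minusE ω) x n (2 * n))) *
        E c F g := mul_le_mul_of_nonneg_right hq' h0
    nlinarith

/-! ### iteration over nested scales -/

/-- Conditional lower bound for circuits of sign `s` at scale `m`, given everything off
`ball x R`. -/
def Step (c : ℝ) (F : Finset P2) (x : P2) (s : Bool) (m R : ℕ) (q : ℝ) : Prop :=
  ∀ g : Cfg → ℝ, (∀ ω, 0 ≤ g ω) → OffTZ (ball x R) g →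
    q * E c F g ≤ E c F (fun ω => g ω * indP (fun ω => Circ (SE s ω) x m (2 * m)) ω)

theorem iter {c : ℝ} (hc : 1 ≤ c) {F : Finset P2} {x : P2} {s : Bool} {q : ℝ} (hq : q ≤ 1)
    (J : ℕ) : ∀ (m R : ℕ → ℕ), (∀ j, R j ≤ m (j + 1)) → (∀ j, m j ≤ m (j + 1)) →
      (∀ j, j < J → Step c F x s (m j) (R j) q) →
      E c F (indP (fun ω => ∀ j, j < J → ¬ Circ (SE s ω) x (m j) (2 * m j))) ≤ (1 - q) ^ J := by
  induction J with
  | zero =>
    intro m R _ _ _
    rw [pow_zero]
    refine (E_mono hc (g := fun _ => 1) fun ω _ => indP_le_one _ _).trans ?_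
    rw [E_const hc]
  | succ J ih =>
    intro m R h1 h2 h3
    have hmono : Monotone m := monotone_nat_of_le_succ h2
    set g : Cfg → ℝ := indP (fun ω => ∀ j, j < J → ¬ Circ (SE s ω) x (m (j + 1)) (2 * m (j + 1)))
      with hg
    have hoff : OffTZ (ball x (R 0)) g := by
      intro ω ω' hv he
      refine indP_congr ?_
      refine forall₂_congr fun j _ => ?_
      rw [circ_offTZ (s := s) (x := x) (n := m (j + 1)) (m := 2 * m (j + 1))
        (ball_subset ((h1 0).trans (hmono (by omega)))) hv he]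
    have hs := h3 0 (by omega) g (fun ω => indP_nonneg _ ω) hoff
    have hih := ih (fun j => m (j + 1)) (fun j => R (j + 1)) (fun j => h1 _) (fun j => h2 _)
      (fun j hj => h3 (j + 1) (by omega))
    have hdec : E c F (indP (fun ω => ∀ j, j < J + 1 → ¬ Circ (SE s ω) x (m j) (2 * m j))) =
        E c F g - E c F (fun ω => g ω * indP (fun ω => Circ (SE s ω) x (m 0) (2 * m 0)) ω) := by
      rw [← E_sub]
      refine E_congr fun ω _ => ?_
      have hiff : (∀ j, j < J + 1 → ¬ Circ (SE s ω) x (m j) (2 * m j)) ↔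
          (¬ Circ (SE s ω) x (m 0) (2 * m 0)) ∧
            ∀ j, j < J → ¬ Circ (SE s ω) x (m (j + 1)) (2 * m (j + 1)) := by
        constructor
        · intro h
          exact ⟨h 0 (by omega), fun j hj => h (j + 1) (by omega)⟩
        · rintro ⟨h0, h⟩ j hj
          cases j with
          | zero => exact h0
          | succ j => exact h j (by omega)
      by_cases hC : Circ (SE s ω) x (m 0) (2 * m 0)
      · rw [indP_of_not (fun h => (hiff.1 h).1 hC),
          indP_of (A := fun ω => Circ (SE s ω) x (m 0) (2 * m 0)) hC]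
        ring
      · rw [indP_of_not (A := fun ω => Circ (SE s ω) x (m 0) (2 * m 0)) hC, mul_zero, sub_zero, hg]
        refine indP_congr ?_
        rw [hiff]
        exact ⟨fun h => h.2, fun h => ⟨hC, h⟩⟩
    rw [hdec, pow_succ]
    have hEg : E c F g ≤ (1 - q) ^ J := hih
    nlinarith [mul_le_mul_of_nonneg_right hEg (sub_nonneg.2 hq)]

/-! ### `UnifCirc → LemU` -/

theorem q_le_one {c : ℝ} (hc : 1 ≤ c) {F : Finset P2} {x : P2} {s : Bool} {m R : ℕ} {q : ℝ}
    (h : Step c F x s m R q) : q ≤ 1 := by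
  have h1 := h (fun _ => 1) (fun _ => zero_le_one) (fun _ _ _ _ => rfl)
  rw [E_const hc, mul_one] at h1
  refine h1.trans ?_
  refine (E_mono hc (g := fun _ => 1) fun ω _ => ?_).trans (E_const hc F 1).le
  rw [one_mul]
  exact indP_le_one _ _

theorem exists_pow_le {q ε : ℝ} (hq0 : 0 < q) (hε : 0 < ε) : ∃ J : ℕ, q ≤ 1 → (1 - q) ^ J ≤ ε := by
  by_cases h1 : q ≤ 1
  · obtain ⟨J, hJ⟩ := exists_pow_lt_of_lt_one hε (show 1 - q < 1 by linarith)
    exact ⟨J, fun _ => hJ.le⟩
  · exact ⟨0, fun h => absurd h h1⟩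

theorem lemU_of_unifCirc {c : ℝ} (hc : 1 ≤ c) (h : UnifCirc c) : LemU c := by
  obtain ⟨q, n0, L, hq, hL, h⟩ := h
  intro ε hε
  obtain ⟨J, hJ⟩ := exists_pow_le hq hε
  refine ⟨J, n0, L, hL, fun F hF x n hn => ?_⟩
  have hLpos : 1 ≤ L := by omega
  have hscale : ∀ j, n0 ≤ L ^ j * n := fun j =>
    hn.trans (Nat.le_mul_of_pos_left n (Nat.pos_of_ne_zero (by positivity)))
  have hstep : ∀ j, Step c F x true (L ^ j * n) (L * (L ^ j * n)) q := by
    intro j g hg0 hg
    exact (h F hF x (L ^ j * n) (hscale j) g hg0 hg).1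
  have hq1 := q_le_one hc (hstep 0)
  have := iter hc hq1 J (fun j => L ^ j * n) (fun j => L * (L ^ j * n))
    (fun j => by
      rw [pow_succ]
      exact le_of_eq (by ring))
    (fun j => by
      rw [pow_succ]
      nlinarith [Nat.zero_le (L ^ j * n)])
    (fun j _ => hstep j)
  exact this.trans (hJ hq1)

/-! ### from the plane state to finite domains -/

theorem E_one {c : ℝ} (hc : 1 ≤ c) (F : Finset P2) : E c F (fun _ => 1) = 1 := E_const hc F 1

open Classical in
/-- The symmetrised indicator of an event of the plus-cut percolation, in finite volume. -/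
theorem E_GA {c : ℝ} (F : Finset P2) (A : Set (Edge → Bool)) :
    E c F (GA A) = (E c F (indP (fun ω => plusMap ω ∈ A)) +
      E c F (indP (fun ω => plusMap (addH 2 ω) ∈ A))) / 2 := by
  rw [← E_add, div_eq_inv_mul, ← E_smul]
  refine E_congr fun ω _ => ?_
  unfold GA indP
  ring

theorem plusMap_true (ω : Cfg) (e : Edge) : plusMap ω e = true ↔ plusE ω e := by
  unfold plusMap
  simp

theorem mem_circZ_plus {ω : Cfg} {x : P2} {n m : ℕ} :
    plusMap ω ∈ CircZ x n m ↔ Circ (SE true ω) x n m :=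
  circ_congr_all fun e => plusMap_true ω e

theorem mem_circZ_minus {ω : Cfg} (he : ∀ v, Even (ω.1 v)) {x : P2} {n m : ℕ} :
    plusMap (addH 2 ω) ∈ CircZ x n m ↔ Circ (SE false ω) x n m :=
  circ_congr_all fun e => (plusMap_true _ e).trans (plusE_addH_two he e)

theorem nu_le_plus {c : ℝ} (hc : 1 ≤ c) (A : AtFk c) {P : Measure Cfg} (hP : IsState c P)
    {B : Finset P2} (hB : Dom B) {n m : ℕ} (hm : ball (0, 0) (m + 1) ⊆ B) :
    (nu P).real (CircZ (0, 0) n m) ≤ Pr c B {ω | Circ (plusE ω) (0, 0) n m} := by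
  have := hP.prob
  refine le_of_forall_pos_lt_add fun ε hε => ?_
  have hloc := loc_GA (locOn_circZ (0, 0) n m)
  obtain ⟨N, hN⟩ := Aut373.lim_neut hP hloc (neut_GA _) hε
  obtain ⟨N', hN'⟩ := Dmp341.exists_box (box N ∪ B)
  have hF := Dmp341.dom_box N'
  have h1 := hN (box N') hF (Finset.union_subset_left hN')
  rw [← nu_real (measurableSet_circZ _ _ _)] at h1
  have hBF : B ⊆ box N' := Finset.union_subset_right hN'
  set f : Cfg → ℝ := indP (fun ω => Circ (plusE ω) (0, 0) n m) with hf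
  have hinc : IncC f := fun ω ω' h1 _ => indP_mono (circ_mono h1)
  have hin : ∀ B' : Finset P2, ball (0, 0) (m + 1) ⊆ B' → InTZ B' f := fun B' hB' ω ω' h1 h2 =>
    indP_congr (circ_inTZ (s := true) hB' h1 h2)
  -- minus circuits are less likely than plus circuits
  have h2 : E c (box N') (indP (fun ω => plusMap (addH 2 ω) ∈ CircZ (0, 0) n m)) ≤
      E c (box N') f := by
    have h := A.low (box N') (box N') hF hF f (fun _ => 1) hinc (hin _ (hm.trans hBF))
      (fun _ => zero_le_one) (fun _ _ _ _ => rfl)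
    rw [E_one hc, one_mul] at h
    simp only [one_mul] at h
    refine le_trans (le_of_eq ?_) h
    refine E_congr fun ω hω => indP_congr ?_
    exact circ_congr_all fun e => plusMap_true _ e
  have h3 : E c (box N') f ≤ E c B f := by
    have h := A.up (box N') B hF hB hBF f (fun _ => 1) hinc (hin _ hm)
      (fun _ => zero_le_one) (fun _ _ _ _ => rfl)
    rw [E_one hc, one_mul] at h
    simp only [one_mul] at h
    exact h
  have h4 : E c (box N') (indP (fun ω => plusMap ω ∈ CircZ (0, 0) n m)) = E c (box N') f :=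
    E_congr fun ω _ => indP_congr mem_circZ_plus
  rw [E_GA, h4] at h1
  rw [Pr_eq]
  have h5 := abs_lt.1 h1
  linarith [h5.1]

/-- **From (R) to the core estimate at one scale.** -/
theorem core_of_R {c : ℝ} (hc : 1 ≤ c) (A : AtFk c) {P : Measure Cfg} (hP : IsState c P)
    {n L : ℕ} (hn : 1 ≤ n) (hL : 3 ≤ L) {a c3 : ℝ} (ha : 0 ≤ a)
    (hR : RAt c (ball (0, 0) (L * n)) (0, 0) n (2 * n) a)
    (hc3 : c3 ≤ (nu P).real (CircZ (0, 0) n (2 * n))) : CoreAt c n L (a * c3) := by
  have hsub : ball ((0, 0) : P2) (2 * n + 1) ⊆ ball (0, 0) (L * n) := by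
    apply ball_subset
    nlinarith
  refine core_of_minus hc A hn hL ?_
  have h1 := minus_of_R hc hn ((ball_subset (Nat.le_succ _)).trans hsub) hR
  have h2 := nu_le_plus hc A hP (dom_ball (0, 0) (L * n)) (n := n) (m := 2 * n) hsub
  have h3 : Pr c (ball (0, 0) (L * n)) {ω | Circ (plusE ω) (0, 0) n (2 * n)} ≤
      Pr c (ball (0, 0) (L * n)) {ω | Circ (cutE ω) (0, 0) n (2 * n)} :=
    Pr_mono' hc fun ω _ _ h => circ_mono (fun e he => he.1) h
  calc a * c3 ≤ a * Pr c (ball (0, 0) (L * n)) {ω | Circ (cutE ω) (0, 0) n (2 * n)} :=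
        mul_le_mul_of_nonneg_left (hc3.trans (h2.trans h3)) ha
    _ ≤ _ := h1

/-- **Uniform circuits** from (R) and RSW. -/
theorem unifCirc_of {c : ℝ} (hc : 1 ≤ c) (A : AtFk c) {P : Measure Cfg} (hP : IsState c P)
    (hR : RIn c P) (hrsw : RSWc (nu P)) : UnifCirc c := by
  obtain ⟨c3, n0, hc3, h3⟩ := hrsw
  obtain ⟨M, r0, L, hL, hRL⟩ := hR c3 hc3
  refine ⟨1 / 3 * c3, max 1 (max n0 r0), L, by positivity, by omega, fun F hF x n hn => ?_⟩
  have h1 : 1 ≤ n := (le_max_left _ _).trans hn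
  have h2 : n0 ≤ n := (le_max_left _ _).trans ((le_max_right _ _).trans hn)
  have h4 : r0 ≤ n := (le_max_right _ _).trans ((le_max_right _ _).trans hn)
  have hcore := core_of_R hc A hP h1 hL (by norm_num)
    (hRL n h4 fun t ht _ => h3 t (h2.trans ht)) (h3 n h2)
  exact hcore F hF x

open Classical in
/-- **Blocking** from (R). -/
theorem blocking_of {c : ℝ} (hc : 1 ≤ c) (A : AtFk c) {P : Measure Cfg} (hP : IsState c P)
    (hR : RIn c P) : Blocking (nu P) := by
  have := hP.prob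
  intro c3 ε hc3 hε
  obtain ⟨M, r0, L, hL, hRL⟩ := hR c3 hc3
  set q : ℝ := 1 / 3 * c3 with hq
  have hq0 : 0 < q := by positivity
  obtain ⟨J, hJ⟩ := exists_pow_le hq0 hε
  refine ⟨4 * L ^ J * (M + 2) + 4, max 1 r0, by omega, fun s hs hcirc => ?_⟩
  have hs1 : 1 ≤ s := (le_max_left _ _).trans hs
  have hs0 : r0 ≤ s := (le_max_right _ _).trans hs
  set sc : ℕ → ℕ := fun j => L ^ j * (4 * s) with hsc
  have hLp : 1 ≤ L := by omega
  have hpow : ∀ j, 1 ≤ L ^ j := fun j => Nat.one_le_pow _ _ (by omega)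
  have hsc1 : ∀ j, 4 * s ≤ sc j := fun j => by
    have := hpow j
    simp only [hsc]
    nlinarith
  have hscJ : ∀ j, j ≤ J → sc j ≤ L ^ J * (4 * s) := fun j hj => by
    simp only [hsc]
    exact Nat.mul_le_mul_right _ (Nat.pow_le_pow_right (by omega) hj)
  have hC1 : ∀ j, j ≤ J → (M + 2) * sc j ≤ (4 * L ^ J * (M + 2) + 4) * s := fun j hj => by
    have h1 : (M + 2) * sc j ≤ (M + 2) * (L ^ J * (4 * s)) := Nat.mul_le_mul_left _ (hscJ j hj)
    have h2 : (M + 2) * (L ^ J * (4 * s)) = 4 * L ^ J * (M + 2) * s := by ring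
    nlinarith
  have hcore : ∀ j, j ≤ J → CoreAt c (sc j) L q := by
    intro j hj
    have hr : r0 ≤ sc j := by
      have := hsc1 j
      omega
    have hrange : ∀ t, sc j ≤ t → t ≤ M * sc j →
        c3 ≤ ((nu P) (CircZ (0, 0) t (2 * t))).toReal := by
      intro t ht1 ht2
      refine hcirc t ((hsc1 j).trans ht1) ?_
      have h1 := hC1 j hj
      have h2 : M * sc j ≤ (M + 2) * sc j := Nat.mul_le_mul_right _ (by omega)
      omega
    have hn : 1 ≤ sc j := by
      have := hsc1 j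
      omega
    refine core_of_R hc A hP hn hL (by norm_num) (hRL _ hr hrange) ?_
    refine hcirc (sc j) (hsc1 j) ?_
    have h1 := hC1 j hj
    have h2 : sc j ≤ (M + 2) * sc j := Nat.le_mul_of_pos_left _ (by omega)
    omega
  -- the event
  set N : Set (Edge → Bool) := {z | ∀ j, j < J → z ∉ CircZ (0, 0) (sc j) (2 * sc j)} with hN
  have hNloc : LocOn ((Finset.range J).biUnion fun j => bord (ball (0, 0) (2 * sc j))) N := by
    intro z z' hz
    refine forall₂_congr fun j hj => ?_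
    rw [locOn_circZ (0, 0) (sc j) (2 * sc j) z z' fun e he =>
      hz e (Finset.mem_biUnion.2 ⟨j, Finset.mem_range.2 hj, he⟩)]
  have hNm : MeasurableSet N := hNloc.measurableSet
  have hstep : ∀ (F : Finset P2), Dom F → (∀ j, j ≤ J → ball (0, 0) (L * sc j) ⊆ F) →
      ∀ s' : Bool, ∀ j, j ≤ J → Step c F (0, 0) s' (sc j) (L * sc j) q := by
    intro F hF hFs s' j hj g hg0 hg
    have := hcore j hj F hF (0, 0) g hg0 hg
    cases s'
    · exact this.2 (hFs j hj)
    · exact this.1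
  have hbound : (nu P).real N ≤ (1 - q) ^ J := by
    refine le_of_forall_pos_lt_add fun δ hδ => ?_
    obtain ⟨n1, hn1⟩ := Aut373.lim_neut hP (loc_GA hNloc) (neut_GA N) hδ
    obtain ⟨n2, hn2⟩ := Dmp341.exists_box (box n1 ∪ ball (0, 0) (L * sc J))
    have hF := Dmp341.dom_box n2
    have h1 := hn1 (box n2) hF (Finset.union_subset_left hn2)
    rw [← nu_real hNm] at h1
    have hFs : ∀ j, j ≤ J → ball (0, 0) (L * sc j) ⊆ box n2 := fun j hj =>
      (ball_subset (Nat.mul_le_mul_left _ (hscJ j hj))).trans (Finset.union_subset_right hn2)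
    have hst := hstep (box n2) hF hFs
    have hq1 : q ≤ 1 := q_le_one hc (hst true J le_rfl)
    have hit : ∀ s' : Bool, E c (box n2)
        (indP (fun ω => ∀ j, j < J → ¬ Circ (SE s' ω) (0, 0) (sc j) (2 * sc j))) ≤ (1 - q) ^ J := by
      intro s'
      refine iter hc hq1 J sc (fun j => L * sc j) (fun j => ?_) (fun j => ?_)
        (fun j hj => hst s' j hj.le)
      · simp only [hsc, pow_succ]
        exact le_of_eq (by ring)
      · simp only [hsc, pow_succ]
        nlinarith [Nat.zero_le (L ^ j * (4 * s))]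
    have e1 : E c (box n2) (indP (fun ω => plusMap ω ∈ N)) ≤ (1 - q) ^ J := by
      refine le_trans (le_of_eq ?_) (hit true)
      refine E_congr fun ω _ => indP_congr ?_
      exact forall₂_congr fun j _ => not_congr mem_circZ_plus
    have e2 : E c (box n2) (indP (fun ω => plusMap (addH 2 ω) ∈ N)) ≤ (1 - q) ^ J := by
      refine le_trans (le_of_eq ?_) (hit false)
      refine E_congr fun ω hω => indP_congr ?_
      exact forall₂_congr fun j _ => not_congr (mem_circZ_minus hω.even)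
    rw [E_GA] at h1
    have h5 := abs_lt.1 h1
    linarith [h5.1]
  have hq1 : q ≤ 1 := by
    obtain ⟨n2, hn2⟩ := Dmp341.exists_box (ball (0, 0) (L * sc J))
    exact q_le_one hc (hstep (box n2) (Dmp341.dom_box n2) (fun j hj =>
      (ball_subset (Nat.mul_le_mul_left _ (hscJ j hj))).trans hn2) true J le_rfl)
  -- conclusion
  have hcompl : (CircZ ((0, 0) : P2) s ((4 * L ^ J * (M + 2) + 4) * s))ᶜ ⊆ N := by
    intro z hz j hj hcj
    apply hz
    have h1 : s ≤ sc j := by
      have := hsc1 j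
      omega
    have h2 : 2 * sc j ≤ (4 * L ^ J * (M + 2) + 4) * s := by
      have h3 := hC1 j hj.le
      have h4 : 2 * sc j ≤ (M + 2) * sc j := Nat.mul_le_mul_right _ (by omega)
      omega
    refine Set.Subset.trans (reach_mono _ ?_) (Set.Subset.trans hcj ?_)
    · exact_mod_cast ball_subset h1
    · exact_mod_cast ball_subset h2
  have hms := measurableSet_circZ ((0, 0) : P2) s ((4 * L ^ J * (M + 2) + 4) * s)
  have : IsProbabilityMeasure (nu P) := nu_prob
  have h6 : (nu P).real (CircZ ((0, 0) : P2) s ((4 * L ^ J * (M + 2) + 4) * s))ᶜ ≤ ε :=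
    (measureReal_mono hcompl).trans (hbound.trans (hJ hq1))
  rw [measureReal_compl hms, probReal_univ] at h6
  show 1 - ε ≤ (nu P).real _
  linarith

end Crest.Agent.R161.Blk696
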