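import Crest.Agent.R161.AtFkF_729
import Crest.Agent.R161.Blk3_696
import Crest.Agent.R161.ZCv_760

/-!
Row 161: literal interfaces: `Blk696.AtFk c`, `ZCv760.DomMono c`, association for `ZCv760.Inc`.
-/

set_option autoImplicit false

namespace Crest.Agent.R161.AtFkG729

open Crest.Agent.R161.Geo729 Crest.Agent.R161.Defs372 Crest.Agent.R161.Ifc372
  Crest.Agent.R161.AtFkE729 Crest.Agent.R161.AtFkF729

theorem incP_of_incC {f : Cfg → ℝ} (hf : Blk696.IncC f) : IncP f :=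
  fun _ _ h => hf _ _ h.p h.m

theorem incP_of_inc {f : Cfg → ℝ} (hf : ZCv760.Inc f) : IncP f :=
  fun _ _ h => hf _ _ ⟨h.v, h.p, h.m⟩

/-- comparison inequalities in the form of helper696 -/
theorem atFk {c : ℝ} (hc : 1 ≤ c) : Blk696.AtFk c where
  low := fun _ _ hF hB _ _ hf hin hg0 hg => low hc hF.sc hB.sc (incP_of_incC hf) hin hg0 hg
  up := fun _ _ hF hB hBF _ _ hf hin hg0 hg =>
    up hc hF.sc hB.sc hBF (incP_of_incC hf) hin hg0 hg

/-- domain monotonicity in the form of helper760 -/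
theorem domMono {c : ℝ} (hc : 1 ≤ c) : ZCv760.DomMono c :=
  fun _ _ hF hF' hFF _ hf => dom_mono hc hF.sc hF'.sc hFF (incP_of_inc hf)

/-- association for `ZCv760.Inc` -/
theorem assoc' {c : ℝ} (hc : 1 ≤ c) {F : Finset P2} (hF : Dom F) {f g : Cfg → ℝ}
    (hf : ZCv760.Inc f) (hg : ZCv760.Inc g) : E c F f * E c F g ≤ E c F (fun ω => f ω * g ω) :=
  assoc hc hF.sc (incP_of_inc hf) (incP_of_inc hg)

end Crest.Agent.R161.AtFkG729
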