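import Crest.Agent.R161.RPlim_373
import Crest.Agent.R161.RPB_369
import Crest.Agent.R161.PeelP_369

/-!
R161, block F (helper373): reflection lines in the eight directions, `RPHyp` (helper369) for the
infinite state.
-/

set_option autoImplicit false

noncomputable section

namespace Crest.Agent.R161.Lines373

open Finset MeasureTheory
open Crest.Agent.R161.Geo729 Crest.Agent.R161.Defs372 Crest.Agent.R161.Sym597
open Crest.Agent.R161.RPconc597 Crest.Agent.R161.Rect597
open Crest.Agent.R161.RPlim373 Crest.Agent.R161.Peel369 Crest.Agent.R161.Ray369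
open scoped ComplexConjugate

/-- the reflected data at the site `v` is on the right side -/
def LSite (R : Refl) (v : P2) : Prop :=
  0 ≤ R.sv (R.V v) ∧ 0 ≤ R.sf (R.Fc v) ∧ ∀ b : Bool, Keep R (R.E (v, b))

theorem exists_line {e : ℤ × ℤ} (he : e ∈ Dir8) (m : ℤ) :
    ∃ R R' : Refl, Step R R' e ∧ SymDom R ∧ SymDom R' ∧
      (∀ v : P2, m + 2 ≤ dot e v → RSite R v) ∧ (∀ v : P2, dot e v ≤ m - 2 → LSite R v) := by
  obtain ⟨e1, e2⟩ := e
  obtain ⟨h0, h1, h2⟩ := he
  simp only at h1 h2
  rw [abs_le] at h1 h2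
  have hne : ¬ (e1 = 0 ∧ e2 = 0) := fun h => h0 (by rw [h.1, h.2]; rfl)
  have h1' : e1 = -1 ∨ e1 = 0 ∨ e1 = 1 := by omega
  have h2' : e2 = -1 ∨ e2 = 0 ∨ e2 = 1 := by omega
  rcases h1' with rfl | rfl | rfl <;> rcases h2' with rfl | rfl | rfl
  · -- (-1,-1)
    refine ⟨(Refl.anti (-m)).neg, (Refl.anti (-m - 1)).neg, step_anti_neg _, symDom_anti _,
      symDom_anti _, ?_, ?_⟩
    · rintro ⟨x, y⟩ hv
      simp only [dot] at hv
      refine ⟨?_, ?_, fun b => ?_⟩
      · simp [Refl.anti, Refl.neg]; omega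
      · simp [Refl.anti, Refl.neg]; omega
      · cases b <;> simp [Refl.anti, Refl.neg, Keep] <;> omega
    · rintro ⟨x, y⟩ hv
      simp only [dot] at hv
      refine ⟨?_, ?_, fun b => ?_⟩
      · simp [Refl.anti, Refl.neg]; omega
      · simp [Refl.anti, Refl.neg]; omega
      · cases b <;> simp [Refl.anti, Refl.neg, Keep] <;> omega
  · -- (-1,0)
    refine ⟨(Refl.vert (-(2 * m))).neg, (Refl.vert (-(2 * m) - 1)).neg, step_vert_neg _,
      symDom_vert _, symDom_vert _, ?_, ?_⟩
    · rintro ⟨x, y⟩ hv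
      simp only [dot] at hv
      refine ⟨?_, ?_, fun b => ?_⟩
      · simp [Refl.vert, Refl.neg]; omega
      · simp [Refl.vert, Refl.neg]; omega
      · cases b <;> simp [Refl.vert, Refl.neg, Keep] <;> omega
    · rintro ⟨x, y⟩ hv
      simp only [dot] at hv
      refine ⟨?_, ?_, fun b => ?_⟩
      · simp [Refl.vert, Refl.neg]; omega
      · simp [Refl.vert, Refl.neg]; omega
      · cases b <;> simp [Refl.vert, Refl.neg, Keep] <;> omega
  · -- (-1,1)
    refine ⟨Refl.diag m, Refl.diag (m + 1), step_diag _, symDom_diag _, symDom_diag _, ?_, ?_⟩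
    · rintro ⟨x, y⟩ hv
      simp only [dot] at hv
      refine ⟨?_, ?_, fun b => ?_⟩
      · simp [Refl.diag]; omega
      · simp [Refl.diag]; omega
      · cases b <;> simp [Refl.diag, Keep] <;> omega
    · rintro ⟨x, y⟩ hv
      simp only [dot] at hv
      refine ⟨?_, ?_, fun b => ?_⟩
      · simp [Refl.diag]; omega
      · simp [Refl.diag]; omega
      · cases b <;> simp [Refl.diag, Keep] <;> omega
  · -- (0,-1)
    refine ⟨(Refl.horiz (-(2 * m))).neg, (Refl.horiz (-(2 * m) - 1)).neg, step_horiz_neg _,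
      symDom_horiz _, symDom_horiz _, ?_, ?_⟩
    · rintro ⟨x, y⟩ hv
      simp only [dot] at hv
      refine ⟨?_, ?_, fun b => ?_⟩
      · simp [Refl.horiz, Refl.neg]; omega
      · simp [Refl.horiz, Refl.neg]; omega
      · cases b <;> simp [Refl.horiz, Refl.neg, Keep] <;> omega
    · rintro ⟨x, y⟩ hv
      simp only [dot] at hv
      refine ⟨?_, ?_, fun b => ?_⟩
      · simp [Refl.horiz, Refl.neg]; omega
      · simp [Refl.horiz, Refl.neg]; omega
      · cases b <;> simp [Refl.horiz, Refl.neg, Keep] <;> omega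
  · exact absurd ⟨rfl, rfl⟩ hne
  · -- (0,1)
    refine ⟨Refl.horiz (2 * m), Refl.horiz (2 * m + 1), step_horiz _,
      symDom_horiz _, symDom_horiz _, ?_, ?_⟩
    · rintro ⟨x, y⟩ hv
      simp only [dot] at hv
      refine ⟨?_, ?_, fun b => ?_⟩
      · simp [Refl.horiz]; omega
      · simp [Refl.horiz]; omega
      · cases b <;> simp [Refl.horiz, Keep] <;> omega
    · rintro ⟨x, y⟩ hv
      simp only [dot] at hv
      refine ⟨?_, ?_, fun b => ?_⟩
      · simp [Refl.horiz]; omega
      · simp [Refl.horiz]; omega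
      · cases b <;> simp [Refl.horiz, Keep] <;> omega
  · -- (1,-1)
    refine ⟨(Refl.diag (-m)).neg, (Refl.diag (-m - 1)).neg, step_diag_neg _, symDom_diag _,
      symDom_diag _, ?_, ?_⟩
    · rintro ⟨x, y⟩ hv
      simp only [dot] at hv
      refine ⟨?_, ?_, fun b => ?_⟩
      · simp [Refl.diag, Refl.neg]; omega
      · simp [Refl.diag, Refl.neg]; omega
      · cases b <;> simp [Refl.diag, Refl.neg, Keep] <;> omega
    · rintro ⟨x, y⟩ hv
      simp only [dot] at hv
      refine ⟨?_, ?_, fun b => ?_⟩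
      · simp [Refl.diag, Refl.neg]; omega
      · simp [Refl.diag, Refl.neg]; omega
      · cases b <;> simp [Refl.diag, Refl.neg, Keep] <;> omega
  · -- (1,0)
    refine ⟨Refl.vert (2 * m), Refl.vert (2 * m + 1), step_vert _, symDom_vert _,
      symDom_vert _, ?_, ?_⟩
    · rintro ⟨x, y⟩ hv
      simp only [dot] at hv
      refine ⟨?_, ?_, fun b => ?_⟩
      · simp [Refl.vert]; omega
      · simp [Refl.vert]; omega
      · cases b <;> simp [Refl.vert, Keep] <;> omega
    · rintro ⟨x, y⟩ hv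
      simp only [dot] at hv
      refine ⟨?_, ?_, fun b => ?_⟩
      · simp [Refl.vert]; omega
      · simp [Refl.vert]; omega
      · cases b <;> simp [Refl.vert, Keep] <;> omega
  · -- (1,1)
    refine ⟨Refl.anti m, Refl.anti (m + 1), step_anti _, symDom_anti _, symDom_anti _, ?_, ?_⟩
    · rintro ⟨x, y⟩ hv
      simp only [dot] at hv
      refine ⟨?_, ?_, fun b => ?_⟩
      · simp [Refl.anti]; omega
      · simp [Refl.anti]; omega
      · cases b <;> simp [Refl.anti, Keep] <;> omega
    · rintro ⟨x, y⟩ hv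
      simp only [dot] at hv
      refine ⟨?_, ?_, fun b => ?_⟩
      · simp [Refl.anti]; omega
      · simp [Refl.anti]; omega
      · cases b <;> simp [Refl.anti, Keep] <;> omega

variable {c : ℝ} {P : Measure Cfg}

/-- the reflection in the vertical line `x = ℓ` -/
def Θ (ℓ : ℤ) (ω : Cfg) : Cfg := act (Refl.vert (2 * ℓ)) ω

theorem left_mem {R : Refl} {S : Finset P2} {A : Cfg → ℂ} {α : ℝ} (hA : Loc (S : Set P2) A)
    (hS : ∀ v ∈ S, LSite R v) (hα : Aut373.Chg (-α) A) :
    (fun ω => conj (A (act R ω))) ∈ VV R α := by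
  refine ⟨(FinLoc.act ⟨S, hA⟩ R).comp conj, ?_, ?_⟩
  · exact rloc_comp (rloc_act_of_loc hA fun v hv => hS v hv) conj
  · have := (hα.act R).conj
    rw [neg_neg] at this
    exact this

theorem right_mem {R : Refl} {S : Finset P2} {B : Cfg → ℂ} {α : ℝ} (hB : Loc (S : Set P2) B)
    (hS : ∀ v ∈ S, RSite R v) (hα : Aut373.Chg α B) : B ∈ VV R α :=
  ⟨⟨S, hB⟩, rloc_of_loc hB fun v hv => hS v hv, hα⟩

/-- the form of the reflected left functional is bounded by its `L²` norm -/
theorem B_left_le (hP : IsState c P) (R : Refl) {S : Finset P2} {A : Cfg → ℂ} {α : ℝ}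
    (hA : Loc (S : Set P2) A) (hα : Aut373.Chg (-α) A) :
    (∫ ω, conj ((fun ω => conj (A (act R ω))) (act R ω)) * (fun ω => conj (A (act R ω))) ω ∂P).re
      ≤ ∫ ω, ‖A ω‖ ^ 2 ∂P := by
  have h0 : FinLoc (fun ω => conj (A (act R ω))) := (FinLoc.act ⟨S, hA⟩ R).comp conj
  have h1 := B_le hP R h0 (hα.act R).conj
  refine h1.trans (le_of_eq ?_)
  simp only [RCLike.norm_conj]
  exact integral_act_real hP R (f := fun ω => ‖A ω‖ ^ 2)
    (FinLoc.comp ⟨S, hA⟩ (fun z => ‖z‖ ^ 2)) (hα.neut_norm.comp (fun x => x ^ 2))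

/-- monotonicity of the polynomial bound -/
theorem PolyBound.mono' {f : ℕ → ℂ} {C C' : ℝ} (h : PolyBound f C) (hC : C ≤ C') :
    PolyBound f C' := h.mono hC

/-- **`RPHyp` for the infinite state.** -/
theorem rpHyp (hc : 1 ≤ c) (hP : IsState c P) : PeelP369.RPHyp P 4 Θ where
  pb := by
    intro e he a b S T A B α hA hB hS hT hab hαA hαB
    obtain ⟨R, R', h, hR, hR', h1, h2⟩ := exists_line he (a + 2)
    have hAm := left_mem (R := R) hA (fun v hv => h2 v (by have := hS v hv; omega)) hαA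
    have hBm := right_mem (R := R) hB (fun v hv => h1 v (by have := hT v hv; omega)) hαB
    have key := (sys hc hP h hR hR' α).polyBound hAm hBm
    have e1 : (fun k : ℕ => (sys hc hP h hR hR' α).E (fun ω =>
        conj ((fun ω => conj (A (act R ω))) ((sys hc hP h hR hR' α).θ ω)) *
          B ((sys hc hP h hR hR' α).τ^[k] ω))) =
        fun k : ℕ => ∫ ω, A ω * B (trans ((k : ℤ) • e) ω) ∂P := by
      funext k
      rw [sys_E]
      refine integral_congr_ae (Filter.Eventually.of_forall fun ω => ?_)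
      simp only [sys_θ, sys_τ, act_act, Complex.conj_conj, trans_iterate, natCast_zsmul]
    rw [e1] at key
    refine key.mono ?_
    have hA2 := B_left_le hP R hA hαA
    have hB2 := B_le hP R ⟨T, hB⟩ hαB
    exact mul_le_mul (Real.sqrt_le_sqrt hA2) (Real.sqrt_le_sqrt hB2) (Real.sqrt_nonneg _)
      (Real.sqrt_nonneg _)
  cs := by
    intro ℓ S T A B α hA hB hS hT hαA hαB
    have h := step_vert (2 * ℓ)
    have hR := symDom_vert (2 * ℓ)
    have hR' := symDom_vert (2 * ℓ + 1)
    have hAm := left_mem (R := Refl.vert (2 * ℓ)) hA (fun v hv => by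
      obtain ⟨x, y⟩ := v
      have := hS _ hv
      simp only at this
      refine ⟨?_, ?_, fun b => ?_⟩
      · simp [Refl.vert]; omega
      · simp [Refl.vert]; omega
      · cases b <;> simp [Refl.vert, Keep] <;> omega) hαA
    have hBm := right_mem (R := Refl.vert (2 * ℓ)) hB (fun v hv => by
      obtain ⟨x, y⟩ := v
      have := hT _ hv
      simp only at this
      refine ⟨?_, ?_, fun b => ?_⟩
      · simp [Refl.vert]; omega
      · simp [Refl.vert]; omega
      · cases b <;> simp [Refl.vert, Keep] <;> omega) hαB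
    have key := (sys hc hP h hR hR' α).cauchy_schwarz hAm hBm
    rw [sys_B, sys_B, sys_B] at key
    have e1 : ∫ ω, conj ((fun ω => conj (A (act (Refl.vert (2 * ℓ)) ω)))
        (act (Refl.vert (2 * ℓ)) ω)) * B ω ∂P = ∫ ω, A ω * B ω ∂P := by
      refine integral_congr_ae (Filter.Eventually.of_forall fun ω => ?_)
      simp only [act_act, Complex.conj_conj]
    rw [e1] at key
    refine key.trans ?_
    exact mul_le_mul_of_nonneg_right
      (Real.sqrt_le_sqrt (B_left_le hP (Refl.vert (2 * ℓ)) hA hαA)) (Real.sqrt_nonneg _)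

end Crest.Agent.R161.Lines373
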