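import Crest.Agent.R161.RPlim_373
import Crest.Agent.R161.Dmp2_341

/-!
R161 (helper373): flip invariance of the state, neutral local functionals.
-/

set_option autoImplicit false

noncomputable section

namespace Crest.Agent.R161.Neg373

open Finset MeasureTheory
open Crest.Agent.R161.Geo729 Crest.Agent.R161.Defs372
open Crest.Agent.R161.Aut373 Crest.Agent.R161.RPlim373
open scoped ComplexConjugate

/-- flipped heights -/
def neg (ω : Cfg) : Cfg := (fun v => - ω.1 v, fun f => - ω.2.1 f, ω.2.2)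

@[simp] theorem neg_k (ω : Cfg) (v : P2) : (neg ω).1 v = - ω.1 v := rfl
@[simp] theorem neg_h (ω : Cfg) (v : P2) : (neg ω).2.1 v = - ω.2.1 v := rfl
@[simp] theorem neg_z (ω : Cfg) (e : Edge) : (neg ω).2.2 e = ω.2.2 e := rfl

theorem neg_neg' (ω : Cfg) : neg (neg ω) = ω := by
  refine Prod.ext ?_ (Prod.ext ?_ rfl) <;> funext v <;> simp [neg]

theorem par_neg {ω : Cfg} (h : Par ω) : Par (neg ω) := fun v => (h v).neg

theorem addH_neg (a : ℤ) (ω : Cfg) : neg (addH a ω) = addH (-a) (neg ω) := by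
  refine Prod.ext ?_ (Prod.ext ?_ rfl) <;> funext v <;> simp [neg, addH] <;> ring

theorem neut_neg {β : Type*} {f : Cfg → β} (h : Neut f) : Neut (fun ω => f (neg ω)) := by
  intro ω hω a ha
  simp only
  rw [addH_neg]
  exact h _ (par_neg hω) (-a) ha.neg

theorem loc_neg {β : Type*} {S : Set P2} {f : Cfg → β} (h : Loc S f) :
    Loc S (fun ω => f (neg ω)) := by
  intro ω ω' hω
  refine h _ _ fun v hv => ?_
  obtain ⟨h1, h2, h3⟩ := hω v hv
  exact ⟨by simp [h1], by simp [h2], h3⟩

theorem finLoc_neg {β : Type*} {f : Cfg → β} (h : FinLoc f) : FinLoc (fun ω => f (neg ω)) := by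
  obtain ⟨S, hS⟩ := h
  exact ⟨S, loc_neg hS⟩

variable {c : ℝ} {P : Measure Cfg}

/-- **flip invariance of the state** -/
theorem integral_neg (hP : IsState c P) {f : Cfg → ℝ} (hf : FinLoc f) (hn : Neut f) :
    ∫ ω, f (neg ω) ∂P = ∫ ω, f ω ∂P := by
  obtain ⟨S, hS⟩ := hf
  refine eq_of_abs_sub_le_all fun ε hε => ?_
  obtain ⟨n1, h1⟩ := lim_neut hP hS hn (half_pos hε)
  obtain ⟨n2, h2⟩ := lim_neut hP (loc_neg hS) (neut_neg hn) (half_pos hε)
  obtain ⟨m, hm⟩ := Aut373.exists_box (Defs372.box n2 ∪ Defs372.box n1 ∪ S)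
  have hmm := hm m le_rfl
  have h3 := h1 (Defs372.box m) (Aut373.dom_box m)
    ((Finset.subset_union_right.trans Finset.subset_union_left).trans hmm)
  have h5 := h2 (Defs372.box m) (Aut373.dom_box m)
    ((Finset.subset_union_left.trans Finset.subset_union_left).trans hmm)
  have h4 : S ⊆ Defs372.box m := Finset.subset_union_right.trans hmm
  have h6 : Defs372.E c (Defs372.box m) (fun ω => f (neg ω)) = Defs372.E c (Defs372.box m) f := by
    rw [← Dmp341.E_neg c (Defs372.box m) f]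
    congr 1
    funext ω
    refine hS _ _ fun v hv => ⟨rfl, ?_, fun b => rfl⟩
    have : v ∈ Defs372.box m := h4 hv
    simp [neg, Dmp341.negC, this]
  rw [h6] at h5
  have := abs_sub_le (∫ ω, f (neg ω) ∂P) (Defs372.E c (Defs372.box m) f) (∫ ω, f ω ∂P)
  rw [abs_sub_comm (∫ ω, f (neg ω) ∂P) (Defs372.E c (Defs372.box m) f)] at this
  linarith

theorem integral_neg_complex (hP : IsState c P) {f : Cfg → ℂ} (hf : FinLoc f) (hn : Neut f) :
    ∫ ω, f (neg ω) ∂P = ∫ ω, f ω ∂P := by
  rw [integral_re_im (hf.integrable hP), integral_re_im ((finLoc_neg hf).integrable hP)]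
  have h1 := integral_neg hP (hf.comp Complex.re) (hn.comp Complex.re)
  have h2 := integral_neg hP (hf.comp Complex.im) (hn.comp Complex.im)
  rw [h1, h2]

/-- the characteristic function of an odd neutral local real functional is real -/
theorem integral_exp_of_odd (hP : IsState c P) {X : Cfg → ℝ} (hf : FinLoc X) (hn : Neut X)
    (hodd : ∀ ω, X (neg ω) = - X ω) :
    ∫ ω, Complex.exp (Complex.I * (X ω : ℂ)) ∂P = ((∫ ω, Real.cos (X ω) ∂P : ℝ) : ℂ) := by
  have h1 : ∫ ω, Real.sin (X ω) ∂P = 0 := by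
    have h2 := integral_neg hP (hf.comp Real.sin) (hn.comp Real.sin)
    simp only [hodd, Real.sin_neg] at h2
    have h3 : ∫ ω, -Real.sin (X ω) ∂P = -∫ ω, Real.sin (X ω) ∂P := MeasureTheory.integral_neg _
    rw [h3] at h2
    linarith
  have hint : Integrable (fun ω => Complex.exp (Complex.I * (X ω : ℂ))) P :=
    (hf.comp (fun x : ℝ => Complex.exp (Complex.I * (x : ℂ)))).integrable hP
  rw [integral_re_im hint]
  have e1 : ∀ ω, (Complex.exp (Complex.I * (X ω : ℂ))).re = Real.cos (X ω) := by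
    intro ω
    rw [mul_comm, Complex.exp_ofReal_mul_I_re]
  have e2 : ∀ ω, (Complex.exp (Complex.I * (X ω : ℂ))).im = Real.sin (X ω) := by
    intro ω
    rw [mul_comm, Complex.exp_ofReal_mul_I_im]
  simp only [e1, e2, h1, Complex.ofReal_zero, zero_mul, add_zero]

end Crest.Agent.R161.Neg373
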