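import Crest.Agent.R161.RPlim_373
import Crest.Agent.R161.Ifc_372

/-!
R161 (helper373): smeared heights of lattice functions and their second moments.

* `XL a ω = Σ a v K(v)`, `mass a` for `a : P2 →₀ ℝ`
* `integral_XL_sq` : `∫ (XL a)² = -½ Σ Σ a_x a_y VV (x-y)` for mass zero
* `sm_bound` : for mass zero densities of size `β / N²` in the box of size `N`,
  `∫ (XL a)² ≤ C β²` uniformly (from `VBound`).
* `VV_le` : `VV P p ≤ C (1 + log (nrm p))`
-/

set_option autoImplicit false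

noncomputable section

namespace Crest.Agent.R161.Sm373

open Finset MeasureTheory
open Crest.Agent.R161.Geo729 Crest.Agent.R161.Defs372 Crest.Agent.R161.Ifc372
open Crest.Agent.R161.Aut373 Crest.Agent.R161.RPlim373

/-- smeared height of a lattice function -/
def XL (a : P2 →₀ ℝ) (ω : Cfg) : ℝ := a.sum fun v x => x * (ω.1 v : ℝ)

/-- total mass -/
def mass (a : P2 →₀ ℝ) : ℝ := a.sum fun _ x => x

theorem XL_eq {a : P2 →₀ ℝ} {s : Finset P2} (h : ∀ v, a v ≠ 0 → v ∈ s) (ω : Cfg) :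
    XL a ω = ∑ v ∈ s, a v * (ω.1 v : ℝ) := by
  unfold XL
  exact Finsupp.sum_of_support_subset a (fun v hv => h v (Finsupp.mem_support_iff.1 hv)) _
    (fun _ _ => by simp)

theorem mass_eq {a : P2 →₀ ℝ} {s : Finset P2} (h : ∀ v, a v ≠ 0 → v ∈ s) :
    mass a = ∑ v ∈ s, a v := by
  unfold mass
  exact Finsupp.sum_of_support_subset a (fun v hv => h v (Finsupp.mem_support_iff.1 hv)) _
    (fun _ _ => rfl)

theorem XL_add (a b : P2 →₀ ℝ) (ω : Cfg) : XL (a + b) ω = XL a ω + XL b ω := by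
  unfold XL
  exact Finsupp.sum_add_index' (fun _ => by simp) (fun _ _ _ => by ring)

theorem XL_smul (r : ℝ) (a : P2 →₀ ℝ) (ω : Cfg) : XL (r • a) ω = r * XL a ω := by
  unfold XL
  rw [Finsupp.sum_smul_index' (fun _ => by simp), Finsupp.mul_sum]
  refine Finsupp.sum_congr fun v _ => ?_
  simp only [smul_eq_mul]
  ring

theorem XL_neg (a : P2 →₀ ℝ) (ω : Cfg) : XL (-a) ω = - XL a ω := by
  have := XL_smul (-1) a ω
  simpa using this

theorem XL_sub (a b : P2 →₀ ℝ) (ω : Cfg) : XL (a - b) ω = XL a ω - XL b ω := by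
  rw [sub_eq_add_neg, XL_add, XL_neg, sub_eq_add_neg]

theorem mass_add (a b : P2 →₀ ℝ) : mass (a + b) = mass a + mass b := by
  unfold mass
  exact Finsupp.sum_add_index' (fun _ => rfl) (fun _ _ _ => rfl)

theorem mass_smul (r : ℝ) (a : P2 →₀ ℝ) : mass (r • a) = r * mass a := by
  unfold mass
  rw [Finsupp.sum_smul_index' (fun _ => rfl), Finsupp.mul_sum]
  exact Finsupp.sum_congr fun v _ => by simp only [smul_eq_mul]

theorem mass_neg (a : P2 →₀ ℝ) : mass (-a) = - mass a := by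
  have := mass_smul (-1) a
  simpa using this

theorem mass_sub (a b : P2 →₀ ℝ) : mass (a - b) = mass a - mass b := by
  rw [sub_eq_add_neg, mass_add, mass_neg, sub_eq_add_neg]

theorem XL_zero (ω : Cfg) : XL 0 ω = 0 := by simp [XL]

theorem mass_zero : mass 0 = 0 := by simp [mass]

theorem XL_addH (a : P2 →₀ ℝ) (t : ℤ) (ω : Cfg) : XL a (addH t ω) = XL a ω + mass a * t := by
  unfold XL mass
  rw [Finsupp.sum, Finsupp.sum, Finsupp.sum, Finset.sum_mul, ← Finset.sum_add_distrib]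
  refine Finset.sum_congr rfl fun v _ => ?_
  simp only [addH]
  push_cast
  ring

theorem loc_XL (a : P2 →₀ ℝ) : Loc (a.support : Set P2) (XL a) := by
  intro ω ω' h
  unfold XL
  refine Finsupp.sum_congr fun v hv => ?_
  rw [(h v hv).1]

theorem finLoc_XL (a : P2 →₀ ℝ) : FinLoc (XL a) := ⟨_, loc_XL a⟩

theorem neut_XL {a : P2 →₀ ℝ} (ha : mass a = 0) : Neut (XL a) := by
  intro ω _ t _
  rw [XL_addH, ha, zero_mul, add_zero]

theorem XL_neg_cfg (a : P2 →₀ ℝ) (ω : Cfg) :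
    XL a ((fun v => - ω.1 v, fun f => - ω.2.1 f, ω.2.2) : Cfg) = - XL a ω := by
  unfold XL
  rw [Finsupp.sum, Finsupp.sum, ← Finset.sum_neg_distrib]
  refine Finset.sum_congr rfl fun v _ => ?_
  push_cast
  ring

/-- the charged exponential -/
theorem chg_exp_XL (a : P2 →₀ ℝ) :
    Chg (mass a) (fun ω => Complex.exp (Complex.I * (XL a ω : ℝ))) := by
  intro ω _ t _
  simp only
  rw [XL_addH, ← Complex.exp_add]
  congr 1
  push_cast
  ring

variable {c : ℝ} {P : Measure Cfg}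

/-! ### second moments -/

theorem integral_diff_sq (hP : IsState c P) (x y : P2) :
    ∫ ω, ((ω.1 x : ℝ) - ω.1 y) ^ 2 ∂P = Ifc372.VV P (x - y) := by
  unfold Ifc372.VV
  have hloc : FinLoc (fun ω : Cfg => ((ω.1 (x - y) : ℝ) - ω.1 (0, 0)) ^ 2) :=
    ⟨{x - y, (0, 0)}, fun ω ω' h => by
      simp only
      rw [(h (x - y) (by simp)).1, (h (0, 0) (by simp)).1]⟩
  have hneut : Neut (fun ω : Cfg => ((ω.1 (x - y) : ℝ) - ω.1 (0, 0)) ^ 2) := by
    intro ω _ t _
    simp only [addH]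
    push_cast
    ring
  rw [← integral_trans_real hP y hloc hneut]
  refine integral_congr_ae (Filter.Eventually.of_forall fun ω => ?_)
  simp only [Defs372.trans, sub_add_cancel]
  rw [show ((0, 0) : P2) + y = y from zero_add y]

/-- algebraic identity for mass zero -/
theorem sq_identity {ι : Type*} (s : Finset ι) (a k : ι → ℝ) (h : ∑ i ∈ s, a i = 0) :
    (∑ i ∈ s, a i * k i) ^ 2 = -(1 / 2) * ∑ i ∈ s, ∑ j ∈ s, a i * a j * (k i - k j) ^ 2 := by
  have e1 : ∑ i ∈ s, ∑ j ∈ s, a i * a j * (k i - k j) ^ 2 =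
      (∑ i ∈ s, a i * k i ^ 2) * (∑ j ∈ s, a j) + (∑ i ∈ s, a i) * (∑ j ∈ s, a j * k j ^ 2)
        - 2 * ((∑ i ∈ s, a i * k i) * (∑ j ∈ s, a j * k j)) := by
    rw [Finset.sum_mul_sum, Finset.sum_mul_sum, Finset.sum_mul_sum, Finset.mul_sum,
      ← Finset.sum_add_distrib, ← Finset.sum_sub_distrib]
    refine Finset.sum_congr rfl fun i _ => ?_
    rw [Finset.mul_sum, ← Finset.sum_add_distrib, ← Finset.sum_sub_distrib]
    refine Finset.sum_congr rfl fun j _ => ?_
    ring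
  rw [e1, h]
  ring

theorem integrable_diff_sq (hP : IsState c P) (x y : P2) :
    Integrable (fun ω : Cfg => ((ω.1 x : ℝ) - ω.1 y) ^ 2) P := by
  refine FinLoc.integrable hP ⟨{x, y}, fun ω ω' h => ?_⟩
  simp only
  rw [(h x (by simp)).1, (h y (by simp)).1]

theorem integral_XL_sq (hP : IsState c P) {a : P2 →₀ ℝ} {s : Finset P2}
    (h : ∀ v, a v ≠ 0 → v ∈ s) (h0 : mass a = 0) :
    ∫ ω, (XL a ω) ^ 2 ∂P = -(1 / 2) * ∑ x ∈ s, ∑ y ∈ s, a x * a y * Ifc372.VV P (x - y) := by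
  have e1 : ∀ ω : Cfg, (XL a ω) ^ 2 =
      -(1 / 2) * ∑ x ∈ s, ∑ y ∈ s, a x * a y * ((ω.1 x : ℝ) - ω.1 y) ^ 2 := by
    intro ω
    rw [XL_eq h, sq_identity s a (fun v => (ω.1 v : ℝ)) (by rw [← mass_eq h, h0])]
  simp only [e1]
  rw [integral_const_mul]
  congr 1
  rw [integral_finsetSum _ fun x _ => integrable_finsetSum _ fun y _ =>
    (integrable_diff_sq hP x y).const_mul _]
  refine Finset.sum_congr rfl fun x _ => ?_
  rw [integral_finsetSum _ fun y _ => (integrable_diff_sq hP x y).const_mul _]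
  refine Finset.sum_congr rfl fun y _ => ?_
  rw [integral_const_mul, integral_diff_sq hP]

theorem VV_zero (P : Measure Cfg) : Ifc372.VV P 0 = 0 := by
  unfold Ifc372.VV
  have : ∀ ω : Cfg, ((ω.1 (0 : P2) : ℝ) - ω.1 (0, 0)) ^ 2 = 0 := by
    intro ω
    rw [show (0 : P2) = (0, 0) from rfl]
    ring
  simp only [this, integral_zero]

theorem VV_nonneg (P : Measure Cfg) (p : P2) : 0 ≤ Ifc372.VV P p := integral_nonneg fun _ => sq_nonneg _

/-! ### sums -/

theorem sum_inv_sqrt_le (n : ℕ) : ∑ j ∈ Finset.range n, 1 / √((j : ℝ) + 1) ≤ 2 * √(n : ℝ) := by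
  induction n with
  | zero => simp
  | succ n ih =>
    rw [Finset.sum_range_succ]
    have h1 : 1 / √((n : ℝ) + 1) ≤ 2 * √((n : ℝ) + 1) - 2 * √(n : ℝ) := by
      have ha : 0 < √((n : ℝ) + 1) := Real.sqrt_pos.2 (by positivity)
      have hb : 0 ≤ √(n : ℝ) := Real.sqrt_nonneg _
      have h2 : √((n : ℝ) + 1) ^ 2 = n + 1 := Real.sq_sqrt (by positivity)
      have h3 : √(n : ℝ) ^ 2 = n := Real.sq_sqrt (by positivity)
      rw [div_le_iff₀ ha]
      nlinarith [sq_nonneg (√((n : ℝ) + 1) - √(n : ℝ))]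
    push_cast
    linarith

/-- `max |j| 1` -/
def m1 (j : ℤ) : ℝ := max |(j : ℝ)| 1

theorem one_le_m1 (j : ℤ) : 1 ≤ m1 j := le_max_right _ _

theorem m1_pos (j : ℤ) : 0 < m1 j := lt_of_lt_of_le one_pos (one_le_m1 j)

theorem sum_sqrt_le {N : ℕ} (hN : 1 ≤ N) :
    ∑ j ∈ Finset.Icc (-(2 * N : ℤ)) (2 * N), √((N : ℝ) / m1 j) ≤ 9 * N := by
  have hN' : (1 : ℝ) ≤ N := by exact_mod_cast hN
  -- split into negative, zero and positive parts
  have hsub : Finset.Icc (-(2 * N : ℤ)) (2 * N) ⊆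
      ({0} : Finset ℤ) ∪ ((Finset.range (2 * N)).image (fun j : ℕ => ((j : ℤ) + 1)) ∪
        (Finset.range (2 * N)).image (fun j : ℕ => (-((j : ℤ) + 1)))) := by
    intro j hj
    rw [Finset.mem_Icc] at hj
    simp only [Finset.mem_union, Finset.mem_singleton, Finset.mem_image, Finset.mem_range]
    rcases lt_trichotomy j 0 with h | h | h
    · exact Or.inr (Or.inr ⟨(-j - 1).toNat, by omega, by omega⟩)
    · exact Or.inl h
    · exact Or.inr (Or.inl ⟨(j - 1).toNat, by omega, by omega⟩)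
  have hnn : ∀ j : ℤ, 0 ≤ √((N : ℝ) / m1 j) := fun j => Real.sqrt_nonneg _
  have e1 : ∑ j ∈ (Finset.range (2 * N)).image (fun j : ℕ => ((j : ℤ) + 1)), √((N : ℝ) / m1 j) ≤
      4 * N := by
    rw [Finset.sum_image (by intro a _ b _ h; simpa using h)]
    have h2 : ∀ j ∈ Finset.range (2 * N), √((N : ℝ) / m1 ((j : ℤ) + 1)) =
        √(N : ℝ) * (1 / √((j : ℝ) + 1)) := by
      intro j _
      have : m1 ((j : ℤ) + 1) = (j : ℝ) + 1 := by
        unfold m1
        push_cast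
        rw [abs_of_nonneg (by positivity)]
        exact max_eq_left (by linarith [(Nat.cast_nonneg j : (0 : ℝ) ≤ j)])
      rw [this, Real.sqrt_div (by positivity)]
      ring
    rw [Finset.sum_congr rfl h2, ← Finset.mul_sum]
    have h3 := sum_inv_sqrt_le (2 * N)
    calc √(N : ℝ) * ∑ j ∈ Finset.range (2 * N), 1 / √((j : ℝ) + 1)
        ≤ √(N : ℝ) * (2 * √((2 * N : ℕ) : ℝ)) := by gcongr
      _ ≤ √(N : ℝ) * (2 * (2 * √(N : ℝ))) := by
          gcongr
          rw [show (2 : ℝ) * √(N : ℝ) = √(4 * N) by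
            rw [Real.sqrt_mul (by norm_num), show (4 : ℝ) = 2 ^ 2 by norm_num,
              Real.sqrt_sq (by norm_num)]]
          apply Real.sqrt_le_sqrt
          push_cast
          linarith
      _ = 4 * (√(N : ℝ) * √(N : ℝ)) := by ring
      _ = 4 * N := by rw [Real.mul_self_sqrt (by positivity)]
  have e2 : ∑ j ∈ (Finset.range (2 * N)).image (fun j : ℕ => (-((j : ℤ) + 1))),
      √((N : ℝ) / m1 j) ≤ 4 * N := by
    have h4 : ∀ j : ℤ, m1 (-j) = m1 j := fun j => by simp [m1]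
    rw [Finset.sum_image (by intro a _ b _ h; simpa using h)] at e1 ⊢
    simpa only [h4] using e1
  have e3 : ∑ j ∈ ({0} : Finset ℤ), √((N : ℝ) / m1 j) ≤ N := by
    rw [Finset.sum_singleton]
    have : m1 0 = 1 := by simp [m1]
    rw [this, div_one]
    rw [Real.sqrt_le_left (by positivity)]
    nlinarith
  calc ∑ j ∈ Finset.Icc (-(2 * N : ℤ)) (2 * N), √((N : ℝ) / m1 j)
      ≤ ∑ j ∈ ({0} : Finset ℤ) ∪ ((Finset.range (2 * N)).image (fun j : ℕ => ((j : ℤ) + 1)) ∪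
        (Finset.range (2 * N)).image (fun j : ℕ => (-((j : ℤ) + 1)))), √((N : ℝ) / m1 j) :=
        Finset.sum_le_sum_of_subset_of_nonneg hsub fun j _ _ => hnn j
    _ ≤ ∑ j ∈ ({0} : Finset ℤ), √((N : ℝ) / m1 j) +
        ∑ j ∈ ((Finset.range (2 * N)).image (fun j : ℕ => ((j : ℤ) + 1)) ∪
        (Finset.range (2 * N)).image (fun j : ℕ => (-((j : ℤ) + 1)))), √((N : ℝ) / m1 j) := by
        rw [← Finset.sum_union_inter]
        linarith [Finset.sum_nonneg (s := ({0} : Finset ℤ) ∩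
          ((Finset.range (2 * N)).image (fun j : ℕ => ((j : ℤ) + 1)) ∪
          (Finset.range (2 * N)).image (fun j : ℕ => (-((j : ℤ) + 1)))))
          (f := fun j => √((N : ℝ) / m1 j)) fun j _ => hnn j]
    _ ≤ ∑ j ∈ ({0} : Finset ℤ), √((N : ℝ) / m1 j) +
        (∑ j ∈ (Finset.range (2 * N)).image (fun j : ℕ => ((j : ℤ) + 1)), √((N : ℝ) / m1 j) +
        ∑ j ∈ (Finset.range (2 * N)).image (fun j : ℕ => (-((j : ℤ) + 1))), √((N : ℝ) / m1 j)) := by
        gcongr
        rw [← Finset.sum_union_inter (s₁ := (Finset.range (2 * N)).image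
          (fun j : ℕ => ((j : ℤ) + 1)))]
        linarith [Finset.sum_nonneg (s := (Finset.range (2 * N)).image
          (fun j : ℕ => ((j : ℤ) + 1)) ∩
          (Finset.range (2 * N)).image (fun j : ℕ => (-((j : ℤ) + 1))))
          (f := fun j => √((N : ℝ) / m1 j)) fun j _ => hnn j]
    _ ≤ 9 * N := by linarith

theorem log_le_two_sqrt {t : ℝ} (ht : 0 < t) : Real.log t ≤ 2 * √t := by
  have h1 : Real.log t = 2 * Real.log √t := by
    rw [Real.log_sqrt ht.le]
    ring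
  have h2 := Real.log_le_sub_one_of_pos (Real.sqrt_pos.2 ht)
  rw [h1]
  linarith

theorem abs_log_le {N : ℕ} (hN : 1 ≤ N) {z : P2} (hz : z ≠ 0) (h1 : |z.1| ≤ 2 * N)
    (h2 : |z.2| ≤ 2 * N) :
    |Real.log (nrm z / N)| ≤ 2 + (√((N : ℝ) / m1 z.1) + √((N : ℝ) / m1 z.2)) := by
  have hN' : (1 : ℝ) ≤ N := by exact_mod_cast hN
  have h1' : |(z.1 : ℝ)| ≤ 2 * N := by exact_mod_cast h1
  have h2' : |(z.2 : ℝ)| ≤ 2 * N := by exact_mod_cast h2
  have hsq : (1 : ℝ) ≤ (z.1 : ℝ) ^ 2 + (z.2 : ℝ) ^ 2 := by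
    have h3 : z.1 ≠ 0 ∨ z.2 ≠ 0 := by
      by_contra hcon
      push Not at hcon
      exact hz (Prod.ext hcon.1 hcon.2)
    rcases h3 with h3 | h3
    · have : (1 : ℝ) ≤ (z.1 : ℝ) ^ 2 := by
        have : (1 : ℤ) ≤ z.1 ^ 2 := by
          have := sq_pos_of_ne_zero (a := z.1) h3
          omega
        exact_mod_cast this
      nlinarith [sq_nonneg (z.2 : ℝ)]
    · have : (1 : ℝ) ≤ (z.2 : ℝ) ^ 2 := by
        have : (1 : ℤ) ≤ z.2 ^ 2 := by
          have := sq_pos_of_ne_zero (a := z.2) h3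
          omega
        exact_mod_cast this
      nlinarith [sq_nonneg (z.1 : ℝ)]
  have hn1 : 1 ≤ nrm z := by
    unfold nrm
    exact Real.one_le_sqrt.2 hsq
  have hnpos : 0 < nrm z := by linarith
  have ha : m1 z.1 ≤ nrm z := by
    unfold m1
    refine max_le ?_ hn1
    unfold nrm
    exact Real.abs_le_sqrt (by nlinarith [sq_nonneg (z.2 : ℝ)])
  have hb : m1 z.2 ≤ nrm z := by
    unfold m1
    refine max_le ?_ hn1
    unfold nrm
    exact Real.abs_le_sqrt (by nlinarith [sq_nonneg (z.1 : ℝ)])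
  have hup : nrm z ≤ 4 * N := by
    unfold nrm
    rw [Real.sqrt_le_left (by positivity)]
    have e1 : (z.1 : ℝ) ^ 2 ≤ (2 * N) ^ 2 := sq_le_sq' (by linarith [(abs_le.1 h1').1]) (abs_le.1 h1').2
    have e2 : (z.2 : ℝ) ^ 2 ≤ (2 * N) ^ 2 := sq_le_sq' (by linarith [(abs_le.1 h2').1]) (abs_le.1 h2').2
    nlinarith
  have hs1 : 0 ≤ √((N : ℝ) / m1 z.1) := Real.sqrt_nonneg _
  have hs2 : 0 ≤ √((N : ℝ) / m1 z.2) := Real.sqrt_nonneg _
  rw [abs_le]
  constructor
  · have e1 : Real.log (nrm z / N) = - Real.log (N / nrm z) := by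
      rw [← Real.log_inv, inv_div]
    rw [e1]
    have e2 : Real.log (N / nrm z) ≤ Real.log (N / m1 z.1) := by
      apply Real.log_le_log (by positivity)
      exact div_le_div_of_nonneg_left (by positivity) (m1_pos _) ha
    have e3 : Real.log (N / nrm z) ≤ Real.log (N / m1 z.2) := by
      apply Real.log_le_log (by positivity)
      exact div_le_div_of_nonneg_left (by positivity) (m1_pos _) hb
    have e4 := log_le_two_sqrt (t := (N : ℝ) / m1 z.1) (div_pos (by positivity) (m1_pos _))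
    have e5 := log_le_two_sqrt (t := (N : ℝ) / m1 z.2) (div_pos (by positivity) (m1_pos _))
    linarith
  · have e1 : Real.log (nrm z / N) ≤ Real.log 4 := by
      apply Real.log_le_log (by positivity)
      rw [div_le_iff₀ (by positivity)]
      exact hup
    have e2 : Real.log 4 ≤ 2 := by
      rw [show (4 : ℝ) = 2 ^ 2 by norm_num, Real.log_pow]
      have := Real.log_two_lt_d9
      push_cast
      linarith
    linarith

/-- the box -/
def bx (N : ℕ) : Finset P2 := Finset.Icc (-(N : ℤ)) N ×ˢ Finset.Icc (-(N : ℤ)) N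

theorem mem_bx {N : ℕ} {v : P2} : v ∈ bx N ↔ |v.1| ≤ N ∧ |v.2| ≤ N := by
  simp [bx, abs_le]

theorem card_bx (N : ℕ) : (bx N).card = (2 * N + 1) ^ 2 := by
  unfold bx
  rw [Finset.card_product, Int.card_Icc]
  have : ((N : ℤ) + 1 - -(N : ℤ)).toNat = 2 * N + 1 := by omega
  rw [this]
  ring

theorem card_bx_le {N : ℕ} (hN : 1 ≤ N) : ((bx N).card : ℝ) ≤ 9 * N ^ 2 := by
  rw [card_bx]
  have hN' : (1 : ℝ) ≤ N := by exact_mod_cast hN
  push_cast
  nlinarith

theorem row_sum_le {N : ℕ} (hN : 1 ≤ N) {x : P2} (hx : x ∈ bx N) :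
    ∑ y ∈ (bx N).filter (fun y => y ≠ x),
      (3 + (√((N : ℝ) / m1 (x - y).1) + √((N : ℝ) / m1 (x - y).2))) ≤ 165 * (N : ℝ) ^ 2 := by
  have hN' : (1 : ℝ) ≤ N := by exact_mod_cast hN
  set I := Finset.Icc (-(2 * N : ℤ)) (2 * N) with hI
  have hnn : ∀ z : P2, 0 ≤ 3 + (√((N : ℝ) / m1 z.1) + √((N : ℝ) / m1 z.2)) := fun z => by
    have := Real.sqrt_nonneg ((N : ℝ) / m1 z.1)
    have := Real.sqrt_nonneg ((N : ℝ) / m1 z.2)
    linarith
  have h1 : ∑ y ∈ (bx N).filter (fun y => y ≠ x),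
      (3 + (√((N : ℝ) / m1 (x - y).1) + √((N : ℝ) / m1 (x - y).2))) =
      ∑ z ∈ ((bx N).filter (fun y => y ≠ x)).image (fun y => x - y),
        (3 + (√((N : ℝ) / m1 z.1) + √((N : ℝ) / m1 z.2))) := by
    rw [Finset.sum_image]
    intro a _ b _ h
    exact sub_right_injective h
  have h2 : ((bx N).filter (fun y => y ≠ x)).image (fun y => x - y) ⊆ I ×ˢ I := by
    intro z hz
    rw [Finset.mem_image] at hz
    obtain ⟨y, hy, rfl⟩ := hz
    rw [Finset.mem_filter, mem_bx] at hy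
    rw [mem_bx] at hx
    rw [Finset.mem_product, hI, Finset.mem_Icc, Finset.mem_Icc]
    obtain ⟨⟨hy1, hy2⟩, -⟩ := hy
    rw [abs_le] at hy1 hy2
    have hx1 := abs_le.1 hx.1
    have hx2 := abs_le.1 hx.2
    simp only [Prod.fst_sub, Prod.snd_sub]
    omega
  have h3 : ∑ z ∈ I ×ˢ I, (3 + (√((N : ℝ) / m1 z.1) + √((N : ℝ) / m1 z.2))) =
      3 * (I.card : ℝ) ^ 2 + 2 * (I.card : ℝ) * ∑ j ∈ I, √((N : ℝ) / m1 j) := by
    rw [Finset.sum_product]
    simp only [Finset.sum_add_distrib, Finset.sum_const, nsmul_eq_mul]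
    rw [← Finset.mul_sum]
    ring
  have hcard : (I.card : ℝ) ≤ 5 * N := by
    rw [hI, Int.card_Icc]
    have : ((2 * N : ℤ) + 1 - -(2 * N : ℤ)).toNat = 4 * N + 1 := by omega
    rw [this]
    push_cast
    linarith
  have hs := sum_sqrt_le hN
  rw [← hI] at hs
  have hs0 : 0 ≤ ∑ j ∈ I, √((N : ℝ) / m1 j) := Finset.sum_nonneg fun j _ => Real.sqrt_nonneg _
  rw [h1]
  calc _ ≤ ∑ z ∈ I ×ˢ I, (3 + (√((N : ℝ) / m1 z.1) + √((N : ℝ) / m1 z.2))) :=
        Finset.sum_le_sum_of_subset_of_nonneg h2 fun z _ _ => hnn z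
    _ = 3 * (I.card : ℝ) ^ 2 + 2 * (I.card : ℝ) * ∑ j ∈ I, √((N : ℝ) / m1 j) := h3
    _ ≤ 3 * (5 * N) ^ 2 + 2 * (5 * N) * (9 * N) := by gcongr
    _ = 165 * (N : ℝ) ^ 2 := by ring

/-- logarithmic upper bound of the variance -/
theorem VV_le (hV : VBound P) : ∃ C : ℝ, 0 ≤ C ∧ ∀ N : ℕ, 1 ≤ N → ∀ p : P2,
    |p.1| ≤ 2 * N → |p.2| ≤ 2 * N → Ifc372.VV P p ≤ C * (1 + Real.log N) := by
  obtain ⟨C, hC0, hC⟩ := hV
  have he : ((1, 0) : P2) ≠ 0 := by
    intro h
    have := congrArg Prod.fst h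
    simp at this
  refine ⟨Ifc372.VV P (1, 0) + 3 * C, add_nonneg (VV_nonneg _ _) (by positivity), fun N hN p h1 h2 => ?_⟩
  have hN' : (1 : ℝ) ≤ N := by exact_mod_cast hN
  have hlog : 0 ≤ Real.log N := Real.log_nonneg hN'
  by_cases hp : p = 0
  · rw [hp, VV_zero]
    have := VV_nonneg P (1, 0)
    positivity
  · have h3 := hC p (1, 0) hp he
    have hn : nrm ((1, 0) : P2) = 1 := by simp [nrm]
    rw [hn, div_one] at h3
    have h1' : |(p.1 : ℝ)| ≤ 2 * N := by exact_mod_cast h1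
    have h2' : |(p.2 : ℝ)| ≤ 2 * N := by exact_mod_cast h2
    have hn1 : 1 ≤ nrm p := by
      unfold nrm
      rw [Real.one_le_sqrt]
      have h3 : p.1 ≠ 0 ∨ p.2 ≠ 0 := by
        by_contra hcon
        push Not at hcon
        exact hp (Prod.ext hcon.1 hcon.2)
      rcases h3 with h3 | h3
      · have : (1 : ℝ) ≤ (p.1 : ℝ) ^ 2 := by
          have : (1 : ℤ) ≤ p.1 ^ 2 := by
            have := sq_pos_of_ne_zero (a := p.1) h3
            omega
          exact_mod_cast this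
        nlinarith [sq_nonneg (p.2 : ℝ)]
      · have : (1 : ℝ) ≤ (p.2 : ℝ) ^ 2 := by
          have : (1 : ℤ) ≤ p.2 ^ 2 := by
            have := sq_pos_of_ne_zero (a := p.2) h3
            omega
          exact_mod_cast this
        nlinarith [sq_nonneg (p.1 : ℝ)]
    have hup : nrm p ≤ 4 * N := by
      unfold nrm
      rw [Real.sqrt_le_left (by positivity)]
      have e1 : (p.1 : ℝ) ^ 2 ≤ (2 * N) ^ 2 :=
        sq_le_sq' (by linarith [(abs_le.1 h1').1]) (abs_le.1 h1').2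
      have e2 : (p.2 : ℝ) ^ 2 ≤ (2 * N) ^ 2 :=
        sq_le_sq' (by linarith [(abs_le.1 h2').1]) (abs_le.1 h2').2
      nlinarith
    have hl0 : 0 ≤ Real.log (nrm p) := Real.log_nonneg hn1
    have hl1 : Real.log (nrm p) ≤ 2 + Real.log N := by
      calc Real.log (nrm p) ≤ Real.log (4 * N) := Real.log_le_log (by linarith) hup
        _ = Real.log 4 + Real.log N := Real.log_mul (by norm_num) (by positivity)
        _ ≤ 2 + Real.log N := by
          have e2 : Real.log 4 ≤ 2 := by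
            rw [show (4 : ℝ) = 2 ^ 2 by norm_num, Real.log_pow]
            have := Real.log_two_lt_d9
            push_cast
            linarith
          linarith
    rw [abs_of_nonneg hl0] at h3
    have h4 := (abs_le.1 h3).2
    have h5 := VV_nonneg P (1, 0)
    nlinarith [mul_nonneg h5 hlog, mul_nonneg hC0 hlog]

/-- **Uniform second moment bound.** -/
theorem sm_bound (hP : IsState c P) (hV : VBound P) : ∃ C : ℝ, 0 ≤ C ∧ ∀ N : ℕ, 1 ≤ N →
    ∀ a : P2 →₀ ℝ, (∀ v, a v ≠ 0 → v ∈ bx N) → mass a = 0 → ∀ β : ℝ, 0 ≤ β →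
      (∀ v, |a v| ≤ β / N ^ 2) → ∫ ω, (XL a ω) ^ 2 ∂P ≤ C * β ^ 2 := by
  obtain ⟨C₁, hC₁0, hC₁⟩ := VV_le hV
  obtain ⟨C, hC0, hC⟩ := hV
  refine ⟨(1 / 2) * (9 * 165 * C + 9 * (3 * C₁)), by positivity, fun N hN a ha h0 β hβ hab => ?_⟩
  have hN' : (1 : ℝ) ≤ N := by exact_mod_cast hN
  have hq : ((N : ℤ), (0 : ℤ)) ≠ (0 : P2) := by
    intro h
    have := congrArg Prod.fst h
    simp at this
    omega
  set q : P2 := ((N : ℤ), (0 : ℤ)) with hqdef
  have hnq : nrm q = N := by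
    simp [nrm, hqdef, Real.sqrt_sq (by positivity : (0 : ℝ) ≤ N)]
  have hsum0 : ∑ v ∈ bx N, a v = 0 := by rw [← mass_eq ha, h0]
  rw [integral_XL_sq hP ha h0]
  -- subtract the constant `VV P q`
  have e1 : ∑ x ∈ bx N, ∑ y ∈ bx N, a x * a y * Ifc372.VV P (x - y) =
      ∑ x ∈ bx N, ∑ y ∈ bx N, a x * a y * (Ifc372.VV P (x - y) - Ifc372.VV P q) := by
    have : ∑ x ∈ bx N, ∑ y ∈ bx N, a x * a y * Ifc372.VV P q = 0 := by
      have e : ∀ x ∈ bx N, ∑ y ∈ bx N, a x * a y * Ifc372.VV P q = 0 := by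
        intro x _
        have : ∑ y ∈ bx N, a x * a y * Ifc372.VV P q = a x * Ifc372.VV P q * ∑ y ∈ bx N, a y := by
          rw [Finset.mul_sum]
          exact Finset.sum_congr rfl fun y _ => by ring
        rw [this, hsum0, mul_zero]
      exact Finset.sum_eq_zero e
    rw [← sub_zero (∑ x ∈ bx N, ∑ y ∈ bx N, a x * a y * Ifc372.VV P (x - y)), ← this,
      ← Finset.sum_sub_distrib]
    refine Finset.sum_congr rfl fun x _ => ?_
    rw [← Finset.sum_sub_distrib]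
    exact Finset.sum_congr rfl fun y _ => by ring
  rw [e1]
  have hVq : Ifc372.VV P q ≤ C₁ * (1 + Real.log N) :=
    hC₁ N hN q (by simp [hqdef]; omega) (by simp [hqdef])
  have hlogN : Real.log N ≤ 2 * N := by
    have := Real.log_le_sub_one_of_pos (by linarith : (0 : ℝ) < N)
    linarith
  -- row bounds
  have hrow : ∀ x ∈ bx N, |∑ y ∈ bx N, a x * a y * (Ifc372.VV P (x - y) - Ifc372.VV P q)| ≤
      (β / N ^ 2) ^ 2 * (C * (165 * (N : ℝ) ^ 2) + 3 * C₁ * N) := by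
    intro x hx
    rw [← Finset.sum_filter_add_sum_filter_not (bx N) (fun y => y ≠ x)]
    have hA : |∑ y ∈ (bx N).filter (fun y => y ≠ x), a x * a y * (Ifc372.VV P (x - y) - Ifc372.VV P q)| ≤
        (β / N ^ 2) ^ 2 * (C * (165 * (N : ℝ) ^ 2)) := by
      calc _ ≤ ∑ y ∈ (bx N).filter (fun y => y ≠ x),
            |a x * a y * (Ifc372.VV P (x - y) - Ifc372.VV P q)| := Finset.abs_sum_le_sum_abs _ _
        _ ≤ ∑ y ∈ (bx N).filter (fun y => y ≠ x), (β / N ^ 2) ^ 2 *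
            (C * (3 + (√((N : ℝ) / m1 (x - y).1) + √((N : ℝ) / m1 (x - y).2)))) := by
            refine Finset.sum_le_sum fun y hy => ?_
            rw [Finset.mem_filter] at hy
            obtain ⟨hy1, hy2⟩ := hy
            have hne : x - y ≠ 0 := sub_ne_zero.2 (Ne.symm hy2)
            rw [mem_bx] at hx hy1
            have hx1 := abs_le.1 hx.1
            have hx2 := abs_le.1 hx.2
            have hy11 := abs_le.1 hy1.1
            have hy12 := abs_le.1 hy1.2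
            have hz1 : |(x - y).1| ≤ 2 * N := by
              rw [abs_le, Prod.fst_sub]
              omega
            have hz2 : |(x - y).2| ≤ 2 * N := by
              rw [abs_le, Prod.snd_sub]
              omega
            have h3 := hC (x - y) q hne hq
            rw [hnq] at h3
            have h4 := abs_log_le hN hne hz1 hz2
            have h5 : |Ifc372.VV P (x - y) - Ifc372.VV P q| ≤
                C * (3 + (√((N : ℝ) / m1 (x - y).1) + √((N : ℝ) / m1 (x - y).2))) := by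
              refine h3.trans ?_
              apply mul_le_mul_of_nonneg_left _ hC0
              linarith
            rw [abs_mul, abs_mul]
            have h6 : |a x| * |a y| ≤ (β / N ^ 2) ^ 2 := by
              rw [sq]
              exact mul_le_mul (hab x) (hab y) (abs_nonneg _) (by positivity)
            exact mul_le_mul h6 h5 (abs_nonneg _) (by positivity)
        _ = (β / N ^ 2) ^ 2 * (C * ∑ y ∈ (bx N).filter (fun y => y ≠ x),
            (3 + (√((N : ℝ) / m1 (x - y).1) + √((N : ℝ) / m1 (x - y).2)))) := by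
            rw [Finset.mul_sum, Finset.mul_sum]
        _ ≤ (β / N ^ 2) ^ 2 * (C * (165 * (N : ℝ) ^ 2)) := by
            gcongr
            exact row_sum_le hN hx
    have hB : |∑ y ∈ (bx N).filter (fun y => ¬ y ≠ x), a x * a y * (Ifc372.VV P (x - y) - Ifc372.VV P q)| ≤
        (β / N ^ 2) ^ 2 * (3 * C₁ * N) := by
      have : (bx N).filter (fun y => ¬ y ≠ x) = {x} := by
        ext y
        simp only [ne_eq, not_not, Finset.mem_filter, Finset.mem_singleton]
        exact ⟨fun h => h.2, fun h => ⟨h ▸ hx, h⟩⟩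
      rw [this, Finset.sum_singleton, sub_self, VV_zero, zero_sub, abs_mul, abs_mul, abs_neg,
        abs_of_nonneg (VV_nonneg P q)]
      have h6 : |a x| * |a x| ≤ (β / N ^ 2) ^ 2 := by
        rw [sq]
        exact mul_le_mul (hab x) (hab x) (abs_nonneg _) (by positivity)
      have h7 : Ifc372.VV P q ≤ 3 * C₁ * N := by
        refine hVq.trans ?_
        nlinarith
      exact mul_le_mul h6 h7 (VV_nonneg P q) (by positivity)
    calc _ ≤ _ := abs_add_le _ _
      _ ≤ (β / N ^ 2) ^ 2 * (C * (165 * (N : ℝ) ^ 2)) + (β / N ^ 2) ^ 2 * (3 * C₁ * N) :=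
          add_le_add hA hB
      _ = _ := by ring
  have htot : |∑ x ∈ bx N, ∑ y ∈ bx N, a x * a y * (Ifc372.VV P (x - y) - Ifc372.VV P q)| ≤
      9 * N ^ 2 * ((β / N ^ 2) ^ 2 * (C * (165 * (N : ℝ) ^ 2) + 3 * C₁ * N)) := by
    calc _ ≤ ∑ x ∈ bx N, |∑ y ∈ bx N, a x * a y * (Ifc372.VV P (x - y) - Ifc372.VV P q)| :=
          Finset.abs_sum_le_sum_abs _ _
      _ ≤ ∑ x ∈ bx N, (β / N ^ 2) ^ 2 * (C * (165 * (N : ℝ) ^ 2) + 3 * C₁ * N) :=
          Finset.sum_le_sum hrow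
      _ = ((bx N).card : ℝ) * ((β / N ^ 2) ^ 2 * (C * (165 * (N : ℝ) ^ 2) + 3 * C₁ * N)) := by
          rw [Finset.sum_const, nsmul_eq_mul]
      _ ≤ _ := by
          gcongr
          exact card_bx_le hN
  have hfin : 9 * (N : ℝ) ^ 2 * ((β / N ^ 2) ^ 2 * (C * (165 * (N : ℝ) ^ 2) + 3 * C₁ * N)) ≤
      (9 * 165 * C + 9 * (3 * C₁)) * β ^ 2 := by
    have hNpos : (0 : ℝ) < N := by linarith
    have e : 9 * (N : ℝ) ^ 2 * ((β / N ^ 2) ^ 2 * (C * (165 * (N : ℝ) ^ 2) + 3 * C₁ * N)) =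
        9 * 165 * C * β ^ 2 + 9 * (3 * C₁) * β ^ 2 * (1 / N) := by
      field_simp
    rw [e]
    have : 1 / (N : ℝ) ≤ 1 := by
      rw [div_le_one hNpos]
      exact hN'
    nlinarith [mul_nonneg (mul_nonneg hC₁0 (sq_nonneg β)) (by linarith : (0 : ℝ) ≤ 1 - 1 / N)]
  have h8 := neg_abs_le (∑ x ∈ bx N, ∑ y ∈ bx N, a x * a y * (Ifc372.VV P (x - y) - Ifc372.VV P q))
  linarith

end Crest.Agent.R161.Sm373
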