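import Crest.Agent.R161.W8_369
import Crest.Agent.R161.Lines_373
import Crest.Agent.R161.Neg_373
import Crest.Agent.R161.Sm_373

/-!
R161, STEP 6 (helper369), part W9: the inputs `WIn` of the Ward step for the infinite state.
-/

set_option autoImplicit false

noncomputable section

open Filter Topology MeasureTheory
open scoped ComplexConjugate

namespace Crest.Agent.R161.Ward369

open Crest.Agent.R161.Geo729 Crest.Agent.R161.Defs372 Crest.Agent.R161.Ifc372
open Crest.Agent.R161.Aut373 Crest.Agent.R161.Green722 Crest.Agent.R161.RPlim373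

variable {c : ℝ} {P : Measure Cfg}

theorem samp_fin {f : ℂ → ℝ} (hf : Test f) {δ : ℝ} (hδ : 0 < δ) :
    ∃ S : Finset P2, ∀ v, v ∉ S → δ ^ 2 * f (ptC δ v) = 0 := by
  obtain ⟨R, hR0, hR⟩ := Test.exists_radius hf
  refine ⟨lbox δ R, fun v hv => ?_⟩
  by_contra hne
  have h1 : f (ptC δ v) ≠ 0 := right_ne_zero_of_mul hne
  refine hv (mem_lbox hδ ?_)
  by_contra hcon
  exact h1 (hR _ (not_le.1 hcon))

/-- the characteristic function of a smeared height is real -/
theorem integral_exp_X (hP : IsState c P) {f : ℂ → ℝ} (hf : Test f) {δ : ℝ} (hδ : 0 < δ) :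
    ∫ ω, Complex.exp (Complex.I * (X δ f ω : ℂ)) ∂P = ((∫ ω, Real.cos (X δ f ω) ∂P : ℝ) : ℂ) := by
  obtain ⟨S, hS⟩ := samp_fin hf hδ
  set a : P2 → ℝ := fun v => δ ^ 2 * f (ptC δ v) with ha
  have hfin : Fin0 a := fin0_of_subset hS
  set Y : Cfg → ℝ := fun ω => Yl a ω - mass a * (ω.1 (0, 0) : ℝ) with hY
  have hloc : FinLoc Y := by
    refine ⟨S ∪ {(0, 0)}, ?_⟩
    intro ω ω' hag
    have h1 : Yl a ω = Yl a ω' := loc_Yl hS ω ω' fun v hv => hag v (by
      simp only [Finset.coe_union, Set.mem_union]; exact Or.inl hv)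
    have h2 := (hag (0, 0) (by simp)).1
    simp only [hY, h1, h2]
  have hneut : Neut Y := by
    intro ω _ t _
    simp only [hY]
    rw [Yl_addH hfin]
    simp only [addH]
    push_cast
    ring
  have hodd : ∀ ω, Y (Neg373.neg ω) = -Y ω := by
    intro ω
    simp only [hY, Neg373.neg_k]
    have : Yl a (Neg373.neg ω) = -Yl a ω := by
      rw [Yl_eq_sum hS, Yl_eq_sum hS, ← Finset.sum_neg_distrib]
      refine Finset.sum_congr rfl fun v _ => ?_
      simp only [Neg373.neg_k]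
      push_cast
      ring
    rw [this]
    push_cast
    ring
  have hae : ∀ᵐ ω ∂P, X δ f ω = Y ω := by
    filter_upwards [hP.valid] with ω hω
    simp only [hY]
    rw [hω.zero, X_eq]
    simp [ha]
  have h1 := Neg373.integral_exp_of_odd hP hloc hneut hodd
  have h2 : ∫ ω, Complex.exp (Complex.I * (X δ f ω : ℂ)) ∂P =
      ∫ ω, Complex.exp (Complex.I * (Y ω : ℂ)) ∂P :=
    integral_congr_ae (hae.mono fun ω hω => by simp only [hω])
  have h3 : ∫ ω, Real.cos (X δ f ω) ∂P = ∫ ω, Real.cos (Y ω) ∂P :=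
    integral_congr_ae (hae.mono fun ω hω => by simp only [hω])
  rw [h2, h1, h3]

theorem lin_of_vbound (hP : IsState c P) (hV : VBound P) :
    ∃ C : ℝ, 0 ≤ C ∧ ∀ v : P2, ∫ ω, (ω.1 v : ℝ) ^ 2 ∂P ≤ C * (1 + |(v.1 : ℝ)| + |(v.2 : ℝ)|) := by
  obtain ⟨C, hC0, hC⟩ := Sm373.VV_le hV
  refine ⟨C, hC0, fun v => ?_⟩
  have e1 : ∫ ω, (ω.1 v : ℝ) ^ 2 ∂P = Ifc372.VV P v := by
    unfold Ifc372.VV
    refine integral_congr_ae ?_
    filter_upwards [hP.valid] with ω hω
    rw [hω.zero]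
    simp
  rw [e1]
  have h1 := hC (v.1.natAbs + v.2.natAbs + 1) (by omega) v
    (by push_cast; have := abs_nonneg v.1; have := abs_nonneg v.2; linarith)
    (by push_cast; have := abs_nonneg v.1; have := abs_nonneg v.2; linarith)
  refine h1.trans (mul_le_mul_of_nonneg_left ?_ hC0)
  have h2 : (((v.1.natAbs + v.2.natAbs + 1 : ℕ)) : ℝ) = |(v.1 : ℝ)| + |(v.2 : ℝ)| + 1 := by
    push_cast
    rw [Nat.cast_natAbs, Nat.cast_natAbs]
    push_cast
    ring
  rw [h2]
  have h3 := Real.log_le_sub_one_of_pos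
    (by positivity : 0 < |(v.1 : ℝ)| + |(v.2 : ℝ)| + 1)
  linarith

theorem lawHyp_of (hP : IsState c P) (hG : PlaneGauss c P) (hV : VBound P) :
    LawHyp (kap c) P where
  law f hf h0 := by
    have h1 := hG.law f hf h0 1
    have h2 : Tendsto (fun δ : ℝ => ((∫ ω, Real.cos (1 * X δ f ω) ∂P : ℝ) : ℂ)) (𝓝[>] 0)
        (𝓝 ((Real.exp (-(1 ^ 2 * (kap c * plog f f) / 2)) : ℝ) : ℂ)) :=
      (Complex.continuous_ofReal.tendsto _).comp h1
    have e : Real.exp (-(1 ^ 2 * (kap c * plog f f) / 2)) = Real.exp (-(kap c * plog f f) / 2) := by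
      congr 1; ring
    rw [e] at h2
    refine h2.congr' ?_
    filter_upwards [self_mem_nhdsWithin] with δ hδ
    simp only [one_mul]
    exact (integral_exp_X hP hf hδ).symm
  lin := lin_of_vbound hP hV

/-- **The inputs of the Ward step hold for the infinite state.** -/
theorem wIn_of (hc : 1 ≤ c) (hP : IsState c P) (hG : PlaneGauss c P) (hV : VBound P) :
    WIn c (kap c) P 4 Lines373.Θ where
  st := hP
  law := lawHyp_of hP hG hV
  rp := Lines373.rpHyp hc hP
  κ0 := by norm_num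
  hΘ ℓ ω v := by
    simp [Lines373.Θ, Sym597.Refl.vert]

end Crest.Agent.R161.Ward369
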