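import Crest.Agent.R161.War4_682
import Crest.Agent.R161.W9_369

/-!
# Row 161, Ward step (helper682), part 5: literal instance

* `wardRing_of` : `WardRing P (kap c)` from `IsState`, `PlaneGauss`, `VBound`.
-/

set_option autoImplicit false

namespace Crest.Agent.R161.War682

open MeasureTheory
open Crest.Agent.R161.Defs372 Crest.Agent.R161.Ifc372

theorem wardRing_of {c : ℝ} (hc : 1 ≤ c) {P : Measure Cfg} (hP : IsState c P)
    (hG : PlaneGauss c P) (hV : VBound P) : Ring695.WardRing P (Ifc372.kap c) :=
  wardRing (Ward369.wIn_of hc hP hG hV)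

end Crest.Agent.R161.War682
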