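import Crest.Agent.R161.Row_372
import Crest.Agent.R161.War5_682

/-!
# Row 161 (helper682): `RingProp` from the state data, and the row from `PlaneIn`

* `ringProp_of` : literal hypothesis `hRing` of `Row372.s0242_of`
* `s0242_of_plane` : the statement of S0242 from `Lk159.PlaneIn c P`, `c = (tParam U)⁻¹` (row R150).
-/

set_option autoImplicit false

noncomputable section

namespace Crest.Agent.R161.Fin682

open Filter Topology MeasureTheory
open Crest.Agent.R161.Defs372 Crest.Agent.R161.Ifc372 Crest.Agent.R161.Row372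
open Crest.Agent.R150.Hgt989 Crest.Agent.R150.Pls989

theorem ringProp_of {c : ℝ} {Q : Measure Cfg} (hc : 1 ≤ c) (h : StateData c Q) (hU : LemU c)
    (hR : RSWc (nu Q)) : Asm695.RingProp c (kap c) :=
  Ring695.ringProp hc h.st (deloc hc h) (fkg hc h) hR hU (War682.wardRing_of hc h.st h.pg h.vb)

open scoped ContDiff in
/-- **Row 161 from the plane state of row 150.** -/
theorem s0242_of_plane (U : ℝ) {P : Measure Conf}
    (h : Lk159.PlaneIn (Crest.ProbabilityR.AshkinTeller.tParam U)⁻¹ P)
    (φ : ℂ → ℝ) (hφ : ContDiff ℝ ∞ φ) (hφc : HasCompactSupport φ)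
    (hφD : tsupport φ ⊆ Metric.ball (0 : ℂ) 1) (s : ℝ) :
    Filter.Tendsto (fun δ : ℝ => Crest.ProbabilityR.AshkinTeller.atExpect δ U
        (fun cfg => Complex.exp
          (Complex.I * (s * Crest.ProbabilityR.AshkinTeller.atPairing φ cfg : ℝ))))
      (nhdsWithin 0 (Set.Ioi 0))
      (nhds (Complex.exp (-(2 * Crest.ProbabilityR.DiscGreen.discGreenForm φ /
        (Real.pi * Crest.ProbabilityR.AshkinTeller.gParam U) * s ^ 2 / 2 : ℝ)))) :=
  s0242_of U h (fun _ _ hc hD hU hR => ringProp_of hc hD hU hR) φ hφ hφc hφD s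

end Crest.Agent.R161.Fin682
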