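import Crest.Agent.R150.Top4_772
import Crest.Agent.R161.Fin_682

/-!
# Row 161: the input `PlaneIn` from the output `PlaneAll` of row 150

* `planeIn_of` : `PlaneIn c P` from `Top772.PlaneAll c`
* `s0242_of_planeAll` : the statement of S0242 from `Top772.PlaneAll (tParam U)⁻¹`
-/

set_option autoImplicit false

noncomputable section

open Filter Topology MeasureTheory
open Crest.ProbabilityR.SixVertex
open Crest.Agent.R150.Hgt989 Crest.Agent.R150.Pln989 Crest.Agent.R150.Pls989

namespace Crest.Agent.R161.In372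

theorem planeIn_of {c : ℝ} (hc0 : 0 < c) (hc2 : c ≤ 2) (h : Crest.Agent.R150.Top772.PlaneAll c) :
    ∃ P : Measure Conf, Lk159.PlaneIn c P := by
  obtain ⟨P, hP, law, mom⟩ := h
  exact ⟨P, { cpos := hc0, cle := hc2, plane := hP, law := law, mom := mom }⟩

theorem c_le_two {U : ℝ} (hU : U ≤ Real.log 3 / 4) :
    (Crest.ProbabilityR.AshkinTeller.tParam U)⁻¹ ≤ 2 := by
  have h1 := Top729.one_half_le_tParam hU
  have h2 := Top729.tParam_pos U
  rw [inv_le_comm₀ h2 (by norm_num)]
  linarith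

open scoped ContDiff in
/-- **Row 161 from the end theorem of row 150.** -/
theorem s0242_of_planeAll (U : ℝ) (hU : U ≤ Real.log 3 / 4)
    (h : Crest.Agent.R150.Top772.PlaneAll (Crest.ProbabilityR.AshkinTeller.tParam U)⁻¹)
    (φ : ℂ → ℝ) (hφ : ContDiff ℝ ∞ φ) (hφc : HasCompactSupport φ)
    (hφD : tsupport φ ⊆ Metric.ball (0 : ℂ) 1) (s : ℝ) :
    Filter.Tendsto (fun δ : ℝ => Crest.ProbabilityR.AshkinTeller.atExpect δ U
        (fun cfg => Complex.exp
          (Complex.I * (s * Crest.ProbabilityR.AshkinTeller.atPairing φ cfg : ℝ))))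
      (nhdsWithin 0 (Set.Ioi 0))
      (nhds (Complex.exp (-(2 * Crest.ProbabilityR.DiscGreen.discGreenForm φ /
        (Real.pi * Crest.ProbabilityR.AshkinTeller.gParam U) * s ^ 2 / 2 : ℝ)))) := by
  obtain ⟨P, hP⟩ := planeIn_of (inv_pos.2 (Top729.tParam_pos U)) (c_le_two hU) h
  exact Fin682.s0242_of_plane U hP φ hφ hφc hφD s

end Crest.Agent.R161.In372
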