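import Crest.Agent.R150.Top6_772
import Crest.Agent.R161.In_372

/-!
# Row 161: the end theorem angle by angle

Row 161 needs the plane state of row 150 only for `0 ≤ η < 2π/3` (`1 < c ≤ 2`).
* `ConstAt η` : the constant of the two-point function at the angle `η`
* `planeAll_at` : `PlaneAll (2 cos (η/2))` from `ConstAt η`
* `constAt_of_two` : `ConstAt η` from one system with the right constant per plane state
* `s0242_of_constAt` : S0242 from `ConstAt η` for `0 ≤ η < 2π/3`
-/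

set_option autoImplicit false

noncomputable section

open Filter Topology MeasureTheory
open Crest.ProbabilityR.SixVertex
open Crest.Agent.R150.Hgt989 Crest.Agent.R150.Pln989 Crest.Agent.R150.Pls989
open Crest.Agent.R150.FE952 Crest.Agent.R150.Red989 Crest.Agent.R150.Wick360
open Crest.Agent.R150.KP934 Crest.Agent.R150.Inn989
open Crest.Agent.R150.Top772
open Crest.Agent.R150

namespace Crest.Agent.R161.At372

/-- the constant of the two-point function at the angle `η` -/
def ConstAt (η : ℝ) : Prop := ∀ P : Measure Conf,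
  IsPlane (2 * Real.cos (η / 2)) P →
  ∀ (Ω : Type) (_ : MeasurableSpace Ω) (M : Measure Ω) (_ : SFinite M) (x0 : ℝ)
    (F : Ω → ℂ → ℂ) (τ : ℝ → Ω → Ω), Sys x0 M F τ → (∀ p, Vp P p = VV M F (pn p)) →
    2 * Real.pi * kappa x0 M F = 2 / (Real.pi - η)

theorem constAt_of_all (h : LfConst) {η : ℝ} (h0 : 0 ≤ η) (h1 : η < Real.pi) : ConstAt η :=
  h η h0 h1

/-- one system with the right constant per plane state is enough -/
theorem constAt_of_two {η : ℝ} (h : ∀ P : Measure Conf, IsPlane (2 * Real.cos (η / 2)) P →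
    ∃ (Ω : Type) (_ : MeasurableSpace Ω) (M : Measure Ω) (_ : SFinite M) (x0 : ℝ)
      (F : Ω → ℂ → ℂ) (τ : ℝ → Ω → Ω), Sys x0 M F τ ∧ (∀ p, Vp P p = VV M F (pn p)) ∧
      2 * Real.pi * kappa x0 M F = 2 / (Real.pi - η)) : ConstAt η := by
  intro P hP Ω m M hM x0 F τ S hV
  obtain ⟨Ω', m', M', hM', x0', F', τ', S', hV', hc⟩ := h P hP
  have hT := S'.twoPt hV'
  rw [hc] at hT
  exact twoPt_unique (S.twoPt hV) hT

/-- all the inputs on the plane state at the angle `η` -/
theorem kall_at {η : ℝ} (h0 : 0 ≤ η) (h1 : η < Real.pi) (hC : ConstAt η) (P : Measure Conf)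
    [IsProbabilityMeasure P] (hP : IsPlane (2 * Real.cos (η / 2)) P) :
    KAll (2 * Real.cos (η / 2)) (2 / (Real.pi - η)) P := by
  obtain ⟨Ω, m, M, hM, x0, F, τ, S, hV⟩ := sys_all η h0 h1 P hP
  have hT := S.twoPt hV
  obtain ⟨C, hVR⟩ := VRg970.vreg_of_sys S hV
  exact {
    c0 := cos_half_pos h0 h1
    plane := hP
    vreg := ⟨C, hVR⟩
    spec := spec_all η h0 h1 P hP
    mom := fun k hk => by
      obtain ⟨L, hL⟩ := Dec803.momBd_plane h0 h1 hP hT hVR k hk
      exact ⟨L, 1, hL⟩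
    two := by
      have h := hC P hP Ω m M hM x0 F τ S hV
      rwa [h] at hT }

/-- **the plane state with the law and the moments, angle by angle** -/
theorem planeAll_at {η : ℝ} (h0 : 0 ≤ η) (h1 : η < Real.pi) (hC : ConstAt η) :
    PlaneAll (2 * Real.cos (η / 2)) := by
  have hc0 := cos_half_pos h0 h1
  have hc2 : 2 * Real.cos (η / 2) ≤ 2 := by linarith [Real.cos_le_one (η / 2)]
  have hv := var_pos hc0 hc2
  obtain ⟨P, hP⟩ := exists_plane hc0 (AT999.hasPlane_all hc0 hc2)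
  have := hP.prob
  have H := kall_at h0 h1 hC P hP
  have hk := kap2_of sys_all wick_all η h0 h1 P hP H
  have H' : KAll (2 * Real.cos (η / 2)) (varianceMultiplier (2 * Real.cos (η / 2))) P := by
    rw [var_eq h0 h1]
    exact H
  have hS' := H'.scal_of_kap2 hk
  exact ⟨P, hP,
    fun μ hμ h0 hE ψ => law_of_mom hv H'.plane H'.two (momInput_of H' hv.le hS') μ hμ h0 hE ψ,
    fun k _ K hK hd => unif_of H' hv.le hS' k K hK hd⟩

/-- the angle of `1 < c ≤ 2` -/
theorem exists_angle_lt {c : ℝ} (hc1 : 1 < c) (hc2 : c ≤ 2) :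
    ∃ η : ℝ, 0 ≤ η ∧ η < 2 * Real.pi / 3 ∧ c = 2 * Real.cos (η / 2) := by
  have hpi := Real.pi_pos
  obtain ⟨η, h0, h1, h2⟩ := Win897.exists_angle (by linarith) hc2
  refine ⟨η, h0, ?_, h2⟩
  by_contra hcon
  push Not at hcon
  have h3 : Real.cos (η / 2) ≤ Real.cos (Real.pi / 3) :=
    Real.cos_le_cos_of_nonneg_of_le_pi (by positivity) (by linarith) (by linarith)
  rw [Real.cos_pi_div_three] at h3
  linarith

theorem planeAll_of_constAt (hC : ∀ η : ℝ, 0 ≤ η → η < 2 * Real.pi / 3 → ConstAt η) {c : ℝ}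
    (hc1 : 1 < c) (hc2 : c ≤ 2) : PlaneAll c := by
  obtain ⟨η, h0, h1, rfl⟩ := exists_angle_lt hc1 hc2
  exact planeAll_at h0 (by linarith [Real.pi_pos]) (hC η h0 h1)

open scoped ContDiff in
/-- **Row 161 from the constant at the angles `0 ≤ η < 2π/3`.** -/
theorem s0242_of_constAt (hC : ∀ η : ℝ, 0 ≤ η → η < 2 * Real.pi / 3 → ConstAt η)
    (U : ℝ) (hU : U ≤ Real.log 3 / 4)
    (φ : ℂ → ℝ) (hφ : ContDiff ℝ ∞ φ) (hφc : HasCompactSupport φ)
    (hφD : tsupport φ ⊆ Metric.ball (0 : ℂ) 1) (s : ℝ) :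
    Filter.Tendsto (fun δ : ℝ => Crest.ProbabilityR.AshkinTeller.atExpect δ U
        (fun cfg => Complex.exp
          (Complex.I * (s * Crest.ProbabilityR.AshkinTeller.atPairing φ cfg : ℝ))))
      (nhdsWithin 0 (Set.Ioi 0))
      (nhds (Complex.exp (-(2 * Crest.ProbabilityR.DiscGreen.discGreenForm φ /
        (Real.pi * Crest.ProbabilityR.AshkinTeller.gParam U) * s ^ 2 / 2 : ℝ)))) :=
  In372.s0242_of_planeAll U hU
    (planeAll_of_constAt hC (Row372.one_lt_c U) (In372.c_le_two hU)) φ hφ hφc hφD s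

end Crest.Agent.R161.At372
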