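import Crest.Agent.R161.Geo_729

/-!
Row 161, Step 2 (helper123): finite-volume Burton-Keane count for the dual percolation `ω*`.

* `ZC = Edge → Bool`; `z e = false` means that the dual edge `fA e - fB e` is open (`ω*`-open).
* `Op z f g`, `Cn z S f g` : open step, open connection inside `S`.
* `Bx x n`, `Bd x n` : box of radius `n` around the face `x`, its boundary.
* `Thr z x r n` : three distinct clusters of `z` in `Bx x n` join `Bx x r` to `Bd x n`.
* `count` : disjoint trifurcation boxes are at most as many as the boundary faces.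
-/

set_option autoImplicit false

namespace Crest.Agent.R161.BK123

open Crest.Agent.R161.Geo729

/-- `z e = true`: the edge `e` is cut; `z e = false`: the dual edge of `e` is open. -/
abbrev ZC : Type := Edge → Bool

/-- `f` and `g` are joined by an open dual edge. -/
def Op (z : ZC) (f g : P2) : Prop :=
  ∃ e : Edge, z e = false ∧ ((fA e = f ∧ fB e = g) ∨ (fA e = g ∧ fB e = f))

theorem Op.symm {z : ZC} {f g : P2} (h : Op z f g) : Op z g f := by
  obtain ⟨e, h1, h2⟩ := h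
  exact ⟨e, h1, h2.symm⟩

theorem Op.adj {z : ZC} {f g : P2} (h : Op z f g) : Adj f g := by
  obtain ⟨e, -, h2⟩ := h
  rcases h2 with ⟨rfl, rfl⟩ | ⟨rfl, rfl⟩
  · exact adj_fA_fB e
  · exact (adj_fA_fB e).symm

/-- The edge between two adjacent faces. -/
theorem exists_edge {f g : P2} (h : Adj f g) :
    ∃ e : Edge, (fA e = f ∧ fB e = g) ∨ (fA e = g ∧ fB e = f) := by
  obtain ⟨a, b⟩ := f
  rcases h with rfl | rfl | rfl | rfl
  · exact ⟨((a + 1, b), true), Or.inr ⟨by simp, by simp⟩⟩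
  · exact ⟨((a, b), true), Or.inl ⟨by simp, by simp⟩⟩
  · exact ⟨((a, b + 1), false), Or.inr ⟨by simp, by simp⟩⟩
  · exact ⟨((a, b), false), Or.inl ⟨by simp, by simp⟩⟩

/-- One open step inside `S`. -/
def St (z : ZC) (S : Set P2) (f g : P2) : Prop := f ∈ S ∧ g ∈ S ∧ Op z f g

/-- Open connection inside `S` (between elements of `S`). -/
def Cn (z : ZC) (S : Set P2) (f g : P2) : Prop := f ∈ S ∧ Relation.ReflTransGen (St z S) f g

theorem St.symm {z : ZC} {S : Set P2} {f g : P2} (h : St z S f g) : St z S g f :=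
  ⟨h.2.1, h.1, h.2.2.symm⟩

theorem Cn.refl {z : ZC} {S : Set P2} {f : P2} (h : f ∈ S) : Cn z S f f :=
  ⟨h, Relation.ReflTransGen.refl⟩

theorem Cn.mem_left {z : ZC} {S : Set P2} {f g : P2} (h : Cn z S f g) : f ∈ S := h.1

theorem Cn.mem_right {z : ZC} {S : Set P2} {f g : P2} (h : Cn z S f g) : g ∈ S := by
  obtain ⟨h1, h2⟩ := h
  rcases Relation.ReflTransGen.cases_tail h2 with h3 | ⟨c, _, h4⟩
  · rw [h3]; exact h1
  · exact h4.2.1

theorem rtg_symm {z : ZC} {S : Set P2} {f g : P2} (h : Relation.ReflTransGen (St z S) f g) :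
    Relation.ReflTransGen (St z S) g f := by
  induction h with
  | refl => exact Relation.ReflTransGen.refl
  | tail _ h2 ih => exact Relation.ReflTransGen.head h2.symm ih

theorem Cn.symm {z : ZC} {S : Set P2} {f g : P2} (h : Cn z S f g) : Cn z S g f :=
  ⟨h.mem_right, rtg_symm h.2⟩

theorem Cn.trans {z : ZC} {S : Set P2} {f g k : P2} (h : Cn z S f g) (h' : Cn z S g k) :
    Cn z S f k := ⟨h.1, h.2.trans h'.2⟩

theorem Cn.step {z : ZC} {S : Set P2} {f g : P2} (hf : f ∈ S) (hg : g ∈ S) (h : Op z f g) :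
    Cn z S f g := ⟨hf, Relation.ReflTransGen.single ⟨hf, hg, h⟩⟩

theorem Cn.mono {z : ZC} {S T : Set P2} (hST : S ⊆ T) {f g : P2} (h : Cn z S f g) :
    Cn z T f g := by
  refine ⟨hST h.1, ?_⟩
  obtain ⟨_, h2⟩ := h
  induction h2 with
  | refl => exact Relation.ReflTransGen.refl
  | tail _ hs ih => exact Relation.ReflTransGen.tail ih ⟨hST hs.1, hST hs.2.1, hs.2.2⟩

/-- A connection all of whose points lie in `T` is a connection inside `S ∩ T`. -/
theorem Cn.inter {z : ZC} {S T : Set P2} {f g : P2} (h : Cn z S f g)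
    (hT : ∀ k, Cn z S f k → k ∈ T) : Cn z (S ∩ T) f g := by
  obtain ⟨h1, h2⟩ := h
  refine ⟨⟨h1, hT f (Cn.refl h1)⟩, ?_⟩
  induction h2 with
  | refl => exact Relation.ReflTransGen.refl
  | @tail b c hb hc ih =>
    exact Relation.ReflTransGen.tail ih
      ⟨⟨hc.1, hT _ ⟨h1, hb⟩⟩, ⟨hc.2.1, hT _ ⟨h1, hb.tail hc⟩⟩, hc.2.2⟩

/-! ### boxes -/

/-- Box of radius `n` around `x`. -/
def Bx (x : P2) (n : ℕ) : Set P2 := {y | |y.1 - x.1| ≤ (n : ℤ) ∧ |y.2 - x.2| ≤ (n : ℤ)}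

/-- Boundary of the box. -/
def Bd (x : P2) (n : ℕ) : Set P2 :=
  {y | y ∈ Bx x n ∧ (|y.1 - x.1| = (n : ℤ) ∨ |y.2 - x.2| = (n : ℤ))}

theorem mem_Bx {x y : P2} {n : ℕ} :
    y ∈ Bx x n ↔ |y.1 - x.1| ≤ (n : ℤ) ∧ |y.2 - x.2| ≤ (n : ℤ) := Iff.rfl

theorem Bx_mono {x : P2} {m n : ℕ} (h : m ≤ n) : Bx x m ⊆ Bx x n := by
  intro y hy
  have : (m : ℤ) ≤ n := by exact_mod_cast h
  exact ⟨hy.1.trans this, hy.2.trans this⟩

theorem self_mem_Bx (x : P2) (n : ℕ) : x ∈ Bx x n := by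
  simp [mem_Bx]

/-- A step from a non-boundary point of the box stays in the box. -/
theorem mem_Bx_of_adj {x f g : P2} {n : ℕ} (hf : f ∈ Bx x n) (hf' : f ∉ Bd x n)
    (h : Adj f g) : g ∈ Bx x n := by
  obtain ⟨a, b⟩ := f
  obtain ⟨c, d⟩ := g
  obtain ⟨u, v⟩ := x
  simp only [Bd, mem_Bx, Set.mem_ofPred_eq, not_and, not_or] at hf hf' ⊢
  have h3 := hf' hf
  simp only [Adj, Prod.mk.injEq] at h
  constructor
  · rw [abs_le] at hf ⊢
    have h5 : |a - u| < (n : ℤ) := lt_of_le_of_ne (abs_le.2 hf.1) h3.1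
    rw [abs_lt] at h5
    omega
  · have h4 := hf.2
    have h5 : |b - v| < (n : ℤ) := lt_of_le_of_ne h4 h3.2
    rw [abs_lt] at h5
    rw [abs_le]
    omega

/-- First hitting of the boundary of a box by an open path leaving it. -/
theorem exit_bd {z : ZC} {S : Set P2} {x a b : P2} {m : ℕ} (h : Cn z S a b) (ha : a ∈ Bx x m)
    (hb : b ∉ Bx x m ∨ b ∈ Bd x m) : ∃ s ∈ Bd x m, Cn z (S ∩ Bx x m) a s := by
  obtain ⟨haS, h2⟩ := h
  revert haS ha
  induction h2 using Relation.ReflTransGen.head_induction_on with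
  | refl =>
    intro ha haS
    rcases hb with hb | hb
    · exact absurd ha hb
    · exact ⟨b, hb, Cn.refl (S := S ∩ Bx x m) ⟨haS, ha⟩⟩
  | @head a c hac _ ih =>
    intro ha haS
    by_cases had : a ∈ Bd x m
    · exact ⟨a, had, Cn.refl (S := S ∩ Bx x m) ⟨haS, ha⟩⟩
    · have hc : c ∈ Bx x m := mem_Bx_of_adj ha had hac.2.2.adj
      obtain ⟨s, hs, hcs⟩ := ih hc hac.2.1
      exact ⟨s, hs, (Cn.step (S := S ∩ Bx x m) ⟨haS, ha⟩ ⟨hac.2.1, hc⟩ hac.2.2).trans hcs⟩

/-- Last exit from the inner box. -/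
theorem last_exit {z : ZC} {S T : Set P2} {f g : P2} (h : Cn z S f g) (hf : f ∈ T)
    (hg : g ∉ T) : ∃ a ∈ T, ∃ b, Cn z S f a ∧ Op z a b ∧ Cn z (S \ T) b g := by
  obtain ⟨hfS, h2⟩ := h
  have key : ∀ f, Relation.ReflTransGen (St z S) f g → f ∈ S →
      (Cn z (S \ T) f g) ∨ ∃ a ∈ T, ∃ b, Cn z S f a ∧ Op z a b ∧ Cn z (S \ T) b g := by
    intro f h2
    induction h2 using Relation.ReflTransGen.head_induction_on with
    | refl => intro hgS; exact Or.inl (Cn.refl (S := S \ T) ⟨hgS, hg⟩)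
    | @head a c hac _ ih =>
      intro haS
      rcases ih hac.2.1 with h3 | ⟨a', ha', b', h3, h4, h5⟩
      · by_cases haT : a ∈ T
        · exact Or.inr ⟨a, haT, c, Cn.refl haS, hac.2.2, h3⟩
        · exact Or.inl ((Cn.step (S := S \ T) ⟨haS, haT⟩ h3.mem_left hac.2.2).trans h3)
      · exact Or.inr ⟨a', ha', b', (Cn.step haS hac.2.1 hac.2.2).trans h3, h4, h5⟩
  rcases key f h2 hfS with h3 | h3
  · exact absurd hf h3.mem_left.2
  · exact h3

/-- Three distinct clusters of `z` in `Bx x n` join `Bx x r` to `Bd x n`. -/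
def Thr (z : ZC) (x : P2) (r n : ℕ) : Prop :=
  ∃ f : Fin 3 → P2, (∀ i, f i ∈ Bx x r ∧ ∃ g ∈ Bd x n, Cn z (Bx x n) (f i) g) ∧
    ∀ i j, i ≠ j → ¬ Cn z (Bx x n) (f i) (f j)

/-- Three distinct clusters of `z` outside `Bx x r` adjacent to `Bx x r` and reaching `Bd x n`. -/
def Tri (z : ZC) (x : P2) (r n : ℕ) : Prop :=
  ∃ b : Fin 3 → P2, (∀ i, (∃ a ∈ Bx x r, Op z a (b i)) ∧
    ∃ g ∈ Bd x n, Cn z (Bx x n \ Bx x r) (b i) g) ∧
    ∀ i j, i ≠ j → ¬ Cn z (Bx x n \ Bx x r) (b i) (b j)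

/-- All dual edges inside `Bx x r` are open. -/
def AllO (z : ZC) (x : P2) (r : ℕ) : Prop :=
  ∀ e, fA e ∈ Bx x r → fB e ∈ Bx x r → z e = false

theorem tri_of_thr {z : ZC} {x : P2} {r n : ℕ} (hrn : r < n) (h : Thr z x r n) :
    Tri z x r n := by
  obtain ⟨f, h1, h2⟩ := h
  have key : ∀ i, ∃ b, (∃ a ∈ Bx x r, Op z a b ∧ Cn z (Bx x n) (f i) a) ∧
      ∃ g ∈ Bd x n, Cn z (Bx x n \ Bx x r) b g := by
    intro i
    obtain ⟨hf, g, hg, hc⟩ := h1 i
    have hgr : g ∉ Bx x r := by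
      intro hgr
      have hrn' : (r : ℤ) < n := by exact_mod_cast hrn
      rcases hg.2 with h3 | h3
      · have := hgr.1; omega
      · have := hgr.2; omega
    obtain ⟨a, ha, b, h3, h4, h5⟩ := last_exit hc hf hgr
    exact ⟨b, ⟨a, ha, h4, h3⟩, g, hg, h5⟩
  choose b hb using key
  refine ⟨b, fun i => ⟨?_, (hb i).2⟩, fun i j hij hc => h2 i j hij ?_⟩
  · obtain ⟨a, ha, h3, _⟩ := (hb i).1
    exact ⟨a, ha, h3⟩
  · obtain ⟨a, ha, h3, h4⟩ := (hb i).1
    obtain ⟨a', ha', h3', h4'⟩ := (hb j).1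
    have hc' : Cn z (Bx x n) (b i) (b j) := hc.mono Set.sdiff_subset
    have e1 : Cn z (Bx x n) a (b i) := Cn.step h4.mem_right hc'.mem_left h3
    have e2 : Cn z (Bx x n) (b j) a' := (Cn.step h4'.mem_right hc'.mem_right h3').symm
    exact ((h4.trans e1).trans hc').trans (e2.trans h4'.symm)

/-- Open all dual edges inside `Bx x r`. -/
noncomputable def opn (x : P2) (r : ℕ) (z : ZC) : ZC := by
  classical exact fun e => if fA e ∈ Bx x r ∧ fB e ∈ Bx x r then false else z e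

theorem op_opn {x : P2} {r : ℕ} {z : ZC} {a b : P2} (h : a ∉ Bx x r ∨ b ∉ Bx x r) :
    Op (opn x r z) a b ↔ Op z a b := by
  have key : ∀ e : Edge, ((fA e = a ∧ fB e = b) ∨ (fA e = b ∧ fB e = a)) →
      opn x r z e = z e := by
    intro e he
    unfold opn
    rw [if_neg]
    rintro ⟨h1, h2⟩
    rcases he with ⟨rfl, rfl⟩ | ⟨rfl, rfl⟩
    · rcases h with h | h <;> contradiction
    · rcases h with h | h <;> contradiction
  constructor
  · rintro ⟨e, h1, h2⟩
    exact ⟨e, by rw [← key e h2]; exact h1, h2⟩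
  · rintro ⟨e, h1, h2⟩
    exact ⟨e, by rw [key e h2]; exact h1, h2⟩

theorem cn_congr {z z' : ZC} {S : Set P2} (h : ∀ a ∈ S, ∀ b ∈ S, Op z a b ↔ Op z' a b) {f g : P2} :
    Cn z S f g ↔ Cn z' S f g := by
  have e : St z S = St z' S := by
    funext a b
    refine propext ⟨fun hs => ⟨hs.1, hs.2.1, (h a hs.1 b hs.2.1).1 hs.2.2⟩,
      fun hs => ⟨hs.1, hs.2.1, (h a hs.1 b hs.2.1).2 hs.2.2⟩⟩
  unfold Cn
  rw [e]

theorem tri_opn {x : P2} {r n : ℕ} {z : ZC} : Tri (opn x r z) x r n ↔ Tri z x r n := by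
  have hc : ∀ f g, Cn (opn x r z) (Bx x n \ Bx x r) f g ↔ Cn z (Bx x n \ Bx x r) f g :=
    fun f g => cn_congr fun a ha b _ => op_opn (Or.inl ha.2)
  unfold Tri
  simp only [hc]
  constructor
  · rintro ⟨b, h1, h2⟩
    refine ⟨b, fun i => ⟨?_, (h1 i).2⟩, h2⟩
    obtain ⟨⟨a, ha, h3⟩, g, hg, h4⟩ := h1 i
    exact ⟨a, ha, (op_opn (Or.inr h4.mem_left.2)).1 h3⟩
  · rintro ⟨b, h1, h2⟩
    refine ⟨b, fun i => ⟨?_, (h1 i).2⟩, h2⟩
    obtain ⟨⟨a, ha, h3⟩, g, hg, h4⟩ := h1 i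
    exact ⟨a, ha, (op_opn (Or.inr h4.mem_left.2)).2 h3⟩

theorem allO_opn {x : P2} {r : ℕ} {z : ZC} : AllO (opn x r z) x r := by
  intro e h1 h2
  unfold opn
  rw [if_pos ⟨h1, h2⟩]

/-- The box is connected when all its dual edges are open. -/
theorem cn_of_allO {z : ZC} {x : P2} {r : ℕ} (h : AllO z x r) {a b : P2} (ha : a ∈ Bx x r)
    (hb : b ∈ Bx x r) : Cn z (Bx x r) a b := by
  have step : ∀ a b : P2, a ∈ Bx x r → b ∈ Bx x r → Adj a b → Cn z (Bx x r) a b := by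
    intro a b ha hb hab
    obtain ⟨e, he⟩ := exists_edge hab
    refine Cn.step ha hb ⟨e, ?_, he⟩
    rcases he with ⟨h1, h2⟩ | ⟨h1, h2⟩
    · exact h e (h1 ▸ ha) (h2 ▸ hb)
    · exact h e (h1 ▸ hb) (h2 ▸ ha)
  have key : ∀ (k : ℕ) (a : P2), a ∈ Bx x r → (a.1 - x.1).natAbs + (a.2 - x.2).natAbs = k →
      Cn z (Bx x r) a x := by
    intro k
    induction k with
    | zero =>
      intro a ha hk
      have e : a = x := by
        obtain ⟨a1, a2⟩ := a
        obtain ⟨x1, x2⟩ := x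
        simp only [Prod.mk.injEq] at hk ⊢
        omega
      rw [e]
      exact Cn.refl (self_mem_Bx _ _)
    | succ k ih =>
      intro a ha hk
      obtain ⟨a1, a2⟩ := a
      obtain ⟨x1, x2⟩ := x
      simp only [mem_Bx, abs_le] at ha
      simp only at hk
      rcases lt_trichotomy a1 x1 with h1 | h1 | h1
      · have hm : ((a1 + 1, a2) : P2) ∈ Bx (x1, x2) r := by
          simp only [mem_Bx, abs_le]; omega
        exact (step _ _ (by simp only [mem_Bx, abs_le]; omega) hm (by simp [Adj])).trans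
          (ih _ hm (by simp only; omega))
      · rcases lt_trichotomy a2 x2 with h2 | h2 | h2
        · have hm : ((a1, a2 + 1) : P2) ∈ Bx (x1, x2) r := by
            simp only [mem_Bx, abs_le]; omega
          exact (step _ _ (by simp only [mem_Bx, abs_le]; omega) hm (by simp [Adj])).trans
            (ih _ hm (by simp only; omega))
        · exfalso
          omega
        · have hm : ((a1, a2 - 1) : P2) ∈ Bx (x1, x2) r := by
            simp only [mem_Bx, abs_le]; omega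
          exact (step _ _ (by simp only [mem_Bx, abs_le]; omega) hm (by simp [Adj])).trans
            (ih _ hm (by simp only; omega))
      · have hm : ((a1 - 1, a2) : P2) ∈ Bx (x1, x2) r := by
          simp only [mem_Bx, abs_le]; omega
        exact (step _ _ (by simp only [mem_Bx, abs_le]; omega) hm (by simp [Adj])).trans
          (ih _ hm (by simp only; omega))
  exact (key _ a ha rfl).trans (key _ b hb rfl).symm

/-! ### the counting lemma -/

/-- numbering of the faces -/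
def rho (f : P2) : ℕ := Encodable.encode f

theorem rho_inj {f g : P2} (h : rho f = rho g) : f = g := Encodable.encode_injective h

/-- The boundary of a box is finite. -/
theorem Bx_finite (x : P2) (n : ℕ) : (Bx x n).Finite := by
  refine (((Finset.Icc (x.1 - n) (x.1 + n)) ×ˢ (Finset.Icc (x.2 - n) (x.2 + n)) :
    Finset P2).finite_toSet).subset ?_
  intro y hy
  simp only [Finset.coe_product, Finset.coe_Icc, Set.mem_prod, Set.mem_Icc]
  have h1 := abs_le.1 hy.1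
  have h2 := abs_le.1 hy.2
  omega

theorem Bd_finite (x : P2) (n : ℕ) : (Bd x n).Finite :=
  (Bx_finite x n).subset fun _ h => h.1

/-- `s` is the marked boundary face of the trifurcation box `Bx x r`. -/
structure Mark (z : ZC) (r m : ℕ) (x s : P2) : Prop where
  bd : s ∈ Bd 0 m
  touch : ∃ a ∈ Bx x r, ∃ b, Op z a b ∧ Cn z (Bx 0 m \ Bx x r) s b
  min : ∀ s' ∈ Bd 0 m, Cn z (Bx 0 m \ Bx x r) s s' → rho s ≤ rho s'
  other : ∃ y : Fin 2 → P2, (∀ i, y i ∈ Bd 0 m ∧ rho (y i) < rho s ∧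
      ∃ a ∈ Bx x r, ∃ b, Op z a b ∧ Cn z (Bx 0 m \ Bx x r) (y i) b) ∧
    ¬ Cn z (Bx 0 m \ Bx x r) (y 0) (y 1)

/-- The two indices different from `i`. -/
def jj (i : Fin 3) (k : Fin 2) : Fin 3 := if k = 0 then i + 1 else i + 2

theorem jj_ne : ∀ (i : Fin 3) (k : Fin 2), jj i k ≠ i := by decide

theorem jj_ne' : ∀ i : Fin 3, jj i 0 ≠ jj i 1 := by decide

theorem exists_mark {z : ZC} {r m n : ℕ} {x : P2} (hn : 2 * m ≤ n)
    (hx : Bx x (r + 1) ⊆ Bx 0 m) (h : Tri z x r n) : ∃ s, Mark z r m x s := by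
  classical
  obtain ⟨b, h1, h2⟩ := h
  have hx0 : x ∈ Bx 0 m := hx (self_mem_Bx _ _)
  have hsub : Bx 0 m ⊆ Bx x n := by
    intro y hy
    have e1 := abs_le.1 hy.1
    have e2 := abs_le.1 hy.2
    have e3 := abs_le.1 hx0.1
    have e4 := abs_le.1 hx0.2
    have e5 : (2 * (m : ℤ)) ≤ n := by exact_mod_cast hn
    simp only [Prod.fst_zero, Prod.snd_zero] at e1 e2 e3 e4
    simp only [mem_Bx, abs_le]
    omega
  have hex : ∀ i, ∃ s ∈ Bd 0 m, Cn z (Bx 0 m \ Bx x r) (b i) s := by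
    intro i
    obtain ⟨⟨a, ha, hab⟩, g, hg, hc⟩ := h1 i
    have hb0 : b i ∈ Bx 0 m := by
      apply hx
      have h3 := hab.adj
      have e1 := abs_le.1 ha.1
      have e2 := abs_le.1 ha.2
      generalize b i = w at h3 ⊢
      obtain ⟨a1, a2⟩ := a
      obtain ⟨w1, w2⟩ := w
      obtain ⟨x1, x2⟩ := x
      simp only [Adj, Prod.mk.injEq] at h3
      simp only at e1 e2
      simp only [mem_Bx, abs_le]
      push_cast
      omega
    have hg0 : g ∉ Bx 0 m ∨ g ∈ Bd 0 m := by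
      by_cases hgm : g ∈ Bx 0 m
      · right
        refine ⟨hgm, ?_⟩
        have e1 := abs_le.1 hgm.1
        have e2 := abs_le.1 hgm.2
        have e3 := abs_le.1 hx0.1
        have e4 := abs_le.1 hx0.2
        have e5 : (2 * (m : ℤ)) ≤ n := by exact_mod_cast hn
        simp only [Prod.fst_zero, Prod.snd_zero, sub_zero] at e1 e2 e3 e4 ⊢
        rcases hg.2 with h5 | h5
        · left
          rcases abs_eq_abs.1 (h5.trans (Int.natAbs_natCast n ▸ (Int.abs_eq_natAbs (n:ℤ)).symm))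
            with h6 | h6
          · rw [abs_of_nonneg (by omega)]; omega
          · rw [abs_of_nonpos (by omega)]; omega
        · right
          rcases abs_eq_abs.1 (h5.trans (Int.natAbs_natCast n ▸ (Int.abs_eq_natAbs (n:ℤ)).symm))
            with h6 | h6
          · rw [abs_of_nonneg (by omega)]; omega
          · rw [abs_of_nonpos (by omega)]; omega
      · exact Or.inl hgm
    obtain ⟨s, hs, hc'⟩ := exit_bd hc hb0 hg0
    refine ⟨s, hs, hc'.mono ?_⟩
    rintro y ⟨⟨_, hy1⟩, hy2⟩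
    exact ⟨hy2, hy1⟩
  -- minimal boundary faces
  have hmin : ∀ i, ∃ s ∈ Bd 0 m, Cn z (Bx 0 m \ Bx x r) (b i) s ∧
      ∀ s' ∈ Bd 0 m, Cn z (Bx 0 m \ Bx x r) (b i) s' → rho s ≤ rho s' := by
    intro i
    obtain ⟨s0, hs0, hc0⟩ := hex i
    have hfin : ({s | s ∈ Bd 0 m ∧ Cn z (Bx 0 m \ Bx x r) (b i) s}).Finite :=
      (Bd_finite 0 m).subset fun _ h => h.1
    obtain ⟨s, hs, hs'⟩ := Set.exists_min_image _ rho hfin ⟨s0, hs0, hc0⟩
    exact ⟨s, hs.1, hs.2, fun s' h3 h4 => hs' s' ⟨h3, h4⟩⟩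
  choose μ hμ1 hμ2 hμ3 using hmin
  have hne : ∀ i j, i ≠ j → ¬ Cn z (Bx 0 m \ Bx x r) (μ i) (μ j) := by
    intro i j hij hc
    refine h2 i j hij ?_
    have := ((hμ2 i).trans hc).trans (hμ2 j).symm
    exact this.mono (Set.sdiff_subset_sdiff_left hsub)
  have hne' : ∀ i j, i ≠ j → rho (μ i) ≠ rho (μ j) := by
    intro i j hij he
    refine hne i j hij ?_
    rw [rho_inj he]
    exact Cn.refl (hμ2 j).mem_right
  obtain ⟨i0, -, hi0⟩ := Finset.exists_max_image (Finset.univ : Finset (Fin 3))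
    (fun i => rho (μ i)) ⟨0, Finset.mem_univ _⟩
  have hlt : ∀ j, j ≠ i0 → rho (μ j) < rho (μ i0) := fun j hj =>
    lt_of_le_of_ne (hi0 j (Finset.mem_univ _)) (hne' j i0 hj)
  have htouch : ∀ i, ∃ a ∈ Bx x r, ∃ b', Op z a b' ∧ Cn z (Bx 0 m \ Bx x r) (μ i) b' := by
    intro i
    obtain ⟨⟨a, ha, hab⟩, _⟩ := h1 i
    exact ⟨a, ha, b i, hab, (hμ2 i).symm⟩
  refine ⟨μ i0, hμ1 i0, htouch i0, fun s' h3 h4 => hμ3 i0 s' h3 ((hμ2 i0).trans h4),
    fun k => μ (jj i0 k), ?_, ?_⟩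
  · intro k
    exact ⟨hμ1 _, hlt _ (jj_ne i0 k), htouch _⟩
  · exact hne _ _ (jj_ne' i0)

theorem inj_aux {z : ZC} {r m : ℕ} {x x' s : P2} (h : Mark z r m x s) (h' : Mark z r m x' s)
    (hO : AllO z x r) (hO' : AllO z x' r) (hd : Disjoint (Bx x r) (Bx x' r))
    (hx : Bx x r ⊆ Bx 0 m) (hx' : Bx x' r ⊆ Bx 0 m)
    (hp : ∃ p ∈ Bx x' r, Cn z (Bx 0 m \ Bx x r) s p) : False := by
  obtain ⟨p, hp, hsp⟩ := hp
  obtain ⟨y, hy, hne⟩ := h'.other
  have hB : Bx x r ⊆ Bx 0 m \ Bx x' r := fun k hk => ⟨hx hk, Set.disjoint_left.1 hd hk⟩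
  have hB' : Bx x' r ⊆ Bx 0 m \ Bx x r := fun k hk => ⟨hx' hk, Set.disjoint_right.1 hd hk⟩
  have key : ∃ i, ∀ k, Cn z (Bx 0 m \ Bx x' r) (y i) k → k ∉ Bx x r := by
    by_contra hcon
    push Not at hcon
    obtain ⟨k0, h01, h02⟩ := hcon 0
    obtain ⟨k1, h11, h12⟩ := hcon 1
    exact hne ((h01.trans ((cn_of_allO hO h02 h12).mono hB)).trans h11.symm)
  obtain ⟨i, hi⟩ := key
  obtain ⟨h1, h2, a, ha, b, hab, hyb⟩ := hy i
  have hyb' : Cn z (Bx 0 m \ Bx x r) (y i) b := by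
    refine (hyb.inter (T := (Bx x r)ᶜ) hi).mono ?_
    rintro k ⟨⟨hk1, _⟩, hk2⟩
    exact ⟨hk1, hk2⟩
  have hba : Cn z (Bx 0 m \ Bx x r) b a := Cn.step hyb'.mem_right (hB' ha) hab.symm
  have hap : Cn z (Bx 0 m \ Bx x r) a p := (cn_of_allO hO' ha hp).mono hB'
  have hall := hsp.trans (((hyb'.trans hba).trans hap).symm)
  have := h.min (y i) h1 hall
  omega

/-- Different trifurcation boxes get different marks. -/
theorem mark_inj {z : ZC} {r m : ℕ} {x x' s : P2} (h : Mark z r m x s) (h' : Mark z r m x' s)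
    (hO : AllO z x r) (hO' : AllO z x' r) (hx : Bx x r ⊆ Bx 0 m) (hx' : Bx x' r ⊆ Bx 0 m)
    (hd : Disjoint (Bx x r) (Bx x' r)) : False := by
  by_cases hp : ∃ p ∈ Bx x' r, Cn z (Bx 0 m \ Bx x r) s p
  · exact inj_aux h h' hO hO' hd hx hx' hp
  · refine inj_aux h' h hO' hO hd.symm hx' hx ?_
    push Not at hp
    obtain ⟨a, ha, b, hab, hsb⟩ := h.touch
    have hsb' : Cn z (Bx 0 m \ Bx x' r) s b := by
      refine (hsb.inter (T := (Bx x' r)ᶜ) fun k hk hkm => hp k hkm hk).mono ?_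
      rintro k ⟨⟨hk1, _⟩, hk2⟩
      exact ⟨hk1, hk2⟩
    exact ⟨a, ha, hsb'.trans (Cn.step hsb'.mem_right
      ⟨hx ha, Set.disjoint_left.1 hd ha⟩ hab.symm)⟩

/-- Disjoint trifurcation boxes are at most as many as the boundary faces. -/
theorem count {z : ZC} {r m n : ℕ} (hn : 2 * m ≤ n) (I : Finset P2)
    (hI : ∀ x ∈ I, Bx x (r + 1) ⊆ Bx 0 m)
    (hd : ∀ x ∈ I, ∀ y ∈ I, x ≠ y → Disjoint (Bx x r) (Bx y r))
    (h : ∀ x ∈ I, Tri z x r n ∧ AllO z x r) : I.card ≤ (Bd_finite 0 m).toFinset.card := by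
  classical
  have hex : ∀ x ∈ I, ∃ s, Mark z r m x s := fun x hx => exists_mark hn (hI x hx) (h x hx).1
  choose! s hs using hex
  have hsub : ∀ x ∈ I, Bx x r ⊆ Bx 0 m := fun x hx =>
    (Bx_mono (Nat.le_succ r)).trans (hI x hx)
  refine Finset.card_le_card_of_injOn s (fun x hx => ?_) (fun x hx y hy hxy => ?_)
  · simp only [Set.Finite.coe_toFinset]
    exact (hs x hx).bd
  · by_contra hne
    have h1 := hs x hx
    have h2 := hs y hy
    rw [← hxy] at h2
    exact mark_inj h1 h2 (h x hx).2 (h y hy).2 (hsub x hx) (hsub y hy) (hd x hx y hy hne)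

/-! ### translations -/

/-- Translate a percolation configuration. -/
def shiftZ (a : P2) (z : ZC) : ZC := fun e => z (e.1 + a, e.2)

theorem op_shift {a : P2} {z : ZC} {f g : P2} :
    Op (shiftZ a z) f g ↔ Op z (f + a) (g + a) := by
  constructor
  · rintro ⟨⟨v, d⟩, h1, h2⟩
    refine ⟨(v + a, d), h1, ?_⟩
    rcases h2 with ⟨rfl, rfl⟩ | ⟨rfl, rfl⟩
    · left
      refine ⟨rfl, ?_⟩
      cases d <;> simp [fB] <;> ext <;> simp <;> ring
    · right
      refine ⟨rfl, ?_⟩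
      cases d <;> simp [fB] <;> ext <;> simp <;> ring
  · rintro ⟨⟨v, d⟩, h1, h2⟩
    refine ⟨(v - a, d), by simpa [shiftZ] using h1, ?_⟩
    rcases h2 with ⟨h2, h3⟩ | ⟨h2, h3⟩
    · left
      simp only [fA_mk] at h2
      subst h2
      refine ⟨by simp, ?_⟩
      have : g = fB (f + a, d) - a := by rw [h3]; simp
      rw [this]
      cases d <;> simp [fB] <;> ext <;> simp <;> ring
    · right
      simp only [fA_mk] at h2
      subst h2
      refine ⟨by simp, ?_⟩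
      have : f = fB (g + a, d) - a := by rw [h3]; simp
      rw [this]
      cases d <;> simp [fB] <;> ext <;> simp <;> ring

theorem cn_shift {a : P2} {z : ZC} {S : Set P2} {f g : P2} :
    Cn (shiftZ a z) {y | y + a ∈ S} f g ↔ Cn z S (f + a) (g + a) := by
  constructor
  · rintro ⟨h1, h2⟩
    refine ⟨h1, ?_⟩
    clear h1
    induction h2 with
    | refl => exact Relation.ReflTransGen.refl
    | tail _ h3 ih => exact Relation.ReflTransGen.tail ih ⟨h3.1, h3.2.1, op_shift.1 h3.2.2⟩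
  · rintro ⟨h1, h2⟩
    refine ⟨h1, ?_⟩
    clear h1
    have key : ∀ p q, Relation.ReflTransGen (St z S) p q →
        Relation.ReflTransGen (St (shiftZ a z) {y | y + a ∈ S}) (p - a) (q - a) := by
      intro p q hpq
      induction hpq with
      | refl => exact Relation.ReflTransGen.refl
      | tail _ h3 ih =>
        refine Relation.ReflTransGen.tail ih ⟨?_, ?_, op_shift.2 ?_⟩
        · simpa using h3.1
        · simpa using h3.2.1
        · simpa using h3.2.2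
    simpa using key _ _ h2

theorem Bx_shift (a x : P2) (n : ℕ) : Bx x n = {y | y + a ∈ Bx (x + a) n} := by
  ext y
  simp [mem_Bx]

theorem Bd_shift (a x : P2) (n : ℕ) : Bd x n = {y | y + a ∈ Bd (x + a) n} := by
  ext y
  simp [Bd, mem_Bx]

theorem tri_shift {a : P2} {z : ZC} {x : P2} {r n : ℕ} :
    Tri (shiftZ a z) x r n ↔ Tri z (x + a) r n := by
  have e1 : Bx x n \ Bx x r = {y | y + a ∈ Bx (x + a) n \ Bx (x + a) r} := by
    ext y
    simp [mem_Bx]
  unfold Tri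
  rw [e1]
  simp only [cn_shift, op_shift]
  rw [Bx_shift a x r, Bd_shift a x n]
  constructor
  · rintro ⟨b, h1, h2⟩
    refine ⟨fun i => b i + a, fun i => ?_, h2⟩
    obtain ⟨⟨c, hc, h3⟩, g, hg, h4⟩ := h1 i
    exact ⟨⟨c + a, hc, h3⟩, g + a, hg, h4⟩
  · rintro ⟨b, h1, h2⟩
    refine ⟨fun i => b i - a, fun i => ?_, fun i j hij => by simpa using h2 i j hij⟩
    obtain ⟨⟨c, hc, h3⟩, g, hg, h4⟩ := h1 i
    exact ⟨⟨c - a, by simpa using hc, by simpa using h3⟩, g - a, by simpa using hg,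
      by simpa using h4⟩

theorem allO_shift {a : P2} {z : ZC} {x : P2} {r : ℕ} :
    AllO (shiftZ a z) x r ↔ AllO z (x + a) r := by
  unfold AllO
  rw [Bx_shift a x r]
  have hA : ∀ e : Edge, fA (e.1 + a, e.2) = fA e + a := fun e => rfl
  have hB : ∀ e : Edge, fB (e.1 + a, e.2) = fB e + a := by
    rintro ⟨v, d⟩
    cases d <;> simp [fB] <;> ext <;> simp <;> ring
  constructor
  · intro h e h1 h2
    have h3 := h (e.1 - a, e.2)
    have hA' := hA (e.1 - a, e.2)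
    have hB' := hB (e.1 - a, e.2)
    simp only [sub_add_cancel] at hA' hB'
    have e2 : shiftZ a z (e.1 - a, e.2) = z e := by simp [shiftZ]
    rw [e2] at h3
    apply h3
    · simp only [Set.mem_ofPred_eq]
      rw [← hA']; exact h1
    · simp only [Set.mem_ofPred_eq]
      rw [← hB']; exact h2
  · intro h e h1 h2
    refine h (e.1 + a, e.2) ?_ ?_
    · rw [hA]; exact h1
    · rw [hB]; exact h2

end Crest.Agent.R161.BK123
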