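import Crest.Agent.R161.BK_123

/-!
Row 161, Step 2 (helper123): Burton-Keane for a translation invariant, insertion tolerant law
`μ` on `ZC = Edge → Bool`:
`thr_tendsto` : `μ (Thr z 0 r n) → 0` as `n → ∞`, for every `r`.
-/

set_option autoImplicit false

namespace Crest.Agent.R161.BK123

open Crest.Agent.R161.Geo729 MeasureTheory Filter Topology
open scoped ENNReal

/-- `A` depends only on the edges of `F`. -/
def DepOn (F : Finset Edge) (A : Set ZC) : Prop :=
  ∀ z z' : ZC, (∀ e ∈ F, z e = z' e) → (z ∈ A ↔ z' ∈ A)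

theorem DepOn.measurableSet {F : Finset Edge} {A : Set ZC} (h : DepOn F A) :
    MeasurableSet A := by
  classical
  have e : A = (fun (z : ZC) (e : F) => z e) ⁻¹' ((fun (z : ZC) (e : F) => z e) '' A) := by
    ext z
    constructor
    · intro hz
      exact ⟨z, hz, rfl⟩
    · rintro ⟨z', hz', he⟩
      refine (h z' z fun e he' => ?_).1 hz'
      exact congrFun he ⟨e, he'⟩
  have hm : Measurable (fun (z : ZC) (e : F) => z e) :=
    measurable_pi_lambda _ fun e => measurable_pi_apply _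
  rw [e]
  exact hm (Set.toFinite _).measurableSet

theorem DepOn.mono {F G : Finset Edge} {A : Set ZC} (h : DepOn F A) (hFG : F ⊆ G) :
    DepOn G A := fun z z' hz => h z z' fun e he => hz e (hFG he)

theorem DepOn.compl {F : Finset Edge} {A : Set ZC} (h : DepOn F A) : DepOn F Aᶜ :=
  fun z z' hz => not_congr (h z z' hz)

/-- The edges whose two bordering faces lie in `Bx x n`. -/
noncomputable def edB (x : P2) (n : ℕ) : Finset Edge :=
  ((Bx_finite x n).toFinset ×ˢ Finset.univ)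

theorem mem_edB {x : P2} {n : ℕ} {e : Edge} (h : fA e ∈ Bx x n) : e ∈ edB x n := by
  simp only [edB, Finset.mem_product, Set.Finite.mem_toFinset, Finset.mem_univ, and_true]
  exact h

theorem op_dep {x : P2} {n : ℕ} {z z' : ZC} (h : ∀ e ∈ edB x n, z e = z' e) {a b : P2}
    (ha : a ∈ Bx x n) (hb : b ∈ Bx x n) : Op z a b ↔ Op z' a b := by
  constructor
  · rintro ⟨e, h1, h2⟩
    refine ⟨e, ?_, h2⟩
    rw [← h e (mem_edB ?_)]
    · exact h1
    · rcases h2 with ⟨rfl, _⟩ | ⟨rfl, _⟩ <;> assumption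
  · rintro ⟨e, h1, h2⟩
    refine ⟨e, ?_, h2⟩
    rw [h e (mem_edB ?_)]
    · exact h1
    · rcases h2 with ⟨rfl, _⟩ | ⟨rfl, _⟩ <;> assumption

theorem cn_dep {x : P2} {n : ℕ} {S : Set P2} (hS : S ⊆ Bx x n) {z z' : ZC}
    (h : ∀ e ∈ edB x n, z e = z' e) {a b : P2} : Cn z S a b ↔ Cn z' S a b :=
  cn_congr fun _ ha _ hb => op_dep h (hS ha) (hS hb)

theorem thr_dep (x : P2) (r n : ℕ) : DepOn (edB x n) {z | Thr z x r n} := by
  intro z z' h
  simp only [Set.mem_ofPred_eq, Thr]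
  simp only [fun a b => cn_dep (subset_refl (Bx x n)) h (a := a) (b := b)]

theorem tri_dep_aux {x : P2} {r n : ℕ} (hrn : r ≤ n) {z z' : ZC}
    (h : ∀ e ∈ edB x n, z e = z' e) (hz : Tri z x r n) : Tri z' x r n := by
  have hc : ∀ a b, Cn z (Bx x n \ Bx x r) a b ↔ Cn z' (Bx x n \ Bx x r) a b :=
    fun a b => cn_dep Set.sdiff_subset h
  obtain ⟨b, h1, h2⟩ := hz
  refine ⟨b, fun i => ?_, fun i j hij => by rw [← hc]; exact h2 i j hij⟩
  obtain ⟨⟨a, ha, h3⟩, g, hg, h4⟩ := h1 i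
  exact ⟨⟨a, ha, (op_dep h (Bx_mono hrn ha) h4.mem_left.1).1 h3⟩, g, hg, (hc _ _).1 h4⟩

theorem tri_dep {x : P2} {r n : ℕ} (hrn : r ≤ n) : DepOn (edB x n) {z | Tri z x r n} :=
  fun _ _ h => ⟨tri_dep_aux hrn h, tri_dep_aux hrn fun e he => (h e he).symm⟩

theorem allO_dep {x : P2} {r n : ℕ} (hrn : r ≤ n) : DepOn (edB x n) {z | AllO z x r} := by
  have key : ∀ z z' : ZC, (∀ e ∈ edB x n, z e = z' e) → AllO z x r → AllO z' x r := by
    intro z z' h hz e h1 h2
    rw [← h e (mem_edB (Bx_mono hrn h1))]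
    exact hz e h1 h2
  exact fun z z' h => ⟨key z z' h, key z' z fun e he => (h e he).symm⟩

theorem meas_triO {x : P2} {r n : ℕ} (hrn : r ≤ n) :
    MeasurableSet {z : ZC | Tri z x r n ∧ AllO z x r} :=
  (tri_dep hrn).measurableSet.inter (allO_dep hrn).measurableSet

/-! ### insertion -/

/-- Open the edges of `E`. -/
noncomputable def opnF (E : Finset Edge) (z : ZC) : ZC := by
  classical exact fun e => if e ∈ E then false else z e

theorem measurable_upd (e : Edge) : Measurable (fun z : ZC => Function.update z e false) := by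
  refine measurable_pi_lambda _ fun e' => ?_
  by_cases h : e' = e
  · subst h
    simp
  · simp only [Function.update_of_ne h]
    exact measurable_pi_apply _

theorem measurable_opnF (E : Finset Edge) : Measurable (opnF E) := by
  classical
  refine measurable_pi_lambda _ fun e' => ?_
  unfold opnF
  by_cases h : e' ∈ E
  · simp [h]
  · simp only [h, if_false]
    exact measurable_pi_apply _

/-- Insertion tolerance: opening one edge is absolutely continuous with bounded density. -/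
def Ins (μ : Measure ZC) : Prop :=
  ∀ e : Edge, ∃ C : ℝ≥0∞, C ≠ ∞ ∧ ∀ A : Set ZC, MeasurableSet A →
    μ ((fun z : ZC => Function.update z e false) ⁻¹' A) ≤ C * μ A

theorem Ins.opnF {μ : Measure ZC} (h : Ins μ) (E : Finset Edge) :
    ∃ C : ℝ≥0∞, C ≠ ∞ ∧ ∀ A : Set ZC, MeasurableSet A → μ (opnF E ⁻¹' A) ≤ C * μ A := by
  classical
  induction E using Finset.induction_on with
  | empty =>
    refine ⟨1, ENNReal.one_ne_top, fun A hA => ?_⟩
    rw [one_mul]
    apply le_of_eq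
    congr 1
  | insert e E heE ih =>
    obtain ⟨C, hC, h1⟩ := ih
    obtain ⟨C', hC', h2⟩ := h e
    refine ⟨C * C', ENNReal.mul_ne_top hC hC', fun A hA => ?_⟩
    have e1 : BK123.opnF (insert e E) ⁻¹' A =
        BK123.opnF E ⁻¹' ((fun z : ZC => Function.update z e false) ⁻¹' A) := by
      ext z
      simp only [Set.mem_preimage]
      have : BK123.opnF (insert e E) z = Function.update (BK123.opnF E z) e false := by
        funext e'
        unfold BK123.opnF
        by_cases he : e' = e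
        · subst he
          simp
        · simp [Finset.mem_insert, he]
      rw [this]
    rw [e1]
    calc μ (BK123.opnF E ⁻¹' ((fun z : ZC => Function.update z e false) ⁻¹' A))
        ≤ C * μ ((fun z : ZC => Function.update z e false) ⁻¹' A) :=
          h1 _ (measurable_upd e hA)
      _ ≤ C * (C' * μ A) := by gcongr; exact h2 A hA
      _ = C * C' * μ A := by rw [mul_assoc]

theorem Ins.opn {μ : Measure ZC} (h : Ins μ) (x : P2) (r : ℕ) :
    ∃ C : ℝ≥0∞, C ≠ ∞ ∧ ∀ A : Set ZC, MeasurableSet A → μ (opn x r ⁻¹' A) ≤ C * μ A := by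
  classical
  obtain ⟨C, hC, h1⟩ := h.opnF ((edB x r).filter fun e => fB e ∈ Bx x r)
  refine ⟨C, hC, fun A hA => ?_⟩
  convert h1 A hA using 3
  funext z e
  unfold BK123.opn BK123.opnF
  have : (fA e ∈ Bx x r ∧ fB e ∈ Bx x r) ↔ e ∈ (edB x r).filter fun e => fB e ∈ Bx x r := by
    rw [Finset.mem_filter]
    constructor
    · rintro ⟨h2, h3⟩
      exact ⟨mem_edB h2, h3⟩
    · rintro ⟨h2, h3⟩
      refine ⟨?_, h3⟩
      simp only [edB, Finset.mem_product, Set.Finite.mem_toFinset, Finset.mem_univ,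
        and_true] at h2
      exact h2
  by_cases h4 : fA e ∈ Bx x r ∧ fB e ∈ Bx x r
  · rw [if_pos h4, if_pos (this.1 h4)]
  · rw [if_neg h4, if_neg (fun h5 => h4 (this.2 h5))]

/-- Translation invariance. -/
def TInv (μ : Measure ZC) : Prop := ∀ a : P2, μ.map (shiftZ a) = μ

theorem measurable_shiftZ (a : P2) : Measurable (shiftZ a) :=
  measurable_pi_lambda _ fun _ => measurable_pi_apply _

theorem TInv.preimage {μ : Measure ZC} (h : TInv μ) (a : P2) {A : Set ZC}
    (hA : MeasurableSet A) : μ (shiftZ a ⁻¹' A) = μ A := by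
  conv_rhs => rw [← h a]
  rw [Measure.map_apply (measurable_shiftZ a) hA]

/-! ### the grid -/

/-- Centres of disjoint boxes. -/
noncomputable def grid (r k : ℕ) : Finset P2 :=
  ((Finset.Icc (-(k : ℤ)) k) ×ˢ (Finset.Icc (-(k : ℤ)) k)).image
    fun p => ((2 * (r : ℤ) + 1) * p.1, (2 * (r : ℤ) + 1) * p.2)

theorem card_grid (r k : ℕ) : (grid r k).card = (2 * k + 1) * (2 * k + 1) := by
  unfold grid
  rw [Finset.card_image_of_injective, Finset.card_product, Int.card_Icc]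
  · have : ((k : ℤ) + 1 - -(k : ℤ)).toNat = 2 * k + 1 := by omega
    rw [this]
  · rintro ⟨a, b⟩ ⟨c, d⟩ h
    simp only [Prod.mk.injEq] at h
    have h0 : (2 * (r : ℤ) + 1) ≠ 0 := by positivity
    exact Prod.ext (mul_left_cancel₀ h0 h.1) (mul_left_cancel₀ h0 h.2)

theorem grid_sub {r k : ℕ} {x : P2} (hx : x ∈ grid r k) :
    Bx x (r + 1) ⊆ Bx 0 ((2 * r + 1) * k + r + 1) := by
  unfold grid at hx
  rw [Finset.mem_image] at hx
  obtain ⟨⟨a, b⟩, hp, rfl⟩ := hx
  simp only [Finset.mem_product, Finset.mem_Icc] at hp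
  intro y hy
  simp only [mem_Bx, abs_le, Prod.fst_zero, Prod.snd_zero, sub_zero] at hy ⊢
  push_cast at hy ⊢
  have h0 : (0 : ℤ) ≤ 2 * (r : ℤ) + 1 := by positivity
  have h1 := mul_le_mul_of_nonneg_left hp.1.2 h0
  have h2 := mul_le_mul_of_nonneg_left hp.1.1 h0
  have h3 := mul_le_mul_of_nonneg_left hp.2.2 h0
  have h4 := mul_le_mul_of_nonneg_left hp.2.1 h0
  refine ⟨⟨?_, ?_⟩, ?_, ?_⟩ <;> nlinarith [hy.1.1, hy.1.2, hy.2.1, hy.2.2]

theorem grid_disj {r k : ℕ} {x y : P2} (hx : x ∈ grid r k) (hy : y ∈ grid r k)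
    (hxy : x ≠ y) : Disjoint (Bx x r) (Bx y r) := by
  unfold grid at hx hy
  rw [Finset.mem_image] at hx hy
  obtain ⟨⟨a, b⟩, _, rfl⟩ := hx
  obtain ⟨⟨c, d⟩, _, rfl⟩ := hy
  rw [Set.disjoint_left]
  intro w h1 h2
  simp only [mem_Bx, abs_le] at h1 h2
  have h0 : (0 : ℤ) < 2 * (r : ℤ) + 1 := by positivity
  have key : ∀ u v w : ℤ, -(r : ℤ) ≤ w - (2 * (r : ℤ) + 1) * u → w - (2 * (r : ℤ) + 1) * u ≤ r →
      -(r : ℤ) ≤ w - (2 * (r : ℤ) + 1) * v → w - (2 * (r : ℤ) + 1) * v ≤ r → u = v := by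
    intro u v w e1 e2 e3 e4
    rcases lt_trichotomy u v with h | h | h
    · have : (2 * (r : ℤ) + 1) * (u + 1) ≤ (2 * (r : ℤ) + 1) * v :=
        mul_le_mul_of_nonneg_left (by omega) h0.le
      nlinarith
    · exact h
    · have : (2 * (r : ℤ) + 1) * (v + 1) ≤ (2 * (r : ℤ) + 1) * u :=
        mul_le_mul_of_nonneg_left (by omega) h0.le
      nlinarith
  apply hxy
  rw [key a c w.1 h1.1.1 h1.1.2 h2.1.1 h2.1.2, key b d w.2 h1.2.1 h1.2.2 h2.2.1 h2.2.2]

theorem card_Bd (m : ℕ) : (Bd_finite 0 m).toFinset.card ≤ 4 * (2 * m + 1) := by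
  classical
  have hsub : (Bd_finite 0 m).toFinset ⊆
      (((Finset.Icc (-(m : ℤ)) m).image fun a => ((m : ℤ), a)) ∪
        ((Finset.Icc (-(m : ℤ)) m).image fun a => (-(m : ℤ), a))) ∪
      (((Finset.Icc (-(m : ℤ)) m).image fun a => (a, (m : ℤ))) ∪
        ((Finset.Icc (-(m : ℤ)) m).image fun a => (a, -(m : ℤ)))) := by
    intro y hy
    simp only [Set.Finite.mem_toFinset, Bd, mem_Bx, Prod.fst_zero, Prod.snd_zero, sub_zero,
      Set.mem_ofPred_eq, abs_le] at hy
    simp only [Finset.mem_union, Finset.mem_image, Finset.mem_Icc]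
    obtain ⟨⟨h1, h2⟩, h3⟩ := hy
    obtain ⟨y1, y2⟩ := y
    simp only at h1 h2 h3
    simp only [Prod.mk.injEq]
    rcases h3 with h3 | h3
    · rcases abs_eq_abs.1 (h3.trans (abs_of_nonneg (by positivity : (0:ℤ) ≤ (m:ℤ))).symm) with h4 | h4
      · exact Or.inl (Or.inl ⟨y2, h2, h4.symm, rfl⟩)
      · exact Or.inl (Or.inr ⟨y2, h2, h4.symm, rfl⟩)
    · rcases abs_eq_abs.1 (h3.trans (abs_of_nonneg (by positivity : (0:ℤ) ≤ (m:ℤ))).symm) with h4 | h4
      · exact Or.inr (Or.inl ⟨y1, h1, rfl, h4.symm⟩)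
      · exact Or.inr (Or.inr ⟨y1, h1, rfl, h4.symm⟩)
  have hc : (Finset.Icc (-(m : ℤ)) m).card = 2 * m + 1 := by
    rw [Int.card_Icc]; omega
  refine (Finset.card_le_card hsub).trans ?_
  refine (Finset.card_union_le _ _).trans ?_
  have e1 := Finset.card_union_le ((Finset.Icc (-(m : ℤ)) m).image fun a => ((m : ℤ), a))
    ((Finset.Icc (-(m : ℤ)) m).image fun a => (-(m : ℤ), a))
  have e2 := Finset.card_union_le ((Finset.Icc (-(m : ℤ)) m).image fun a => (a, (m : ℤ)))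
    ((Finset.Icc (-(m : ℤ)) m).image fun a => (a, -(m : ℤ)))
  have e3 := Finset.card_image_le (s := Finset.Icc (-(m : ℤ)) m) (f := fun a => ((m : ℤ), a))
  have e4 := Finset.card_image_le (s := Finset.Icc (-(m : ℤ)) m) (f := fun a => (-(m : ℤ), a))
  have e5 := Finset.card_image_le (s := Finset.Icc (-(m : ℤ)) m) (f := fun a => (a, (m : ℤ)))
  have e6 := Finset.card_image_le (s := Finset.Icc (-(m : ℤ)) m) (f := fun a => (a, -(m : ℤ)))
  omega

/-! ### the expectation bound -/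

theorem triO_bound (μ : Measure ZC) [IsProbabilityMeasure μ] (hT : TInv μ) (r k n : ℕ)
    (hn : 2 * ((2 * r + 1) * k + r + 1) ≤ n) :
    ((2 * k + 1) * (2 * k + 1) : ℕ) * μ {z | Tri z 0 r n ∧ AllO z 0 r} ≤
      ((4 * (2 * ((2 * r + 1) * k + r + 1) + 1) : ℕ) : ℝ≥0∞) := by
  classical
  have hrn : r ≤ n := by nlinarith [Nat.zero_le ((2 * r + 1) * k)]
  have hx : ∀ x : P2, μ {z | Tri z x r n ∧ AllO z x r} = μ {z | Tri z 0 r n ∧ AllO z 0 r} := by
    intro x
    rw [← hT.preimage x (meas_triO (x := 0) hrn)]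
    congr 1
    ext z
    simp only [Set.mem_preimage, Set.mem_ofPred_eq, tri_shift, allO_shift, zero_add]
  have h1 : ∑ x ∈ grid r k, μ {z | Tri z x r n ∧ AllO z x r} =
      ((2 * k + 1) * (2 * k + 1) : ℕ) * μ {z | Tri z 0 r n ∧ AllO z 0 r} := by
    rw [Finset.sum_congr rfl fun x _ => hx x, Finset.sum_const, card_grid, nsmul_eq_mul]
  rw [← h1]
  have h2 : ∀ x ∈ grid r k, μ {z | Tri z x r n ∧ AllO z x r} =
      ∫⁻ z, ({z | Tri z x r n ∧ AllO z x r} : Set ZC).indicator 1 z ∂μ := by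
    intro x _
    rw [lintegral_indicator_one (meas_triO hrn)]
  rw [Finset.sum_congr rfl h2, ← lintegral_finsetSum]
  · calc ∫⁻ z, ∑ x ∈ grid r k, ({z | Tri z x r n ∧ AllO z x r} : Set ZC).indicator 1 z ∂μ
        ≤ ∫⁻ _, ((4 * (2 * ((2 * r + 1) * k + r + 1) + 1) : ℕ) : ℝ≥0∞) ∂μ := by
          refine lintegral_mono fun z => ?_
          have e1 : ∑ x ∈ grid r k, ({z | Tri z x r n ∧ AllO z x r} : Set ZC).indicator
              (1 : ZC → ℝ≥0∞) z =
              (((grid r k).filter fun x => Tri z x r n ∧ AllO z x r).card : ℝ≥0∞) := by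
            rw [Finset.card_filter]
            push_cast
            refine Finset.sum_congr rfl fun x _ => ?_
            by_cases h : Tri z x r n ∧ AllO z x r
            · simp [Set.indicator, h]
            · simp [Set.indicator, h]
          rw [e1]
          refine Nat.cast_le.2 ?_
          refine (count hn _ (fun x hx => grid_sub (Finset.mem_filter.1 hx).1)
            (fun x hx y hy hxy => grid_disj (Finset.mem_filter.1 hx).1
              (Finset.mem_filter.1 hy).1 hxy)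
            (fun x hx => (Finset.mem_filter.1 hx).2)).trans (card_Bd _)
      _ = _ := by rw [lintegral_const, measure_univ, mul_one]
  · intro x _
    exact measurable_one.indicator (meas_triO hrn)

/-- **Burton-Keane, finite-volume form.** -/
theorem thr_tendsto (μ : Measure ZC) [IsProbabilityMeasure μ] (hT : TInv μ) (hI : Ins μ)
    (r : ℕ) : Tendsto (fun n => μ {z | Thr z 0 r n}) atTop (𝓝 0) := by
  obtain ⟨C, hC, h1⟩ := hI.opn 0 r
  have h2 : ∀ n, r < n → μ {z | Thr z 0 r n} ≤ C * μ {z | Tri z 0 r n ∧ AllO z 0 r} := by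
    intro n hn
    refine le_trans ?_ (h1 _ (meas_triO hn.le))
    refine measure_mono fun z hz => ?_
    simp only [Set.mem_preimage, Set.mem_ofPred_eq] at hz ⊢
    exact ⟨tri_opn.2 (tri_of_thr hn hz), allO_opn⟩
  rw [ENNReal.tendsto_atTop_zero]
  intro ε hε
  obtain ⟨k, hk⟩ := ENNReal.exists_nat_mul_gt (a := ε) (b := C * ((4 * (2 * r + 3) : ℕ) : ℝ≥0∞))
    hε.ne' (ENNReal.mul_ne_top hC (ENNReal.natCast_ne_top _))
  refine ⟨2 * ((2 * r + 1) * k + r + 1), fun n hn => ?_⟩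
  have hrn : r < n := by nlinarith [Nat.zero_le ((2 * r + 1) * k)]
  refine (h2 n hrn).trans ?_
  have hb := triO_bound μ hT r k n hn
  set p := μ {z | Tri z 0 r n ∧ AllO z 0 r} with hp
  have hk0 : ((2 * k + 1 : ℕ) : ℝ≥0∞) ≠ 0 := by simp
  have hk1 : ((2 * k + 1 : ℕ) : ℝ≥0∞) ≠ ∞ := ENNReal.natCast_ne_top _
  have hb1 : ((2 * k + 1 : ℕ) : ℝ≥0∞) * p ≤ ((4 * (2 * r + 3) : ℕ) : ℝ≥0∞) := by
    rw [← ENNReal.mul_le_mul_iff_right hk0 hk1, ← mul_assoc, ← Nat.cast_mul, ← Nat.cast_mul]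
    refine hb.trans (Nat.cast_le.2 ?_)
    nlinarith
  rw [← ENNReal.mul_le_mul_iff_right hk0 hk1]
  calc ((2 * k + 1 : ℕ) : ℝ≥0∞) * (C * p) = C * (((2 * k + 1 : ℕ) : ℝ≥0∞) * p) := by ring
    _ ≤ C * ((4 * (2 * r + 3) : ℕ) : ℝ≥0∞) := by gcongr
    _ ≤ (k : ℝ≥0∞) * ε := hk.le
    _ ≤ ((2 * k + 1 : ℕ) : ℝ≥0∞) * ε := by
        gcongr
        omega

end Crest.Agent.R161.BK123
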