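import Crest.Agent.R161.BdFin_228
import Crest.Agent.R161.Asm_695

/-!
# Row 161, block H: boundary regularity in the notation of the assembly (helper228)

`bdReg`: `E_D |X_e| ≤ ε` for `|e| ≤ C/η` living outside the disc of radius `ρ - 2η` and every
`Dom D ⊆ disc δ (ρ + η)`, all small mesh `δ`.
-/

set_option autoImplicit false

noncomputable section

namespace Crest.Agent.R161.BdCor228

open Finset Filter Topology Crest.Agent.R161.Geo729 Crest.Agent.R161.Defs372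
  Crest.Agent.R161.BdI228 Crest.Agent.R161.BdDisc228 Crest.Agent.R161.BdFin228
open Crest.ProbabilityR.AshkinTeller

theorem norm_pos_eq (δ : ℝ) (v : P2) : ‖pos δ v‖ = |δ| * ‖pc v‖ := by
  have h : pos δ v = (δ : ℂ) * pc v := by
    apply Complex.ext <;> simp [pos, pc]
  rw [h, norm_mul, Complex.norm_real, Real.norm_eq_abs]

theorem pc_lt_of_disc {δ r : ℝ} (hδ : 0 < δ) (hr : 0 < r) {f : P2}
    (hf : f ∈ Asm695.disc δ r) : δ * ‖pc f‖ < r := by
  unfold Asm695.disc at hf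
  rw [if_pos hr] at hf
  have h := Geo132.norm_of_face (div_pos hδ hr) hf
  rw [norm_pos_eq, abs_of_pos (div_pos hδ hr), div_mul_eq_mul_div, div_lt_one hr] at h
  exact h

/-- **(H)** in the notation of `Asm_695`. -/
theorem bdReg {c : ℝ} (hc : 1 ≤ c) (hA : HA c) (hC : HC c) {ρ C ε : ℝ} (hρ : 0 < ρ)
    (hC0 : 0 < C) (hε : 0 < ε) :
    ∃ η0 : ℝ, 0 < η0 ∧ ∀ η : ℝ, 0 < η → η < η0 → ∀ᶠ δ : ℝ in 𝓝[>] 0,
      ∀ D : Finset P2, Dom D → D ⊆ Asm695.disc δ (ρ + η) → ∀ (S : Finset P2) (e : ℂ → ℝ),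
        (∀ z, |e z| ≤ C / η) → (∀ z, e z ≠ 0 → ρ - 2 * η ≤ ‖z‖) →
        E c D (fun u => |Asm695.X δ S e u|) ≤ ε := by
  obtain ⟨η0, hη0, h⟩ := layer_L1 hc hA hC hρ hC0 hε
  refine ⟨η0, hη0, fun η hη hη1 => ?_⟩
  obtain ⟨δ0, hδ0, h⟩ := h η hη hη1
  have hev : ∀ᶠ δ : ℝ in 𝓝[>] 0, δ < δ0 :=
    nhdsWithin_le_nhds (Iio_mem_nhds hδ0)
  filter_upwards [hev, self_mem_nhdsWithin] with δ h1 h2 D hD hDd S e he1 he2
  have hδ : 0 < δ := h2
  refine h δ hδ h1 D hD (fun f hf => pc_lt_of_disc hδ (by linarith) (hDd hf)) S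
    (fun v => δ ^ 2 * e (pos δ v)) ?_ ?_
  · intro v _
    rw [abs_mul, abs_of_nonneg (sq_nonneg δ)]
    exact mul_le_mul_of_nonneg_left (he1 _) (sq_nonneg δ)
  · intro v _ hv
    have h3 : e (pos δ v) ≠ 0 := fun h0 => hv (by simp only [h0, mul_zero])
    have h4 := he2 _ h3
    rwa [norm_pos_eq, abs_of_pos hδ] at h4

end Crest.Agent.R161.BdCor228
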