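import Crest.Agent.R161.Bd_228

/-!
# Row 161, block H: boundary regularity for domains squeezed under a disc (helper228)

* `pc v : ℂ` position of a lattice point
* `far_pt` : a lattice point in the outward direction
* `card_annulus` : number of lattice points in a thin annulus
* `layer_L1` : **(H)** `E_D |∑ K a| ≤ ε` for densities `≤ C/η` living outside the disc of radius
  `ρ - 2η`, `D` any `Dom` below the disc of radius `ρ + η`; from `HA c`, `HC c`.
-/

set_option autoImplicit false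

noncomputable section

namespace Crest.Agent.R161.BdDisc228

open Finset Crest.Agent.R161.Geo729 Crest.Agent.R161.Defs372 Crest.Agent.R161.Hull374
  Crest.Agent.R161.Dual374 Crest.Agent.R161.Ifc372 Crest.Agent.R161.Flip228
  Crest.Agent.R161.BdI228 Crest.Agent.R161.Bd228

/-! ### positions -/

/-- position of a lattice point -/
def pc (v : P2) : ℂ := ⟨(v.1 : ℝ), (v.2 : ℝ)⟩

@[simp] theorem pc_re (v : P2) : (pc v).re = v.1 := rfl
@[simp] theorem pc_im (v : P2) : (pc v).im = v.2 := rfl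

theorem pc_sub_le (v w : P2) :
    ‖pc v - pc w‖ ≤ |(v.1 : ℝ) - w.1| + |(v.2 : ℝ) - w.2| := by
  simpa using Complex.norm_le_abs_re_add_abs_im (pc v - pc w)

theorem le_pc_fst (v w : P2) : |(v.1 : ℝ) - w.1| ≤ ‖pc v - pc w‖ := by
  simpa using Complex.abs_re_le_norm (pc v - pc w)

theorem le_pc_snd (v w : P2) : |(v.2 : ℝ) - w.2| ≤ ‖pc v - pc w‖ := by
  simpa using Complex.abs_im_le_norm (pc v - pc w)

theorem norm_sq_pc (v : P2) : ‖pc v‖ ^ 2 = (v.1 : ℝ) ^ 2 + (v.2 : ℝ) ^ 2 := by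
  rw [← Complex.normSq_eq_norm_sq, Complex.normSq_apply]
  simp only [pc_re, pc_im]
  ring

/-- a lattice point in the outward direction -/
theorem far_pt (v : P2) (hv : 0 < ‖pc v‖) (t : ℝ) (ht : ‖pc v‖ ≤ t) :
    ∃ b : P2, ‖pc b - pc v‖ ≤ t - ‖pc v‖ + 2 ∧ t - 2 ≤ ‖pc b‖ := by
  have ht0 : 0 ≤ t := hv.le.trans ht
  set u : ℂ := ((t / ‖pc v‖ : ℝ) : ℂ) * pc v with hu
  have hun : ‖u‖ = t := by
    rw [hu, norm_mul, Complex.norm_real, Real.norm_eq_abs, abs_of_nonneg (by positivity)]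
    field_simp
  have huv : ‖u - pc v‖ = t - ‖pc v‖ := by
    have : u - pc v = ((t / ‖pc v‖ - 1 : ℝ) : ℂ) * pc v := by
      rw [hu]; push_cast; ring
    rw [this, norm_mul, Complex.norm_real, Real.norm_eq_abs, abs_of_nonneg]
    · field_simp
    · rw [sub_nonneg, one_le_div hv]; exact ht
  refine ⟨(⌊u.re⌋, ⌊u.im⌋), ?_, ?_⟩
  all_goals
    have h1 : ‖pc (⌊u.re⌋, ⌊u.im⌋) - u‖ ≤ 2 := by
      refine (Complex.norm_le_abs_re_add_abs_im _).trans ?_
      simp only [Complex.sub_re, Complex.sub_im, pc_re, pc_im]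
      have h2 : |((⌊u.re⌋ : ℤ) : ℝ) - u.re| ≤ 1 := by
        rw [abs_le]; constructor <;> linarith [Int.floor_le u.re, Int.lt_floor_add_one u.re]
      have h3 : |((⌊u.im⌋ : ℤ) : ℝ) - u.im| ≤ 1 := by
        rw [abs_le]; constructor <;> linarith [Int.floor_le u.im, Int.lt_floor_add_one u.im]
      linarith
  · calc ‖pc (⌊u.re⌋, ⌊u.im⌋) - pc v‖ = ‖(pc (⌊u.re⌋, ⌊u.im⌋) - u) + (u - pc v)‖ := by ring_nf
      _ ≤ ‖pc (⌊u.re⌋, ⌊u.im⌋) - u‖ + ‖u - pc v‖ := norm_add_le _ _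
      _ ≤ t - ‖pc v‖ + 2 := by linarith
  · have h4 := norm_sub_norm_le u (u - pc (⌊u.re⌋, ⌊u.im⌋))
    have h5 : u - (u - pc (⌊u.re⌋, ⌊u.im⌋)) = pc (⌊u.re⌋, ⌊u.im⌋) := by ring
    rw [h5, norm_sub_rev u (pc (⌊u.re⌋, ⌊u.im⌋))] at h4
    linarith

/-! ### counting -/

theorem card_le_of_diam (S : Finset ℤ) (D : ℝ) (hD : 0 ≤ D)
    (h : ∀ a ∈ S, ∀ b ∈ S, (a : ℝ) - b ≤ D) : (S.card : ℝ) ≤ D + 1 := by
  rcases S.eq_empty_or_nonempty with rfl | hne
  · simp; linarith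
  · have h1 : S ⊆ Finset.Icc (S.min' hne) (S.max' hne) := fun a ha =>
      Finset.mem_Icc.2 ⟨S.min'_le a ha, S.le_max' a ha⟩
    have h2 := Finset.card_le_card h1
    rw [Int.card_Icc] at h2
    have h3 := h _ (S.max'_mem hne) _ (S.min'_mem hne)
    have h4 : S.min' hne ≤ S.max' hne := S.min'_le _ (S.max'_mem hne)
    have h5 : ((S.card : ℤ)) ≤ S.max' hne + 1 - S.min' hne := by omega
    have h6 : (S.card : ℝ) ≤ S.max' hne + 1 - S.min' hne := by exact_mod_cast h5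
    linarith

theorem card_quarter (S : Finset P2) {r1 r2 : ℝ} (h1 : 1 ≤ r1) (h12 : r1 ≤ r2) (h21 : r2 ≤ 2 * r1)
    (hS : ∀ a ∈ S, r1 ^ 2 ≤ (a.1 : ℝ) ^ 2 + (a.2 : ℝ) ^ 2 ∧ (a.1 : ℝ) ^ 2 + (a.2 : ℝ) ^ 2 ≤ r2 ^ 2 ∧
      |a.1| ≤ a.2) : (S.card : ℝ) ≤ (2 * r2 + 1) * (3 * (r2 - r1) + 1) := by
  have hfst : ∀ a ∈ S, |(a.1 : ℝ)| ≤ r2 := by
    intro a ha
    obtain ⟨_, h2, _⟩ := hS a ha
    exact abs_le_of_sq_le_sq' (by nlinarith [sq_nonneg (a.2 : ℝ)]) (by linarith) |> abs_le.2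
  have hsnd : ∀ a ∈ S, (7 / 10) * r1 ≤ (a.2 : ℝ) := by
    intro a ha
    obtain ⟨h2, _, h3⟩ := hS a ha
    have h4 : |(a.1 : ℝ)| ≤ (a.2 : ℝ) := by exact_mod_cast h3
    have h5 : (a.1 : ℝ) ^ 2 ≤ (a.2 : ℝ) ^ 2 := by
      rw [← sq_abs (a.1 : ℝ)]
      exact pow_le_pow_left₀ (abs_nonneg _) h4 2
    have h6 : 0 ≤ (a.2 : ℝ) := (abs_nonneg _).trans h4
    by_contra hcon
    push Not at hcon
    nlinarith
  have hcard : S.card = ∑ x ∈ S.image Prod.fst, (S.filter fun a => a.1 = x).card :=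
    Finset.card_eq_sum_card_image _ _
  have hfib : ∀ x ∈ S.image Prod.fst, ((S.filter fun a => a.1 = x).card : ℝ) ≤
      3 * (r2 - r1) + 1 := by
    intro x _
    have e1 : (S.filter fun a => a.1 = x).card = ((S.filter fun a => a.1 = x).image Prod.snd).card := by
      rw [Finset.card_image_of_injOn]
      intro a ha b hb hab
      rw [Finset.mem_coe, Finset.mem_filter] at ha hb
      exact Prod.ext (ha.2.trans hb.2.symm) hab
    rw [e1]
    refine card_le_of_diam _ _ (by linarith) ?_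
    intro p hp q hq
    rw [Finset.mem_image] at hp hq
    obtain ⟨a, ha, rfl⟩ := hp
    obtain ⟨b, hb, rfl⟩ := hq
    rw [Finset.mem_filter] at ha hb
    have ha1 := hsnd a ha.1
    have hb1 := hsnd b hb.1
    obtain ⟨_, h2, _⟩ := hS a ha.1
    obtain ⟨h3, _, _⟩ := hS b hb.1
    have h4 : (a.1 : ℝ) = b.1 := by exact_mod_cast (ha.2.trans hb.2.symm)
    rw [h4] at h2
    by_contra hcon
    push Not at hcon
    have h5 : ((a.2 : ℝ) - b.2) * (a.2 + b.2) ≤ (r2 - r1) * (r2 + r1) := by nlinarith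
    have h6 : (14 / 10) * r1 ≤ (a.2 : ℝ) + b.2 := by linarith
    have h7 : (r2 - r1) * (r2 + r1) ≤ (r2 - r1) * (3 * r1) :=
      mul_le_mul_of_nonneg_left (by linarith) (by linarith)
    have h8 : 3 * (r2 - r1) * ((14 / 10) * r1) ≤ ((a.2 : ℝ) - b.2) * (a.2 + b.2) :=
      mul_le_mul hcon.le h6 (by positivity) (by linarith)
    have h9 : 0 < ((a.2 : ℝ) - b.2) - 3 * (r2 - r1) := by linarith
    have h10 : 0 < ((a.2 : ℝ) - b.2 - 3 * (r2 - r1)) * (a.2 + b.2) :=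
      mul_pos h9 (by linarith)
    nlinarith
  have himg : ((S.image Prod.fst).card : ℝ) ≤ 2 * r2 + 1 := by
    refine card_le_of_diam _ _ (by linarith) ?_
    intro p hp q hq
    rw [Finset.mem_image] at hp hq
    obtain ⟨a, ha, rfl⟩ := hp
    obtain ⟨b, hb, rfl⟩ := hq
    have h2 := abs_le.1 (hfst a ha)
    have h3 := abs_le.1 (hfst b hb)
    linarith [h2.2, h3.1]
  rw [hcard]
  push_cast
  refine (Finset.sum_le_sum hfib).trans ?_
  rw [Finset.sum_const, nsmul_eq_mul]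
  exact mul_le_mul_of_nonneg_right himg (by linarith)

theorem card_annulus (S : Finset P2) {r1 r2 : ℝ} (h1 : 1 ≤ r1) (h12 : r1 ≤ r2) (h21 : r2 ≤ 2 * r1)
    (hS : ∀ a ∈ S, r1 ^ 2 ≤ (a.1 : ℝ) ^ 2 + (a.2 : ℝ) ^ 2 ∧
      (a.1 : ℝ) ^ 2 + (a.2 : ℝ) ^ 2 ≤ r2 ^ 2) :
    (S.card : ℝ) ≤ 4 * ((2 * r2 + 1) * (3 * (r2 - r1) + 1)) := by
  have key : ∀ (p : P2 → Prop) [DecidablePred p] (φ : P2 → P2), Function.Injective φ →
      (∀ a, ((φ a).1 : ℝ) ^ 2 + ((φ a).2 : ℝ) ^ 2 = (a.1 : ℝ) ^ 2 + (a.2 : ℝ) ^ 2) →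
      (∀ a, p a → |(φ a).1| ≤ (φ a).2) →
      ((S.filter p).card : ℝ) ≤ (2 * r2 + 1) * (3 * (r2 - r1) + 1) := by
    intro p _ φ hφ hn hp
    rw [← Finset.card_image_of_injective _ hφ]
    refine card_quarter _ h1 h12 h21 ?_
    intro b hb
    rw [Finset.mem_image] at hb
    obtain ⟨a, ha, rfl⟩ := hb
    rw [Finset.mem_filter] at ha
    rw [hn]
    exact ⟨(hS a ha.1).1, (hS a ha.1).2, hp a ha.2⟩
  have k1 := key (fun a => |a.1| ≤ a.2) id Function.injective_id (fun _ => rfl) (fun _ h => h)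
  have k2 := key (fun a => |a.1| ≤ -a.2) (fun a => (a.1, -a.2))
    (fun a b h => by
      simp only [Prod.mk.injEq, neg_inj] at h
      exact Prod.ext h.1 h.2) (fun a => by push_cast; ring) (fun _ h => h)
  have k3 := key (fun a => |a.2| ≤ a.1) (fun a => (a.2, a.1))
    (fun a b h => by
      simp only [Prod.mk.injEq] at h
      exact Prod.ext h.2 h.1) (fun a => by push_cast; ring) (fun _ h => h)
  have k4 := key (fun a => |a.2| ≤ -a.1) (fun a => (a.2, -a.1))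
    (fun a b h => by
      simp only [Prod.mk.injEq, neg_inj] at h
      exact Prod.ext h.2 h.1) (fun a => by push_cast; ring) (fun _ h => h)
  have hcov : S ⊆ ((S.filter fun a => |a.1| ≤ a.2) ∪ (S.filter fun a => |a.1| ≤ -a.2)) ∪
      ((S.filter fun a => |a.2| ≤ a.1) ∪ (S.filter fun a => |a.2| ≤ -a.1)) := by
    intro a ha
    simp only [Finset.mem_union, Finset.mem_filter, ha, true_and, abs_le]
    omega
  have hle := Finset.card_le_card hcov
  have hu := (Finset.card_union_le ((S.filter fun a => |a.1| ≤ a.2) ∪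
    (S.filter fun a => |a.1| ≤ -a.2)) ((S.filter fun a => |a.2| ≤ a.1) ∪
    (S.filter fun a => |a.2| ≤ -a.1)))
  have hu1 := Finset.card_union_le (S.filter fun a => |a.1| ≤ a.2) (S.filter fun a => |a.1| ≤ -a.2)
  have hu2 := Finset.card_union_le (S.filter fun a => |a.2| ≤ a.1) (S.filter fun a => |a.2| ≤ -a.1)
  have hfin : (S.card : ℝ) ≤ ((S.filter fun a => |a.1| ≤ a.2).card : ℝ) +
      (S.filter fun a => |a.1| ≤ -a.2).card + ((S.filter fun a => |a.2| ≤ a.1).card +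
      (S.filter fun a => |a.2| ≤ -a.1).card) := by
    have : S.card ≤ (S.filter fun a => |a.1| ≤ a.2).card +
      (S.filter fun a => |a.1| ≤ -a.2).card + ((S.filter fun a => |a.2| ≤ a.1).card +
      (S.filter fun a => |a.2| ≤ -a.1).card) := by omega
    exact_mod_cast this
  linarith

/-! ### decomposition into cells -/

open Classical in
/-- the relevant vertices -/
def Sr (D S : Finset P2) (a : P2 → ℝ) : Finset P2 := S.filter fun v => v ∈ D ∧ a v ≠ 0

theorem mem_Sr {D S : Finset P2} {a : P2 → ℝ} {v : P2} :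
    v ∈ Sr D S a ↔ v ∈ S ∧ v ∈ D ∧ a v ≠ 0 := by
  simp [Sr]

open Classical in
/-- the truncated density -/
def gr (D S : Finset P2) (a : P2 → ℝ) (v : P2) : ℝ := if v ∈ Sr D S a then a v else 0

theorem sum_cells {D S : Finset P2} {s : ℕ} (hs : 1 ≤ s) (a : P2 → ℝ) {ω : Cfg}
    (hω : Valid D ω) :
    ∑ v ∈ S, (ω.1 v : ℝ) * a v =
      ∑ q ∈ (Sr D S a).image (cellOf s), Lin (cellV s q) (gr D S a) ω := by
  classical
  have h1 : ∑ v ∈ S, (ω.1 v : ℝ) * a v = ∑ v ∈ Sr D S a, (ω.1 v : ℝ) * a v := by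
    unfold Sr
    rw [Finset.sum_filter]
    refine Finset.sum_congr rfl fun v _ => ?_
    split_ifs with h
    · rfl
    · by_cases hv : v ∈ D
      · have : a v = 0 := by
          by_contra h0
          exact h ⟨hv, h0⟩
        rw [this, mul_zero]
      · have : ω.1 v = 0 := hω.zero v fun hi => hv (Finset.mem_filter.1 hi).1
        rw [this, Int.cast_zero, zero_mul]
  rw [h1, ← Finset.sum_fiberwise_of_maps_to (g := cellOf s)
    (t := (Sr D S a).image (cellOf s)) (fun v hv => Finset.mem_image_of_mem _ hv)]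
  refine Finset.sum_congr rfl fun q _ => ?_
  have h2 : (Sr D S a).filter (fun v => cellOf s v = q) =
      (cellV s q).filter (fun v => v ∈ Sr D S a) := by
    ext v
    rw [Finset.mem_filter, Finset.mem_filter]
    constructor
    · rintro ⟨h3, h4⟩
      refine ⟨?_, h3⟩
      rw [← h4]
      exact mem_cellV_cellOf hs v
    · rintro ⟨h3, h4⟩
      exact ⟨h4, cellOf_of_mem h3⟩
  rw [h2, Finset.sum_filter]
  unfold Lin
  refine Finset.sum_congr rfl fun v _ => ?_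
  unfold gr
  split_ifs
  · ring
  · ring

theorem abs_cell {s : ℕ} {q v : P2} (h : v ∈ cellV s q) :
    ‖pc v - (s : ℂ) * pc q‖ ≤ 2 * s := by
  have e : (s : ℂ) * pc q = pc (xa s q) := by
    apply Complex.ext
    · simp [xa, pc]; ring
    · simp [xa, pc]; ring
  rw [e]
  refine (pc_sub_le _ _).trans ?_
  rw [mem_cellV] at h
  simp only [xa]
  have a1 : |((v.1 : ℝ)) - ((q.1 * s : ℤ) : ℝ)| ≤ s := by
    rw [abs_le]
    have h1 : ((q.1 * s : ℤ) : ℝ) ≤ v.1 := by exact_mod_cast h.1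
    have h2 : (v.1 : ℝ) < ((q.1 * s : ℤ) : ℝ) + s := by exact_mod_cast h.2.1
    constructor <;> linarith [Nat.cast_nonneg (α := ℝ) s]
  have a2 : |((v.2 : ℝ)) - ((q.2 * s : ℤ) : ℝ)| ≤ s := by
    rw [abs_le]
    have h1 : ((q.2 * s : ℤ) : ℝ) ≤ v.2 := by exact_mod_cast h.2.2.1
    have h2 : (v.2 : ℝ) < ((q.2 * s : ℤ) : ℝ) + s := by exact_mod_cast h.2.2.2
    constructor <;> linarith [Nat.cast_nonneg (α := ℝ) s]
  linarith

theorem mem_ball_real {x f : P2} {n : ℕ} : f ∈ ball x n ↔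
    (x.1 : ℝ) - n ≤ f.1 ∧ (f.1 : ℝ) ≤ x.1 + n - 1 ∧ (x.2 : ℝ) - n ≤ f.2 ∧
      (f.2 : ℝ) ≤ x.2 + n - 1 := by
  rw [mem_ball]
  constructor
  · rintro ⟨h1, h2, h3, h4⟩
    exact ⟨by exact_mod_cast h1, by exact_mod_cast h2, by exact_mod_cast h3, by exact_mod_cast h4⟩
  · rintro ⟨h1, h2, h3, h4⟩
    exact ⟨by exact_mod_cast h1, by exact_mod_cast h2, by exact_mod_cast h3, by exact_mod_cast h4⟩

theorem norm_ball_le {x f : P2} {n : ℕ} (h : f ∈ ball x n) : ‖pc f - pc x‖ ≤ 2 * n := by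
  refine (pc_sub_le _ _).trans ?_
  rw [mem_ball_real] at h
  have a1 : |(f.1 : ℝ) - x.1| ≤ n := by rw [abs_le]; constructor <;> linarith [h.1, h.2.1]
  have a2 : |(f.2 : ℝ) - x.2| ≤ n := by rw [abs_le]; constructor <;> linarith [h.2.2.1, h.2.2.2]
  linarith

theorem mem_ball_of_norm {x f : P2} {n : ℕ} (h : ‖pc f - pc x‖ ≤ n - 1) : f ∈ ball x n := by
  rw [mem_ball_real]
  have a1 := abs_le.1 ((le_pc_fst f x).trans h)
  have a2 := abs_le.1 ((le_pc_snd f x).trans h)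
  refine ⟨?_, ?_, ?_, ?_⟩ <;> linarith [a1.1, a1.2, a2.1, a2.2]

/-- geometry near the boundary: `R = (ρ+η)/δ` is an upper bound for the faces of `D` -/
theorem exists_outer {D : Finset P2} {R : ℝ} (hD : ∀ f ∈ D, ‖pc f‖ < R) {v : P2}
    (hv : 0 < ‖pc v‖) (hvR : ‖pc v‖ ≤ R) {s : ℕ} (hs : 9 ≤ s) (h3 : R - ‖pc v‖ ≤ 3 * s) :
    (∃ b : P2, Disjoint (ball b s) D ∧ ∀ w ∈ cellV s (cellOf s v), w ∈ ball b (10 * s)) ∧
    (∃ y ∈ ball (xa s (cellOf s v)) (6 * s), y ∉ D) := by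
  have hs' : (9 : ℝ) ≤ s := by exact_mod_cast hs
  have hcell := mem_cellV_cellOf (hs := by omega) (s := s) v
  have hx : ∀ w ∈ cellV s (cellOf s v), ‖pc w - pc v‖ ≤ 2 * s := by
    intro w hw
    refine (pc_sub_le _ _).trans ?_
    rw [mem_cellV] at hw hcell
    have a1 : |(w.1 : ℝ) - v.1| ≤ s := by
      rw [abs_le]
      have h1 : ((cellOf s v).1 * s : ℤ) ≤ (w.1 : ℝ) := by exact_mod_cast hw.1
      have h2 : (w.1 : ℝ) < ((cellOf s v).1 * s : ℤ) + s := by exact_mod_cast hw.2.1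
      have h3 : ((cellOf s v).1 * s : ℤ) ≤ (v.1 : ℝ) := by exact_mod_cast hcell.1
      have h4 : (v.1 : ℝ) < ((cellOf s v).1 * s : ℤ) + s := by exact_mod_cast hcell.2.1
      constructor <;> linarith
    have a2 : |(w.2 : ℝ) - v.2| ≤ s := by
      rw [abs_le]
      have h1 : ((cellOf s v).2 * s : ℤ) ≤ (w.2 : ℝ) := by exact_mod_cast hw.2.2.1
      have h2 : (w.2 : ℝ) < ((cellOf s v).2 * s : ℤ) + s := by exact_mod_cast hw.2.2.2
      have h3 : ((cellOf s v).2 * s : ℤ) ≤ (v.2 : ℝ) := by exact_mod_cast hcell.2.2.1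
      have h4 : (v.2 : ℝ) < ((cellOf s v).2 * s : ℤ) + s := by exact_mod_cast hcell.2.2.2
      constructor <;> linarith
    linarith
  constructor
  · obtain ⟨b, hb1, hb2⟩ := far_pt v hv (R + 2 * s + 2) (by linarith)
    refine ⟨b, ?_, ?_⟩
    · rw [Finset.disjoint_left]
      intro f hf hfD
      have h4 := hD f hfD
      have h5 := norm_ball_le hf
      have h6 := norm_sub_norm_le (pc b) (pc f)
      rw [norm_sub_rev] at h6
      linarith
    · intro w hw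
      apply mem_ball_of_norm
      have h4 := hx w hw
      have h5 : ‖pc w - pc b‖ ≤ ‖pc w - pc v‖ + ‖pc b - pc v‖ := by
        rw [norm_sub_rev (pc b)]
        calc ‖pc w - pc b‖ = ‖(pc w - pc v) + (pc v - pc b)‖ := by ring_nf
          _ ≤ _ := norm_add_le _ _
      push_cast
      linarith
  · obtain ⟨y, hy1, hy2⟩ := far_pt v hv (R + 2) (by linarith)
    refine ⟨y, ?_, ?_⟩
    · apply mem_ball_of_norm
      have h4 : ‖pc v - pc (xa s (cellOf s v))‖ ≤ 2 * s := by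
        have := abs_cell hcell
        have e : (s : ℂ) * pc (cellOf s v) = pc (xa s (cellOf s v)) := by
          apply Complex.ext
          · simp [xa, pc]; ring
          · simp [xa, pc]; ring
        rwa [e] at this
      have h5 : ‖pc y - pc (xa s (cellOf s v))‖ ≤
          ‖pc y - pc v‖ + ‖pc v - pc (xa s (cellOf s v))‖ := by
        calc ‖pc y - pc (xa s (cellOf s v))‖ =
            ‖(pc y - pc v) + (pc v - pc (xa s (cellOf s v)))‖ := by ring_nf
          _ ≤ _ := norm_add_le _ _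
      push_cast
      linarith
    · intro hyD
      have h4 := hD y hyD
      linarith

/-- number of cells met by the layer -/
theorem card_cells {T : Finset P2} {ρ η δ : ℝ} (hρ : 0 < ρ) (hη : 0 < η) (hηρ : η ≤ ρ / 20)
    (hδ : 0 < δ) {s : ℕ} (hs1 : η ≤ δ * s) (hs2 : δ * s ≤ 2 * η)
    (hT : ∀ v ∈ T, ρ - 2 * η ≤ δ * ‖pc v‖ ∧ δ * ‖pc v‖ ≤ ρ + η) :
    (((T.image (cellOf s)).card : ℕ) : ℝ) ≤ 320 * ρ / η := by
  have hs0 : 0 < δ * s := lt_of_lt_of_le hη hs1
  have hspos : (0 : ℝ) < s := by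
    by_contra h
    push Not at h
    nlinarith
  have hsN : 1 ≤ s := by
    have : 0 < s := by exact_mod_cast hspos
    omega
  set r1 : ℝ := (ρ - 2 * η) / (δ * s) - 2 with hr1
  set r2 : ℝ := (ρ + η) / (δ * s) + 2 with hr2
  have hd : r2 - r1 ≤ 7 := by
    have : r2 - r1 = 3 * η / (δ * s) + 4 := by rw [hr1, hr2]; ring
    rw [this]
    have : 3 * η / (δ * s) ≤ 3 := by
      rw [div_le_iff₀ hs0]; linarith
    linarith
  have h1 : 7 ≤ r1 := by
    have : 9 ≤ (ρ - 2 * η) / (δ * s) := by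
      rw [le_div_iff₀ hs0]
      nlinarith
    linarith
  have h12 : r1 ≤ r2 := by
    have : (ρ - 2 * η) / (δ * s) ≤ (ρ + η) / (δ * s) :=
      div_le_div_of_nonneg_right (by linarith) hs0.le
    linarith
  have hr2u : r2 ≤ ρ / η + 3 := by
    have : (ρ + η) / (δ * s) ≤ (ρ + η) / η :=
      div_le_div_of_nonneg_left (by linarith) hη hs1
    have h3 : (ρ + η) / η = ρ / η + 1 := by field_simp
    linarith
  have hρη : 20 ≤ ρ / η := by
    rw [le_div_iff₀ hη]; linarith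
  have hcard := card_annulus (T.image (cellOf s)) (r1 := r1) (r2 := r2) (by linarith) h12
    (by linarith) (by
      intro q hq
      rw [Finset.mem_image] at hq
      obtain ⟨v, hv, rfl⟩ := hq
      obtain ⟨h4, h5⟩ := hT v hv
      have h6 := abs_cell (mem_cellV_cellOf hsN v)
      set q := cellOf s v with hq
      have h7 : ‖(s : ℂ) * pc q‖ = s * ‖pc q‖ := by
        rw [norm_mul, Complex.norm_natCast]
      have h8 := norm_sub_norm_le (pc v) ((s : ℂ) * pc q)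
      have h9 := norm_sub_norm_le ((s : ℂ) * pc q) (pc v)
      rw [norm_sub_rev] at h9
      rw [h7] at h8 h9
      have h10 : r1 ≤ ‖pc q‖ := by
        rw [hr1, sub_le_iff_le_add, div_le_iff₀ hs0]
        have : δ * ‖pc v‖ ≤ δ * (s * ‖pc q‖ + 2 * s) :=
          mul_le_mul_of_nonneg_left (by linarith) hδ.le
        nlinarith
      have h11 : ‖pc q‖ ≤ r2 := by
        rw [hr2, ← sub_le_iff_le_add, le_div_iff₀ hs0]
        have : δ * (s * ‖pc q‖ - 2 * s) ≤ δ * ‖pc v‖ :=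
          mul_le_mul_of_nonneg_left (by linarith) hδ.le
        nlinarith
      rw [← norm_sq_pc]
      exact ⟨pow_le_pow_left₀ (by linarith) h10 2,
        pow_le_pow_left₀ (norm_nonneg _) h11 2⟩)
  refine hcard.trans ?_
  have h13 : (2 * r2 + 1) * (3 * (r2 - r1) + 1) ≤ (2 * (ρ / η + 3) + 1) * 22 :=
    mul_le_mul (by linarith) (by linarith) (by linarith) (by positivity)
  have h14 : 320 * ρ / η = 320 * (ρ / η) := by ring
  rw [h14]
  linarith

end Crest.Agent.R161.BdDisc228
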