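import Crest.Agent.R161.BdDisc_228

/-!
# Row 161, block H: boundary regularity (H) (helper228)

`layer_L1`: from `HA c` and `HC c`.
-/

set_option autoImplicit false

noncomputable section

namespace Crest.Agent.R161.BdFin228

open Finset Crest.Agent.R161.Geo729 Crest.Agent.R161.Defs372 Crest.Agent.R161.Hull374
  Crest.Agent.R161.Dual374 Crest.Agent.R161.Ifc372 Crest.Agent.R161.Flip228
  Crest.Agent.R161.BdI228 Crest.Agent.R161.Bd228 Crest.Agent.R161.BdDisc228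

theorem Lin_smul (V : Finset P2) (g : P2 → ℝ) (l : ℝ) (ω : Cfg) :
    Lin V (fun v => l * g v) ω = l * Lin V g ω := by
  unfold Lin
  rw [Finset.mul_sum]
  exact Finset.sum_congr rfl fun v _ => by ring

/-- one scale -/
theorem layer_scale {c : ℝ} (hc : 1 ≤ c) {Ca : ℝ} {sA : ℕ}
    (hA : ∀ s : ℕ, sA ≤ s → ∀ F : Finset P2, Dom F → ∀ b : P2,
      Disjoint (ball b s) F → ∀ (V : Finset P2) (g : P2 → ℝ), V ⊆ ball b (10 * s) →
        (∀ v ∈ V, |g v| ≤ ((10 : ℕ) : ℝ) / (s : ℝ) ^ 2) → E c F (fun ω => Lin V g ω ^ 2) ≤ Ca)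
    (hCa : 0 ≤ Ca) {T sC : ℕ} {ε' : ℝ}
    (hC : ∀ s : ℕ, sC ≤ s → ∀ F : Finset P2, Dom F → ∀ x : P2, (∃ y ∈ ball x s, y ∉ F) →
      Pr c F {ω | ¬ Good (ball x (T * s) : Set P2) (ball x s : Set P2) x ω} ≤ ε')
    {ρ C η δ : ℝ} (hρ : 0 < ρ) (hC0 : 0 < C) (hη : 0 < η) (hηρ : η ≤ ρ / 20) (hδ : 0 < δ)
    (hδη : δ * (sA + sC + 9) ≤ η) {D : Finset P2} (hD : Dom D)
    (hDR : ∀ f ∈ D, δ * ‖pc f‖ < ρ + η) (S : Finset P2) (a : P2 → ℝ)
    (ha : ∀ v ∈ S, |a v| ≤ δ ^ 2 * (C / η)) (ha2 : ∀ v ∈ S, a v ≠ 0 → ρ - 2 * η ≤ δ * ‖pc v‖)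
    (hε' : 0 ≤ ε') :
    E c D (fun ω => |∑ v ∈ S, (ω.1 v : ℝ) * a v|) ≤
      Real.sqrt (320 * ρ * (2 * (6 * T : ℕ) + 1) ^ 2 * (C ^ 2 * Ca) * η) +
      Real.sqrt ((320 * ρ) ^ 2 * (C ^ 2 * Ca) * ε') := by
  classical
  -- the scale
  set s : ℕ := ⌈η / δ⌉₊ with hs
  have hq1 : (sA + sC + 9 : ℝ) ≤ η / δ := by
    rw [le_div_iff₀ hδ]; linarith
  have hs1 : η / δ ≤ s := Nat.le_ceil _
  have hs2 : (s : ℝ) < η / δ + 1 := Nat.ceil_lt_add_one (by positivity)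
  have hs3 : (sA + sC + 9 : ℝ) ≤ s := hq1.trans hs1
  have hs4 : sA + sC + 9 ≤ s := by exact_mod_cast hs3
  have hsA : sA ≤ s := by omega
  have hsC : sC ≤ 6 * s := by omega
  have hs9 : 9 ≤ s := by omega
  have hspos : (0 : ℝ) < s := by
    have : (9 : ℝ) ≤ s := by exact_mod_cast hs9
    linarith
  have hds1 : η ≤ δ * s := by
    rw [div_le_iff₀ hδ] at hs1; linarith
  have hds2 : δ * s ≤ 2 * η := by
    have h1 : (1 : ℝ) ≤ η / δ := by
      have : (0 : ℝ) ≤ sA + sC := by positivity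
      linarith
    have h2 : (s : ℝ) ≤ 2 * (η / δ) := by linarith
    calc δ * s ≤ δ * (2 * (η / δ)) := mul_le_mul_of_nonneg_left h2 hδ.le
      _ = 2 * η := by field_simp
  -- relevant vertices
  set T' := Sr D S a with hT'
  have hlay : ∀ v ∈ T', ρ - 2 * η ≤ δ * ‖pc v‖ ∧ δ * ‖pc v‖ ≤ ρ + η := by
    intro v hv
    rw [hT', mem_Sr] at hv
    exact ⟨ha2 v hv.1 hv.2.2, (hDR v hv.2.1).le⟩
  have hout : ∀ v ∈ T', (∃ b : P2, Disjoint (ball b s) D ∧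
      ∀ w ∈ cellV s (cellOf s v), w ∈ ball b (10 * s)) ∧
      (∃ y ∈ ball (xa s (cellOf s v)) (6 * s), y ∉ D) := by
    intro v hv
    obtain ⟨h1, h2⟩ := hlay v hv
    refine exists_outer (R := (ρ + η) / δ) ?_ ?_ ?_ hs9 ?_
    · intro f hf
      rw [lt_div_iff₀ hδ]
      have := hDR f hf
      linarith
    · by_contra hcon
      push Not at hcon
      nlinarith
    · rw [le_div_iff₀ hδ]; linarith
    · have h3 : (ρ + η) / δ - ‖pc v‖ ≤ 3 * (η / δ) := by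
        have h4 : (ρ - 2 * η) / δ ≤ ‖pc v‖ := by
          rw [div_le_iff₀ hδ]; linarith
        have h5 : (ρ + η) / δ - (ρ - 2 * η) / δ = 3 * (η / δ) := by ring
        linarith
      linarith
  set I := T'.image (cellOf s) with hI
  have hcard : ((I.card : ℕ) : ℝ) ≤ 320 * ρ / η := card_cells hρ hη hηρ hδ hds1 hds2 hlay
  -- second moments of the cells
  set M2 : ℝ := (C * η) ^ 2 * Ca with hM2
  have hM20 : 0 ≤ M2 := by positivity
  have hsecond : ∀ q ∈ I, E c D (fun ω => Lin (cellV s q) (gr D S a) ω ^ 2) ≤ M2 := by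
    intro q hq
    rw [hI, Finset.mem_image] at hq
    obtain ⟨v, hv, rfl⟩ := hq
    obtain ⟨⟨b, hb1, hb2⟩, _⟩ := hout v hv
    have h1 := hA s hsA D hD b hb1 (cellV s (cellOf s v)) (fun w => (C * η)⁻¹ * gr D S a w)
      (fun w hw => hb2 w hw) (by
        intro w _
        unfold gr
        split_ifs with h
        · have h2 := ha w (mem_Sr.1 h).1
          rw [abs_mul, abs_of_nonneg (by positivity : (0 : ℝ) ≤ (C * η)⁻¹)]
          push_cast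
          rw [le_div_iff₀ (by positivity)]
          have h3 : (δ * s) ^ 2 ≤ (2 * η) ^ 2 := pow_le_pow_left₀ (by positivity) hds2 2
          calc (C * η)⁻¹ * |a w| * (s : ℝ) ^ 2 ≤ (C * η)⁻¹ * (δ ^ 2 * (C / η)) * (s : ℝ) ^ 2 := by
                gcongr
            _ = (δ * s) ^ 2 / η ^ 2 := by field_simp
            _ ≤ (2 * η) ^ 2 / η ^ 2 := by gcongr
            _ = 4 := by field_simp; norm_num
            _ ≤ 10 := by norm_num
        · rw [mul_zero, abs_zero]; positivity)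
    have h2 : E c D (fun ω => Lin (cellV s (cellOf s v)) (gr D S a) ω ^ 2) =
        (C * η) ^ 2 * E c D (fun ω => Lin (cellV s (cellOf s v))
          (fun w => (C * η)⁻¹ * gr D S a w) ω ^ 2) := by
      rw [← E_smul]
      congr 1
      funext ω
      rw [Lin_smul]
      field_simp
    rw [h2, hM2]
    exact mul_le_mul_of_nonneg_left h1 (by positivity)
  -- good events
  have hgood : ∀ q ∈ I, Pr c D {ω | ¬ Good (ball (xa s q) (T * (6 * s)) : Set P2)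
      (ball (xa s q) (6 * s) : Set P2) (xa s q) ω} ≤ ε' := by
    intro q hq
    rw [hI, Finset.mem_image] at hq
    obtain ⟨v, hv, rfl⟩ := hq
    exact hC (6 * s) hsC D hD _ (hout v hv).2
  have hmain := cells_L1 hc D (s := s) (m := 6 * s) (M := T * (6 * s)) (Q := 6 * T) (by omega)
    (by omega) (le_of_eq (by ring)) I (gr D S a) M2 ε' hM20 hsecond hgood
  have heq : E c D (fun ω => |∑ v ∈ S, (ω.1 v : ℝ) * a v|) =
      E c D (fun ω => |∑ q ∈ I, Lin (cellV s q) (gr D S a) ω|) :=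
    E_congr fun ω hω => by rw [sum_cells (by omega : 1 ≤ s) a hω]
  rw [heq]
  refine hmain.trans (add_le_add ?_ ?_)
  · apply Real.sqrt_le_sqrt
    calc (I.card : ℝ) * (2 * ((6 * T : ℕ) : ℝ) + 1) ^ 2 * M2
        ≤ (320 * ρ / η) * (2 * ((6 * T : ℕ) : ℝ) + 1) ^ 2 * M2 := by gcongr
      _ = 320 * ρ * (2 * ((6 * T : ℕ) : ℝ) + 1) ^ 2 * (C ^ 2 * Ca) * η := by
        rw [hM2]; field_simp
  · have h1 : (I.card : ℝ) * Real.sqrt (M2 * ε') ≤ (320 * ρ / η) * Real.sqrt (M2 * ε') := by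
      gcongr
    refine h1.trans (le_of_eq ?_)
    rw [← Real.sqrt_sq (by positivity : (0 : ℝ) ≤ 320 * ρ / η), ← Real.sqrt_mul (by positivity)]
    congr 1
    rw [hM2]
    field_simp

/-- **(H) boundary regularity in `L¹`.** -/
theorem layer_L1 {c : ℝ} (hc : 1 ≤ c) (hA : HA c) (hC : HC c) {ρ C ε : ℝ} (hρ : 0 < ρ)
    (hC0 : 0 < C) (hε : 0 < ε) :
    ∃ η0 : ℝ, 0 < η0 ∧ ∀ η : ℝ, 0 < η → η < η0 → ∃ δ0 : ℝ, 0 < δ0 ∧ ∀ δ : ℝ, 0 < δ → δ < δ0 →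
      ∀ D : Finset P2, Dom D → (∀ f ∈ D, δ * ‖pc f‖ < ρ + η) → ∀ (S : Finset P2) (a : P2 → ℝ),
        (∀ v ∈ S, |a v| ≤ δ ^ 2 * (C / η)) →
        (∀ v ∈ S, a v ≠ 0 → ρ - 2 * η ≤ δ * ‖pc v‖) →
        E c D (fun ω => |∑ v ∈ S, (ω.1 v : ℝ) * a v|) ≤ ε := by
  obtain ⟨Ca, sA, hA'⟩ := hA 10
  have hA'' : ∀ s : ℕ, sA ≤ s → ∀ F : Finset P2, Dom F → ∀ b : P2,
      Disjoint (ball b s) F → ∀ (V : Finset P2) (g : P2 → ℝ), V ⊆ ball b (10 * s) →
        (∀ v ∈ V, |g v| ≤ ((10 : ℕ) : ℝ) / (s : ℝ) ^ 2) →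
          E c F (fun ω => Lin V g ω ^ 2) ≤ max Ca 0 :=
    fun s hs F hF b hb V g hV hg => (hA' s hs F hF b hb V g hV hg).trans (le_max_left _ _)
  set B : ℝ := C ^ 2 * max Ca 0 with hB
  have hB0 : 0 ≤ B := by positivity
  set ε' : ℝ := (ε / 2) ^ 2 / ((320 * ρ) ^ 2 * B + 1) with hε'
  have hε'0 : 0 < ε' := by positivity
  obtain ⟨T, sC, hC'⟩ := hC ε' hε'0
  set A2 : ℝ := 320 * ρ * (2 * (6 * T : ℕ) + 1) ^ 2 * B with hA2
  have hA20 : 0 ≤ A2 := by positivity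
  refine ⟨min (ρ / 20) ((ε / 2) ^ 2 / (A2 + 1)), by positivity, fun η hη hη0 => ?_⟩
  have hη1 : η ≤ ρ / 20 := (hη0.trans_le (min_le_left _ _)).le
  have hη2 : η ≤ (ε / 2) ^ 2 / (A2 + 1) := (hη0.trans_le (min_le_right _ _)).le
  refine ⟨η / (sA + sC + 9), by positivity, fun δ hδ hδ0 D hD hDR S a ha ha2 => ?_⟩
  have hδη : δ * (sA + sC + 9) ≤ η := by
    rw [lt_div_iff₀ (by positivity)] at hδ0
    exact hδ0.le
  refine (layer_scale hc hA'' (le_max_right _ _) hC' hρ hC0 hη hη1 hδ hδη hD hDR S a ha ha2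
    hε'0.le).trans ?_
  have h1 : Real.sqrt (320 * ρ * (2 * (6 * T : ℕ) + 1) ^ 2 * B * η) ≤ ε / 2 := by
    apply Real.sqrt_le_iff.2 ⟨by positivity, ?_⟩
    rw [← hA2]
    rw [le_div_iff₀ (by positivity)] at hη2
    nlinarith
  have h2 : Real.sqrt ((320 * ρ) ^ 2 * B * ε') ≤ ε / 2 := by
    apply Real.sqrt_le_iff.2 ⟨by positivity, ?_⟩
    have h3 : ε' * ((320 * ρ) ^ 2 * B + 1) = (ε / 2) ^ 2 := by
      rw [hε']; field_simp
    nlinarith
  rw [← hB]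
  linarith

end Crest.Agent.R161.BdFin228
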