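import Crest.Agent.R161.Flip_228
import Crest.Agent.R161.Ifc_372

/-!
# Row 161, block H: interfaces (helper228)

* `near x s A v` : `|v - x|_∞ ≤ A s`
* `HA c` : a-priori second moment bound near a hole (output of H-a, helper702)
* `HC c` : uniform separation near the boundary (output of H-c, helper389)
* `BdReg c` : boundary regularity (H): output of block H for the assembly
-/

set_option autoImplicit false

noncomputable section

namespace Crest.Agent.R161.BdI228

open Finset Crest.Agent.R161.Geo729 Crest.Agent.R161.Defs372 Crest.Agent.R161.Hull374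
  Crest.Agent.R161.Dual374 Crest.Agent.R161.Ifc372 Crest.Agent.R161.Flip228

/-- **(H-a)** A-priori second moment bound near a hole: if the ball `ball b s` is outside `F`, `g` has
density `≤ A / s²` and lives within distance `A s` of `b`, then `E_F (Σ g K)² ≤ Ca`, uniformly in
the simply connected domain `F`, `s ≥ s0` and the positions. -/
def HA (c : ℝ) : Prop :=
  ∀ A : ℕ, ∃ (Ca : ℝ) (s0 : ℕ), ∀ s : ℕ, s0 ≤ s → ∀ F : Finset P2, Dom F → ∀ b : P2,
    Disjoint (ball b s) F → ∀ (V : Finset P2) (g : P2 → ℝ), V ⊆ ball b (A * s) →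
      (∀ v ∈ V, |g v| ≤ A / (s : ℝ) ^ 2) → E c F (fun ω => Lin V g ω ^ 2) ≤ Ca

/-- **(H-c)** Uniform separation near the boundary: if some face of `ball x s` is outside `F` then
with probability `≥ 1 - ε` the ball `ball x s` is not reached from outside `ball x (T s)` and the
heights vanish on the boundary of the hull component containing it. -/
def HC (c : ℝ) : Prop :=
  ∀ ε : ℝ, 0 < ε → ∃ (T s0 : ℕ), ∀ s : ℕ, s0 ≤ s → ∀ F : Finset P2, Dom F → ∀ x : P2,
    (∃ y ∈ ball x s, y ∉ F) →
      Pr c F {ω | ¬ Good (ball x (T * s) : Set P2) (ball x s : Set P2) x ω} ≤ ε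

end Crest.Agent.R161.BdI228
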