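import Crest.Agent.R161.BdI_228
import Crest.Agent.R161.Dmp2_341

/-!
# Row 161, block H-d: L1 estimate by cells (helper228)

* `E_mul_sq_le`, `E_abs_le_sqrt`: Cauchy–Schwarz for `E c F`
* `abs_sum_le`: abstract estimate for sums of observables with good events and decorrelation
* `cellV s a`, `xa s a`: cells of side `s`
* `cells_L1`: the estimate for smeared heights, cell by cell
-/

set_option autoImplicit false

noncomputable section

namespace Crest.Agent.R161.Bd228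

open Finset Crest.Agent.R161.Geo729 Crest.Agent.R161.Defs372 Crest.Agent.R161.Hull374
  Crest.Agent.R161.Dual374 Crest.Agent.R161.Ifc372 Crest.Agent.R161.Flip228

/-! ### Cauchy–Schwarz -/

theorem E_mul_sq_le {c : ℝ} (hc : 1 ≤ c) (F : Finset P2) (f g : Cfg → ℝ) :
    (E c F (fun ω => f ω * g ω)) ^ 2 ≤ E c F (fun ω => f ω ^ 2) * E c F (fun ω => g ω ^ 2) := by
  have h := Finset.sum_mul_sq_le_sq_mul_sq (conf F) (fun ω => Real.sqrt (pr c F ω) * f ω)
    (fun ω => Real.sqrt (pr c F ω) * g ω)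
  have e1 : ∀ ω, Real.sqrt (pr c F ω) * f ω * (Real.sqrt (pr c F ω) * g ω) =
      pr c F ω * (f ω * g ω) := by
    intro ω
    have := Real.mul_self_sqrt (pr_nonneg hc F ω)
    calc _ = (Real.sqrt (pr c F ω) * Real.sqrt (pr c F ω)) * (f ω * g ω) := by ring
      _ = _ := by rw [this]
  have e2 : ∀ (f : Cfg → ℝ) ω, (Real.sqrt (pr c F ω) * f ω) ^ 2 = pr c F ω * f ω ^ 2 := by
    intro f ω
    rw [mul_pow, Real.sq_sqrt (pr_nonneg hc F ω)]
  simp only [e1, e2] at h
  exact h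

theorem E_mul_le {c : ℝ} (hc : 1 ≤ c) (F : Finset P2) (f g : Cfg → ℝ) {A B : ℝ}
    (hA : E c F (fun ω => f ω ^ 2) ≤ A) (hB : E c F (fun ω => g ω ^ 2) ≤ B) :
    E c F (fun ω => f ω * g ω) ≤ Real.sqrt (A * B) := by
  apply Real.le_sqrt_of_sq_le
  refine (E_mul_sq_le hc F f g).trans ?_
  exact mul_le_mul hA hB (E_nonneg hc fun ω _ => sq_nonneg _)
    ((E_nonneg hc fun ω _ => sq_nonneg _).trans hA)

theorem E_abs_le_sqrt {c : ℝ} (hc : 1 ≤ c) (F : Finset P2) (f : Cfg → ℝ) {A : ℝ}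
    (hA : E c F (fun ω => f ω ^ 2) ≤ A) : E c F (fun ω => |f ω|) ≤ Real.sqrt A := by
  have h := E_mul_le hc F (fun ω => |f ω|) (fun _ => 1) (A := A) (B := 1)
    (by simpa only [sq_abs] using hA) (by simp only [one_pow]; exact (E_const hc F 1).le)
  simpa only [mul_one] using h

open Classical in
theorem Pr_eq (c : ℝ) (F : Finset P2) (A : Cfg → Prop) :
    Pr c F {ω | A ω} = E c F (fun ω => if A ω then 1 else 0) := rfl

open Classical in
/-- on an event of small probability -/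
theorem E_abs_ind_le {c : ℝ} (hc : 1 ≤ c) (F : Finset P2) (f : Cfg → ℝ) (G : Cfg → Prop)
    {A ε : ℝ} (hA : E c F (fun ω => f ω ^ 2) ≤ A) (hε : Pr c F {ω | ¬ G ω} ≤ ε) :
    E c F (fun ω => if G ω then 0 else |f ω|) ≤ Real.sqrt (A * ε) := by
  have h := E_mul_le hc F (fun ω => |f ω|) (fun ω => if ¬ G ω then 1 else 0) (A := A) (B := ε)
    (by simpa only [sq_abs] using hA) (by
      refine le_trans (le_of_eq ?_) hε
      rw [Pr_eq]
      congr 1
      funext ω
      split_ifs <;> simp)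
  refine le_trans (le_of_eq ?_) h
  congr 1
  funext ω
  split_ifs <;> simp_all

open Classical in
/-- **Abstract estimate.** -/
theorem abs_sum_le {ι : Type*} {c : ℝ} (hc : 1 ≤ c) (F : Finset P2) (I : Finset ι)
    (Y : ι → Cfg → ℝ) (G : ι → Cfg → Prop) (near : ι → Finset ι) (N : ℕ) (M ε : ℝ)
    (hdec : ∀ a ∈ I, ∀ a' ∈ I, a' ∉ near a →
      E c F (fun ω => (if G a ω then Y a ω else 0) * (if G a' ω then Y a' ω else 0)) = 0)
    (hN : ∀ a ∈ I, (near a).card ≤ N)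
    (hM : ∀ a ∈ I, E c F (fun ω => Y a ω ^ 2) ≤ M)
    (hε : ∀ a ∈ I, Pr c F {ω | ¬ G a ω} ≤ ε) (hM0 : 0 ≤ M) :
    E c F (fun ω => |∑ a ∈ I, Y a ω|) ≤
      Real.sqrt (I.card * N * M) + I.card * Real.sqrt (M * ε) := by
  -- good parts
  have hZ2 : ∀ a ∈ I, E c F (fun ω => (if G a ω then Y a ω else 0) ^ 2) ≤ M := by
    intro a ha
    refine (E_mono hc fun ω _ => ?_).trans (hM a ha)
    split_ifs
    · exact le_rfl
    · simpa using sq_nonneg (Y a ω)
  have h1 : E c F (fun ω => (∑ a ∈ I, (if G a ω then Y a ω else 0)) ^ 2) ≤ I.card * N * M := by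
    have e1 : ∀ ω, (∑ a ∈ I, (if G a ω then Y a ω else 0)) ^ 2 =
        ∑ a ∈ I, ∑ a' ∈ I, (if G a ω then Y a ω else 0) * (if G a' ω then Y a' ω else 0) := by
      intro ω
      rw [sq, Finset.sum_mul_sum]
    simp only [e1]
    rw [E_sum]
    have e2 : ∀ a ∈ I, E c F (fun ω => ∑ a' ∈ I, (if G a ω then Y a ω else 0) *
        (if G a' ω then Y a' ω else 0)) ≤ N * M := by
      intro a ha
      rw [E_sum]
      have e3 : ∀ a' ∈ I, E c F (fun ω => (if G a ω then Y a ω else 0) *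
          (if G a' ω then Y a' ω else 0)) ≤ if a' ∈ near a then M else 0 := by
        intro a' ha'
        split_ifs with hn
        · have := E_mul_le hc F _ _ (hZ2 a ha) (hZ2 a' ha')
          rwa [Real.sqrt_mul_self hM0] at this
        · exact (hdec a ha a' ha' hn).le
      refine (Finset.sum_le_sum e3).trans ?_
      rw [← Finset.sum_filter, Finset.sum_const, nsmul_eq_mul]
      refine mul_le_mul_of_nonneg_right ?_ hM0
      have : (I.filter fun a' => a' ∈ near a).card ≤ (near a).card :=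
        Finset.card_le_card fun b hb => (Finset.mem_filter.1 hb).2
      exact_mod_cast this.trans (hN a ha)
    refine (Finset.sum_le_sum e2).trans ?_
    rw [Finset.sum_const, nsmul_eq_mul]
    exact le_of_eq (by ring)
  have h2 := E_abs_le_sqrt hc F _ h1
  -- bad parts
  have h3 : ∀ a ∈ I, E c F (fun ω => if G a ω then 0 else |Y a ω|) ≤ Real.sqrt (M * ε) :=
    fun a ha => E_abs_ind_le hc F _ _ (hM a ha) (hε a ha)
  have h4 : E c F (fun ω => |∑ a ∈ I, Y a ω|) ≤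
      E c F (fun ω => |∑ a ∈ I, (if G a ω then Y a ω else 0)| +
        ∑ a ∈ I, (if G a ω then 0 else |Y a ω|)) := by
    refine E_mono hc fun ω _ => ?_
    have e4 : ∑ a ∈ I, Y a ω = ∑ a ∈ I, (if G a ω then Y a ω else 0) +
        ∑ a ∈ I, (if G a ω then 0 else Y a ω) := by
      rw [← Finset.sum_add_distrib]
      refine Finset.sum_congr rfl fun a _ => ?_
      split_ifs <;> simp
    rw [e4]
    refine (abs_add_le _ _).trans (add_le_add le_rfl ?_)
    refine (Finset.abs_sum_le_sum_abs _ _).trans (Finset.sum_le_sum fun a _ => ?_)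
    split_ifs <;> simp
  rw [E_add, E_sum] at h4
  refine h4.trans (add_le_add h2 ?_)
  refine (Finset.sum_le_sum h3).trans ?_
  rw [Finset.sum_const, nsmul_eq_mul]

/-! ### balls -/

theorem mem_ball {x : P2} {n : ℕ} {f : P2} : f ∈ ball x n ↔
    x.1 - n ≤ f.1 ∧ f.1 ≤ x.1 + n - 1 ∧ x.2 - n ≤ f.2 ∧ f.2 ≤ x.2 + n - 1 := by
  simp only [ball, Finset.mem_product, Finset.mem_Icc]
  tauto

theorem dom_ball (x : P2) (n : ℕ) : Dom (ball x n) := Dmp341.dom_rect _ _ _ _

theorem conn_ball (x : P2) (n : ℕ) : IsConn (ball x n : Set P2) := (dom_ball x n).conn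

theorem conn_compl_ball (x : P2) (n : ℕ) : IsConn (ball x n : Set P2)ᶜ := (dom_ball x n).sc

theorem compl_ball_ne (x : P2) (n : ℕ) : ((ball x n : Set P2)ᶜ).Nonempty := by
  refine ⟨(x.1 + n, x.2), ?_⟩
  intro h
  rw [Finset.mem_coe, mem_ball] at h
  simp only at h
  omega

theorem ball_fin (x : P2) (n : ℕ) : (ball x n : Set P2).Finite := (ball x n).finite_toSet

theorem ball_subset {x : P2} {m n : ℕ} (h : m ≤ n) : ball x m ⊆ ball x n := by
  intro f hf
  rw [mem_ball] at hf ⊢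
  omega

theorem self_mem_ball (x : P2) {n : ℕ} (h : 1 ≤ n) : x ∈ ball x n := by
  rw [mem_ball]
  omega

/-! ### cells -/

/-- vertices of the cell `a` of side `s` -/
def cellV (s : ℕ) (a : P2) : Finset P2 :=
  Finset.Ico (a.1 * s) (a.1 * s + s) ×ˢ Finset.Ico (a.2 * s) (a.2 * s + s)

/-- lower left corner of the cell -/
def xa (s : ℕ) (a : P2) : P2 := (a.1 * s, a.2 * s)

theorem mem_cellV {s : ℕ} {a v : P2} : v ∈ cellV s a ↔
    a.1 * s ≤ v.1 ∧ v.1 < a.1 * s + s ∧ a.2 * s ≤ v.2 ∧ v.2 < a.2 * s + s := by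
  simp only [cellV, Finset.mem_product, Finset.mem_Ico]
  tauto

/-- the cell of a vertex -/
def cellOf (s : ℕ) (v : P2) : P2 := (v.1 / s, v.2 / s)

theorem mem_cellV_cellOf {s : ℕ} (hs : 1 ≤ s) (v : P2) : v ∈ cellV s (cellOf s v) := by
  have hs' : (0 : ℤ) < s := by exact_mod_cast hs
  rw [mem_cellV]
  simp only [cellOf]
  have h1 := Int.emod_add_mul_ediv v.1 s
  have h2 := Int.emod_nonneg v.1 hs'.ne'
  have h3 := Int.emod_lt_of_pos v.1 hs'
  have h4 := Int.emod_add_mul_ediv v.2 s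
  have h5 := Int.emod_nonneg v.2 hs'.ne'
  have h6 := Int.emod_lt_of_pos v.2 hs'
  refine ⟨?_, ?_, ?_, ?_⟩ <;> nlinarith

theorem cellOf_of_mem {s : ℕ} {a v : P2} (h : v ∈ cellV s a) : cellOf s v = a := by
  rw [mem_cellV] at h
  obtain ⟨h1, h2, h3, h4⟩ := h
  have hs' : (0 : ℤ) < s := by linarith
  refine Prod.ext ?_ ?_
  · show v.1 / s = a.1
    rw [Int.ediv_eq_iff_of_pos hs']
    constructor <;> nlinarith
  · show v.2 / s = a.2
    rw [Int.ediv_eq_iff_of_pos hs']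
    constructor <;> nlinarith

theorem cell_disjoint (s : ℕ) {a a' : P2} (h : a ≠ a') : Disjoint (cellV s a) (cellV s a') := by
  rw [Finset.disjoint_left]
  intro v h1 h2
  exact h ((cellOf_of_mem h1).symm.trans (cellOf_of_mem h2))

theorem cell_touch {s m : ℕ} (h : s ≤ m) {a v : P2} (hv : v ∈ cellV s a) :
    Touch (ball (xa s a) m : Set P2) v := by
  refine ⟨v, ?_, Or.inl rfl⟩
  rw [Finset.mem_coe, mem_ball]
  rw [mem_cellV] at hv
  simp only [xa]
  have : (s : ℤ) ≤ m := by exact_mod_cast h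
  refine ⟨?_, ?_, ?_, ?_⟩ <;> linarith

theorem touch_ball {x v : P2} {n : ℕ} (h : Touch (ball x n : Set P2) v) :
    x.1 - n ≤ v.1 ∧ v.1 ≤ x.1 + n ∧ x.2 - n ≤ v.2 ∧ v.2 ≤ x.2 + n := by
  rw [touch_iff] at h
  simp only [Finset.mem_coe, mem_ball] at h
  rcases h with h | h | h | h <;> refine ⟨?_, ?_, ?_, ?_⟩ <;> linarith

/-- cells close to `a` -/
def nearC (Q : ℕ) (a : P2) : Finset P2 :=
  Finset.Icc (a.1 - Q) (a.1 + Q) ×ˢ Finset.Icc (a.2 - Q) (a.2 + Q)

theorem card_nearC (Q : ℕ) (a : P2) : (nearC Q a).card = (2 * Q + 1) ^ 2 := by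
  unfold nearC
  rw [Finset.card_product, Int.card_Icc, Int.card_Icc]
  have h1 : (a.1 + (Q : ℤ) + 1 - (a.1 - Q)).toNat = 2 * Q + 1 := by omega
  have h2 : (a.2 + (Q : ℤ) + 1 - (a.2 - Q)).toNat = 2 * Q + 1 := by omega
  rw [h1, h2, sq]

theorem cell_far {s M Q : ℕ} (hs : 1 ≤ s) (hM : M ≤ Q * s) {a a' : P2} (h : a' ∉ nearC Q a)
    {v : P2} (hv : v ∈ cellV s a') : ¬ Touch (ball (xa s a) M : Set P2) v := by
  intro ht
  apply h
  have h1 := touch_ball ht
  rw [mem_cellV] at hv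
  simp only [xa] at h1
  have hs' : (0 : ℤ) < s := by exact_mod_cast hs
  have hM' : (M : ℤ) ≤ Q * s := by exact_mod_cast hM
  simp only [nearC, Finset.mem_product, Finset.mem_Icc]
  obtain ⟨a1, a2, a3, a4⟩ := h1
  obtain ⟨b1, b2, b3, b4⟩ := hv
  refine ⟨⟨?_, ?_⟩, ⟨?_, ?_⟩⟩
  · by_contra hcon
    push Not at hcon
    have : a'.1 + 1 + Q ≤ a.1 := by omega
    nlinarith
  · by_contra hcon
    push Not at hcon
    have : a.1 + Q + 1 ≤ a'.1 := by omega
    nlinarith
  · by_contra hcon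
    push Not at hcon
    have : a'.2 + 1 + Q ≤ a.2 := by omega
    nlinarith
  · by_contra hcon
    push Not at hcon
    have : a.2 + Q + 1 ≤ a'.2 := by omega
    nlinarith

/-- **L1 estimate by cells.** -/
theorem cells_L1 {c : ℝ} (hc : 1 ≤ c) (F : Finset P2) {s m M Q : ℕ} (hs : 1 ≤ s) (hm : s ≤ m)
    (hM : M ≤ Q * s) (I : Finset P2) (g : P2 → ℝ) (M2 ε : ℝ) (hM20 : 0 ≤ M2)
    (hM2 : ∀ a ∈ I, E c F (fun ω => Lin (cellV s a) g ω ^ 2) ≤ M2)
    (hε : ∀ a ∈ I, Pr c F {ω | ¬ Good (ball (xa s a) M : Set P2) (ball (xa s a) m : Set P2)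
      (xa s a) ω} ≤ ε) :
    E c F (fun ω => |∑ a ∈ I, Lin (cellV s a) g ω|) ≤
      Real.sqrt (I.card * (2 * Q + 1) ^ 2 * M2) + I.card * Real.sqrt (M2 * ε) := by
  have h := abs_sum_le hc F I (fun a => Lin (cellV s a) g)
    (fun a => Good (ball (xa s a) M : Set P2) (ball (xa s a) m : Set P2) (xa s a))
    (nearC Q) ((2 * Q + 1) ^ 2) M2 ε ?_ ?_ hM2 hε hM20
  · push_cast at h
    exact h
  · intro a _ a' _ hn
    exact E_good_mul_zero c F (conn_compl_ball _ _) (compl_ball_ne _ _)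
      (self_mem_ball _ (hs.trans hm)) (conn_ball _ _) g g (fun v hv => cell_touch hm hv)
      (fun v hv => cell_far hs hM hn hv)
  · intro a _
    exact (card_nearC Q a).le

end Crest.Agent.R161.Bd228
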