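import Crest.Agent.R161.Ring1_421
import Crest.Agent.R161.Dmp2_341

/-!
# Row 161, block E4 (helper696), part 1: inner hull

`hullI n ω` : the filled hull of the faces reached from `box n` through non-cut edges, as a subset of
`box (2n)`. If there is a cut circuit in the annulus, then `hullI` is a domain whose boundary is cut, and
the event `hullI = D` is, on `CutE D`, an event of the inside configuration `insL D ω`.
-/

set_option autoImplicit false

noncomputable section

namespace Crest.Agent.R161.Blk696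

open Crest.Agent.R161.Geo729 Crest.Agent.R161.Defs372 Crest.Agent.R161.Dual374
open Crest.Agent.R161.Hull374 Crest.Agent.R161.Ifc372 Crest.Agent.R161.Dmp341
open Crest.Agent.R161.Ring421

theorem mem_ball {x f : P2} {n : ℕ} :
    f ∈ ball x n ↔ (x.1 - n ≤ f.1 ∧ f.1 ≤ x.1 + n - 1) ∧ (x.2 - n ≤ f.2 ∧ f.2 ≤ x.2 + n - 1) := by
  obtain ⟨a, b⟩ := f
  simp [ball]

theorem ball_subset {x : P2} {n m : ℕ} (h : n ≤ m) : ball x n ⊆ ball x m := by
  intro f hf
  rw [mem_ball] at *
  omega

theorem dom_ball (x : P2) (n : ℕ) : Dom (ball x n) := dom_rect _ _ _ _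

/-- If all boundary edges of a set `D ⊇ A` are `Z`-edges then `Reach Z A ⊆ D`. -/
theorem reach_sub_of_bd {Z : Edge → Prop} {A D : Set P2}
    (h1 : A ⊆ D) (h3 : ∀ e, Bd D e → Z e) : Reach Z A ⊆ D := by
  refine reach_subset h1 ?_
  rintro f g hf ⟨e, he, h4⟩
  by_contra hg
  apply he
  apply h3
  rcases h4 with ⟨h5, h6⟩ | ⟨h5, h6⟩
  · left; rw [← h5, ← h6]; exact ⟨hf, hg⟩
  · right; rw [← h5, ← h6]; exact ⟨hg, hf⟩

theorem circ_of_bd {Z : Edge → Prop} {x : P2} {n m : ℕ} {D : Set P2}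
    (h1 : (ball x n : Set P2) ⊆ D) (h2 : D ⊆ (ball x m : Set P2)) (h3 : ∀ e, Bd D e → Z e) :
    Circ Z x n m := (reach_sub_of_bd h1 h3).trans h2

/-- the far point outside `ball x m` -/
def far (x : P2) (m : ℕ) : P2 := (x.1 + m, x.2)

theorem far_not_mem (x : P2) (m : ℕ) : far x m ∉ ball x m := by
  rw [mem_ball]
  simp [far]

open Classical in
/-- The filled hull of `R` inside `ball x m`. -/
def fillB (x : P2) (m : ℕ) (R : Set P2) : Finset P2 :=
  (ball x m).filter fun f => f ∉ Comp Rᶜ (far x m)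

theorem mem_fillB {x : P2} {m : ℕ} {R : Set P2} {f : P2} :
    f ∈ fillB x m R ↔ f ∈ ball x m ∧ f ∉ Comp Rᶜ (far x m) := by
  simp [fillB]

theorem fillB_coe {x : P2} {m : ℕ} {R : Set P2} (hR : R ⊆ (ball x m : Set P2)) :
    (fillB x m R : Set P2) = (Comp Rᶜ (far x m))ᶜ := by
  ext f
  simp only [Finset.mem_coe, mem_fillB, Set.mem_compl_iff]
  refine ⟨fun h => h.2, fun h => ⟨?_, h⟩⟩
  by_contra hf
  apply h
  have hsc := (dom_ball x m).sc
  have hfar : far x m ∈ ((ball x m : Finset P2) : Set P2)ᶜ := by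
    simpa using far_not_mem x m
  have h1 : Conn ((ball x m : Finset P2) : Set P2)ᶜ (far x m) f := hsc _ hfar _ (by simpa using hf)
  exact h1.mono (Set.compl_subset_compl.2 hR)

theorem subset_fillB {x : P2} {m : ℕ} {R : Set P2} (hR : R ⊆ (ball x m : Set P2)) :
    R ⊆ (fillB x m R : Set P2) := by
  rw [fillB_coe hR]
  intro f hf hc
  have hx : far x m ∈ Rᶜ := fun h => far_not_mem x m (by simpa using hR h)
  exact comp_subset hx hc hf

/-- inner hull of the configuration -/
def hullI (x : P2) (n m : ℕ) (ω : Cfg) : Finset P2 := fillB x m (Reach (cutE ω) (ball x n : Set P2))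

theorem isConn_ball (x : P2) (n : ℕ) : IsConn (ball x n : Set P2) := (dom_ball x n).conn

theorem ball_nonempty (x : P2) {n : ℕ} (hn : 1 ≤ n) : (ball x n : Set P2).Nonempty := by
  refine ⟨x, ?_⟩
  rw [Finset.mem_coe, mem_ball]
  omega

/-- Properties of the inner hull when there is a circuit. -/
theorem hullI_spec {x : P2} {n m : ℕ} (hn : 1 ≤ n) {ω : Cfg}
    (hc : Circ (cutE ω) x n m) :
    Dom (hullI x n m ω) ∧ ball x n ⊆ hullI x n m ω ∧ hullI x n m ω ⊆ ball x m ∧
      CutE (hullI x n m ω) ω := by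
  set R := Reach (cutE ω) (ball x n : Set P2) with hR
  have hRB : R ⊆ (ball x m : Set P2) := hc
  have hRc : IsConn R := reach_isConn _ _ (isConn_ball x n)
  have hRne : R.Nonempty := (ball_nonempty x hn).mono (subset_reach _ _)
  have hx : far x m ∉ R := fun h => far_not_mem x m (by simpa using hRB h)
  obtain ⟨h1, h2⟩ := comp_compl_conn R hRc hRne (far x m) hx
  have hcoe : (hullI x n m ω : Set P2) = (Comp Rᶜ (far x m))ᶜ := fillB_coe hRB
  refine ⟨⟨?_, ?_⟩, ?_, ?_, ?_⟩
  · rw [hcoe]; exact h1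
  · unfold SC
    rw [hcoe, compl_compl]
    exact comp_isConn _ _
  · intro f hf
    have : f ∈ (hullI x n m ω : Set P2) := subset_fillB hRB (subset_reach _ _ (by simpa using hf))
    simpa using this
  · intro f hf
    exact (mem_fillB.1 hf).1
  · intro e he
    rw [mem_bdE_iff_Bd, hcoe, bd_compl] at he
    have hDR : Comp Rᶜ (far x m) ⊆ Rᶜ := comp_subset hx
    show cutE ω e
    apply reach_bd (A := (ball x n : Set P2))
    rw [← hR]
    rcases he with ⟨h3, h4⟩ | ⟨h3, h4⟩
    · exact Or.inr ⟨hDR h3, h2 _ _ h3 (adj_fA_fB e) h4⟩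
    · exact Or.inl ⟨h2 _ _ h4 (adj_fA_fB e).symm h3, hDR h4⟩

/-- On a cut domain the exploration from `ball x n` only sees the inside configuration. -/
theorem reach_insL {x : P2} {n : ℕ} {D : Finset P2} (hD : ball x n ⊆ D) {ω : Cfg}
    (hc : CutE D ω) (q : ℤ) :
    Reach (cutE (ins D q ω)) (ball x n : Set P2) = Reach (cutE ω) (ball x n : Set P2) := by
  have hA : (ball x n : Set P2) ⊆ (D : Set P2) := by exact_mod_cast hD
  have h1 : Reach (cutE ω) (ball x n : Set P2) ⊆ (D : Set P2) := by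
    refine reach_sub_of_bd hA ?_
    intro e he
    exact hc e (mem_bdE_iff_Bd.2 he)
  have hz : ∀ e, e ∉ intEdges D → cutE (ins D q ω) e := by
    intro e he
    simp [cutE, ins, he]
  have hz' : ∀ e, e ∈ intEdges D → (cutE (ins D q ω) e ↔ cutE ω e) := by
    intro e he
    simp [cutE, ins, he]
  have h2 : Reach (cutE (ins D q ω)) (ball x n : Set P2) ⊆ (D : Set P2) := by
    refine reach_sub_of_bd hA ?_
    intro e he
    exact hz e (not_intEdges_of_bdE (mem_bdE_iff_Bd.2 he))
  have h3 : ∀ e, fA e ∈ (D : Set P2) ∨ fB e ∈ (D : Set P2) → (cutE (ins D q ω) e ↔ cutE ω e) := by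
    intro e he
    by_cases hi : e ∈ intEdges D
    · exact hz' e hi
    · refine ⟨fun _ => ?_, fun _ => hz e hi⟩
      apply hc e
      rw [mem_bdE]
      rw [mem_intEdges] at hi
      simp only [Finset.mem_coe] at he
      tauto
  apply Set.Subset.antisymm
  · refine reach_subset (subset_reach _ _) ?_
    rintro f g hf ⟨e, he, h4⟩
    have hfD : f ∈ (D : Set P2) := h1 hf
    refine reach_step hf ⟨e, ?_, h4⟩
    intro hz1
    apply he
    refine (h3 e ?_).2 hz1
    rcases h4 with ⟨h5, _⟩ | ⟨h5, _⟩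
    · left; rwa [← h5]
    · right; rwa [← h5]
  · refine reach_subset (subset_reach _ _) ?_
    rintro f g hf ⟨e, he, h4⟩
    have hfD : f ∈ (D : Set P2) := h2 hf
    refine reach_step hf ⟨e, ?_, h4⟩
    intro hz1
    apply he
    refine (h3 e ?_).1 hz1
    rcases h4 with ⟨h5, _⟩ | ⟨h5, _⟩
    · left; rwa [← h5]
    · right; rwa [← h5]

theorem hullI_insL {x : P2} {n m : ℕ} {D : Finset P2} (hD : ball x n ⊆ D) {ω : Cfg}
    (hc : CutE D ω) : hullI x n m (insL D ω) = hullI x n m ω := by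
  unfold hullI insL
  rw [reach_insL hD hc]

/-- boundary edges of the hull are cut edges at the height `level`. -/
theorem minus_of_level {x : P2} {n m : ℕ} {D : Finset P2} (hD : Dom D) (h1 : ball x n ⊆ D)
    (h2 : D ⊆ ball x m) {ω : Cfg} (he : ∀ v, Even (ω.1 v)) (hok : ∀ e, EdgeOk ω e)
    (hc : CutE D ω) (hl : ¬ (4 : ℤ) ∣ level D ω) : Circ (minusE ω) x n m := by
  have hA := cutAt_level hD he hc hok
  refine circ_of_bd (D := (D : Set P2)) (by exact_mod_cast h1) (by exact_mod_cast h2) ?_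
  intro e hbd
  have hb : e ∈ bdE D := mem_bdE_iff_Bd.2 hbd
  refine ⟨hc e hb, ?_⟩
  have hsrc : src e ∈ bdV D := by
    rw [mem_bdV]
    refine ⟨?_, (not_int_of_not_intEdges (not_intEdges_of_bdE hb)).1⟩
    rcases hbd with ⟨h3, _⟩ | ⟨_, h3⟩
    · exact ⟨_, by simpa using h3, isCorner_src_fA e⟩
    · exact ⟨_, by simpa using h3, isCorner_src_fB e⟩
  rw [hA.ht _ hsrc]
  exact hl

end Crest.Agent.R161.Blk696
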