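import Crest.Agent.R161.Blk1_696

/-!
# Row 161, block E4 (helper696), part 2: from cut circuits to minus-cut circuits

`minus_of_R` : if for every domain `D` between `ball x n` and `ball x m`, given that the boundary of `D`
is cut its height is `≡ 2 mod 4` with conditional probability at least `a`, then
`a * P(cut circuit) ≤ P(minus circuit)`.
-/

set_option autoImplicit false

noncomputable section

namespace Crest.Agent.R161.Blk696

open Crest.Agent.R161.Geo729 Crest.Agent.R161.Defs372 Crest.Agent.R161.Dual374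
open Crest.Agent.R161.Hull374 Crest.Agent.R161.Ifc372 Crest.Agent.R161.Dmp341
open Crest.Agent.R161.Ring421

/-- INPUT (R) at given data: -/
def RAt (c : ℝ) (B : Finset P2) (x : P2) (n m : ℕ) (a : ℝ) : Prop :=
  ∀ D : Finset P2, Dom D → ball x n ⊆ D → D ⊆ ball x m →
    a * Pr c B {ω | ∃ q, CutAt D q ω} ≤ Pr c B {ω | ∃ q, CutAt D q ω ∧ ¬ (4 : ℤ) ∣ q}

open Classical in
theorem Pr_congr' {c : ℝ} {F : Finset P2} {A B : Set Cfg}
    (h : ∀ ω, Valid F ω → (∀ e, EdgeOk ω e) → (ω ∈ A ↔ ω ∈ B)) : Pr c F A = Pr c F B := by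
  unfold Pr
  refine E_congr' fun ω h1 h2 => ?_
  simp only [h ω h1 h2]

open Classical in
theorem Pr_mono' {c : ℝ} (hc : 1 ≤ c) {F : Finset P2} {A B : Set Cfg}
    (h : ∀ ω, Valid F ω → (∀ e, EdgeOk ω e) → ω ∈ A → ω ∈ B) : Pr c F A ≤ Pr c F B := by
  unfold Pr
  refine E_mono' hc fun ω h1 h2 => ?_
  by_cases hA : ω ∈ A
  · rw [if_pos hA, if_pos (h ω h1 h2 hA)]
  · rw [if_neg hA]
    split_ifs <;> norm_num

theorem bdV_ne {D : Finset P2} (h : D.Nonempty) : (bdV D).Nonempty := by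
  rw [Finset.nonempty_iff_ne_empty]
  intro h1
  have := (bdV_nonempty_of_int h1).2
  rw [this] at h
  exact absurd h (by simp)

theorem exists_cutAt_iff {D : Finset P2} (hD : Dom D) {ω : Cfg} (he : ∀ v, Even (ω.1 v))
    (hok : ∀ e, EdgeOk ω e) : (∃ q, CutAt D q ω) ↔ CutE D ω :=
  ⟨fun ⟨_, h⟩ => h.cutE, fun h => ⟨_, cutAt_level hD he h hok⟩⟩

theorem exists_cutAt_iff' {D : Finset P2} (hD : Dom D) (hne : D.Nonempty) {ω : Cfg}
    (he : ∀ v, Even (ω.1 v)) (hok : ∀ e, EdgeOk ω e) :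
    (∃ q, CutAt D q ω ∧ ¬ (4 : ℤ) ∣ q) ↔ (CutE D ω ∧ ¬ (4 : ℤ) ∣ level D ω) := by
  constructor
  · rintro ⟨q, h, h4⟩
    refine ⟨h.cutE, ?_⟩
    rw [h.level_eq (bdV_ne hne)]
    exact h4
  · rintro ⟨h, h4⟩
    exact ⟨_, cutAt_level hD he h hok, h4⟩

open Classical in
/-- the admissible hulls -/
def adm (x : P2) (n m : ℕ) : Finset (Finset P2) :=
  (ball x m).powerset.filter fun D => Dom D ∧ ball x n ⊆ D

theorem mem_adm {x : P2} {n m : ℕ} {D : Finset P2} :
    D ∈ adm x n m ↔ D ⊆ ball x m ∧ Dom D ∧ ball x n ⊆ D := by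
  simp [adm]

open Classical in
theorem minus_of_R {c : ℝ} (hc : 1 ≤ c) {B : Finset P2} {x : P2} {n m : ℕ} (hn : 1 ≤ n)
    (hB : ball x m ⊆ B) {a : ℝ} (hR : RAt c B x n m a) :
    a * Pr c B {ω | Circ (cutE ω) x n m} ≤ Pr c B {ω | Circ (minusE ω) x n m} := by
  -- the inside weight of a hull
  set I : Finset P2 → ℝ := fun D => E c D (fun β => if hullI x n m β = D then 1 else 0) with hI
  have hI0 : ∀ D, 0 ≤ I D := fun D => E_nonneg hc fun ω _ => by split_ifs <;> norm_num
  -- factorisation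
  have hfac : ∀ D ∈ adm x n m, ∀ g : Cfg → ℝ, OutLoc D g →
      E c B (fun ω => if CutE D ω ∧ hullI x n m ω = D then g ω else 0) =
        E c B (fun ω => if CutE D ω then g ω else 0) * I D := by
    intro D hD g hg
    obtain ⟨h1, h2, h3⟩ := mem_adm.1 hD
    rw [hI]
    simp only
    rw [← E_cutE hc (h1.trans hB) h2 hg]
    refine E_congr fun ω _ => ?_
    by_cases hcut : CutE D ω
    · rw [if_pos hcut, hullI_insL h3 hcut]
      by_cases hh : hullI x n m ω = D
      · rw [if_pos ⟨hcut, hh⟩, if_pos hh, mul_one]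
      · rw [if_neg (fun h => hh h.2), if_neg hh, mul_zero]
    · rw [if_neg hcut, if_neg (fun h => hcut h.1)]
  -- decomposition of the cut circuit event
  have hdec : Pr c B {ω | Circ (cutE ω) x n m} =
      ∑ D ∈ adm x n m, E c B (fun ω => if CutE D ω ∧ hullI x n m ω = D then (1 : ℝ) else 0) := by
    unfold Pr
    rw [← E_sum]
    refine E_congr' fun ω hω hok => ?_
    by_cases hcirc : Circ (cutE ω) x n m
    · obtain ⟨h1, h2, h3, h4⟩ := hullI_spec hn hcirc
      rw [if_pos (show ω ∈ {ω | Circ (cutE ω) x n m} from hcirc),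
        Finset.sum_eq_single (hullI x n m ω)]
      · rw [if_pos ⟨h4, rfl⟩]
      · intro D _ hD
        rw [if_neg (fun h => hD h.2.symm)]
      · intro h
        exact absurd (mem_adm.2 ⟨h3, h1, h2⟩) h
    · rw [if_neg (show ω ∉ {ω | Circ (cutE ω) x n m} from hcirc)]
      symm
      refine Finset.sum_eq_zero fun D hD => ?_
      rw [if_neg]
      rintro ⟨h5, _⟩
      obtain ⟨h1, h2, h3⟩ := mem_adm.1 hD
      apply hcirc
      refine circ_of_bd (D := (D : Set P2)) (by exact_mod_cast h3) (by exact_mod_cast h1) ?_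
      intro e he
      exact h5 e (mem_bdE_iff_Bd.2 he)
  -- lower bound of the minus circuit event
  have hlow : ∑ D ∈ adm x n m, E c B (fun ω => if CutE D ω ∧ hullI x n m ω = D then
        (if ¬ (4 : ℤ) ∣ level D ω then (1 : ℝ) else 0) else 0) ≤
      Pr c B {ω | Circ (minusE ω) x n m} := by
    unfold Pr
    rw [← E_sum]
    refine E_mono' hc fun ω hω hok => ?_
    by_cases hm : Circ (minusE ω) x n m
    · rw [if_pos (show ω ∈ {ω | Circ (minusE ω) x n m} from hm)]
      by_cases hmem : hullI x n m ω ∈ adm x n m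
      · rw [Finset.sum_eq_single (hullI x n m ω)]
        · split_ifs <;> norm_num
        · intro D _ hD
          rw [if_neg (fun h => hD h.2.symm)]
        · intro h
          exact absurd hmem h
      · rw [Finset.sum_eq_zero]
        · norm_num
        · intro D hD
          rw [if_neg]
          rintro ⟨_, h⟩
          exact hmem (h ▸ hD)
    · rw [if_neg (show ω ∉ {ω | Circ (minusE ω) x n m} from hm)]
      refine (Finset.sum_eq_zero fun D hD => ?_).le
      by_cases h1 : CutE D ω ∧ hullI x n m ω = D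
      · rw [if_pos h1, if_neg]
        intro h4
        obtain ⟨h5, h6, h7⟩ := mem_adm.1 hD
        exact hm (minus_of_level h6 h7 h5 hω.even hok h1.1 h4)
      · rw [if_neg h1]
  refine le_trans ?_ hlow
  rw [hdec, Finset.mul_sum]
  refine Finset.sum_le_sum fun D hD => ?_
  obtain ⟨h1, h2, h3⟩ := mem_adm.1 hD
  have hDne : D.Nonempty := by
    obtain ⟨f, hf⟩ := ball_nonempty x hn
    exact ⟨f, h3 (by simpa using hf)⟩
  rw [hfac D hD (fun _ => 1) (outLoc_const D 1),
    hfac D hD (fun ω => if ¬ (4 : ℤ) ∣ level D ω then (1 : ℝ) else 0)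
      ((outLoc_level_self D).comp (fun q => if ¬ (4 : ℤ) ∣ q then (1 : ℝ) else 0)), ← mul_assoc]
  refine mul_le_mul_of_nonneg_right ?_ (hI0 D)
  have h4 := hR D h2 h3 h1
  have e1 : Pr c B {ω | ∃ q, CutAt D q ω} =
      E c B (fun ω => if CutE D ω then (1 : ℝ) else 0) := by
    unfold Pr
    refine E_congr' fun ω hω hok => ?_
    simp only [Set.mem_setOf_eq, exists_cutAt_iff h2 hω.even hok]
  have e2 : Pr c B {ω | ∃ q, CutAt D q ω ∧ ¬ (4 : ℤ) ∣ q} =
      E c B (fun ω => if CutE D ω then (if ¬ (4 : ℤ) ∣ level D ω then (1 : ℝ) else 0) else 0) := by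
    unfold Pr
    refine E_congr' fun ω hω hok => ?_
    simp only [Set.mem_setOf_eq, exists_cutAt_iff' h2 hDne hω.even hok]
    by_cases h5 : CutE D ω <;> by_cases h6 : (4 : ℤ) ∣ level D ω <;> simp [h5, h6]
  rw [e1, e2] at h4
  exact h4

end Crest.Agent.R161.Blk696
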