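import Crest.Agent.R161.Blk3_696
import Crest.Agent.R161.BlkDef_868

/-!
# Row 161, block E4 (helper696), part 4: one-arm form of blocking

A minus-cut circuit blocks plus-cut paths: `blockX_of : AtFk c → IsState c P → RIn c P → BlockX (nu P)`.
-/

set_option autoImplicit false

noncomputable section

namespace Crest.Agent.R161.Blk696

open MeasureTheory
open Crest.Agent.R161.Geo729 Crest.Agent.R161.Defs372 Crest.Agent.R161.Dual374
open Crest.Agent.R161.Hull374 Crest.Agent.R161.Ifc372 Crest.Agent.R161.Dmp341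
open Crest.Agent.R161.Ring421 Crest.Agent.R161.NuInv421 Crest.Agent.R161.Blk868

/-- an edge ends at a vertex -/
def EndAt (e : Edge) (v : P2) : Prop := src e = v ∨ tgt e = v

/-- If all boundary edges of `D` are `Z`-edges and no vertex is an end of both a `Z`- and a `Z'`-edge,
then `Z'`-steps cannot leave the interior vertices of `D`. -/
theorem step_int {Z Z' : Edge → Prop} {D : Set P2} (hD : ∀ e, Bd D e → Z e)
    (hZ : ∀ e e' v, Z e → Z' e' → EndAt e v → EndAt e' v → False) {a b : P2}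
    (ha : IntV D a) (h : PStep Z' a b) : IntV D b := by
  obtain ⟨e, he, hab⟩ := h
  rw [intV_iff] at ha
  -- the face `fA e` is in `D`
  have hcorner : Geo729.IsCorner a (fA e) ∧ Geo729.IsCorner b (fA e) ∧ EndAt e b := by
    rcases hab with ⟨h1, h2⟩ | ⟨h1, h2⟩
    · rw [h1, h2]
      exact ⟨isCorner_src_fA e, isCorner_tgt_fA e, Or.inr rfl⟩
    · rw [h1, h2]
      exact ⟨isCorner_tgt_fA e, isCorner_src_fA e, Or.inl rfl⟩
  have hfA : fA e ∈ D := ha _ hcorner.1
  -- edges around `b` are not boundary edges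
  have hno : ∀ e', EndAt e' b → ¬ Bd D e' := fun e' h1 h2 => hZ e' e b (hD e' h2) he h1 hcorner.2.2
  obtain ⟨x, y⟩ := b
  have hiff : ∀ e', EndAt e' (x, y) → (fA e' ∈ D ↔ fB e' ∈ D) := by
    intro e' h1
    by_contra h2
    apply hno e' h1
    unfold Bd
    by_cases h3 : fA e' ∈ D
    · exact Or.inl ⟨h3, fun h4 => h2 ⟨fun _ => h4, fun _ => h3⟩⟩
    · refine Or.inr ⟨h3, ?_⟩
      by_contra h4
      exact h2 ⟨fun h5 => absurd h5 h3, fun h5 => absurd h5 h4⟩
  have h1 : (x, y) ∈ D ↔ (x - 1, y) ∈ D := hiff ((x, y), true) (Or.inl rfl)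
  have h2 : (x - 1, y) ∈ D ↔ (x - 1, y - 1) ∈ D := hiff ((x - 1, y), false) (Or.inr (by simp))
  have h3 : (x, y - 1) ∈ D ↔ (x - 1, y - 1) ∈ D := hiff ((x, y - 1), true) (Or.inr (by simp))
  have h5 := hcorner.2.1
  rw [isCorner_iff] at h5
  have key : (x - 1, y - 1) ∈ D := by
    rcases h5 with h5 | h5 | h5 | h5
    · rw [h5] at hfA; exact h2.1 (h1.1 hfA)
    · rw [h5] at hfA; exact h2.1 hfA
    · rw [h5] at hfA; exact h3.1 hfA
    · rw [h5] at hfA; exact hfA
  exact ⟨h1.2 (h2.2 key), h2.2 key, h3.2 key, key⟩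

theorem no_arm {Z Z' : Edge → Prop} {s n m R : ℕ} (hs : s + 1 ≤ n) (hR : m ≤ R)
    (hZ : ∀ e e' v, Z e → Z' e' → EndAt e v → EndAt e' v → False)
    (hc : Circ Z (0, 0) n m) : ¬ ArmP Z' s R := by
  rintro ⟨u, v, h1, h2, h3, h4⟩
  set D := Reach Z (ball (0, 0) n : Set P2) with hD
  have hbd : ∀ e, Bd D e → Z e := fun e he => reach_bd he
  have hu : IntV D u := by
    rw [abs_le] at h1 h2
    have key : ∀ f : P2, f ∈ ball (0, 0) n → f ∈ D := fun f hf => subset_reach _ _ (by simpa using hf)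
    obtain ⟨a, b⟩ := u
    refine ⟨key _ ?_, key _ ?_, key _ ?_, key _ ?_⟩ <;> rw [mem_ball] <;> simp only at h1 h2 ⊢ <;>
      omega
  have hv : IntV D v := by
    clear h3
    induction h4 with
    | refl => exact hu
    | tail _ hs ih => exact step_int hbd hZ ih hs
  obtain ⟨a, b⟩ := v
  have k1 : (a, b) ∈ ball ((0, 0) : P2) m := by
    have := hc hv.1
    simpa using this
  have k2 : (a - 1, b - 1) ∈ ball ((0, 0) : P2) m := by
    have := hc hv.2.2.2
    simpa using this
  rw [mem_ball] at k1 k2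
  simp only at h3 k1 k2
  rcases h3 with h3 | h3
  · rw [le_abs] at h3
    omega
  · rw [le_abs] at h3
    omega

theorem sign_incompat {ω : Cfg} (hok : ∀ e, EdgeOk ω e) (s : Bool) (e e' : Edge) (v : P2)
    (h : SE s ω e) (h' : SE (!s) ω e') (hv : EndAt e v) (hv' : EndAt e' v) : False := by
  have key : ∀ (s : Bool) (e : Edge), SE s ω e → EndAt e v → ((4 : ℤ) ∣ ω.1 v ↔ s = true) := by
    intro s e h hv
    have hz : ω.2.2 e = true := by
      cases s
      · exact h.1
      · exact h.1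
    have heq : ω.1 v = ω.1 (src e) := by
      rcases hv with h1 | h1
      · rw [h1]
      · rw [← h1]; exact ((hok e).1 hz).symm
    rw [heq]
    cases s
    · simpa using h.2
    · simpa using h.2
  have h1 := key s e h hv
  have h2 := key (!s) e' h' hv'
  rw [h1] at h2
  cases s <;> simp at h2

open Classical in
/-- **One-arm blocking** from (R). -/
theorem blockX_of {c : ℝ} (hc : 1 ≤ c) (A : AtFk c) {P : Measure Cfg} (hP : IsState c P)
    (hR : RIn c P) : BlockX (nu P) := by
  have := hP.prob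
  rw [blockX_iff]
  intro c3 ε hc3 hε
  obtain ⟨M, r0, L, hL, hRL⟩ := hR c3 hc3
  set q : ℝ := 1 / 3 * c3 with hq
  have hq0 : 0 < q := by positivity
  obtain ⟨J, hJ⟩ := exists_pow_le hq0 hε
  refine ⟨4 * L ^ J * (M + 2) + 4, max 1 r0, by omega, fun s hs hcirc => ?_⟩
  have hs1 : 1 ≤ s := (le_max_left _ _).trans hs
  have hs0 : r0 ≤ s := (le_max_right _ _).trans hs
  set sc : ℕ → ℕ := fun j => L ^ j * (4 * s) with hsc
  have hpow : ∀ j, 1 ≤ L ^ j := fun j => Nat.one_le_pow _ _ (by omega)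
  have hsc1 : ∀ j, 4 * s ≤ sc j := fun j => by
    have := hpow j
    simp only [hsc]
    nlinarith
  have hscJ : ∀ j, j ≤ J → sc j ≤ L ^ J * (4 * s) := fun j hj => by
    simp only [hsc]
    exact Nat.mul_le_mul_right _ (Nat.pow_le_pow_right (by omega) hj)
  have hC1 : ∀ j, j ≤ J → (M + 2) * sc j ≤ (4 * L ^ J * (M + 2) + 4) * s := fun j hj => by
    have h1 : (M + 2) * sc j ≤ (M + 2) * (L ^ J * (4 * s)) := Nat.mul_le_mul_left _ (hscJ j hj)
    have h2 : (M + 2) * (L ^ J * (4 * s)) = 4 * L ^ J * (M + 2) * s := by ring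
    nlinarith
  have hcore : ∀ j, j ≤ J → CoreAt c (sc j) L q := by
    intro j hj
    have hr : r0 ≤ sc j := by
      have := hsc1 j
      omega
    have hrange : ∀ t, sc j ≤ t → t ≤ M * sc j →
        c3 ≤ ((nu P) (CircZ (0, 0) t (2 * t))).toReal := by
      intro t ht1 ht2
      refine hcirc t ((hsc1 j).trans ht1) ?_
      have h1 := hC1 j hj
      have h2 : M * sc j ≤ (M + 2) * sc j := Nat.mul_le_mul_right _ (by omega)
      omega
    have hn : 1 ≤ sc j := by
      have := hsc1 j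
      omega
    refine core_of_R hc A hP hn hL (by norm_num) (hRL _ hr hrange) ?_
    refine hcirc (sc j) (hsc1 j) ?_
    have h1 := hC1 j hj
    have h2 : sc j ≤ (M + 2) * sc j := Nat.le_mul_of_pos_left _ (by omega)
    omega
  set R : ℕ := (4 * L ^ J * (M + 2) + 4) * s with hRdef
  have hstep : ∀ (F : Finset P2), Dom F → (∀ j, j ≤ J → ball (0, 0) (L * sc j) ⊆ F) →
      ∀ s' : Bool, ∀ j, j ≤ J → Step c F (0, 0) s' (sc j) (L * sc j) q := by
    intro F hF hFs s' j hj g hg0 hg
    have := hcore j hj F hF (0, 0) g hg0 hg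
    cases s'
    · exact this.2 (hFs j hj)
    · exact this.1
  -- an arm of one sign excludes the circuits of the other sign
  have harm : ∀ (s' : Bool) (ω : Cfg), (∀ e, EdgeOk ω e) → ArmP (SE s' ω) s R →
      ∀ j, j < J → ¬ Circ (SE (!s') ω) (0, 0) (sc j) (2 * sc j) := by
    intro s' ω hok h j hj hcj
    refine no_arm (Z := SE (!s') ω) (Z' := SE s' ω) (s := s) (n := sc j) (m := 2 * sc j) (R := R)
      ?_ ?_ ?_ hcj h
    · have := hsc1 j
      omega
    · have h3 := hC1 j hj.le
      have h4 : 2 * sc j ≤ (M + 2) * sc j := Nat.mul_le_mul_right _ (by omega)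
      omega
    · intro e e' v he he' hv hv'
      exact sign_incompat hok s' e' e v he' he hv' hv
  show ((nu P).real (Arm s R)) ≤ ε
  refine le_of_forall_pos_lt_add fun δ hδ => ?_
  obtain ⟨n1, hn1⟩ := Aut373.lim_neut hP (loc_GA (locOn_arm s R)) (neut_GA _) hδ
  obtain ⟨n2, hn2⟩ := Dmp341.exists_box (box n1 ∪ ball (0, 0) (L * sc J))
  have hF := Dmp341.dom_box n2
  have h1 := hn1 (box n2) hF (Finset.union_subset_left hn2)
  rw [← nu_real (measurableSet_arm s R)] at h1
  have hFs : ∀ j, j ≤ J → ball (0, 0) (L * sc j) ⊆ box n2 := fun j hj =>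
    (ball_subset (Nat.mul_le_mul_left _ (hscJ j hj))).trans (Finset.union_subset_right hn2)
  have hst := hstep (box n2) hF hFs
  have hq1 : q ≤ 1 := q_le_one hc (hst true J le_rfl)
  have hit : ∀ s' : Bool, E c (box n2)
      (indP (fun ω => ∀ j, j < J → ¬ Circ (SE s' ω) (0, 0) (sc j) (2 * sc j))) ≤ (1 - q) ^ J := by
    intro s'
    refine iter hc hq1 J sc (fun j => L * sc j) (fun j => ?_) (fun j => ?_)
      (fun j hj => hst s' j hj.le)
    · simp only [hsc, pow_succ]
      exact le_of_eq (by ring)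
    · simp only [hsc, pow_succ]
      nlinarith [Nat.zero_le (L ^ j * (4 * s))]
  have e1 : E c (box n2) (indP (fun ω => plusMap ω ∈ Arm s R)) ≤ (1 - q) ^ J := by
    refine le_trans (E_mono' hc fun ω _ hok => indP_mono fun h => ?_) (hit false)
    exact harm true ω hok (armP_mono (fun e he => (plusMap_true ω e).1 he) h)
  have e2 : E c (box n2) (indP (fun ω => plusMap (addH 2 ω) ∈ Arm s R)) ≤ (1 - q) ^ J := by
    refine le_trans (E_mono' hc fun ω hω hok => indP_mono fun h => ?_) (hit true)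
    exact harm false ω hok (armP_mono
      (fun e he => (plusE_addH_two hω.even e).1 ((plusMap_true _ e).1 he)) h)
  rw [E_GA] at h1
  have h5 := abs_lt.1 h1
  have h6 := hJ hq1
  linarith [h5.1]

end Crest.Agent.R161.Blk696
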