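import Crest.Agent.R161.Defs_372
import Crest.Agent.R161.Hull_374

/-!
# Row 161, block H: the flip lemma (helper228)

For a finite zero-boundary-condition domain `F` and a face set `D` (possibly depending on the cut variables)
with cut boundary and zero heights on its boundary, the sign flip of all heights inside `D` preserves the
weight.  Hence expectations of observables that are odd under the flip vanish.

* `Touch D v`, `Mixed D v`
* `flip F D ω`
* `flip_valid`, `wt_flip`, `flip_flip`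
* `E_flip_zero`, `E_flip_odd`
* hull: `RR U ω`, `DD U x ω`, `Good U B x ω`
* `E_good_mul_zero`: decorrelation of odd observables sitting in disjoint explored regions.
-/

set_option autoImplicit false

noncomputable section

namespace Crest.Agent.R161.Flip228

open Finset Crest.Agent.R161.Geo729 Crest.Agent.R161.Defs372 Crest.Agent.R161.Hull374
  Crest.Agent.R161.Dual374

/-- `v` is a corner of some face of `D` -/
def Touch (D : Set P2) (v : P2) : Prop := ∃ f ∈ D, Geo729.IsCorner v f

/-- `v` is a corner of a face of `D` and of a face outside `D` -/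
def Mixed (D : Set P2) (v : P2) : Prop := Touch D v ∧ Touch Dᶜ v

theorem touch_iff (D : Set P2) (v : P2) : Touch D v ↔
    (v.1, v.2) ∈ D ∨ (v.1 - 1, v.2) ∈ D ∨ (v.1, v.2 - 1) ∈ D ∨ (v.1 - 1, v.2 - 1) ∈ D := by
  unfold Touch
  simp only [isCorner_iff]
  constructor
  · rintro ⟨f, hf, rfl | rfl | rfl | rfl⟩ <;> tauto
  · rintro (h | h | h | h)
    · exact ⟨_, h, Or.inl rfl⟩
    · exact ⟨_, h, Or.inr (Or.inl rfl)⟩
    · exact ⟨_, h, Or.inr (Or.inr (Or.inl rfl))⟩
    · exact ⟨_, h, Or.inr (Or.inr (Or.inr rfl))⟩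

theorem Touch.mono {D D' : Set P2} (h : D ⊆ D') {v : P2} (hv : Touch D v) : Touch D' v := by
  obtain ⟨f, hf, hc⟩ := hv
  exact ⟨f, h hf, hc⟩

/-- a mixed vertex is an end point of a boundary edge -/
theorem mixed_edge {D : Set P2} {v : P2} (h : Mixed D v) :
    ∃ e : Edge, Bd D e ∧ (src e = v ∨ tgt e = v) := by
  obtain ⟨a, b⟩ := v
  obtain ⟨h1, h2⟩ := h
  rw [touch_iff] at h1 h2
  simp only [Set.mem_compl_iff] at h1 h2
  by_contra hcon
  push Not at hcon
  have e1 : ¬ Bd D ((a, b), false) := fun h => (hcon _ h).1 rfl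
  have e2 : ¬ Bd D ((a, b), true) := fun h => (hcon _ h).1 rfl
  have e3 : ¬ Bd D ((a - 1, b), false) := fun h => (hcon _ h).2 (by simp)
  have e4 : ¬ Bd D ((a, b - 1), true) := fun h => (hcon _ h).2 (by simp)
  simp only [Bd, fA_mk, fB_h, fB_v] at e1 e2 e3 e4
  tauto

/-- end points of an edge touch both bordering faces -/
theorem touch_src_fA (e : Edge) : Geo729.IsCorner (src e) (fA e) := by
  obtain ⟨⟨a, b⟩, c⟩ := e
  exact Or.inl rfl

theorem touch_tgt_fA (e : Edge) : Geo729.IsCorner (tgt e) (fA e) := by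
  obtain ⟨⟨a, b⟩, c⟩ := e
  cases c
  · exact Or.inr (Or.inl rfl)
  · exact Or.inr (Or.inr (Or.inl rfl))

theorem touch_src_fB (e : Edge) : Geo729.IsCorner (src e) (fB e) := by
  obtain ⟨⟨a, b⟩, c⟩ := e
  cases c
  · simp [Geo729.IsCorner]
  · simp [Geo729.IsCorner]

theorem touch_tgt_fB (e : Edge) : Geo729.IsCorner (tgt e) (fB e) := by
  obtain ⟨⟨a, b⟩, c⟩ := e
  cases c
  · simp [Geo729.IsCorner]
  · simp [Geo729.IsCorner]

open Classical in
/-- flip the signs of all heights in `D ∩ F` -/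
def flip (F : Finset P2) (D : Set P2) (ω : Cfg) : Cfg :=
  (fun v => if Touch D v then -ω.1 v else ω.1 v,
    fun f => if f ∈ D ∧ f ∈ F then -ω.2.1 f else ω.2.1 f, ω.2.2)

@[simp] theorem flip_z (F : Finset P2) (D : Set P2) (ω : Cfg) : (flip F D ω).2.2 = ω.2.2 := rfl

theorem flip_k_touch (F : Finset P2) {D : Set P2} (ω : Cfg) {v : P2} (h : Touch D v) :
    (flip F D ω).1 v = -ω.1 v := if_pos h

theorem flip_k_not (F : Finset P2) {D : Set P2} (ω : Cfg) {v : P2} (h : ¬ Touch D v) :
    (flip F D ω).1 v = ω.1 v := if_neg h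

theorem flip_h_mem {F : Finset P2} {D : Set P2} (ω : Cfg) {f : P2} (h : f ∈ D) (h' : f ∈ F) :
    (flip F D ω).2.1 f = -ω.2.1 f := if_pos ⟨h, h'⟩

theorem flip_h_not {F : Finset P2} {D : Set P2} (ω : Cfg) {f : P2} (h : ¬ (f ∈ D ∧ f ∈ F)) :
    (flip F D ω).2.1 f = ω.2.1 f := if_neg h

theorem flip_k_zero_iff (F : Finset P2) (D : Set P2) (ω : Cfg) (v : P2) :
    (flip F D ω).1 v = 0 ↔ ω.1 v = 0 := by
  by_cases h : Touch D v
  · rw [flip_k_touch F ω h]; omega
  · rw [flip_k_not F ω h]

theorem flip_flip (F : Finset P2) (D : Set P2) (ω : Cfg) : flip F D (flip F D ω) = ω := by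
  refine Prod.ext ?_ (Prod.ext ?_ rfl)
  · funext v
    show (flip F D (flip F D ω)).1 v = ω.1 v
    by_cases h : Touch D v
    · rw [flip_k_touch F _ h, flip_k_touch F _ h, neg_neg]
    · rw [flip_k_not F _ h, flip_k_not F _ h]
  · funext f
    show (flip F D (flip F D ω)).2.1 f = ω.2.1 f
    by_cases h : f ∈ D ∧ f ∈ F
    · rw [flip_h_mem _ h.1 h.2, flip_h_mem _ h.1 h.2, neg_neg]
    · rw [flip_h_not _ h, flip_h_not _ h]

/-- `D` is a cut region of `ω` with zero boundary heights -/
structure Cut (F : Finset P2) (D : Set P2) (ω : Cfg) : Prop where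
  zero : ∀ v, Mixed D v → ω.1 v = 0
  cut : ∀ e ∈ intEdges F, Bd D e → ω.2.2 e = true

theorem Cut.flip {F : Finset P2} {D D' : Set P2} {ω : Cfg} (h : Cut F D ω) :
    Cut F D (Flip228.flip F D' ω) where
  zero := fun v hv => (flip_k_zero_iff F D' ω v).2 (h.zero v hv)
  cut := fun e he hb => h.cut e he hb

theorem cut_flip_iff {F : Finset P2} {D D' : Set P2} {ω : Cfg} :
    Cut F D (Flip228.flip F D' ω) ↔ Cut F D ω := by
  constructor
  · intro h
    have := h.flip (D' := D')
    rwa [flip_flip] at this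
  · exact fun h => h.flip

/-- on a face of `F` outside `D`, flipped vertices are zero -/
theorem flip_k_off {F : Finset P2} {D : Set P2} {ω : Cfg} (hc : Cut F D ω) {f v : P2}
    (hf : f ∉ D) (hv : Geo729.IsCorner v f) : (flip F D ω).1 v = ω.1 v := by
  by_cases h : Touch D v
  · have h0 : ω.1 v = 0 := hc.zero v ⟨h, ⟨f, hf, hv⟩⟩
    rw [flip_k_touch F ω h, h0, neg_zero]
  · exact flip_k_not F ω h

theorem flip_valid {F : Finset P2} {D : Set P2} {ω : Cfg} (h : Valid F ω) (hc : Cut F D ω) :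
    Valid F (flip F D ω) where
  zero := fun v hv => (flip_k_zero_iff F D ω v).2 (h.zero v hv)
  even := by
    intro v
    by_cases ht : Touch D v
    · rw [flip_k_touch F ω ht]; exact (h.even v).neg
    · rw [flip_k_not F ω ht]; exact h.even v
  off := by
    intro f hf
    rw [flip_h_not ω (fun h' => hf h'.2)]
    exact h.off f hf
  corner := by
    intro f hf v hv
    by_cases hfD : f ∈ D
    · rw [flip_k_touch F ω ⟨f, hfD, hv⟩, flip_h_mem ω hfD hf]
      have := h.corner f hf v hv
      rw [← abs_neg]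
      convert this using 2
      ring
    · rw [flip_k_off hc hfD hv, flip_h_not ω (fun h' => hfD h'.1)]
      exact h.corner f hf v hv
  cut := h.cut

theorem ew_flip (c : ℝ) {F : Finset P2} {D : Set P2} {ω : Cfg} (hc : Cut F D ω) {e : Edge}
    (he : e ∈ intEdges F) : ew c (flip F D ω) e = ew c ω e := by
  obtain ⟨hA, hB⟩ := mem_intEdges.1 he
  by_cases h1 : fA e ∈ D <;> by_cases h2 : fB e ∈ D
  · -- both faces in `D`
    have hs : (flip F D ω).1 (src e) = -ω.1 (src e) := flip_k_touch F ω ⟨_, h1, touch_src_fA e⟩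
    have ht : (flip F D ω).1 (tgt e) = -ω.1 (tgt e) := flip_k_touch F ω ⟨_, h1, touch_tgt_fA e⟩
    have hfa : (flip F D ω).2.1 (fA e) = -ω.2.1 (fA e) := flip_h_mem ω h1 hA
    have hfb : (flip F D ω).2.1 (fB e) = -ω.2.1 (fB e) := flip_h_mem ω h2 hB
    unfold ew
    rw [hs, ht, hfa, hfb, flip_z]
    simp only [neg_inj]
  · have hz : ω.2.2 e = true := hc.cut e he (Or.inl ⟨h1, h2⟩)
    have hs : (flip F D ω).1 (src e) = ω.1 (src e) := flip_k_off hc h2 (touch_src_fB e)
    have ht : (flip F D ω).1 (tgt e) = ω.1 (tgt e) := flip_k_off hc h2 (touch_tgt_fB e)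
    unfold ew
    rw [hs, ht, flip_z, hz]
    simp
  · have hz : ω.2.2 e = true := hc.cut e he (Or.inr ⟨h1, h2⟩)
    have hs : (flip F D ω).1 (src e) = ω.1 (src e) := flip_k_off hc h1 (touch_src_fA e)
    have ht : (flip F D ω).1 (tgt e) = ω.1 (tgt e) := flip_k_off hc h1 (touch_tgt_fA e)
    unfold ew
    rw [hs, ht, flip_z, hz]
    simp
  · have hs : (flip F D ω).1 (src e) = ω.1 (src e) := flip_k_off hc h1 (touch_src_fA e)
    have ht : (flip F D ω).1 (tgt e) = ω.1 (tgt e) := flip_k_off hc h1 (touch_tgt_fA e)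
    have hfa : (flip F D ω).2.1 (fA e) = ω.2.1 (fA e) := flip_h_not ω (fun h => h1 h.1)
    have hfb : (flip F D ω).2.1 (fB e) = ω.2.1 (fB e) := flip_h_not ω (fun h => h2 h.1)
    unfold ew
    rw [hs, ht, hfa, hfb, flip_z]

theorem wt_flip (c : ℝ) {F : Finset P2} {D : Set P2} {ω : Cfg} (hc : Cut F D ω) :
    wt c F (flip F D ω) = wt c F ω :=
  Finset.prod_congr rfl fun _ he => ew_flip c hc he

theorem pr_flip (c : ℝ) {F : Finset P2} {D : Set P2} {ω : Cfg} (h : Valid F ω)
    (hc : Cut F D ω) : pr c F (flip F D ω) = pr c F ω := by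
  rw [pr_of_valid c h, pr_of_valid c (flip_valid h hc), wt_flip c hc]

/-! ### flip lemma for a region depending on the cut variables -/

/-- the region depends only on the cut variables -/
def ZDep (D : Cfg → Set P2) : Prop := ∀ ω ω' : Cfg, ω.2.2 = ω'.2.2 → D ω = D ω'

theorem ZDep.flip {D : Cfg → Set P2} (h : ZDep D) (F : Finset P2) (D' : Set P2) (ω : Cfg) :
    D (Flip228.flip F D' ω) = D ω := h _ _ rfl

open Classical in
/-- the flip is measure preserving on the event that `D ω` is a cut region -/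
theorem sum_flip (c : ℝ) (F : Finset P2) (D : Cfg → Set P2) (hD : ZDep D) (f : Cfg → ℝ) :
    E c F (fun ω => if Cut F (D ω) ω then f (flip F (D ω) ω) else 0) =
      E c F (fun ω => if Cut F (D ω) ω then f ω else 0) := by
  unfold E
  simp only [mul_ite, mul_zero]
  rw [← Finset.sum_filter, ← Finset.sum_filter]
  refine Finset.sum_nbij' (fun ω => flip F (D ω) ω) (fun ω => flip F (D ω) ω) ?_ ?_ ?_ ?_ ?_
  · intro ω hω
    rw [Finset.mem_filter, mem_conf] at hω ⊢
    refine ⟨flip_valid hω.1 hω.2, ?_⟩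
    rw [hD.flip]
    exact hω.2.flip
  · intro ω hω
    rw [Finset.mem_filter, mem_conf] at hω ⊢
    refine ⟨flip_valid hω.1 hω.2, ?_⟩
    rw [hD.flip]
    exact hω.2.flip
  · intro ω _
    rw [hD.flip, flip_flip]
  · intro ω _
    rw [hD.flip, flip_flip]
  · intro ω hω
    rw [Finset.mem_filter, mem_conf] at hω
    rw [pr_flip c hω.1 hω.2]

open Classical in
/-- odd observables have zero expectation on the event that `D ω` is a cut region -/
theorem E_flip_zero (c : ℝ) (F : Finset P2) (D : Cfg → Set P2) (hD : ZDep D) (f : Cfg → ℝ)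
    (hf : ∀ ω, Valid F ω → Cut F (D ω) ω → f (flip F (D ω) ω) = -f ω) :
    E c F (fun ω => if Cut F (D ω) ω then f ω else 0) = 0 := by
  have h1 := sum_flip c F D hD f
  have h2 : E c F (fun ω => if Cut F (D ω) ω then f (flip F (D ω) ω) else 0) =
      E c F (fun ω => (-1 : ℝ) * (if Cut F (D ω) ω then f ω else 0)) := by
    apply E_congr
    intro ω hω
    split_ifs with h
    · rw [hf ω hω h]; ring
    · ring
  rw [E_smul] at h2
  linarith

/-! ### hulls -/

/-- faces reached from outside `U` through open dual edges -/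
def RR (U : Set P2) (ω : Cfg) : Set P2 := Reach (fun e => ω.2.2 e = true) Uᶜ

/-- component of `x` in the complement of the hull -/
def DD (U : Set P2) (x : P2) (ω : Cfg) : Set P2 := Comp (RR U ω)ᶜ x

theorem zdep_RR (U : Set P2) : ZDep (RR U) := by
  intro ω ω' h
  unfold RR
  rw [h]

theorem zdep_DD (U : Set P2) (x : P2) : ZDep (DD U x) := by
  intro ω ω' h
  unfold DD
  rw [zdep_RR U ω ω' h]

theorem compl_RR_subset (U : Set P2) (ω : Cfg) : (RR U ω)ᶜ ⊆ U := by
  intro f hf
  by_contra h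
  exact hf (subset_reach _ _ h)

theorem DD_subset {U : Set P2} {x : P2} {ω : Cfg} (hx : x ∉ RR U ω) : DD U x ω ⊆ U :=
  (comp_subset hx).trans (compl_RR_subset U ω)

/-- the good event: the connected face set `B` is not reached from outside `U`, and the heights vanish
on the boundary of the component containing it -/
structure Good (U B : Set P2) (x : P2) (ω : Cfg) : Prop where
  sep : ∀ y ∈ B, y ∉ RR U ω
  zero : ∀ v, Mixed (DD U x ω) v → ω.1 v = 0

/-- boundary edges of the hull component are cut -/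
theorem bd_DD_cut {U : Set P2} {x : P2} {ω : Cfg} (hU : IsConn Uᶜ) (hUne : (Uᶜ).Nonempty)
    (hx : x ∉ RR U ω) {e : Edge} (he : Bd (DD U x ω) e) : ω.2.2 e = true := by
  have hR := reach_isConn (fun e => ω.2.2 e = true) Uᶜ hU
  have hRne : (RR U ω).Nonempty := hUne.mono (subset_reach _ Uᶜ)
  obtain ⟨_, h2⟩ := comp_compl_conn (RR U ω) hR hRne x hx
  have hDR : DD U x ω ⊆ (RR U ω)ᶜ := comp_subset hx
  have : Bd (RR U ω) e := by
    rcases he with ⟨h3, h4⟩ | ⟨h3, h4⟩
    · exact Or.inr ⟨hDR h3, h2 _ _ h3 (adj_fA_fB e) h4⟩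
    · exact Or.inl ⟨h2 _ _ h4 (adj_fA_fB e).symm h3, hDR h4⟩
  exact reach_bd this

theorem Good.cut {F : Finset P2} {U B : Set P2} {x : P2} {ω : Cfg} (hU : IsConn Uᶜ)
    (hUne : (Uᶜ).Nonempty) (hxB : x ∈ B) (h : Good U B x ω) : Cut F (DD U x ω) ω where
  zero := h.zero
  cut := fun _ _ hb => bd_DD_cut hU hUne (h.sep x hxB) hb

theorem Good.mem_DD {U B : Set P2} {x : P2} {ω : Cfg} (hB : IsConn B) (hxB : x ∈ B)
    (h : Good U B x ω) {y : P2} (hy : y ∈ B) : y ∈ DD U x ω :=
  (hB x hxB y hy).mono (fun z hz => h.sep z hz)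

/-- a sufficient condition for `Good`: `B` is not reached and one boundary edge of the component has
zero height at its source -/
theorem good_of_zero {U B : Set P2} {x : P2} {ω : Cfg} (hU : IsConn Uᶜ)
    (hUne : (Uᶜ).Nonempty) (hUfin : U.Finite) (hxB : x ∈ B)
    (hK : ∀ e : Edge, ω.2.2 e = true → ω.1 (src e) = ω.1 (tgt e))
    (hsep : ∀ y ∈ B, y ∉ RR U ω) {e : Edge} (he : Bd (DD U x ω) e) (h0 : ω.1 (src e) = 0) :
    Good U B x ω where
  sep := hsep
  zero := by
    intro v hv
    obtain ⟨e', he', hv'⟩ := mixed_edge hv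
    have hfin : (RR U ω)ᶜ.Finite := hUfin.subset (compl_RR_subset U ω)
    obtain ⟨h1, h2, _⟩ := explore (fun e => ω.2.2 e = true) Uᶜ hU hUne x (hsep x hxB)
      (Or.inr hfin) ω.1 hK
    have h3 : ω.1 (src e') = 0 := by
      rw [← h0]
      exact h2 e' e he' he
    rcases hv' with hv' | hv'
    · rw [← hv']; exact h3
    · rw [← hv', ← hK e' (h1 e' he')]; exact h3

/-- flipping does not change the good events -/
theorem good_flip_iff {F : Finset P2} {U B D' : Set P2} {x : P2} {ω : Cfg} :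
    Good U B x (flip F D' ω) ↔ Good U B x ω := by
  have h1 : RR U (flip F D' ω) = RR U ω := (zdep_RR U).flip F D' ω
  have h2 : DD U x (flip F D' ω) = DD U x ω := (zdep_DD U x).flip F D' ω
  constructor
  · rintro ⟨ha, hb⟩
    rw [h1] at ha
    rw [h2] at hb
    exact ⟨ha, fun v hv => (flip_k_zero_iff F D' ω v).1 (hb v hv)⟩
  · rintro ⟨ha, hb⟩
    refine ⟨?_, ?_⟩
    · rw [h1]; exact ha
    · rw [h2]; exact fun v hv => (flip_k_zero_iff F D' ω v).2 (hb v hv)

open Classical in
/-- **Flip lemma for hulls.** If `f` changes sign when the heights inside the hull component `DD U x`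
are flipped, then `E[f ; Good] = 0`. -/
theorem E_good_zero (c : ℝ) (F : Finset P2) {U B : Set P2} {x : P2} (hU : IsConn Uᶜ)
    (hUne : (Uᶜ).Nonempty) (hxB : x ∈ B) (f : Cfg → ℝ)
    (hf : ∀ ω, Valid F ω → Good U B x ω → f (flip F (DD U x ω) ω) = -f ω) :
    E c F (fun ω => if Good U B x ω then f ω else 0) = 0 := by
  have h1 := E_flip_zero c F (DD U x) (zdep_DD U x)
    (fun ω => if Good U B x ω then f ω else 0) (by
      intro ω hω hc
      simp only [good_flip_iff]
      split_ifs with h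
      · exact hf ω hω h
      · simp)
  refine Eq.trans (E_congr ?_) h1
  intro ω hω
  by_cases h : Good U B x ω
  · rw [if_pos (h.cut hU hUne hxB)]
  · simp only [if_neg h, ite_self]

/-- linear observables of the vertex heights -/
def Lin (V : Finset P2) (g : P2 → ℝ) (ω : Cfg) : ℝ := ∑ v ∈ V, g v * (ω.1 v : ℝ)

theorem Lin_flip_neg {F : Finset P2} {D : Set P2} {V : Finset P2} {g : P2 → ℝ} {ω : Cfg}
    (h : ∀ v ∈ V, Touch D v) : Lin V g (flip F D ω) = -Lin V g ω := by
  unfold Lin
  rw [← Finset.sum_neg_distrib]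
  refine Finset.sum_congr rfl fun v hv => ?_
  rw [flip_k_touch F ω (h v hv)]
  push_cast
  ring

theorem Lin_flip_id {F : Finset P2} {D : Set P2} {V : Finset P2} {g : P2 → ℝ} {ω : Cfg}
    (h : ∀ v ∈ V, ¬ Touch D v) : Lin V g (flip F D ω) = Lin V g ω := by
  unfold Lin
  refine Finset.sum_congr rfl fun v hv => ?_
  rw [flip_k_not F ω (h v hv)]

open Classical in
/-- **Decorrelation.** Linear height observables sitting in explored regions with disjoint hull regions
are uncorrelated on the good events. -/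
theorem E_good_mul_zero (c : ℝ) (F : Finset P2) {U B U' B' : Set P2} {x x' : P2}
    (hU : IsConn Uᶜ) (hUne : (Uᶜ).Nonempty) (hxB : x ∈ B) (hB : IsConn B)
    {V V' : Finset P2} (g g' : P2 → ℝ) (hV : ∀ v ∈ V, Touch B v)
    (hV' : ∀ v ∈ V', ¬ Touch U v) :
    E c F (fun ω => (if Good U B x ω then Lin V g ω else 0) *
      (if Good U' B' x' ω then Lin V' g' ω else 0)) = 0 := by
  have h1 := E_good_zero c F hU hUne hxB
    (fun ω => Lin V g ω * (if Good U' B' x' ω then Lin V' g' ω else 0)) (by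
      intro ω hω hg
      simp only [good_flip_iff]
      have ha : Lin V g (flip F (DD U x ω) ω) = -Lin V g ω :=
        Lin_flip_neg fun v hv => (hV v hv).mono fun y hy => hg.mem_DD hB hxB hy
      have hb : Lin V' g' (flip F (DD U x ω) ω) = Lin V' g' ω :=
        Lin_flip_id fun v hv ht => hV' v hv (ht.mono (DD_subset (hg.sep x hxB)))
      rw [ha, hb]
      split_ifs <;> ring)
  refine Eq.trans (E_congr ?_) h1
  intro ω _
  by_cases h : Good U B x ω
  · simp only [if_pos h]
  · simp only [if_neg h, zero_mul]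

end Crest.Agent.R161.Flip228
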