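import Crest.Agent.R161.Out_868
import Crest.Agent.R161.Flip_228

/-!
# Row 161, block E: second moments of inner averages relative to the height of a hull (helper868)

`sm_hull` : for a random hull (explored from outside or from inside), an average `X` of the heights
inside the hull, an average `Y` of the heights outside: `E[(X - level)² 1_hull] ≤ E[(X - Y)²]`.
-/

set_option autoImplicit false

noncomputable section

namespace Crest.Agent.R161.Out868

open Finset hiding box
open Crest.Agent.R161.Geo729 Crest.Agent.R161.Defs372 Crest.Agent.R161.Dmp341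
open Crest.Agent.R161.Hull374 Crest.Agent.R161.Dual374 Crest.Agent.R161.Ifc372 MeasureTheory
open Crest.Agent.R161.Exp760 (DF doms mem_doms)
open Crest.Agent.R161.Flip228 (Lin)

/-- A random hull `H` with the admissible values `𝒟`: on the admissible values the event `H = D` is the
intersection of `CutE D`, an outside event and a symmetric inside event. -/
structure IsHull (c : ℝ) (F : Finset P2) (H : Cfg → Finset P2) (𝒟 : Finset (Finset P2))
    (A B : Finset P2 → Cfg → Prop) : Prop where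
  sub : ∀ D ∈ 𝒟, D ⊆ F
  dom : ∀ D ∈ 𝒟, Dom D
  iff : ∀ D ∈ 𝒟, ∀ ω, Valid F ω → (∀ e, EdgeOk ω e) →
    (H ω = D ↔ CutE D ω ∧ A D ω ∧ B D (insL D ω))
  out : ∀ D ∈ 𝒟, OutLoc D (A D)
  sym : ∀ D ∈ 𝒟, ∀ ω, B D (negC D ω) ↔ B D ω

theorem Lin_insL {D V : Finset P2} (hV : V ⊆ intVerts D) {a : P2 → ℝ} (ha : ∑ v ∈ V, a v = 1)
    (ω : Cfg) : Lin V a (insL D ω) = Lin V a ω - level D ω := by
  unfold Lin
  have h1 : ∑ v ∈ V, a v * ((insL D ω).1 v : ℝ) =
      ∑ v ∈ V, (a v * (ω.1 v : ℝ) - a v * (level D ω : ℝ)) := by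
    refine Finset.sum_congr rfl fun v hv => ?_
    rw [insL_K (hV hv)]
    push_cast
    ring
  rw [h1, Finset.sum_sub_distrib, ← Finset.sum_mul, ha, one_mul]

theorem Lin_neg (D V : Finset P2) (a : P2 → ℝ) (ω : Cfg) :
    Lin V a (negC D ω) = - Lin V a ω := by
  unfold Lin
  rw [← Finset.sum_neg_distrib]
  refine Finset.sum_congr rfl fun v _ => ?_
  simp only [negC]
  push_cast
  ring

theorem outLoc_Lin {D W : Finset P2} (hW : ∀ v ∈ W, v ∉ intVerts D) (b : P2 → ℝ) :
    OutLoc D (Lin W b) := by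
  intro ω ω' h1 _ _
  unfold Lin
  exact Finset.sum_congr rfl fun v hv => by rw [h1 v (hW v hv)]

open Classical in
/-- the cross term vanishes -/
theorem hull_cross {c : ℝ} (hc : 1 ≤ c) {F : Finset P2} {H : Cfg → Finset P2}
    {𝒟 : Finset (Finset P2)} {A B : Finset P2 → Cfg → Prop} (hH : IsHull c F H 𝒟 A B)
    {D : Finset P2} (hD : D ∈ 𝒟) {V : Finset P2} {a : P2 → ℝ} (hV : V ⊆ intVerts D)
    (ha : ∑ v ∈ V, a v = 1) {g : Cfg → ℝ} (hg : OutLoc D g) :
    E c F (fun ω => if H ω = D then (Lin V a ω - level D ω) * g ω else 0) = 0 := by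
  have h1 : E c F (fun ω => if H ω = D then (Lin V a ω - level D ω) * g ω else 0) =
      E c F (fun ω => if CutE D ω then (if A D ω then g ω else 0) *
        (fun β => if B D β then Lin V a β else 0) (insL D ω) else 0) := by
    refine E_congr' fun ω hω hok => ?_
    have h2 := hH.iff D hD ω hω hok
    by_cases h3 : CutE D ω <;> by_cases h4 : A D ω <;> by_cases h5 : B D (insL D ω) <;>
      simp only [h2, h3, h4, h5, and_true, and_false, and_self, if_true, if_false, mul_zero,
        zero_mul]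
    rw [Lin_insL hV ha]
    ring
  have hAg : OutLoc D (fun ω => if A D ω then g ω else 0) := by
    intro ω ω' e1 e2 e3
    have := hH.out D hD ω ω' e1 e2 e3
    simp only [this, hg ω ω' e1 e2 e3]
  have h6 := E_cutE hc (hH.sub D hD) (hH.dom D hD) hAg
    (f := fun β => if B D β then Lin V a β else 0)
  have h7 : E c D (fun β => if B D β then Lin V a β else 0) = 0 := by
    refine E_odd c D fun ω => ?_
    simp only [hH.sym D hD ω, Lin_neg]
    split_ifs <;> simp
  rw [h1, h6, h7, mul_zero]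

open Classical in
/-- **Second moment bound** relative to the height of a random hull. -/
theorem sm_hull {c : ℝ} (hc : 1 ≤ c) {F : Finset P2} {H : Cfg → Finset P2}
    {𝒟 : Finset (Finset P2)} {A B : Finset P2 → Cfg → Prop} (hH : IsHull c F H 𝒟 A B)
    {V W : Finset P2} {a b : P2 → ℝ} (hV : ∀ D ∈ 𝒟, V ⊆ intVerts D)
    (ha : ∑ v ∈ V, a v = 1) (hW : ∀ D ∈ 𝒟, ∀ v ∈ W, v ∉ intVerts D) :
    E c F (fun ω => if H ω ∈ 𝒟 then (Lin V a ω - level (H ω) ω) ^ 2 +
        (level (H ω) ω - Lin W b ω) ^ 2 else 0) ≤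
      E c F (fun ω => (Lin V a ω - Lin W b ω) ^ 2) := by
  have hdec : ∀ Φ : Finset P2 → Cfg → ℝ, ∀ ω, (if H ω ∈ 𝒟 then Φ (H ω) ω else 0) =
      ∑ D ∈ 𝒟, if H ω = D then Φ D ω else 0 := by
    intro Φ ω
    split_ifs with h
    · rw [Finset.sum_eq_single (H ω)]
      · simp
      · intro D _ hD; rw [if_neg (Ne.symm hD)]
      · intro h'; exact absurd h h'
    · symm
      refine Finset.sum_eq_zero fun D hD => ?_
      rw [if_neg (show ¬ H ω = D from fun h1 => h (h1 ▸ hD))]
  have h0 : E c F (fun ω => if H ω ∈ 𝒟 then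
      (Lin V a ω - level (H ω) ω) * (level (H ω) ω - Lin W b ω) else 0) = 0 := by
    have e1 : ∀ ω, (if H ω ∈ 𝒟 then
        (Lin V a ω - level (H ω) ω) * (level (H ω) ω - Lin W b ω) else 0) =
        ∑ D ∈ 𝒟, if H ω = D then (Lin V a ω - level D ω) * (level D ω - Lin W b ω) else 0 :=
      hdec (fun D ω => (Lin V a ω - level D ω) * (level D ω - Lin W b ω))
    rw [show (fun ω => if H ω ∈ 𝒟 then
        (Lin V a ω - level (H ω) ω) * (level (H ω) ω - Lin W b ω) else 0) = fun ω =>
        ∑ D ∈ 𝒟, if H ω = D then (Lin V a ω - level D ω) * (level D ω - Lin W b ω) else 0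
        from funext e1, E_sum]
    refine Finset.sum_eq_zero fun D hD => ?_
    refine hull_cross hc hH hD (hV D hD) ha (g := fun ω => (level D ω : ℝ) - Lin W b ω) ?_
    intro ω ω' e1 e2 e3
    have h1 := outLoc_level_self D ω ω' e1 e2 e3
    have h2 := outLoc_Lin (hW D hD) b ω ω' e1 e2 e3
    simp only [h1, h2]
  have h1 : E c F (fun ω => if H ω ∈ 𝒟 then (Lin V a ω - level (H ω) ω) ^ 2 +
      (level (H ω) ω - Lin W b ω) ^ 2 else 0) =
      E c F (fun ω => if H ω ∈ 𝒟 then (Lin V a ω - Lin W b ω) ^ 2 else 0) := by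
    have e2 : E c F (fun ω => (if H ω ∈ 𝒟 then (Lin V a ω - level (H ω) ω) ^ 2 +
        (level (H ω) ω - Lin W b ω) ^ 2 else 0) + 2 * (if H ω ∈ 𝒟 then
        (Lin V a ω - level (H ω) ω) * (level (H ω) ω - Lin W b ω) else 0)) =
        E c F (fun ω => if H ω ∈ 𝒟 then (Lin V a ω - Lin W b ω) ^ 2 else 0) := by
      refine E_congr fun ω _ => ?_
      split_ifs
      · ring
      · ring
    rw [← e2, E_add, E_smul, h0]
    ring
  rw [h1]
  refine E_mono hc fun ω _ => ?_
  split_ifs
  · exact le_rfl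
  · exact sq_nonneg _

/-! ### the outer hull -/

/-- admissible values of the hulls -/
abbrev hulls (x : P2) (n m : ℕ) : Finset (Finset P2) := doms (ball x m) (ball x n)

theorem outer_isHull (c : ℝ) {F : Finset P2} {x : P2} {n m : ℕ} (hn : 1 ≤ n)
    (hF : ball x m ⊆ F) :
    IsHull c F (DF (ball x m) x) (hulls x n m) (fun D ω => DF (ball x m) x ω = D)
      (fun _ _ => True) where
  sub := fun D hD => (mem_doms.1 hD).1.trans hF
  dom := fun D hD => (mem_doms.1 hD).2.2
  iff := fun D hD ω hω hok => by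
    constructor
    · intro h
      refine ⟨?_, h, trivial⟩
      intro e he
      rw [← h] at he
      refine Exp760.DF_bd_cut (dom_ball x m).sc ?_ he
      refine Exp760.mem_DF_not_RR (B := ball x m) (x := x) ?_
      rw [h]
      exact (mem_doms.1 hD).2.1 (self_mem_ball hn)
    · exact fun h => h.2.1
  out := fun D hD ω ω' _ _ h3 => by
    refine propext ?_
    exact Exp760.DF_congr (dom_ball x m).sc ((mem_doms.1 hD).2.1 (self_mem_ball hn)) h3
  sym := fun _ _ _ => Iff.rfl

theorem DF_mem_hulls {x : P2} {n m : ℕ} (hn : 1 ≤ n) {ω : Cfg} :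
    DF (ball x m) x ω ∈ hulls x n m ↔ Circ (cutE ω) x n m := by
  rw [circ_iff_DF hn, mem_doms]
  constructor
  · exact fun h => h.2.1
  · intro h
    refine ⟨Exp760.DF_sub _ _ _, h, Exp760.DF_dom (dom_ball x m).sc ?_⟩
    exact Exp760.mem_DF_not_RR (h (self_mem_ball hn))

/-! ### the inner hull -/

theorem inner_isHull (c : ℝ) {F : Finset P2} {x : P2} {n m : ℕ} (hn : 1 ≤ n)
    (hF : ball x m ⊆ F) :
    IsHull c F (DI x n m) (hulls x n m) (fun _ _ => True)
      (fun D β => DI x n m β = D) where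
  sub := fun D hD => (mem_doms.1 hD).1.trans hF
  dom := fun D hD => (mem_doms.1 hD).2.2
  iff := fun D hD ω hω hok => by
    rw [DI_iff hn ⟨x, (mem_doms.1 hD).2.1 (self_mem_ball hn)⟩ ω]
    simp
  out := fun D _ => outLoc_const D True
  sym := fun _ _ _ => Iff.rfl

theorem DI_mem_hulls {x : P2} {n m : ℕ} (hn : 1 ≤ n) {ω : Cfg} :
    DI x n m ω ∈ hulls x n m ↔ Circ (cutE ω) x n m := by
  rw [mem_doms]
  constructor
  · exact fun h => circ_of_HI (h.2.1 (self_mem_ball hn))
  · exact fun h => ⟨HI_sub, ball_sub_HI h, HI_dom hn h⟩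

end Crest.Agent.R161.Out868
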