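import Crest.Agent.R161.Spr1_868
import Crest.Agent.R161.Sm_868

/-!
# Row 161, block E: second moments and spread of neutral lattice averages (helper868)

* `XN N` : average of the vertex heights with the exactly normalised weights `aN N` in the square of
  radius `N`; `YN N` : its translate by `(4N, 0)`.
* `second_moment` : `∫ (XN N - YN N)² ≤ K0` for large `N`.
* `spread` : `P(|XN N - XN (M N)| ≤ L) ≤ η` for suitable `M` and all large `N`.
-/

set_option autoImplicit false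

noncomputable section

namespace Crest.Agent.R161.Spr868

open Filter Topology MeasureTheory Set Metric
open Crest.Agent.R161.Green722 Crest.Agent.R161.Dnv132
open Crest.Agent.R161.Geo729 Crest.Agent.R161.Defs372 Crest.Agent.R161.Ifc372
open Crest.Agent.R161.Flip228 (Lin)

/-! ### lattice averages -/

/-- weights -/
def aN (N : ℕ) (v : P2) : ℝ := (rho ((v.1 : ℝ) / N) / N) * (rho ((v.2 : ℝ) / N) / N)

/-- the square `{-N+1..N-1}²` -/
def VN (N : ℕ) : Finset P2 :=
  Finset.Icc (-(N : ℤ) + 1) (N - 1) ×ˢ Finset.Icc (-(N : ℤ) + 1) (N - 1)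

/-- weights of the translated average -/
def bN (N : ℕ) (v : P2) : ℝ := aN N (v.1 - 4 * N, v.2)

/-- the translated square -/
def WN (N : ℕ) : Finset P2 :=
  Finset.Icc (3 * (N : ℤ) + 1) (5 * N - 1) ×ˢ Finset.Icc (-(N : ℤ) + 1) (N - 1)

theorem mem_VN {N : ℕ} {v : P2} : v ∈ VN N ↔
    (-(N : ℤ) + 1 ≤ v.1 ∧ v.1 ≤ N - 1) ∧ (-(N : ℤ) + 1 ≤ v.2 ∧ v.2 ≤ N - 1) := by
  unfold VN
  rw [Finset.mem_product, Finset.mem_Icc, Finset.mem_Icc]

theorem mem_WN {N : ℕ} {v : P2} : v ∈ WN N ↔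
    (3 * (N : ℤ) + 1 ≤ v.1 ∧ v.1 ≤ 5 * N - 1) ∧ (-(N : ℤ) + 1 ≤ v.2 ∧ v.2 ≤ N - 1) := by
  unfold WN
  rw [Finset.mem_product, Finset.mem_Icc, Finset.mem_Icc]

/-- inner average -/
def XN (N : ℕ) (ω : Cfg) : ℝ := Lin (VN N) (aN N) ω

/-- outer average -/
def YN (N : ℕ) (ω : Cfg) : ℝ := Lin (WN N) (bN N) ω

theorem rho_out {N : ℕ} (hN : 1 ≤ N) {i : ℤ} (h : ¬ (-(N : ℤ) + 1 ≤ i ∧ i ≤ N - 1)) :
    rho ((i : ℝ) / N) = 0 := by
  apply rho_zero
  have hN0 : (0 : ℝ) < N := by exact_mod_cast hN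
  rw [abs_div, abs_of_pos hN0, le_div_iff₀ hN0, one_mul]
  have : (N : ℤ) ≤ |i| := by
    rw [le_abs]
    omega
  exact_mod_cast this

theorem sum_r {N : ℕ} (hN : 1 ≤ N) :
    ∑ i ∈ Finset.Icc (-(N : ℤ) + 1) (N - 1), rho ((i : ℝ) / N) / N = 1 := by
  have hN0 : (0 : ℝ) < N := by exact_mod_cast hN
  rw [← Finset.sum_div, div_eq_one_iff_eq hN0.ne']
  have h1 : ∑ i ∈ Finset.Icc (-(N : ℤ) + 1) (N - 1), rho ((i : ℝ) / N) =
      ∑ i ∈ Finset.Icc (-(N : ℤ)) (N - 1), rho ((i : ℝ) / N) := by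
    refine Finset.sum_subset ?_ ?_
    · intro i hi; rw [Finset.mem_Icc] at hi ⊢; omega
    · intro i _ hi'
      rw [Finset.mem_Icc] at hi'
      exact rho_out hN hi'
  rw [h1, sum_rho hN]

theorem sum_aN {N : ℕ} (hN : 1 ≤ N) : ∑ v ∈ VN N, aN N v = 1 := by
  unfold VN aN
  rw [Finset.sum_product]
  simp only
  rw [← Finset.sum_mul_sum, sum_r hN, one_mul]

theorem sum_bN {N : ℕ} (hN : 1 ≤ N) : ∑ v ∈ WN N, bN N v = 1 := by
  rw [← sum_aN hN]
  unfold bN
  refine Finset.sum_nbij' (fun v : P2 => ((v.1 - 4 * N, v.2) : P2))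
    (fun v : P2 => ((v.1 + 4 * N, v.2) : P2)) ?_ ?_ ?_ ?_ ?_
  · intro v hv; rw [mem_WN] at hv; rw [mem_VN]; simp only; omega
  · intro v hv; rw [mem_VN] at hv; rw [mem_WN]; simp only; omega
  · intro v _; ext <;> simp
  · intro v _; ext <;> simp
  · intro v _; rfl

/-- finite form of `X` -/
theorem X_eq_Lin (δ : ℝ) (f : ℂ → ℝ) (S : Finset P2) (h : ∀ v, v ∉ S → f (ptC δ v) = 0) (ω : Cfg) :
    X δ f ω = Lin S (fun v => δ ^ 2 * f (ptC δ v)) ω := by
  unfold X Lin
  rw [tsum_eq_sum (s := S), Finset.mul_sum]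
  · refine Finset.sum_congr rfl fun v _ => ?_
    ring
  · intro v hv
    rw [h v hv, mul_zero]

theorem ptC_re (δ : ℝ) (v : P2) : (ptC δ v).re = δ * v.1 := by simp [ptC]
theorem ptC_im (δ : ℝ) (v : P2) : (ptC δ v).im = δ * v.2 := by simp [ptC]

theorem phi_ptC {N : ℕ} (v : P2) : ((N : ℝ)⁻¹) ^ 2 * phi (ptC (N : ℝ)⁻¹ v) = aN N v := by
  unfold phi aN
  rw [ptC_re, ptC_im, inv_mul_eq_div, inv_mul_eq_div]
  ring

theorem X_phi {N : ℕ} (hN : 1 ≤ N) (ω : Cfg) : X (N : ℝ)⁻¹ phi ω = XN N ω := by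
  rw [X_eq_Lin _ _ (VN N)]
  · unfold XN Lin
    refine Finset.sum_congr rfl fun v _ => ?_
    simp only [phi_ptC]
  · intro v hv
    rw [mem_VN, not_and_or] at hv
    unfold phi
    rw [ptC_re, ptC_im, inv_mul_eq_div, inv_mul_eq_div]
    rcases hv with hv | hv
    · rw [rho_out hN hv, zero_mul]
    · rw [rho_out hN hv, mul_zero]

theorem tsum_support {N : ℕ} (hN : 1 ≤ N) {v : P2} (hv : v ∉ VN N) : aN N v = 0 := by
  rw [mem_VN, not_and_or] at hv
  unfold aN
  rcases hv with hv | hv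
  · rw [rho_out hN hv, zero_div, zero_mul]
  · rw [rho_out hN hv, zero_div, mul_zero]

theorem Lin_subset {S T : Finset P2} (h : S ⊆ T) {a : P2 → ℝ} (h0 : ∀ v ∈ T, v ∉ S → a v = 0)
    (ω : Cfg) : Lin S a ω = Lin T a ω := by
  unfold Lin
  refine Finset.sum_subset h fun v hv hv' => ?_
  rw [h0 v hv hv', zero_mul]

theorem Lin_sub (S : Finset P2) (a b : P2 → ℝ) (ω : Cfg) :
    Lin S (fun v => a v - b v) ω = Lin S a ω - Lin S b ω := by
  unfold Lin
  rw [← Finset.sum_sub_distrib]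
  exact Finset.sum_congr rfl fun v _ => by ring

theorem Lin_congr {S : Finset P2} {a b : P2 → ℝ} (h : ∀ v ∈ S, a v = b v) (ω : Cfg) :
    Lin S a ω = Lin S b ω := by
  unfold Lin
  exact Finset.sum_congr rfl fun v hv => by rw [h v hv]

theorem VN_mono {N N' : ℕ} (h : N ≤ N') : VN N ⊆ VN N' := by
  intro v hv
  rw [mem_VN] at hv ⊢
  omega

theorem X_fr {N M : ℕ} (hN : 1 ≤ N) (hM : 1 ≤ M) (ω : Cfg) :
    X (((M * N : ℕ) : ℝ)⁻¹) (fr (M : ℝ)⁻¹) ω = XN N ω - XN (M * N) ω := by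
  have hM0 : (0 : ℝ) < M := by exact_mod_cast hM
  have hN0 : (0 : ℝ) < N := by exact_mod_cast hN
  have hMN : 1 ≤ M * N := Nat.one_le_iff_ne_zero.2 (by positivity)
  have hsub : VN N ⊆ VN (M * N) := VN_mono (Nat.le_mul_of_pos_left _ hM)
  have key : ∀ v : P2, (((M * N : ℕ) : ℝ)⁻¹) ^ 2 * fr (M : ℝ)⁻¹ (ptC ((M * N : ℕ) : ℝ)⁻¹ v) =
      aN N v - aN (M * N) v := by
    intro v
    unfold fr gr
    rw [mul_sub, phi_ptC]
    congr 1
    rw [inv_inv, ← mul_assoc]
    have h1 : (M : ℝ) • ptC ((M * N : ℕ) : ℝ)⁻¹ v = ptC (N : ℝ)⁻¹ v := by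
      unfold ptC
      rw [Complex.real_smul]
      push_cast
      have : (M : ℂ) ≠ 0 := by exact_mod_cast hM0.ne'
      field_simp
    have h2 : ((((M * N : ℕ) : ℝ)⁻¹) ^ 2 * (((M : ℝ)⁻¹) ^ 2)⁻¹) = ((N : ℝ)⁻¹) ^ 2 := by
      push_cast
      field_simp
    rw [h1, h2, phi_ptC]
  rw [X_eq_Lin _ _ (VN (M * N))]
  · rw [show (fun v => (((M * N : ℕ) : ℝ)⁻¹) ^ 2 * fr (M : ℝ)⁻¹ (ptC ((M * N : ℕ) : ℝ)⁻¹ v)) =
      fun v => aN N v - aN (M * N) v from funext key, Lin_sub]
    unfold XN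
    rw [Lin_subset hsub (fun v _ hv => tsum_support hN hv)]
  · intro v hv
    have h1 := key v
    rw [tsum_support hMN hv, tsum_support hN fun h => hv (hsub h), sub_zero] at h1
    have h2 : ((((M * N : ℕ) : ℝ)⁻¹) ^ 2) ≠ 0 := by
      have : ((M * N : ℕ) : ℝ) ≠ 0 := by
        have : (M * N : ℕ) ≠ 0 := by omega
        exact_mod_cast this
      positivity
    exact (mul_eq_zero.1 h1).resolve_left h2

/-- the test function of `XN - YN` -/
def psi (z : ℂ) : ℝ := phi z - phi (z - 4)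

theorem psi_test : Test psi where
  smooth := phi_smooth.sub (phi_smooth.comp (contDiff_id.sub contDiff_const))
  supp := phi_supp.sub (phi_supp.comp_homeomorph (Homeomorph.subRight (4 : ℂ)))

theorem psi_integral : ∫ z, psi z = 0 := by
  unfold psi
  rw [integral_sub phi_tst.integrable (phi_tst.integrable.comp_sub_right 4),
    integral_sub_right_eq_self phi (4 : ℂ), sub_self]

theorem X_psi {N : ℕ} (hN : 1 ≤ N) (ω : Cfg) : X (N : ℝ)⁻¹ psi ω = XN N ω - YN N ω := by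
  have hN0 : (0 : ℝ) < N := by exact_mod_cast hN
  have key : ∀ v : P2, ((N : ℝ)⁻¹) ^ 2 * psi (ptC (N : ℝ)⁻¹ v) = aN N v - bN N v := by
    intro v
    have h4 : ptC (N : ℝ)⁻¹ v - 4 = ptC (N : ℝ)⁻¹ ((v.1 - 4 * N, v.2) : P2) := by
      unfold ptC
      push_cast
      have : (N : ℂ) ≠ 0 := by exact_mod_cast hN0.ne'
      field_simp
      ring
    unfold psi bN
    rw [mul_sub, h4, phi_ptC, phi_ptC]
  rw [X_eq_Lin _ _ (VN N ∪ WN N)]
  · rw [show (fun v => ((N : ℝ)⁻¹) ^ 2 * psi (ptC (N : ℝ)⁻¹ v)) = fun v => aN N v - bN N v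
      from funext key, Lin_sub]
    unfold XN YN
    rw [Lin_subset Finset.subset_union_left (fun v _ hv => tsum_support hN hv),
      Lin_subset (S := WN N) (T := VN N ∪ WN N) (a := bN N) Finset.subset_union_right]
    intro v _ hv
    unfold bN
    apply tsum_support hN
    intro h
    apply hv
    rw [mem_VN] at h
    rw [mem_WN]
    simp only at h
    omega
  · intro v hv
    rw [Finset.notMem_union] at hv
    have h1 := key v
    rw [tsum_support hN hv.1] at h1
    have h3 : bN N v = 0 := by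
      unfold bN
      apply tsum_support hN
      intro h
      apply hv.2
      rw [mem_VN] at h
      rw [mem_WN]
      simp only at h
      omega
    rw [h3, sub_zero] at h1
    exact (mul_eq_zero.1 h1).resolve_left (by positivity)

/-! ### along the integers -/

theorem tendsto_inv_nat : Tendsto (fun N : ℕ => (N : ℝ)⁻¹) atTop (𝓝[>] 0) := by
  rw [tendsto_nhdsWithin_iff]
  refine ⟨tendsto_inv_atTop_nhds_zero_nat, ?_⟩
  filter_upwards [eventually_ge_atTop 1] with N hN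
  have : (0 : ℝ) < N := by exact_mod_cast hN
  exact inv_pos.2 this

variable {c : ℝ} {P : Measure Cfg}

/-- **Second moments.** -/
theorem second_moment (hP : PlaneGauss c P) : ∃ K0 : ℝ, 0 < K0 ∧ ∃ N0 : ℕ, ∀ N : ℕ, N0 ≤ N →
    ∫ ω, (XN N ω - YN N ω) ^ 2 ∂P ≤ K0 := by
  have h1 := (hP.var psi psi_test psi_integral).comp tendsto_inv_nat
  have h2 : ∀ᶠ N : ℕ in atTop, ∫ ω, (X (N : ℝ)⁻¹ psi ω) ^ 2 ∂P < |kap c * plog psi psi| + 1 :=
    h1.eventually_lt_const (by linarith [le_abs_self (kap c * plog psi psi)])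
  obtain ⟨N1, hN1⟩ := (h2.and (eventually_ge_atTop 1)).exists_forall_of_atTop
  refine ⟨|kap c * plog psi psi| + 1, by positivity, N1, fun N hN => ?_⟩
  obtain ⟨h3, h4⟩ := hN1 N hN
  simp only [X_psi h4] at h3
  exact h3.le

/-! ### anti-concentration -/

theorem measurable_XN (N : ℕ) : Measurable (XN N) := by
  unfold XN Lin
  refine Finset.measurable_sum _ fun v _ => ?_
  refine Measurable.const_mul ?_ _
  exact (measurable_from_top (f := fun z : ℤ => (z : ℝ))).comp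
    ((measurable_pi_apply v).comp measurable_fst)

theorem measurable_YN (N : ℕ) : Measurable (YN N) := by
  unfold YN Lin
  refine Finset.measurable_sum _ fun v _ => ?_
  refine Measurable.const_mul ?_ _
  exact (measurable_from_top (f := fun z : ℤ => (z : ℝ))).comp
    ((measurable_pi_apply v).comp measurable_fst)

/-- elementary kernel inequality -/
theorem kernel_le {J : ℕ} (hJ : 1 ≤ J) {θ : ℝ} (hθ : |θ| * J ≤ 1) :
    (1 : ℝ) ≤ 4 * ((J : ℝ)⁻¹ ^ 2 * ∑ j ∈ Finset.range J, ∑ k ∈ Finset.range J,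
      Real.cos (((j : ℝ) - k) * θ)) := by
  have hJ0 : (0 : ℝ) < J := by exact_mod_cast hJ
  have h1 : ∑ j ∈ Finset.range J, ∑ k ∈ Finset.range J, Real.cos (((j : ℝ) - k) * θ) =
      (∑ j ∈ Finset.range J, Real.cos (j * θ)) ^ 2 + (∑ j ∈ Finset.range J, Real.sin (j * θ)) ^ 2 := by
    rw [sq, sq, Finset.sum_mul_sum, Finset.sum_mul_sum, ← Finset.sum_add_distrib]
    refine Finset.sum_congr rfl fun j _ => ?_
    rw [← Finset.sum_add_distrib]
    refine Finset.sum_congr rfl fun k _ => ?_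
    rw [sub_mul, Real.cos_sub]
  have h2 : (J : ℝ) * (1 / 2) ≤ ∑ j ∈ Finset.range J, Real.cos (j * θ) := by
    have : ∑ _j ∈ Finset.range J, (1 / 2 : ℝ) = J * (1 / 2) := by
      rw [Finset.sum_const, Finset.card_range, nsmul_eq_mul]
    rw [← this]
    refine Finset.sum_le_sum fun j hj => ?_
    have hj' : (j : ℝ) ≤ J := by exact_mod_cast (Finset.mem_range.1 hj).le
    have h3 : |(j : ℝ) * θ| ≤ 1 := by
      rw [abs_mul, abs_of_nonneg (Nat.cast_nonneg j)]
      calc (j : ℝ) * |θ| ≤ J * |θ| := mul_le_mul_of_nonneg_right hj' (abs_nonneg _)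
        _ = |θ| * J := mul_comm _ _
        _ ≤ 1 := hθ
    have h4 := Real.one_sub_sq_div_two_le_cos (x := (j : ℝ) * θ)
    have h5 : ((j : ℝ) * θ) ^ 2 ≤ 1 := by
      rw [← sq_abs]
      exact pow_le_one₀ (abs_nonneg _) h3
    linarith
  rw [h1]
  have h6 : ((J : ℝ) * (1 / 2)) ^ 2 ≤ (∑ j ∈ Finset.range J, Real.cos (j * θ)) ^ 2 :=
    pow_le_pow_left₀ (by positivity) h2 2
  have h7 : (J : ℝ)⁻¹ ^ 2 * ((J : ℝ) * (1 / 2)) ^ 2 = 1 / 4 := by
    field_simp
    norm_num
  have h8 : (J : ℝ)⁻¹ ^ 2 * ((J : ℝ) * (1 / 2)) ^ 2 ≤ (J : ℝ)⁻¹ ^ 2 *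
      ((∑ j ∈ Finset.range J, Real.cos (j * θ)) ^ 2 +
        (∑ j ∈ Finset.range J, Real.sin (j * θ)) ^ 2) := by
    apply mul_le_mul_of_nonneg_left _ (by positivity)
    have := sq_nonneg (∑ j ∈ Finset.range J, Real.sin (j * θ))
    linarith
  linarith

theorem kernel_nonneg (J : ℕ) (θ : ℝ) :
    0 ≤ 4 * ((J : ℝ)⁻¹ ^ 2 * ∑ j ∈ Finset.range J, ∑ k ∈ Finset.range J,
      Real.cos (((j : ℝ) - k) * θ)) := by
  have h1 : ∑ j ∈ Finset.range J, ∑ k ∈ Finset.range J, Real.cos (((j : ℝ) - k) * θ) =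
      (∑ j ∈ Finset.range J, Real.cos (j * θ)) ^ 2 + (∑ j ∈ Finset.range J, Real.sin (j * θ)) ^ 2 := by
    rw [sq, sq, Finset.sum_mul_sum, Finset.sum_mul_sum, ← Finset.sum_add_distrib]
    refine Finset.sum_congr rfl fun j _ => ?_
    rw [← Finset.sum_add_distrib]
    refine Finset.sum_congr rfl fun k _ => ?_
    rw [sub_mul, Real.cos_sub]
  rw [h1]
  positivity

/-- Characteristic functions control the concentration. -/
theorem prob_le [IsProbabilityMeasure P] {Z : Cfg → ℝ} (hZ : Measurable Z) {L : ℝ} (hL : 0 < L)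
    {J : ℕ} (hJ : 1 ≤ J) :
    P.real {ω | |Z ω| ≤ L} ≤ 4 * ((J : ℝ)⁻¹ ^ 2 * ∑ j ∈ Finset.range J, ∑ k ∈ Finset.range J,
      ∫ ω, Real.cos ((((j : ℝ) - k) * (J * L)⁻¹) * Z ω) ∂P) := by
  have hJ0 : (0 : ℝ) < J := by exact_mod_cast hJ
  have hint : ∀ s : ℝ, Integrable (fun ω => Real.cos (s * Z ω)) P := fun s =>
    Integrable.mono' (integrable_const (1 : ℝ))
      (Real.measurable_cos.comp (hZ.const_mul s)).aestronglyMeasurable
      (Eventually.of_forall fun ω => by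
        rw [Real.norm_eq_abs]
        exact Real.abs_cos_le_one _)
  have h1 : 4 * ((J : ℝ)⁻¹ ^ 2 * ∑ j ∈ Finset.range J, ∑ k ∈ Finset.range J,
      ∫ ω, Real.cos ((((j : ℝ) - k) * (J * L)⁻¹) * Z ω) ∂P) =
      ∫ ω, 4 * ((J : ℝ)⁻¹ ^ 2 * ∑ j ∈ Finset.range J, ∑ k ∈ Finset.range J,
        Real.cos (((j : ℝ) - k) * ((J * L)⁻¹ * Z ω))) ∂P := by
    rw [integral_const_mul, integral_const_mul]
    congr 2
    rw [integral_finsetSum]
    · refine Finset.sum_congr rfl fun j _ => ?_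
      rw [integral_finsetSum]
      · refine Finset.sum_congr rfl fun k _ => ?_
        congr 1
        funext ω
        rw [mul_assoc]
      · intro k _
        have := hint (((j : ℝ) - k) * (J * L)⁻¹)
        simpa only [mul_assoc] using this
    · intro j _
      refine integrable_finsetSum _ fun k _ => ?_
      have := hint (((j : ℝ) - k) * (J * L)⁻¹)
      simpa only [mul_assoc] using this
  have hms : MeasurableSet {ω | |Z ω| ≤ L} := measurableSet_le hZ.abs measurable_const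
  rw [h1]
  have h2 : P.real {ω | |Z ω| ≤ L} = ∫ ω, {ω | |Z ω| ≤ L}.indicator (fun _ => (1 : ℝ)) ω ∂P := by
    rw [integral_indicator hms, integral_const, smul_eq_mul, mul_one]
    simp [Measure.real]
  rw [h2]
  refine integral_mono ((integrable_const (1 : ℝ)).indicator hms) ?_ fun ω => ?_
  · refine Integrable.const_mul (Integrable.const_mul ?_ _) _
    refine integrable_finsetSum _ fun j _ => integrable_finsetSum _ fun k _ => ?_
    have := hint (((j : ℝ) - k) * (J * L)⁻¹)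
    simpa only [mul_assoc] using this
  · simp only
    by_cases hω : |Z ω| ≤ L
    · rw [indicator_of_mem (show ω ∈ {ω | |Z ω| ≤ L} from hω)]
      refine kernel_le hJ ?_
      rw [abs_mul, abs_inv, abs_of_pos (by positivity : (0 : ℝ) < J * L)]
      calc (J * L)⁻¹ * |Z ω| * J ≤ (J * L)⁻¹ * L * J := by gcongr
        _ = 1 := by field_simp
    · rw [indicator_of_notMem (show ω ∉ {ω | |Z ω| ≤ L} from hω)]
      exact kernel_nonneg J _

theorem kap_pos (hc : 0 < c) : 0 < kap c := by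
  unfold kap
  have : 0 < Real.arcsin (c / 2) := Real.arcsin_pos.2 (by positivity)
  positivity

/-- **Spread.** -/
theorem spread [IsProbabilityMeasure P] (hc : 0 < c) (hP : PlaneGauss c P) {L η : ℝ} (hL : 0 < L)
    (hη : 0 < η) : ∃ M : ℕ, 1 ≤ M ∧ ∃ N0 : ℕ, ∀ N : ℕ, N0 ≤ N →
      P.real {ω | |XN N ω - XN (M * N) ω| ≤ L} ≤ η := by
  -- the number of terms
  obtain ⟨J, hJ⟩ := exists_nat_gt (16 / η)
  have hJ0 : (0 : ℝ) < J := lt_trans (by positivity) hJ
  have hJ1 : 1 ≤ J := by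
    rcases Nat.eq_zero_or_pos J with h | h
    · rw [h] at hJ0; simp at hJ0
    · exact h
  set h : ℝ := (J * L)⁻¹ with hh
  have hh0 : 0 < h := by positivity
  -- the required variance
  have hk := kap_pos hc
  obtain ⟨M, hM1, hM⟩ := plog_gt (2 * (16 / η) / (h ^ 2 * kap c))
  refine ⟨M, hM1, ?_⟩
  have hr : (0 : ℝ) < (M : ℝ)⁻¹ := inv_pos.2 (by exact_mod_cast hM1)
  have hr1 : (M : ℝ)⁻¹ ≤ 1 := inv_le_one_of_one_le₀ (by exact_mod_cast hM1)
  have hpl := hM M le_rfl
  set v := kap c * plog (fr (M : ℝ)⁻¹) (fr (M : ℝ)⁻¹) with hv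
  have hvb : 16 / η < h ^ 2 * v / 2 := by
    rw [hv]
    rw [div_lt_iff₀ (by positivity)] at hpl
    nlinarith
  -- limits of the cosines
  have hlim : ∀ s : ℝ, Tendsto (fun N : ℕ => ∫ ω, Real.cos (s * (XN N ω - XN (M * N) ω)) ∂P) atTop
      (𝓝 (Real.exp (-(s ^ 2 * v / 2)))) := by
    intro s
    have h1 := hP.law _ (fr_test hr) (fr_integral hr hr1) s
    have h2 : Tendsto (fun N : ℕ => ((M * N : ℕ) : ℝ)⁻¹) atTop (𝓝[>] 0) :=
      tendsto_inv_nat.comp (tendsto_id.const_mul_atTop' (by omega))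
    refine ((h1.comp h2).congr' ?_)
    filter_upwards [eventually_ge_atTop 1] with N hN
    simp only [Function.comp]
    congr 1
    funext ω
    rw [X_fr hN hM1]
  have hlim2 : Tendsto (fun N : ℕ => 4 * ((J : ℝ)⁻¹ ^ 2 * ∑ j ∈ Finset.range J,
      ∑ k ∈ Finset.range J, ∫ ω, Real.cos ((((j : ℝ) - k) * h) * (XN N ω - XN (M * N) ω)) ∂P)) atTop
      (𝓝 (4 * ((J : ℝ)⁻¹ ^ 2 * ∑ j ∈ Finset.range J, ∑ k ∈ Finset.range J,
        Real.exp (-((((j : ℝ) - k) * h) ^ 2 * v / 2))))) := by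
    refine Tendsto.const_mul _ (Tendsto.const_mul _ ?_)
    exact tendsto_finsetSum _ fun j _ => tendsto_finsetSum _ fun k _ => hlim _
  have hbound : 4 * ((J : ℝ)⁻¹ ^ 2 * ∑ j ∈ Finset.range J, ∑ k ∈ Finset.range J,
        Real.exp (-((((j : ℝ) - k) * h) ^ 2 * v / 2))) < η := by
    have hv0 : 0 < v := by
      by_contra hcon
      push Not at hcon
      have : h ^ 2 * v / 2 ≤ 0 := by
        have := mul_nonpos_of_nonneg_of_nonpos (sq_nonneg h) hcon
        linarith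
      have h16 : 0 < 16 / η := by positivity
      linarith
    have h1 : ∀ j ∈ Finset.range J, ∑ k ∈ Finset.range J,
        Real.exp (-((((j : ℝ) - k) * h) ^ 2 * v / 2)) ≤ 1 + J * (η / 16) := by
      intro j hj
      rw [← Finset.add_sum_erase _ _ hj]
      refine add_le_add ?_ ?_
      · rw [sub_self]
        simp
      · have h3 : ∀ k ∈ (Finset.range J).erase j,
            Real.exp (-((((j : ℝ) - k) * h) ^ 2 * v / 2)) ≤ η / 16 := by
          intro k hk
          have hne : j ≠ k := fun h => (Finset.mem_erase.1 hk).1 h.symm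
          have h4 : (1 : ℝ) ≤ ((j : ℝ) - k) ^ 2 := by
            have h5 : (1 : ℤ) ≤ ((j : ℤ) - k) ^ 2 := by
              have : (j : ℤ) - k ≠ 0 := by omega
              have := sq_pos_of_ne_zero this
              omega
            exact_mod_cast h5
          have h5 : 16 / η ≤ (((j : ℝ) - k) * h) ^ 2 * v / 2 := by
            rw [mul_pow]
            have h6 : h ^ 2 * v ≤ ((j : ℝ) - k) ^ 2 * h ^ 2 * v := by
              have : 0 ≤ h ^ 2 * v := by positivity
              nlinarith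
            linarith
          have h7 : Real.exp (-((((j : ℝ) - k) * h) ^ 2 * v / 2)) ≤ Real.exp (-(16 / η)) :=
            Real.exp_le_exp.2 (by linarith)
          refine h7.trans ?_
          rw [Real.exp_neg]
          have h8 : 16 / η ≤ Real.exp (16 / η) := by
            have := Real.add_one_le_exp (16 / η)
            linarith
          have h9 : η / 16 = (16 / η)⁻¹ := by rw [inv_div]
          rw [h9]
          exact inv_anti₀ (by positivity) h8
        have h10 := Finset.sum_le_card_nsmul _ _ _ h3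
        refine h10.trans ?_
        rw [nsmul_eq_mul]
        apply mul_le_mul_of_nonneg_right _ (by positivity)
        have h11 := Finset.card_erase_le (s := Finset.range J) (a := j)
        rw [Finset.card_range] at h11
        exact_mod_cast h11
    have h2 := Finset.sum_le_sum h1
    rw [Finset.sum_const, Finset.card_range, nsmul_eq_mul] at h2
    calc 4 * ((J : ℝ)⁻¹ ^ 2 * ∑ j ∈ Finset.range J, ∑ k ∈ Finset.range J,
        Real.exp (-((((j : ℝ) - k) * h) ^ 2 * v / 2)))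
        ≤ 4 * ((J : ℝ)⁻¹ ^ 2 * (J * (1 + J * (η / 16)))) := by gcongr
      _ = 4 / J + η / 4 := by
          field_simp
          ring
      _ < η / 4 + η / 4 + η / 4 + η / 4 := by
          have : 4 / (J : ℝ) < η / 4 := by
            rw [div_lt_div_iff₀ hJ0 (by norm_num)]
            rw [div_lt_iff₀ hη] at hJ
            linarith
          linarith
      _ = η := by ring
  obtain ⟨N0, hN0⟩ := (hlim2.eventually_lt_const hbound).exists_forall_of_atTop
  refine ⟨N0, fun N hN => ?_⟩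
  have h1 := prob_le (P := P) (Z := fun ω => XN N ω - XN (M * N) ω)
    ((measurable_XN N).sub (measurable_XN (M * N))) hL hJ1
  exact h1.trans (hN0 N hN).le

end Crest.Agent.R161.Spr868
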