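import Crest.Agent.R161.BlkDef_868
import Crest.Agent.R161.Spr2_868
import Crest.Agent.R161.NuInv_421

/-!
# Row 161, block E: one-arm blocking (helper868)

`blockX` : `IsState c P`, `PlaneGauss c P`, `FKGLoc (nu P)` imply `BlockX (nu P)`.

An open path from `{|u| ≤ s}` to distance `C1 s` forces the heights of the outermost cut circuits at the
two scales `t1 = 4s`, `t2 = M t1` to be equal, while the averages of the height at these scales differ a
lot; the difference between the height of the circuit and the inner average is bounded in `L²` by the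
domain Markov property.
-/

set_option autoImplicit false

noncomputable section

namespace Crest.Agent.R161.Blk868

open Finset hiding box
open MeasureTheory Filter Topology
open Crest.Agent.R161.Geo729 Crest.Agent.R161.Defs372 Crest.Agent.R161.Dual374
open Crest.Agent.R161.Hull374 Crest.Agent.R161.Ifc372 Crest.Agent.R161.Ring421
open Crest.Agent.R161.Dmp341 Crest.Agent.R161.Out868 Crest.Agent.R161.Spr868
open Crest.Agent.R161.Aut373
open Crest.Agent.R161.Exp760 (DF doms mem_doms)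
open Crest.Agent.R161.Flip228 (Lin)

/-! ### geometry -/

theorem mem_intVerts_ball {m : ℕ} {v : P2} : v ∈ intVerts (ball (0, 0) m) ↔
    (-(m : ℤ) + 1 ≤ v.1 ∧ v.1 ≤ m - 1) ∧ (-(m : ℤ) + 1 ≤ v.2 ∧ v.2 ≤ m - 1) := by
  obtain ⟨a, b⟩ := v
  rw [mem_intVerts]
  unfold IntV
  simp only [Finset.mem_coe, mem_ball]
  omega

theorem VN_sub_int {N : ℕ} {D : Finset P2} (h : ball (0, 0) N ⊆ D) : VN N ⊆ intVerts D := by
  intro v hv
  apply intVerts_mono h
  rw [mem_intVerts_ball]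
  exact mem_VN.1 hv

theorem WN_not_int {N : ℕ} {D : Finset P2} (h : D ⊆ ball (0, 0) (2 * N)) :
    ∀ v ∈ WN N, v ∉ intVerts D := by
  intro v hv hv'
  have h1 := intVerts_mono h hv'
  rw [mem_intVerts_ball] at h1
  rw [mem_WN] at hv
  push_cast at h1
  omega

/-- A cut path leaving the interior of a cut domain has the height of its boundary. -/
theorem level_of_path {D : Finset P2} (hD : Dom D) {ω : Cfg} (hev : ∀ v, Even (ω.1 v))
    (hok : ∀ e, EdgeOk ω e) (hcut : CutE D ω) {u v : P2}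
    (hp : Relation.ReflTransGen (PStep (cutE ω)) u v) (hu : u ∈ intVerts D)
    (hv : v ∉ intVerts D) : ω.1 u = level D ω := by
  induction hp using Relation.ReflTransGen.head_induction_on with
  | refl => exact absurd hu hv
  | @head a b hab _ ih =>
    obtain ⟨e, he, h⟩ := hab
    have hK : ω.1 a = ω.1 b := by
      have := (hok e).1 he
      rcases h with ⟨h1, h2⟩ | ⟨h1, h2⟩
      · rw [h1, h2]; exact this
      · rw [h1, h2]; exact this.symm
    by_cases hb : b ∈ intVerts D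
    · rw [hK]; exact ih hb
    · have hface : fA e ∈ D := by
        rcases h with ⟨h1, _⟩ | ⟨h1, _⟩
        · exact corner_mem_of_int (h1 ▸ hu) (isCorner_src_fA e)
        · exact corner_mem_of_int (h1 ▸ hu) (isCorner_tgt_fA e)
      have hbd : b ∈ bdV D := by
        refine mem_bdV.2 ⟨⟨_, hface, ?_⟩, hb⟩
        rcases h with ⟨_, h2⟩ | ⟨_, h2⟩
        · rw [h2]; exact isCorner_tgt_fA e
        · rw [h2]; exact isCorner_src_fA e
      rw [hK]
      exact (cutAt_level hD hev hcut hok).ht b hbd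

/-- the arm and the two circuits -/
def Gev (s t1 t2 : ℕ) (ω : Cfg) : Prop :=
  ArmP (cutE ω) s (2 * t2) ∧ Circ (cutE ω) (0, 0) t1 (2 * t1) ∧ Circ (cutE ω) (0, 0) t2 (2 * t2)

/-- outer hull at scale `t` -/
abbrev Dt (t : ℕ) (ω : Cfg) : Finset P2 := DF (ball (0, 0) (2 * t)) (0, 0) ω

theorem Dt_cutE {t : ℕ} (ht : 1 ≤ t) {ω : Cfg} (h : Circ (cutE ω) (0, 0) t (2 * t)) :
    CutE (Dt t ω) ω := by
  intro e he
  refine Exp760.DF_bd_cut (dom_ball (0, 0) (2 * t)).sc ?_ he
  exact Exp760.mem_DF_not_RR ((circ_iff_DF ht).1 h (self_mem_ball ht))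

theorem level_eq_of_arm {s t1 t2 : ℕ} (hs : s < t1) (h12 : t1 ≤ t2) {ω : Cfg}
    (hev : ∀ v, Even (ω.1 v)) (hok : ∀ e, EdgeOk ω e) (h : Gev s t1 t2 ω) :
    level (Dt t1 ω) ω = level (Dt t2 ω) ω := by
  obtain ⟨⟨u, v, hu1, hu2, hv, hp⟩, hc1, hc2⟩ := h
  have ht1 : 1 ≤ t1 := by omega
  have ht2 : 1 ≤ t2 := by omega
  have key : ∀ t : ℕ, 1 ≤ t → s < t → t ≤ t2 → Circ (cutE ω) (0, 0) t (2 * t) →
      ω.1 u = level (Dt t ω) ω := by
    intro t ht hst htt hc
    have hmem := (DF_mem_hulls ht).2 hc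
    refine level_of_path (mem_doms.1 hmem).2.2 hev hok (Dt_cutE ht hc) hp ?_ ?_
    · refine intVerts_mono (mem_doms.1 hmem).2.1 ?_
      rw [mem_intVerts_ball]
      rw [abs_le] at hu1 hu2
      omega
    · intro h1
      have h2 := intVerts_mono (mem_doms.1 hmem).1 h1
      rw [mem_intVerts_ball] at h2
      push_cast at h2 hv
      rcases hv with hv | hv <;> rw [le_abs] at hv <;> omega
  rw [← key t1 ht1 hs h12 hc1, ← key t2 ht2 (by omega) le_rfl hc2]

/-! ### finite volume -/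

open Classical in
theorem sm_t {c : ℝ} (hc : 1 ≤ c) {F : Finset P2} {t : ℕ} (ht : 1 ≤ t)
    (hF : ball (0, 0) (2 * t) ⊆ F) :
    E c F (fun ω => if Circ (cutE ω) (0, 0) t (2 * t) then (XN t ω - level (Dt t ω) ω) ^ 2 else 0) ≤
      E c F (fun ω => (XN t ω - YN t ω) ^ 2) := by
  have h := sm_hull hc (outer_isHull c ht hF) (V := VN t) (W := WN t) (a := aN t) (b := bN t)
    (fun D hD => VN_sub_int (mem_doms.1 hD).2.1) (sum_aN ht)
    (fun D hD => WN_not_int (mem_doms.1 hD).1)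
  refine le_trans (E_mono hc fun ω _ => ?_) h
  simp only [DF_mem_hulls ht]
  split_ifs
  · have := sq_nonneg ((level (DF (ball (0, 0) (2 * t)) (0, 0) ω) ω : ℝ) - Lin (WN t) (bN t) ω)
    unfold XN Dt
    linarith
  · exact le_rfl

open Classical in
theorem fv_bound {c : ℝ} (hc : 1 ≤ c) {F : Finset P2} {s t1 t2 : ℕ} (hs : s < t1) (h12 : t1 ≤ t2)
    (hF : ball (0, 0) (2 * t2) ⊆ F) {K : ℝ} (hK : 0 < K) :
    E c F (fun ω => if Gev s t1 t2 ω then 1 else 0) ≤
      (K ^ 2)⁻¹ * E c F (fun ω => (XN t1 ω - YN t1 ω) ^ 2) +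
      (K ^ 2)⁻¹ * E c F (fun ω => (XN t2 ω - YN t2 ω) ^ 2) +
      E c F (fun ω => if |XN t1 ω - XN t2 ω| ≤ 2 * K then 1 else 0) := by
  have ht1 : 1 ≤ t1 := by omega
  have ht2 : 1 ≤ t2 := by omega
  have hF1 : ball (0, 0) (2 * t1) ⊆ F := (ball_mono _ (by omega)).trans hF
  have hK2 : 0 < (K ^ 2)⁻¹ := by positivity
  have s1 := mul_le_mul_of_nonneg_left (sm_t hc ht1 hF1) hK2.le
  have s2 := mul_le_mul_of_nonneg_left (sm_t hc ht2 hF) hK2.le
  rw [← E_smul] at s1 s2
  have h1 : E c F (fun ω => if Gev s t1 t2 ω then 1 else 0) ≤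
      E c F (fun ω => ((K ^ 2)⁻¹ * (if Circ (cutE ω) (0, 0) t1 (2 * t1) then
          (XN t1 ω - level (Dt t1 ω) ω) ^ 2 else 0) +
        (K ^ 2)⁻¹ * (if Circ (cutE ω) (0, 0) t2 (2 * t2) then
          (XN t2 ω - level (Dt t2 ω) ω) ^ 2 else 0)) +
        (if |XN t1 ω - XN t2 ω| ≤ 2 * K then 1 else 0)) := by
    refine E_mono' hc fun ω hω hok => ?_
    have n1 : 0 ≤ (if Circ (cutE ω) (0, 0) t1 (2 * t1) then
        (XN t1 ω - level (Dt t1 ω) ω) ^ 2 else 0) := by
      split_ifs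
      · exact sq_nonneg _
      · exact le_rfl
    have n2 : 0 ≤ (if Circ (cutE ω) (0, 0) t2 (2 * t2) then
        (XN t2 ω - level (Dt t2 ω) ω) ^ 2 else 0) := by
      split_ifs
      · exact sq_nonneg _
      · exact le_rfl
    have n3 : (0 : ℝ) ≤ (if |XN t1 ω - XN t2 ω| ≤ 2 * K then 1 else 0) := by
      split_ifs <;> norm_num
    have p1 := mul_nonneg hK2.le n1
    have p2 := mul_nonneg hK2.le n2
    by_cases hG : Gev s t1 t2 ω
    · rw [if_pos hG]
      have hlev := level_eq_of_arm hs h12 hω.even hok hG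
      by_cases hX : |XN t1 ω - XN t2 ω| ≤ 2 * K
      · rw [if_pos hX]
        linarith
      · rw [if_pos hG.2.1, if_pos hG.2.2] at *
        have big : ∀ x : ℝ, K < |x| → 1 ≤ (K ^ 2)⁻¹ * x ^ 2 := by
          intro x hx
          rw [inv_mul_eq_div, le_div_iff₀ (by positivity), one_mul, ← sq_abs x]
          exact pow_le_pow_left₀ hK.le hx.le 2
        by_cases ha : K < |XN t1 ω - level (Dt t1 ω) ω|
        · have := big _ ha
          linarith
        · have hb : K < |XN t2 ω - level (Dt t2 ω) ω| := by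
            by_contra hb
            apply hX
            have e : XN t1 ω - XN t2 ω = (XN t1 ω - level (Dt t1 ω) ω) -
                (XN t2 ω - level (Dt t2 ω) ω) := by
              rw [hlev]; ring
            rw [e]
            refine (abs_sub _ _).trans ?_
            linarith
          have := big _ hb
          linarith
    · rw [if_neg hG]
      linarith
  refine h1.trans ?_
  rw [E_add, E_add]
  linarith

/-! ### passage to the state -/

theorem state_mono {c : ℝ} {P : Measure Cfg} (hP : IsState c P) {S T : Finset P2} {f g : Cfg → ℝ}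
    (hf : Loc (S : Set P2) f) (hfn : Neut f) (hg : Loc (T : Set P2) g) (hgn : Neut g) {n0 : ℕ}
    (h : ∀ F : Finset P2, Dom F → Defs372.box n0 ⊆ F → E c F f ≤ E c F g) :
    ∫ ω, f ω ∂P ≤ ∫ ω, g ω ∂P := by
  refine le_of_forall_pos_le_add fun ε hε => ?_
  obtain ⟨n1, h1⟩ := lim_neut hP hf hfn (half_pos hε)
  obtain ⟨n2, h2⟩ := lim_neut hP hg hgn (half_pos hε)
  set n := max n0 (max n1 n2)
  have e0 := h (Defs372.box n) (Dmp341.dom_box n) (box_mono (by omega))
  have e1 := h1 (Defs372.box n) (Dmp341.dom_box n) (box_mono (by omega))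
  have e2 := h2 (Defs372.box n) (Dmp341.dom_box n) (box_mono (by omega))
  rw [abs_lt] at e1 e2
  linarith [e1.1, e2.2]

theorem loc_Lin {S : Finset P2} (a : P2 → ℝ) : Loc (S : Set P2) (Lin S a) := by
  intro ω ω' h
  unfold Lin
  exact Finset.sum_congr rfl fun v hv => by rw [(h v hv).1]

theorem loc_mono {α : Type*} {S T : Finset P2} (h : S ⊆ T) {f : Cfg → α}
    (hf : Loc (S : Set P2) f) : Loc (T : Set P2) f := fun ω ω' h1 =>
  hf ω ω' fun v hv => h1 v (h hv)

theorem Lin_addH {S : Finset P2} {a : P2 → ℝ} (ha : ∑ v ∈ S, a v = 1) (b : ℤ) (ω : Cfg) :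
    Lin S a (addH b ω) = Lin S a ω + b := by
  unfold Lin addH
  have : ∀ v ∈ S, a v * (((ω.1 v + b : ℤ)) : ℝ) = a v * (ω.1 v : ℝ) + a v * (b : ℝ) := by
    intro v _
    push_cast
    ring
  rw [Finset.sum_congr rfl this, Finset.sum_add_distrib, ← Finset.sum_mul, ha, one_mul]

/-- faces whose edges decide the arm and the circuits -/
def gS (t : ℕ) : Finset P2 :=
  Finset.Icc (-(2 * t : ℤ) - 1) (2 * t + 1) ×ˢ Finset.Icc (-(2 * t : ℤ) - 1) (2 * t + 1)

theorem circ_loc {ω ω' : Cfg} {n m : ℕ} (h : ∀ v ∈ gS m, ∀ b, ω.2.2 (v, b) = ω'.2.2 (v, b))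
    (hc : Circ (cutE ω) (0, 0) n (2 * m)) : Circ (cutE ω') (0, 0) n (2 * m) := by
  refine reach_subset_congr ?_ hc
  intro e he
  unfold cutE
  have : e.1 ∈ gS m := by
    obtain ⟨⟨a, b⟩, d⟩ := e
    simp only [gS, Finset.mem_product, Finset.mem_Icc]
    simp only [Finset.mem_coe, mem_ball] at he
    cases d
    · simp only [fA_mk, fB_h] at he
      push_cast at he
      omega
    · simp only [fA_mk, fB_v] at he
      push_cast at he
      omega
  rw [show ω.2.2 e = ω'.2.2 e from h e.1 this e.2]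

theorem Gev_loc {s t1 t2 : ℕ} (h12 : t1 ≤ t2) {ω ω' : Cfg}
    (h : ∀ v ∈ gS t2, ∀ b, ω.2.2 (v, b) = ω'.2.2 (v, b)) (hG : Gev s t1 t2 ω) :
    Gev s t1 t2 ω' := by
  obtain ⟨h1, h2, h3⟩ := hG
  refine ⟨armP_local ?_ h1, circ_loc ?_ h2, circ_loc h h3⟩
  · intro e he hz
    unfold cutE at *
    have : e.1 ∈ gS t2 := by
      rw [mem_armE] at he
      obtain ⟨⟨a, b⟩, d⟩ := e
      simp only [gS, Finset.mem_product, Finset.mem_Icc]
      simp only [src_mk] at he
      push_cast at he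
      omega
    rw [← show ω.2.2 e = ω'.2.2 e from h e.1 this e.2]
    exact hz
  · intro v hv b
    refine h v ?_ b
    simp only [gS, Finset.mem_product, Finset.mem_Icc] at hv ⊢
    omega

open Classical in
theorem state_bound {c : ℝ} (hc : 1 ≤ c) {P : Measure Cfg} (hP : IsState c P) {s t1 t2 : ℕ}
    (hs : s < t1) (h12 : t1 ≤ t2) {K : ℝ} (hK : 0 < K) :
    ∫ ω, (if Gev s t1 t2 ω then (1 : ℝ) else 0) ∂P ≤
      (K ^ 2)⁻¹ * ∫ ω, (XN t1 ω - YN t1 ω) ^ 2 ∂P +
      (K ^ 2)⁻¹ * ∫ ω, (XN t2 ω - YN t2 ω) ^ 2 ∂P +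
      ∫ ω, (if |XN t1 ω - XN t2 ω| ≤ 2 * K then (1 : ℝ) else 0) ∂P := by
  have ht1 : 1 ≤ t1 := by omega
  have ht2 : 1 ≤ t2 := by omega
  -- localisation of the four functionals
  have lX : ∀ t, Loc ((VN t : Finset P2) : Set P2) (XN t) := fun t => loc_Lin _
  have lY : ∀ t, Loc ((WN t : Finset P2) : Set P2) (YN t) := fun t => loc_Lin _
  have nX : ∀ t, 1 ≤ t → ∀ b ω, XN t (addH b ω) = XN t ω + b := fun t ht b ω =>
    Lin_addH (sum_aN ht) b ω
  have nY : ∀ t, 1 ≤ t → ∀ b ω, YN t (addH b ω) = YN t ω + b := fun t ht b ω =>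
    Lin_addH (sum_bN ht) b ω
  have l1 : ∀ t, Loc ((VN t ∪ WN t : Finset P2) : Set P2) (fun ω => (XN t ω - YN t ω) ^ 2) := by
    intro t ω ω' h
    have e1 := loc_mono (Finset.subset_union_left) (lX t) ω ω' h
    have e2 := loc_mono (Finset.subset_union_right) (lY t) ω ω' h
    simp only [e1, e2]
  have n1 : ∀ t, 1 ≤ t → Neut (fun ω => (XN t ω - YN t ω) ^ 2) := by
    intro t ht ω _ b _
    simp only [nX t ht, nY t ht]
    ring
  have l3 : Loc ((VN t1 ∪ VN t2 : Finset P2) : Set P2)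
      (fun ω => if |XN t1 ω - XN t2 ω| ≤ 2 * K then (1 : ℝ) else 0) := by
    intro ω ω' h
    have e1 := loc_mono (Finset.subset_union_left) (lX t1) ω ω' h
    have e2 := loc_mono (Finset.subset_union_right) (lX t2) ω ω' h
    simp only [e1, e2]
  have n3 : Neut (fun ω => if |XN t1 ω - XN t2 ω| ≤ 2 * K then (1 : ℝ) else 0) := by
    intro ω _ b _
    simp only [nX t1 ht1, nX t2 ht2, add_sub_add_right_eq_sub]
  have l0 : Loc ((gS t2 : Finset P2) : Set P2) (fun ω => if Gev s t1 t2 ω then (1 : ℝ) else 0) := by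
    intro ω ω' h
    have : Gev s t1 t2 ω ↔ Gev s t1 t2 ω' :=
      ⟨Gev_loc h12 fun v hv b => (h v hv).2.2 b,
        Gev_loc h12 fun v hv b => ((h v hv).2.2 b).symm⟩
    simp only [this]
  have n0 : Neut (fun ω => if Gev s t1 t2 ω then (1 : ℝ) else 0) := fun ω _ b _ => rfl
  -- the right-hand side as one functional
  set g : Cfg → ℝ := fun ω => ((K ^ 2)⁻¹ * (XN t1 ω - YN t1 ω) ^ 2 +
    (K ^ 2)⁻¹ * (XN t2 ω - YN t2 ω) ^ 2) +
    (if |XN t1 ω - XN t2 ω| ≤ 2 * K then (1 : ℝ) else 0) with hg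
  have lg : Loc (((VN t1 ∪ WN t1) ∪ (VN t2 ∪ WN t2) ∪ (VN t1 ∪ VN t2) : Finset P2) : Set P2) g := by
    intro ω ω' h
    have e1 := loc_mono (T := (VN t1 ∪ WN t1) ∪ (VN t2 ∪ WN t2) ∪ (VN t1 ∪ VN t2))
      (Finset.subset_union_left.trans Finset.subset_union_left) (l1 t1) ω ω' h
    have e2 := loc_mono (T := (VN t1 ∪ WN t1) ∪ (VN t2 ∪ WN t2) ∪ (VN t1 ∪ VN t2))
      (Finset.subset_union_right.trans Finset.subset_union_left) (l1 t2) ω ω' h
    have e3 := loc_mono (T := (VN t1 ∪ WN t1) ∪ (VN t2 ∪ WN t2) ∪ (VN t1 ∪ VN t2))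
      Finset.subset_union_right l3 ω ω' h
    simp only [hg]
    rw [e1, e2, e3]
  have ng : Neut g := by
    intro ω _ b _
    simp only [hg, nX t1 ht1, nX t2 ht2, nY t1 ht1, nY t2 ht2, add_sub_add_right_eq_sub]
  have hmain := state_mono hP l0 n0 lg ng (n0 := 2 * t2) (fun F hF hFn => by
    have hsub : ball (0, 0) (2 * t2) ⊆ F := by
      rw [ball_zero]; exact hFn
    have := fv_bound hc hs h12 hsub hK
    refine this.trans (le_of_eq ?_)
    rw [hg, E_add, E_add, E_smul, E_smul])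
  refine hmain.trans (le_of_eq ?_)
  rw [hg, integral_add, integral_add, integral_const_mul, integral_const_mul]
  · exact (loc_integrable hP (l1 t1)).const_mul _
  · exact (loc_integrable hP (l1 t2)).const_mul _
  · exact ((loc_integrable hP (l1 t1)).const_mul _).add ((loc_integrable hP (l1 t2)).const_mul _)
  · exact loc_integrable hP l3

/-! ### the theorem -/

open Classical in
theorem nu_le_Gev {c : ℝ} {P : Measure Cfg} (hP : IsState c P) {s t1 t2 : ℕ} (h12 : t1 ≤ t2) :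
    (nu P).real (Arm s (2 * t2) ∩ (CircZ (0, 0) t1 (2 * t1) ∩ CircZ (0, 0) t2 (2 * t2))) ≤
      ∫ ω, (if Gev s t1 t2 ω then (1 : ℝ) else 0) ∂P := by
  have := hP.prob
  set A := Arm s (2 * t2) ∩ (CircZ (0, 0) t1 (2 * t1) ∩ CircZ (0, 0) t2 (2 * t2)) with hA
  have hLA : LocEv A := (locEv_arm _ _).inter ((locEv_circZ _ _ _).inter (locEv_circZ _ _ _))
  rw [NuInv421.nu_real hLA.measurableSet]
  have key : ∀ (a : ℤ) (ω : Cfg), plusMap (addH a ω) ∈ A → Gev s t1 t2 ω := by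
    intro a ω h
    have hle : ∀ e, plusMap (addH a ω) e = true → cutE ω e := by
      intro e he
      unfold plusMap at he
      rw [decide_eq_true_eq] at he
      exact he.1
    exact ⟨armP_mono hle h.1, Ring421.circ_mono hle h.2.1, Ring421.circ_mono hle h.2.2⟩
  have l0 : Loc ((gS t2 : Finset P2) : Set P2) (fun ω => if Gev s t1 t2 ω then (1 : ℝ) else 0) := by
    intro ω ω' h
    have : Gev s t1 t2 ω ↔ Gev s t1 t2 ω' :=
      ⟨Gev_loc h12 fun v hv b => (h v hv).2.2 b,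
        Gev_loc h12 fun v hv b => ((h v hv).2.2 b).symm⟩
    simp only [this]
  obtain ⟨S, hS⟩ := hLA
  refine integral_mono (loc_integrable hP (NuInv421.loc_GA hS)) (loc_integrable hP l0) fun ω => ?_
  have k0 := key 0 ω
  have k2 := key 2 ω
  have e0 : addH 0 ω = ω := by simp [addH]
  rw [e0] at k0
  simp only [NuInv421.GA]
  by_cases hG : Gev s t1 t2 ω
  · rw [if_pos hG]
    split_ifs <;> norm_num
  · rw [if_neg hG, if_neg fun h => hG (k0 h), if_neg fun h => hG (k2 h)]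
    norm_num

/-- **One-arm blocking.** -/
theorem blockX {c : ℝ} (hc : 1 ≤ c) {P : Measure Cfg} (hP : IsState c P) (hG : PlaneGauss c P)
    (hF : FKGLoc (nu P)) : BlockX (nu P) := by
  classical
  have := hP.prob
  have hc0 : 0 < c := by linarith
  rw [blockX_iff]
  intro c3 ε h3 hε
  obtain ⟨K0, hK0, N1, hN1⟩ := second_moment hG
  -- the constant `K`
  set K : ℝ := Real.sqrt (4 * K0 / (c3 ^ 2 * ε)) with hKdef
  have hK : 0 < K := Real.sqrt_pos.2 (by positivity)
  have hK2 : K ^ 2 = 4 * K0 / (c3 ^ 2 * ε) := Real.sq_sqrt (by positivity)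
  have hKK : (K ^ 2)⁻¹ * K0 = c3 ^ 2 * ε / 4 := by
    rw [hK2]
    field_simp
  obtain ⟨M, hM, N2, hN2⟩ := spread hc0 hG (L := 2 * K) (η := c3 ^ 2 * ε / 2) (by positivity)
    (by positivity)
  refine ⟨8 * M, max (max N1 N2) 1, by omega, fun s hs hcirc => ?_⟩
  have hs1 : 1 ≤ s := (le_max_right _ _).trans hs
  have hsN1 : N1 ≤ 4 * s := by
    have := (le_max_left _ _).trans ((le_max_left _ _).trans hs)
    omega
  have hsN2 : N2 ≤ 4 * s := by
    have := (le_max_right _ _).trans ((le_max_left _ _).trans hs)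
    omega
  set t1 := 4 * s with ht1
  set t2 := M * t1 with ht2
  have h12 : t1 ≤ t2 := Nat.le_mul_of_pos_left _ hM
  have hst : s < t1 := by omega
  have ht11 : 1 ≤ t1 := by omega
  have hR : 8 * M * s = 2 * t2 := by rw [ht2, ht1]; ring
  rw [hR]
  -- the bound of the triple event
  have hb := (nu_le_Gev hP (s := s) h12).trans (state_bound hc hP hst h12 hK)
  have m1 := hN1 t1 hsN1
  have m2 := hN1 t2 (hsN1.trans h12)
  have m3 := hN2 t1 hsN2
  have hK2' : 0 < (K ^ 2)⁻¹ := by positivity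
  have q1 := mul_le_mul_of_nonneg_left m1 hK2'.le
  have q2 := mul_le_mul_of_nonneg_left m2 hK2'.le
  rw [hKK] at q1 q2
  have hms : MeasurableSet {ω : Cfg | |XN t1 ω - XN t2 ω| ≤ 2 * K} :=
    measurableSet_le ((measurable_XN t1).sub (measurable_XN t2)).abs measurable_const
  have e3 : ∫ ω, (if |XN t1 ω - XN t2 ω| ≤ 2 * K then (1 : ℝ) else 0) ∂P =
      P.real {ω : Cfg | |XN t1 ω - XN t2 ω| ≤ 2 * K} := by
    have : (fun ω : Cfg => if |XN t1 ω - XN t2 ω| ≤ 2 * K then (1 : ℝ) else 0) =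
        {ω : Cfg | |XN t1 ω - XN t2 ω| ≤ 2 * K}.indicator (fun _ => (1 : ℝ)) := by
      funext ω
      simp only [Set.indicator, Set.mem_ofPred_eq]
    rw [this, integral_indicator hms]
    simp
  rw [e3] at hb
  have hsmall : (nu P).real (Arm s (2 * t2) ∩ (CircZ (0, 0) t1 (2 * t1) ∩
      CircZ (0, 0) t2 (2 * t2))) ≤ c3 ^ 2 * ε := by
    have : P.real {ω : Cfg | |XN t1 ω - XN t2 ω| ≤ 2 * K} ≤ c3 ^ 2 * ε / 2 := m3
    linarith
  -- FKG
  have hf2 := hF (CircZ (0, 0) t1 (2 * t1)) (CircZ (0, 0) t2 (2 * t2)) (locEv_circZ _ _ _)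
    (locEv_circZ _ _ _) (incEv_circZ _ _ _) (incEv_circZ _ _ _)
  have hf1 := hF (Arm s (2 * t2)) (CircZ (0, 0) t1 (2 * t1) ∩ CircZ (0, 0) t2 (2 * t2))
    (locEv_arm _ _) ((locEv_circZ _ _ _).inter (locEv_circZ _ _ _)) (incEv_arm _ _)
    ((incEv_circZ _ _ _).inter (incEv_circZ _ _ _))
  have r2 := ENNReal.toReal_mono (by finiteness) hf2
  have r1 := ENNReal.toReal_mono (by finiteness) hf1
  rw [ENNReal.toReal_mul] at r1 r2
  have c1 := hcirc t1 le_rfl (by rw [hR]; omega)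
  have c2 := hcirc t2 h12 (by rw [hR]; omega)
  have hprod : c3 ^ 2 ≤ (nu P (CircZ (0, 0) t1 (2 * t1) ∩ CircZ (0, 0) t2 (2 * t2))).toReal := by
    refine le_trans ?_ r2
    rw [sq]
    exact mul_le_mul c1 c2 h3.le (h3.le.trans c1)
  have hfin : (nu P (Arm s (2 * t2))).toReal * c3 ^ 2 ≤ c3 ^ 2 * ε :=
    (mul_le_mul_of_nonneg_left hprod ENNReal.toReal_nonneg).trans (r1.trans hsmall)
  have hc32 : 0 < c3 ^ 2 := by positivity
  nlinarith

end Crest.Agent.R161.Blk868
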