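import Crest.Agent.R161.Defs_372
import Crest.Agent.R161.Geo_132
import Crest.Agent.R161.Hull_374

/-!
# Row 161: boxes, bounded local observables, measurability (helper760)

* `mem_box`, `box_mono`, `box_conn`, `box_sc`, `dom_box`, `exists_box`, `exists_box_edge`
* `Loc.measurable` : local observables (finite window) are measurable
* `bdd_norm0` : `|G (norm0 ω)|` is bounded uniformly over all configurations satisfying the corner
  condition in a connected window containing the support of `G` and the origin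
* `zloc_bdd` : local functions of the cut variables are bounded
-/

set_option autoImplicit false

noncomputable section

namespace Crest.Agent.R161.Box760

open Finset hiding box
open Crest.Agent.R161.Geo729 Crest.Agent.R161.Defs372 MeasureTheory
open Crest.Agent.R161.Hull374

lemma mem_box {n : ℕ} {f : P2} : f ∈ box n ↔ (-(n : ℤ) ≤ f.1 ∧ f.1 < n) ∧ -(n : ℤ) ≤ f.2 ∧ f.2 < n := by
  simp only [box, mem_product, mem_Icc]
  omega

lemma box_mono {m n : ℕ} (h : m ≤ n) : box m ⊆ box n := by
  intro f hf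
  rw [mem_box] at *
  omega

lemma zero_mem_box {n : ℕ} (h : 1 ≤ n) : ((0, 0) : P2) ∈ box n := by
  rw [mem_box]
  simp only
  omega

lemma box_conn (n : ℕ) : IsConn (↑(box n) : Set P2) := by
  rintro ⟨a, b⟩ hf ⟨c, d⟩ hg
  rw [mem_coe, mem_box] at hf hg
  simp only at hf hg
  refine Conn.trans (g := (c, b)) ?_ ?_
  · refine Geo132.conn_row' fun m h1 h2 => ?_
    rw [mem_coe, mem_box]
    simp only
    omega
  · refine Geo132.conn_col' fun m h1 h2 => ?_
    rw [mem_coe, mem_box]
    simp only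
    omega

lemma box_sc (n : ℕ) : SC (↑(box n) : Set P2) := by
  have hmem : ∀ f : P2, f ∈ (↑(box n) : Set P2)ᶜ ↔
      ¬ ((-(n : ℤ) ≤ f.1 ∧ f.1 < n) ∧ -(n : ℤ) ≤ f.2 ∧ f.2 < n) := by
    intro f
    rw [Set.mem_compl_iff, mem_coe, mem_box]
  -- everything is connected to the far corner
  have key : ∀ f : P2, f ∈ (↑(box n) : Set P2)ᶜ → Conn (↑(box n) : Set P2)ᶜ f (n, n) := by
    rintro ⟨a, b⟩ hf
    rw [hmem] at hf
    simp only at hf
    by_cases ha : -(n : ℤ) ≤ a ∧ a < n
    · -- move horizontally in row b to column n, then vertically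
      have hb : ¬ (-(n : ℤ) ≤ b ∧ b < n) := fun h => hf ⟨ha, h⟩
      refine Conn.trans (g := ((n : ℤ), b)) ?_ ?_
      · refine Geo132.conn_row' fun m h1 h2 => ?_
        rw [hmem]
        exact fun h => hb h.2
      · refine Geo132.conn_col' fun m h1 h2 => ?_
        rw [hmem]
        simp only
        omega
    · refine Conn.trans (g := (a, (n : ℤ))) ?_ ?_
      · refine Geo132.conn_col' fun m h1 h2 => ?_
        rw [hmem]
        exact fun h => ha h.1
      · refine Geo132.conn_row' fun m h1 h2 => ?_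
        rw [hmem]
        simp only
        omega
  intro f hf g hg
  exact (key f hf).trans (key g hg).symm

lemma dom_box (n : ℕ) : Dom (box n) := ⟨box_conn n, box_sc n⟩

lemma exists_box (S : Finset P2) : ∃ n, S ⊆ box n := by
  classical
  induction S using Finset.induction_on with
  | empty => exact ⟨0, Finset.empty_subset _⟩
  | insert a s _ ih =>
    obtain ⟨n, hn⟩ := ih
    refine ⟨max n (a.1.natAbs + a.2.natAbs + 1), fun v hv => ?_⟩
    rcases Finset.mem_insert.1 hv with h | h
    · rw [h, mem_box]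
      have := le_max_right n (a.1.natAbs + a.2.natAbs + 1)
      omega
    · exact box_mono (le_max_left _ _) (hn h)

lemma Loc.mono {α : Type*} {S T : Set P2} {f : Cfg → α} (h : Loc S f) (hST : S ⊆ T) : Loc T f :=
  fun ω ω' h1 => h ω ω' fun v hv => h1 v (hST hv)

/-! ### restriction -/

open Classical in
/-- restriction to the sites of `L` -/
def restr (L : Finset P2) (ω : Cfg) : Cfg :=
  (fun v => if v ∈ L then ω.1 v else 0, fun f => if f ∈ L then ω.2.1 f else 0,
    fun e => if e.1 ∈ L then ω.2.2 e else true)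

lemma restr_agree (L : Finset P2) (ω : Cfg) : AgreeOn (↑L : Set P2) (restr L ω) ω := by
  intro v hv
  have hv' : v ∈ L := hv
  exact ⟨by simp [restr, hv'], by simp [restr, hv'], fun b => by simp [restr, hv']⟩

lemma loc_restr {α : Type*} {L : Finset P2} {f : Cfg → α} (h : Loc (↑L : Set P2) f) (ω : Cfg) :
    f (restr L ω) = f ω := h _ _ (restr_agree L ω)

lemma finite_restr (L : Finset P2) (C : ℤ) :
    {ω : Cfg | restr L ω = ω ∧ (∀ v, |ω.1 v| ≤ C) ∧ ∀ f, |ω.2.1 f| ≤ C}.Finite := by
  classical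
  let A : Type := (↥L → Set.Icc (-C) C) × (↥L → Set.Icc (-C) C) × (↥L × Bool → Bool)
  have : Finite A := by
    dsimp only [A]
    infer_instance
  let g : {ω : Cfg | restr L ω = ω ∧ (∀ v, |ω.1 v| ≤ C) ∧ ∀ f, |ω.2.1 f| ≤ C} → A := fun ω =>
    (fun v => ⟨ω.1.1 v, abs_le.1 (ω.2.2.1 v)⟩, fun v => ⟨ω.1.2.1 v, abs_le.1 (ω.2.2.2 v)⟩,
      fun e => ω.1.2.2 (e.1, e.2))
  have hg : Function.Injective g := by
    rintro ⟨ω, hω⟩ ⟨ω', hω'⟩ heq
    have h1 := congrArg Prod.fst heq
    have h2 := congrArg (fun a => a.2.1) heq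
    have h3 := congrArg (fun a => a.2.2) heq
    simp only [g] at h1 h2 h3
    apply Subtype.ext
    show ω = ω'
    rw [← hω.1, ← hω'.1]
    refine Prod.ext ?_ (Prod.ext ?_ ?_)
    · funext v
      by_cases hv : v ∈ L
      · simp only [restr, hv, if_true]
        exact congrArg Subtype.val (congrFun h1 ⟨v, hv⟩)
      · simp [restr, hv]
    · funext v
      by_cases hv : v ∈ L
      · simp only [restr, hv, if_true]
        exact congrArg Subtype.val (congrFun h2 ⟨v, hv⟩)
      · simp [restr, hv]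
    · funext e
      by_cases he : e.1 ∈ L
      · simp only [restr, he, if_true]
        exact congrFun h3 (⟨e.1, he⟩, e.2)
      · simp [restr, he]
  exact Finite.of_injective g hg

/-- the corner condition in a window -/
def CornerOn (L : Finset P2) (ω : Cfg) : Prop :=
  ∀ f ∈ L, ∀ v, Geo729.IsCorner v f → |ω.1 v - ω.2.1 f| = 1

lemma cornerOn_of_valid {L F : Finset P2} {ω : Cfg} (h : Valid F ω) (hL : L ⊆ F) :
    CornerOn L ω := fun f hf v hv => h.corner f (hL hf) v hv

lemma cornerOn_of_gvalid {L : Finset P2} {ω : Cfg} (h : GValid ω) : CornerOn L ω :=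
  fun f _ v hv => h.corner f v hv

/-- adjacent faces share a corner -/
lemma exists_common_corner {f g : P2} (h : Adj f g) :
    ∃ v, Geo729.IsCorner v f ∧ Geo729.IsCorner v g := by
  obtain ⟨a, b⟩ := f
  obtain ⟨c, d⟩ := g
  rcases h with h | h | h | h <;> rw [h]
  · exact ⟨(a + 1, b), by simp [Geo729.IsCorner], by simp [Geo729.IsCorner]⟩
  · exact ⟨(a, b), by simp [Geo729.IsCorner], by simp [Geo729.IsCorner]⟩
  · exact ⟨(a, b + 1), by simp [Geo729.IsCorner], by simp [Geo729.IsCorner]⟩
  · exact ⟨(a, b), by simp [Geo729.IsCorner], by simp [Geo729.IsCorner]⟩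

lemma face_bdd {L : Finset P2} {f g : P2} (h : Conn (↑L : Set P2) f g) :
    ∃ C : ℤ, ∀ ω, CornerOn L ω → |ω.2.1 g - ω.2.1 f| ≤ C := by
  induction h with
  | refl => exact ⟨0, fun ω _ => by simp⟩
  | @tail b1 c1 _ h2 ih =>
    obtain ⟨C, hC⟩ := ih
    refine ⟨C + 2, fun ω hω => ?_⟩
    obtain ⟨v, hv1, hv2⟩ := exists_common_corner h2.2.2
    have h3 := hω b1 h2.1 v hv1
    have h4 := hω c1 h2.2.1 v hv2
    have h5 := hC ω hω
    rw [abs_le] at h5 ⊢
    have h6 := abs_le.1 h3.le
    have h7 := abs_le.1 h4.le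
    constructor <;> linarith [h5.1, h5.2, h6.1, h6.2, h7.1, h7.2]

lemma height_bdd {L : Finset P2} (hL : IsConn (↑L : Set P2)) (h0 : ((0, 0) : P2) ∈ L) :
    ∃ C : ℤ, 0 ≤ C ∧ ∀ ω, CornerOn L ω → ∀ f ∈ L, |ω.1 f - ω.1 (0, 0)| ≤ C ∧
      |ω.2.1 f - ω.1 (0, 0)| ≤ C := by
  classical
  have h1 : ∀ f ∈ L, ∃ C : ℤ, ∀ ω, CornerOn L ω → |ω.1 f - ω.1 (0, 0)| ≤ C ∧
      |ω.2.1 f - ω.1 (0, 0)| ≤ C := by
    intro f hf
    obtain ⟨C, hC⟩ := face_bdd (hL _ h0 _ hf)
    refine ⟨C + 2, fun ω hω => ?_⟩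
    have h3 := hω (0, 0) h0 (0, 0) (by simp [Geo729.IsCorner])
    have h4 := hω f hf f (by simp [Geo729.IsCorner])
    have h5 := hC ω hω
    rw [abs_le] at h5
    have h6 := abs_le.1 h3.le
    have h7 := abs_le.1 h4.le
    constructor <;> rw [abs_le] <;> constructor <;>
      linarith [h5.1, h5.2, h6.1, h6.2, h7.1, h7.2]
  choose! C hC using h1
  refine ⟨∑ f ∈ L, |C f|, Finset.sum_nonneg fun f _ => abs_nonneg _, fun ω hω f hf => ?_⟩
  have h2 : C f ≤ ∑ f ∈ L, |C f| :=
    (le_abs_self _).trans (Finset.single_le_sum (f := fun f => |C f|) (fun g _ => abs_nonneg _) hf)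
  exact ⟨(hC f hf ω hω).1.trans h2, (hC f hf ω hω).2.trans h2⟩

/-- **normalised local observables are uniformly bounded** -/
theorem bdd_norm0 {L : Finset P2} (hL : IsConn (↑L : Set P2)) (h0 : ((0, 0) : P2) ∈ L)
    {G : Cfg → ℝ} (hG : Loc (↑L : Set P2) G) :
    ∃ M : ℝ, 0 ≤ M ∧ ∀ ω, CornerOn L ω → |G (norm0 ω)| ≤ M := by
  obtain ⟨C, hC0, hC⟩ := height_bdd hL h0
  have hfin := finite_restr L C
  obtain ⟨M, hM⟩ := (hfin.image fun ω => |G ω|).bddAbove
  refine ⟨max M 0, le_max_right _ _, fun ω hω => ?_⟩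
  rw [← loc_restr hG]
  refine le_trans (hM ⟨restr L (norm0 ω), ⟨?_, ?_, ?_⟩, rfl⟩) (le_max_left _ _)
  · refine Prod.ext ?_ (Prod.ext ?_ ?_)
    · funext v; by_cases h : v ∈ L <;> simp [restr, h]
    · funext v; by_cases h : v ∈ L <;> simp [restr, h]
    · funext e; by_cases h : e.1 ∈ L <;> simp [restr, h]
  · intro v
    by_cases h : v ∈ L
    · have := (hC ω hω v h).1
      simpa only [restr, h, if_true, norm0, addH, ← sub_eq_add_neg] using this
    · simpa [restr, h] using hC0
  · intro v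
    by_cases h : v ∈ L
    · have := (hC ω hω v h).2
      simpa only [restr, h, if_true, norm0, addH, ← sub_eq_add_neg] using this
    · simpa [restr, h] using hC0

/-! ### measurability -/

theorem Loc.measurable {L : Finset P2} {f : Cfg → ℝ} (h : Loc (↑L : Set P2) f) : Measurable f := by
  classical
  let R : Type := (↥L → ℤ) × (↥L → ℤ) × (↥L × Bool → Bool)
  let res : Cfg → R := fun ω => (fun v => ω.1 v, fun v => ω.2.1 v, fun e => ω.2.2 (e.1, e.2))
  let ext : R → Cfg := fun r => (fun v => if h : v ∈ L then r.1 ⟨v, h⟩ else 0,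
    fun v => if h : v ∈ L then r.2.1 ⟨v, h⟩ else 0,
    fun e => if h : e.1 ∈ L then r.2.2 (⟨e.1, h⟩, e.2) else true)
  have h1 : f = (f ∘ ext) ∘ res := by
    funext ω
    refine h _ _ fun v hv => ?_
    have hv' : v ∈ L := hv
    refine ⟨by simp [ext, res, hv'], by simp [ext, res, hv'], fun b => by simp [ext, res, hv']⟩
  have h2 : Measurable res := by
    refine Measurable.prodMk ?_ (Measurable.prodMk ?_ ?_)
    · exact measurable_pi_lambda _ fun v => (measurable_pi_apply (v : P2)).comp measurable_fst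
    · exact measurable_pi_lambda _ fun v =>
        (measurable_pi_apply (v : P2)).comp (measurable_fst.comp measurable_snd)
    · exact measurable_pi_lambda _ fun e =>
        (measurable_pi_apply (((e.1 : P2), e.2) : Edge)).comp (measurable_snd.comp measurable_snd)
  have h3 : Measurable (f ∘ ext) := measurable_of_countable _
  rw [h1]
  exact h3.comp h2

end Crest.Agent.R161.Box760
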