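import Crest.Agent.R161.Brg_722
import Crest.Agent.R161.Asm_695

/-!
# `Sandwich c` and `Mono2 c` of `Asm_695` (helper722, R161)
-/

set_option autoImplicit false

noncomputable section

namespace Crest.Agent.R161.Brg722

open Finset Crest.Agent.R161.Geo729 Crest.Agent.R161.Defs372

/-- **Sandwich** inequality of `Asm_695`. -/
theorem sandwich {c : ℝ} (hc : 1 ≤ c) : Asm695.Sandwich c := by
  intro D₁ D₂ _ _ h S a
  have h1 := E_cos_mono hc h S a
  have h2 : E c D₁ (fun ω => (∑ v ∈ S, |a v| * (ω.1 v : ℝ)) ^ 2) ≤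
      E c D₂ (fun ω => (∑ v ∈ S, |a v| * (ω.1 v : ℝ)) ^ 2) :=
    E_convex_mono hc h (φ := fun x => x ^ 2) (even_two.convexOn_pow) S
      (w := fun v => |a v|) (fun v _ => abs_nonneg _)
  have e : ∀ (b : P2 → ℝ) (u : Cfg), Asm695.Lin S b u = ∑ v ∈ S, b v * (u.1 v : ℝ) := fun b u =>
    Finset.sum_congr rfl fun v _ => mul_comm _ _
  simp only [e]
  linarith

/-- **Mono2** of `Asm_695`. -/
theorem mono2 {c : ℝ} (hc : 1 ≤ c) : Asm695.Mono2 c :=
  fun _ _ _ _ h v w => E_two_mono hc h v w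

end Crest.Agent.R161.Brg722
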