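import Crest.Agent.R161.Defs_372

/-!
Row 161 (helper132): summing over the cut variables `z` of `Defs372` gives the six-vertex height
model: pairs `(k, h)`, weight `c` at an interior edge with both diagonals flat, `1` otherwise.

* `Valid2 F p`, `conf2 F`, `w6`, `wt6`, `Z6`;
* `sum_conf_eq` : `∑_{ω ∈ conf F} wt c F ω * f (ω.1, ω.2.1) = ∑_{p ∈ conf2 F} wt6 c F p * f p`;
* `E_eq6`.
-/

set_option autoImplicit false

noncomputable section

namespace Crest.Agent.R161.Ht132

open Finset Crest.Agent.R161.Geo729 Crest.Agent.R161.Defs372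

/-- pairs (vertex heights, face heights) -/
abbrev Pr2 : Type := (P2 → ℤ) × (P2 → ℤ)

/-- Valid pairs. -/
structure Valid2 (F : Finset P2) (p : Pr2) : Prop where
  zero : ∀ v, v ∉ intVerts F → p.1 v = 0
  even : ∀ v, Even (p.1 v)
  off : ∀ f, f ∉ F → p.2 f = 1
  corner : ∀ f, f ∈ F → ∀ v, Geo729.IsCorner v f → |p.1 v - p.2 f| = 1

/-- cut variables: `T` = set of open (non-cut) edges -/
def zOf (T : Finset Edge) : Edge → Bool := fun e => decide (e ∉ T)

theorem zOf_true {T : Finset Edge} {e : Edge} : zOf T e = true ↔ e ∉ T := by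
  simp [zOf]

theorem zOf_false {T : Finset Edge} {e : Edge} : zOf T e = false ↔ e ∈ T := by
  simp [zOf]

theorem valid_iff {F : Finset P2} {ω : Cfg} :
    Valid F ω ↔ Valid2 F (ω.1, ω.2.1) ∧ ∀ e, e ∉ intEdges F → ω.2.2 e = true :=
  ⟨fun h => ⟨⟨h.zero, h.even, h.off, h.corner⟩, h.cut⟩,
    fun h => ⟨h.1.zero, h.1.even, h.1.off, h.1.corner, h.2⟩⟩

theorem valid_mk {F : Finset P2} {p : Pr2} (hp : Valid2 F p) {T : Finset Edge}
    (hT : T ⊆ intEdges F) : Valid F (p.1, p.2, zOf T) := by
  rw [valid_iff]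
  refine ⟨hp, fun e he => ?_⟩
  rw [zOf_true]
  exact fun h => he (hT h)

theorem finite_valid2 (F : Finset P2) : {p : Pr2 | Valid2 F p}.Finite := by
  refine ((finite_valid F).image (fun ω => (ω.1, ω.2.1))).subset ?_
  intro p hp
  exact ⟨(p.1, p.2, zOf ∅), valid_mk hp (by simp), rfl⟩

/-- The finite set of valid pairs. -/
def conf2 (F : Finset P2) : Finset Pr2 := (finite_valid2 F).toFinset

theorem mem_conf2 {F : Finset P2} {p : Pr2} : p ∈ conf2 F ↔ Valid2 F p := by
  simp [conf2]

open Classical in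
/-- **Decomposition of the sum over configurations** into pairs and sets of open dual edges. -/
theorem sum_conf {M : Type*} [AddCommMonoid M] (F : Finset P2) (G : Cfg → M) :
    ∑ ω ∈ conf F, G ω =
      ∑ p ∈ conf2 F, ∑ T ∈ (intEdges F).powerset, G (p.1, p.2, zOf T) := by
  rw [← Finset.sum_product']
  symm
  refine Finset.sum_nbij' (fun q => ((q.1.1, q.1.2, zOf q.2) : Cfg))
    (fun ω => ((ω.1, ω.2.1), (intEdges F).filter fun e => ω.2.2 e = false)) ?_ ?_ ?_ ?_ ?_
  · rintro ⟨p, T⟩ h
    rw [Finset.mem_product, mem_conf2, Finset.mem_powerset] at h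
    exact mem_conf.2 (valid_mk h.1 h.2)
  · intro ω h
    rw [mem_conf, valid_iff] at h
    rw [Finset.mem_product, mem_conf2, Finset.mem_powerset]
    exact ⟨h.1, Finset.filter_subset _ _⟩
  · rintro ⟨p, T⟩ h
    rw [Finset.mem_product, mem_conf2, Finset.mem_powerset] at h
    refine Prod.ext rfl ?_
    ext e
    simp only [Finset.mem_filter, zOf_false]
    exact ⟨fun h' => h'.2, fun h' => ⟨h.2 h', h'⟩⟩
  · intro ω h
    rw [mem_conf, valid_iff] at h
    refine Prod.ext rfl (Prod.ext rfl ?_)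
    funext e
    simp only
    by_cases he : e ∈ intEdges F
    · cases hz : ω.2.2 e
      · rw [zOf_false]; simp [he, hz]
      · rw [zOf_true]; simp [hz]
    · rw [h.2 e he, zOf_true]; simp [he]
  · intro q _
    rfl

/-- six-vertex weight of an edge -/
def w6 (c : ℝ) (p : Pr2) (e : Edge) : ℝ :=
  if p.1 (src e) = p.1 (tgt e) ∧ p.2 (fA e) = p.2 (fB e) then c else 1

/-- six-vertex weight -/
def wt6 (c : ℝ) (F : Finset P2) (p : Pr2) : ℝ := ∏ e ∈ intEdges F, w6 c p e

/-- six-vertex partition function -/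
def Z6 (c : ℝ) (F : Finset P2) : ℝ := ∑ p ∈ conf2 F, wt6 c F p

theorem isCorner_src_fA (e : Edge) : IsCorner (src e) (fA e) := Or.inl rfl

theorem isCorner_tgt_fA (e : Edge) : IsCorner (tgt e) (fA e) := by
  obtain ⟨⟨a, b⟩, c⟩ := e
  cases c <;> simp [Geo729.IsCorner]

theorem isCorner_src_fB (e : Edge) : IsCorner (src e) (fB e) := by
  obtain ⟨⟨a, b⟩, c⟩ := e
  cases c <;> simp [Geo729.IsCorner]

theorem isCorner_tgt_fB (e : Edge) : IsCorner (tgt e) (fB e) := by
  obtain ⟨⟨a, b⟩, c⟩ := e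
  cases c <;> simp [Geo729.IsCorner]

/-- Ice rule: one of the two diagonals is flat. -/
theorem Valid2.ice {F : Finset P2} {p : Pr2} (h : Valid2 F p) {e : Edge} (he : e ∈ intEdges F) :
    p.1 (src e) = p.1 (tgt e) ∨ p.2 (fA e) = p.2 (fB e) := by
  rw [mem_intEdges] at he
  have h1 := h.corner _ he.1 _ (isCorner_src_fA e)
  have h2 := h.corner _ he.1 _ (isCorner_tgt_fA e)
  have h3 := h.corner _ he.2 _ (isCorner_src_fB e)
  have h4 := h.corner _ he.2 _ (isCorner_tgt_fB e)
  rcases abs_eq (by norm_num : (0 : ℤ) ≤ 1) |>.1 h1 with h1 | h1 <;>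
  rcases abs_eq (by norm_num : (0 : ℤ) ≤ 1) |>.1 h2 with h2 | h2 <;>
  rcases abs_eq (by norm_num : (0 : ℤ) ≤ 1) |>.1 h3 with h3 | h3 <;>
  rcases abs_eq (by norm_num : (0 : ℤ) ≤ 1) |>.1 h4 with h4 | h4 <;>
  first | (left; omega) | (right; omega)

open Classical in
/-- Summing over the cut variables gives the six-vertex weight. -/
theorem sum_wt {c : ℝ} {F : Finset P2} {p : Pr2} (hp : Valid2 F p) :
    ∑ T ∈ (intEdges F).powerset, wt c F (p.1, p.2, zOf T) = wt6 c F p := by
  have h1 : ∀ T ∈ (intEdges F).powerset, wt c F (p.1, p.2, zOf T) =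
      (∏ e ∈ T, (if p.2 (fA e) = p.2 (fB e) then
        (if p.1 (src e) = p.1 (tgt e) then c - 1 else 1) else 0)) *
      ∏ e ∈ intEdges F \ T, (if p.1 (src e) = p.1 (tgt e) then (1 : ℝ) else 0) := by
    intro T hT
    rw [Finset.mem_powerset] at hT
    unfold wt
    rw [← Finset.prod_sdiff hT, mul_comm]
    congr 1
    · refine Finset.prod_congr rfl fun e he => ?_
      unfold ew
      have : zOf T e = false := zOf_false.2 he
      simp only [this]
      simp
    · refine Finset.prod_congr rfl fun e he => ?_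
      unfold ew
      have : zOf T e = true := zOf_true.2 (Finset.mem_sdiff.1 he).2
      simp only [this]
      simp
  rw [Finset.sum_congr rfl h1, ← Finset.prod_add]
  unfold wt6
  refine Finset.prod_congr rfl fun e he => ?_
  unfold w6
  by_cases a : p.1 (src e) = p.1 (tgt e) <;> by_cases b : p.2 (fA e) = p.2 (fB e)
  · simp [a, b]
  · simp [a, b]
  · simp [a, b]
  · rcases hp.ice he with h | h
    · exact absurd h a
    · exact absurd h b

theorem sum_conf_eq (c : ℝ) (F : Finset P2) (f : Pr2 → ℝ) :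
    ∑ ω ∈ conf F, wt c F ω * f (ω.1, ω.2.1) = ∑ p ∈ conf2 F, wt6 c F p * f p := by
  classical
  rw [sum_conf]
  refine Finset.sum_congr rfl fun p hp => ?_
  simp only
  rw [← Finset.sum_mul, sum_wt (mem_conf2.1 hp)]

theorem Z_eq (c : ℝ) (F : Finset P2) : Z c F = Z6 c F := by
  unfold Z Z6
  have := sum_conf_eq c F (fun _ => 1)
  simpa using this

/-- Expectations of functions of the heights in the six-vertex form. -/
theorem E_eq6 (c : ℝ) (F : Finset P2) (f : Pr2 → ℝ) :
    E c F (fun ω => f (ω.1, ω.2.1)) = (∑ p ∈ conf2 F, wt6 c F p * f p) / Z6 c F := by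
  rw [E_eq_div, sum_conf_eq, Z_eq]

theorem w6_nonneg {c : ℝ} (hc : 0 ≤ c) (p : Pr2) (e : Edge) : 0 ≤ w6 c p e := by
  unfold w6; split_ifs
  · exact hc
  · exact zero_le_one

theorem w6_pos {c : ℝ} (hc : 0 < c) (p : Pr2) (e : Edge) : 0 < w6 c p e := by
  unfold w6; split_ifs
  · exact hc
  · exact zero_lt_one

theorem wt6_pos {c : ℝ} (hc : 0 < c) (F : Finset P2) (p : Pr2) : 0 < wt6 c F p :=
  Finset.prod_pos fun e _ => w6_pos hc p e

/-- one horizontal step between the corners `v`, `v + (1,0)` of the face `v` -/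
theorem Valid2.step {F : Finset P2} {p : Pr2} (h : Valid2 F p) {v : P2} (hv : v ∈ F) :
    |p.1 (v.1 + 1, v.2) - p.1 v| ≤ 2 := by
  have h1 := h.corner v hv v (Or.inl rfl)
  have h2 := h.corner v hv (v.1 + 1, v.2) (Or.inr (Or.inl rfl))
  rw [abs_le]
  rcases abs_eq (by norm_num : (0 : ℤ) ≤ 1) |>.1 h1 with h1 | h1 <;>
  rcases abs_eq (by norm_num : (0 : ℤ) ≤ 1) |>.1 h2 with h2 | h2 <;>
  constructor <;> linarith

theorem Valid2.abs_le_path {F : Finset P2} {p : Pr2} (h : Valid2 F p) (n : ℕ) :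
    ∀ v : P2, (v.1 + n, v.2) ∉ intVerts F → (∀ i : ℕ, i < n → (v.1 + i, v.2) ∈ intVerts F) →
      |p.1 v| ≤ 2 * n := by
  induction n with
  | zero =>
    intro v hv _
    have : p.1 v = 0 := h.zero v (by simpa using hv)
    simp [this]
  | succ n ih =>
    intro v hv hi
    have h0 : v ∈ intVerts F := by simpa using hi 0 (Nat.succ_pos n)
    have hvF : v ∈ F := (Finset.mem_filter.1 h0).1
    have h1 := h.step hvF
    have h2 := ih (v.1 + 1, v.2) (by
        have : ((v.1 + 1 : ℤ) + (n : ℤ)) = v.1 + ((n + 1 : ℕ) : ℤ) := by push_cast; ring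
        simp only
        rw [this]
        exact hv) (fun i hi' => by
        have h3 := hi (i + 1) (by omega)
        have : ((v.1 + 1 : ℤ) + (i : ℤ)) = v.1 + ((i + 1 : ℕ) : ℤ) := by push_cast; ring
        simp only
        rw [this]
        exact h3)
    rw [abs_le] at *
    push_cast
    constructor <;> linarith [h1.1, h1.2, h2.1, h2.2]

theorem exists_exit' (F : Finset P2) (v : P2) :
    ∃ n : ℕ, n ≤ (intVerts F).card ∧ (v.1 + n, v.2) ∉ intVerts F ∧
      ∀ i : ℕ, i < n → (v.1 + i, v.2) ∈ intVerts F := by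
  classical
  have hex : ∃ n : ℕ, (v.1 + n, v.2) ∉ intVerts F := by
    by_contra hcon
    push Not at hcon
    have : (Finset.range ((intVerts F).card + 1)).card ≤ (intVerts F).card := by
      refine Finset.card_le_card_of_injOn (fun j : ℕ => ((v.1 + j : ℤ), v.2)) ?_ ?_
      · intro j _
        exact hcon j
      · intro i _ j _ hij
        simp only [Prod.mk.injEq] at hij
        have := hij.1
        omega
    simp at this
  refine ⟨Nat.find hex, ?_, Nat.find_spec hex, fun i hi => ?_⟩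
  · have : (Finset.range (Nat.find hex)).card ≤ (intVerts F).card := by
      refine Finset.card_le_card_of_injOn (fun j : ℕ => ((v.1 + j : ℤ), v.2)) ?_ ?_
      · intro j hj
        have := Nat.find_min hex (Finset.mem_range.1 (Finset.mem_coe.1 hj))
        rwa [not_not] at this
      · intro i _ j _ hij
        simp only [Prod.mk.injEq] at hij
        have := hij.1
        omega
    simpa using this
  · have := Nat.find_min hex hi
    rwa [not_not] at this

theorem Valid2.abs_vert_le {F : Finset P2} {p : Pr2} (h : Valid2 F p) (v : P2) :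
    |p.1 v| ≤ 2 * ((intVerts F).card : ℤ) := by
  obtain ⟨n, hn, h1, h2⟩ := exists_exit' F v
  have h3 := h.abs_le_path n v h1 h2
  have h4 : (n : ℤ) ≤ ((intVerts F).card : ℤ) := by exact_mod_cast hn
  linarith

end Crest.Agent.R161.Ht132
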