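import Crest.Agent.R161.Mono_375
import Crest.Agent.R161.Ann2_770
import Crest.Agent.R161.Ht_132

/-!
# Bridge `Defs_372` ↔ `Mono_375` (helper722, R161)

For finite face sets `F ⊆ B` (no topology) the measure `E c F` is represented on the geometry of `B`
with couplings `cF c F e = c` on `intEdges F`, `1` otherwise, and pins `UF F B` (zero heights off
`intVerts F`): `rep`, `E_rep`.

Consequences for `1 ≤ c`, `F ⊆ B`:
* `E_mono_inc`, `E_mono_MP`, `E_mono_FL` : `E c F Ψ ≤ E c B Ψ` for increasing-positive (`MP`) or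
  flip-monotone (`FL`) functions of the heights;
* `E_fkg` : `E Φ · E Ψ ≤ E (Φ Ψ)` for `MP` functions;
* `mono0` : `Pr c B {k v = 0} ≤ Pr c F {k v = 0}`;
* `E_abs_mono` : nondecreasing functions of `|k|`;
* `E_convex_mono`, `E_cos_mono`, `E_two_mono`, `E_two_nonneg`, `E_prod_mono`.
-/

set_option autoImplicit false
set_option linter.unusedSectionVars false
set_option linter.unusedVariables false

noncomputable section

namespace Crest.Agent.R161.Brg722

open Finset Crest.Agent.R161.Geo729 Crest.Agent.R161.Defs372 Crest.Agent.R161.Ht132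
  Crest.Agent.R161.Lsm375 Crest.Agent.R161.Gks375 Crest.Agent.R161.Hts375
  Crest.Agent.R161.Abs375 Crest.Agent.R161.Pol375 Crest.Agent.R161.Mono375

/-- one boundary class -/
def be : P2 → Unit := fun _ => ()

/-- sites of the geometry of `B` -/
abbrev Sit (B : Finset P2) : Type := (↥(intVerts B) ⊕ Unit) ⊕ ↥B

/-- the geometry of `B` -/
abbrev gg (B : Finset P2) : Geo (↥(intVerts B) ⊕ Unit) ↥B ↥(intEdges B) := Ann770.geo B be

/-- vertex heights -/
def kk (B : Finset P2) (h : Sit B → ℤ) : P2 → ℤ := fun v => h (Sum.inl (Ann770.vm B be v))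

/-- face heights -/
def hh (B : Finset P2) (h : Sit B → ℤ) : P2 → ℤ :=
  fun f => if hf : f ∈ B then h (Sum.inr ⟨f, hf⟩) else 1

/-- couplings of `F` -/
def cF (c : ℝ) (F : Finset P2) (e : Edge) : ℝ := if e ∈ intEdges F then c else 1

open Classical in
/-- pins of `F` -/
def UF (F B : Finset P2) (a : Sit B → ℤ) : ℝ :=
  if 0 ≤ a ∧ ∀ v, v ∉ intVerts F → kk B a v = 0 then 1 else 0

theorem kk_ab (B : Finset P2) (h : Sit B → ℤ) (v : P2) : kk B (ab h) v = |kk B h v| := rfl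

theorem kk_mem {B : Finset P2} (h : Sit B → ℤ) {v : P2} (hv : v ∈ intVerts B) :
    kk B h v = h (Sum.inl (Sum.inl ⟨v, hv⟩)) := by
  unfold kk; rw [Ann770.vm_of_mem B be hv]

theorem kk_not_mem {B : Finset P2} (h : Sit B → ℤ) {v : P2} (hv : v ∉ intVerts B) :
    kk B h v = h (Sum.inl (Sum.inr ())) := by
  unfold kk; rw [Ann770.vm_of_not_mem B be hv]

theorem hh_mem {B : Finset P2} (h : Sit B → ℤ) {f : P2} (hf : f ∈ B) :
    hh B h f = h (Sum.inr ⟨f, hf⟩) := dif_pos hf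

theorem UF_ab {F B : Finset P2} {h : Sit B → ℤ} :
    UF F B (ab h) = 1 ∨ UF F B (ab h) = 0 := by
  unfold UF; split_ifs <;> simp

open Classical in
theorem UF_ab_eq {F B : Finset P2} (h : Sit B → ℤ) :
    UF F B (ab h) = if (∀ v, v ∉ intVerts F → kk B h v = 0) then 1 else 0 := by
  unfold UF
  have h0 : (0 : Sit B → ℤ) ≤ ab h := fun x => abs_nonneg _
  have : (0 ≤ ab h ∧ ∀ v, v ∉ intVerts F → kk B (ab h) v = 0) ↔
      ∀ v, v ∉ intVerts F → kk B h v = 0 := by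
    constructor
    · rintro ⟨_, h1⟩ v hv
      have := h1 v hv
      rw [kk_ab, abs_eq_zero] at this
      exact this
    · intro h1
      exact ⟨h0, fun v hv => by rw [kk_ab, h1 v hv, abs_zero]⟩
  by_cases h1 : ∀ v, v ∉ intVerts F → kk B h v = 0
  · rw [if_pos h1, if_pos (this.2 h1)]
  · rw [if_neg h1, if_neg (fun h2 => h1 (this.1 h2))]

theorem intVerts_mono {F B : Finset P2} (h : F ⊆ B) : intVerts F ⊆ intVerts B := by
  intro v hv
  rw [mem_intVerts, intV_iff] at hv ⊢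
  exact fun f hf => h (hv f hf)

theorem intEdges_mono {F B : Finset P2} (h : F ⊆ B) : intEdges F ⊆ intEdges B := by
  intro v hv
  rw [mem_intEdges] at hv ⊢
  exact ⟨h hv.1, h hv.2⟩

theorem not_intVerts_of_corner {F : Finset P2} {v f : P2} (hf : f ∉ F) (hv : IsCorner v f) :
    v ∉ intVerts F := by
  intro h
  rw [mem_intVerts, intV_iff] at h
  exact hf (h f hv)

theorem not_intVerts_of_edge {F : Finset P2} {e : Edge} (he : e ∉ intEdges F) :
    src e ∉ intVerts F ∧ tgt e ∉ intVerts F := by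
  rw [mem_intEdges] at he
  constructor
  · intro h
    rw [mem_intVerts, intV_iff] at h
    exact he ⟨h _ (isCorner_src_fA e), h _ (isCorner_src_fB e)⟩
  · intro h
    rw [mem_intVerts, intV_iff] at h
    exact he ⟨h _ (isCorner_tgt_fA e), h _ (isCorner_tgt_fB e)⟩

/-! ### representation -/

section rep
variable {c : ℝ} {F B : Finset P2}

/-- abstract heights of a pair, free signs `s` on the faces of `B \ F` -/
def lft (F B : Finset P2) (p : Pr2) (s : ↥(B \ F) → ℤˣ) : Sit B → ℤ :=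
  Sum.elim (Sum.elim (fun v => p.1 v.1) (fun _ => 0))
    (fun f => if hf : f.1 ∈ F then p.2 f.1 else ((s ⟨f.1, Finset.mem_sdiff.2 ⟨f.2, hf⟩⟩ : ℤˣ) : ℤ))

/-- inverse of `lft` -/
def dwn (F B : Finset P2) (h : Sit B → ℤ) : Pr2 × (↥(B \ F) → ℤˣ) :=
  ((kk B h, fun f => if f ∈ F then hh B h f else 1),
    fun f => if hh B h f.1 = 1 then 1 else -1)

theorem kk_lft (hFB : F ⊆ B) {p : Pr2} (hp : Valid2 F p) (s : ↥(B \ F) → ℤˣ) :
    kk B (lft F B p s) = p.1 := by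
  funext v
  by_cases hv : v ∈ intVerts B
  · rw [kk_mem _ hv]; rfl
  · rw [kk_not_mem _ hv, hp.zero v (fun h => hv (intVerts_mono hFB h))]; rfl

theorem hh_lft_mem (hFB : F ⊆ B) (p : Pr2) (s : ↥(B \ F) → ℤˣ) {f : P2} (hf : f ∈ F) :
    hh B (lft F B p s) f = p.2 f := by
  rw [hh_mem _ (hFB hf)]
  show (if hf : f ∈ F then p.2 f else _) = _
  rw [dif_pos hf]

theorem hh_lft_not_mem (p : Pr2) (s : ↥(B \ F) → ℤˣ) {f : P2} (hf : f ∉ F) (hB : f ∈ B) :
    hh B (lft F B p s) f = ((s ⟨f, Finset.mem_sdiff.2 ⟨hB, hf⟩⟩ : ℤˣ) : ℤ) := by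
  rw [hh_mem _ hB]
  show (if hf : f ∈ F then p.2 f else _) = _
  rw [dif_neg hf]

theorem unit_abs (u : ℤˣ) : |(u : ℤ)| = 1 := by
  rcases Int.units_eq_one_or u with h | h <;> subst h <;> simp

theorem unit_odd (u : ℤˣ) : Odd (u : ℤ) := by
  rcases Int.units_eq_one_or u with h | h <;> subst h <;> simp

theorem odd_face {p : Pr2} (hp : Valid2 F p) {f : P2} (hf : f ∈ F) : Odd (p.2 f) := by
  have h1 := hp.corner f hf f (Or.inl rfl)
  obtain ⟨r, hr⟩ := hp.even f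
  rcases abs_eq (by norm_num : (0 : ℤ) ≤ 1) |>.1 h1 with h1 | h1
  · exact ⟨r - 1, by omega⟩
  · exact ⟨r, by omega⟩

theorem valid_lft (hFB : F ⊆ B) {p : Pr2} (hp : Valid2 F p) (s : ↥(B \ F) → ℤˣ) :
    (gg B).Valid (lft F B p s) := by
  refine ⟨?_, ?_, ?_⟩
  · rintro (v | v)
    · exact hp.even _
    · show Even (0 : ℤ)
      exact ⟨0, rfl⟩
  · intro f
    show Odd (if hf : f.1 ∈ F then p.2 f.1 else _)
    split_ifs with hf
    · exact odd_face hp hf
    · exact unit_odd _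
  · rintro v f ⟨u, hu, rfl⟩
    have h1 : lft F B p s (Sum.inl (Ann770.vm B be u)) = p.1 u := congrFun (kk_lft hFB hp s) u
    rw [h1]
    show |p.1 u - (if hf : f.1 ∈ F then p.2 f.1 else _)| = 1
    split_ifs with hf
    · exact hp.corner f.1 hf u hu
    · rw [hp.zero u (not_intVerts_of_corner hf hu), zero_sub, abs_neg]
      exact unit_abs _

theorem two_le_hb (F : Finset P2) : 2 ≤ hb F := by
  have : (0 : ℤ) ≤ (F.card : ℤ) := Int.natCast_nonneg _
  unfold hb; linarith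

theorem valid_cfg {p : Pr2} (hp : Valid2 F p) : Valid F (p.1, p.2, fun _ => true) :=
  ⟨hp.zero, hp.even, hp.off, hp.corner, fun _ _ => rfl⟩

theorem abs_lft {p : Pr2} (hp : Valid2 F p) (s : ↥(B \ F) → ℤˣ) (x : Sit B) :
    |lft F B p s x| ≤ hb F := by
  rcases x with (v | v) | f
  · exact (valid_cfg hp).abs_vert v.1
  · show |(0 : ℤ)| ≤ hb F
    rw [abs_zero]
    exact le_trans (by norm_num) (two_le_hb F)
  · show |(if hf : f.1 ∈ F then p.2 f.1 else _)| ≤ hb F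
    split_ifs with hf
    · exact (valid_cfg hp).abs_face f.1
    · rw [unit_abs]
      exact le_trans (by norm_num) (two_le_hb F)

theorem dwn_lft (hFB : F ⊆ B) {p : Pr2} (hp : Valid2 F p) (s : ↥(B \ F) → ℤˣ) :
    dwn F B (lft F B p s) = (p, s) := by
  unfold dwn
  refine Prod.ext (Prod.ext (kk_lft hFB hp s) ?_) ?_
  · funext f
    show (if f ∈ F then hh B (lft F B p s) f else 1) = p.2 f
    split_ifs with hf
    · exact hh_lft_mem hFB p s hf
    · exact (hp.off f hf).symm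
  · funext f
    have hf := Finset.mem_sdiff.1 f.2
    show (if hh B (lft F B p s) f.1 = 1 then (1 : ℤˣ) else -1) = s f
    rw [hh_lft_not_mem p s hf.2 hf.1]
    rcases Int.units_eq_one_or (s ⟨f.1, Finset.mem_sdiff.2 ⟨hf.1, hf.2⟩⟩) with h | h
    · rw [h, if_pos (by norm_num)]
    · rw [h, if_neg (by norm_num)]

theorem exists_not_intVerts (B : Finset P2) : ∃ v, v ∉ intVerts B :=
  Infinite.exists_notMem_finset (intVerts B)

theorem lft_dwn (hFB : F ⊆ B) {h : Sit B → ℤ} (hv : (gg B).Valid h)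
    (hpin : ∀ v, v ∉ intVerts F → kk B h v = 0) :
    lft F B (dwn F B h).1 (dwn F B h).2 = h := by
  funext x
  rcases x with (v | v) | f
  · show kk B h v.1 = _
    rw [kk_mem h v.2]
  · obtain ⟨u, hu⟩ := exists_not_intVerts B
    have h1 := hpin u (fun h => hu (intVerts_mono hFB h))
    rw [kk_not_mem h hu] at h1
    show (0 : ℤ) = _
    rw [← h1]
  · show (if hf : f.1 ∈ F then (if f.1 ∈ F then hh B h f.1 else 1)
      else (((if hh B h f.1 = 1 then 1 else -1 : ℤˣ)) : ℤ)) = _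
    have h2 : hh B h f.1 = h (Sum.inr f) := hh_mem h f.2
    split_ifs with hf h3
    · exact h2
    · rw [← h2, h3]; rfl
    · have h4 : |h (Sum.inl (Ann770.vm B be f.1)) - h (Sum.inr f)| = 1 :=
        hv.2.2 _ f ⟨f.1, Or.inl rfl, rfl⟩
      have h5 : h (Sum.inl (Ann770.vm B be f.1)) = 0 :=
        hpin f.1 (not_intVerts_of_corner hf (Or.inl rfl))
      rw [h5, zero_sub, abs_neg, ← h2] at h4
      rcases abs_eq (by norm_num : (0 : ℤ) ≤ 1) |>.1 h4 with h6 | h6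
      · exact absurd h6 h3
      · rw [← h2, h6]; rfl

theorem valid_dwn (hFB : F ⊆ B) {h : Sit B → ℤ} (hv : (gg B).Valid h)
    (hpin : ∀ v, v ∉ intVerts F → kk B h v = 0) : Valid2 F (dwn F B h).1 where
  zero := hpin
  even := fun v => hv.1 _
  off := fun f hf => if_neg hf
  corner := fun f hf v hvf => by
    show |kk B h v - (if f ∈ F then hh B h f else 1)| = 1
    rw [if_pos hf, hh_mem h (hFB hf)]
    exact hv.2.2 _ ⟨f, hFB hf⟩ ⟨v, hvf, rfl⟩

theorem prod_wp (hFB : F ⊆ B) {p : Pr2} (hp : Valid2 F p) (s : ↥(B \ F) → ℤˣ) :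
    ∏ e, (gg B).wp (fun e => cF c F e.1) (lft F B p s) e = wt6 c F p := by
  classical
  have h1 : ∀ e : ↥(intEdges B), (gg B).wp (fun e => cF c F e.1) (lft F B p s) e =
      if e.1 ∈ intEdges F then w6 c p e.1 else 1 := by
    intro e
    have e1 : lft F B p s (Sum.inl (Ann770.vm B be (src e.1))) = p.1 (src e.1) :=
      congrFun (kk_lft hFB hp s) _
    have e2 : lft F B p s (Sum.inl (Ann770.vm B be (tgt e.1))) = p.1 (tgt e.1) :=
      congrFun (kk_lft hFB hp s) _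
    unfold Geo.wp cF
    beta_reduce
    by_cases he : e.1 ∈ intEdges F
    · rw [if_pos he, if_pos he]
      have hA := (mem_intEdges.1 he).1
      have hB := (mem_intEdges.1 he).2
      have e3 : lft F B p s (Sum.inr ⟨fA e.1, (mem_intEdges.1 e.2).1⟩) = p.2 (fA e.1) := by
        rw [← hh_lft_mem hFB p s hA, hh_mem _ (hFB hA)]
      have e4 : lft F B p s (Sum.inr ⟨fB e.1, (mem_intEdges.1 e.2).2⟩) = p.2 (fB e.1) := by
        rw [← hh_lft_mem hFB p s hB, hh_mem _ (hFB hB)]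
      have hfl : (gg B).Flat (lft F B p s) e ↔
          p.1 (src e.1) = p.1 (tgt e.1) ∧ p.2 (fA e.1) = p.2 (fB e.1) := by
        unfold Geo.Flat
        show lft F B p s (Sum.inl (Ann770.vm B be (src e.1))) =
          lft F B p s (Sum.inl (Ann770.vm B be (tgt e.1))) ∧
          lft F B p s (Sum.inr ⟨fA e.1, (mem_intEdges.1 e.2).1⟩) =
          lft F B p s (Sum.inr ⟨fB e.1, (mem_intEdges.1 e.2).2⟩) ↔ _
        rw [e1, e2, e3, e4]
      unfold w6
      by_cases hq : p.1 (src e.1) = p.1 (tgt e.1) ∧ p.2 (fA e.1) = p.2 (fB e.1)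
      · rw [if_pos hq, if_pos (hfl.2 hq)]
      · rw [if_neg hq, if_neg (fun h => hq (hfl.1 h))]
    · rw [if_neg he, if_neg he]
      split_ifs <;> rfl
  rw [Finset.prod_congr rfl fun e _ => h1 e]
  rw [Finset.prod_coe_sort (intEdges B) (fun e => if e ∈ intEdges F then w6 c p e else 1)]
  unfold wt6
  rw [← Finset.prod_subset (intEdges_mono hFB)]
  · exact Finset.prod_congr rfl fun e he => if_pos he
  · intro e _ he
    exact if_neg he

/-- **Representation** of the sums over `conf2 F` on the geometry of `B ⊇ F`. -/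
theorem rep (hFB : F ⊆ B) (Φ : Pr2 → ℝ)
    (hΦ : ∀ p q : Pr2, p.1 = q.1 → (∀ f ∈ F, p.2 f = q.2 f) → Φ p = Φ q)
    {N : ℤ} (hN : hb F ≤ N) :
    S (gg B) (fun e => cF c F e.1) (UF F B) (fun _ => N) (fun h => Φ (kk B h, hh B h)) =
      2 ^ (B \ F).card * ∑ p ∈ conf2 F, wt6 c F p * Φ p := by
  classical
  have hcard : (2 : ℝ) ^ (B \ F).card = ((univ : Finset (↥(B \ F) → ℤˣ)).card : ℝ) := by
    rw [Finset.card_univ, Fintype.card_fun, Fintype.card_units_int, Fintype.card_coe]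
    push_cast; rfl
  have hR : (2 : ℝ) ^ (B \ F).card * ∑ p ∈ conf2 F, wt6 c F p * Φ p =
      ∑ q ∈ conf2 F ×ˢ (univ : Finset (↥(B \ F) → ℤˣ)), wt6 c F q.1 * Φ q.1 := by
    rw [Finset.sum_product, Finset.mul_sum]
    refine Finset.sum_congr rfl fun p _ => ?_
    simp only
    rw [Finset.sum_const, nsmul_eq_mul, hcard]
  rw [hR]
  unfold S
  have hL : ∀ h : Sit B → ℤ, (gg B).W (fun e => cF c F e.1) h * UF F B (ab h) * Φ (kk B h, hh B h) =
      if ((gg B).Valid h ∧ ∀ v, v ∉ intVerts F → kk B h v = 0) then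
        (∏ e, (gg B).wp (fun e => cF c F e.1) h e) * Φ (kk B h, hh B h) else 0 := by
    intro h
    rw [UF_ab_eq]
    unfold Geo.W
    by_cases h1 : (gg B).Valid h
    · by_cases h2 : ∀ v, v ∉ intVerts F → kk B h v = 0
      · rw [if_pos h1, if_pos h2, if_pos ⟨h1, h2⟩, mul_one]
      · rw [if_neg h2, mul_zero, zero_mul, if_neg (fun h3 => h2 h3.2)]
    · rw [if_neg h1, zero_mul, zero_mul, if_neg (fun h3 => h1 h3.1)]
  rw [Finset.sum_congr rfl fun h _ => hL h, ← Finset.sum_filter]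
  symm
  refine Finset.sum_bij' (fun q _ => lft F B q.1 q.2) (fun h _ => dwn F B h) ?_ ?_ ?_ ?_ ?_
  · rintro ⟨p, s⟩ hq
    have hp := mem_conf2.1 (Finset.mem_product.1 hq).1
    rw [Finset.mem_filter, Finset.mem_Icc]
    refine ⟨⟨fun x => ?_, fun x => ?_⟩, valid_lft hFB hp s, fun v hv => ?_⟩
    · exact (abs_le.1 ((abs_lft hp s x).trans hN)).1
    · exact (abs_le.1 ((abs_lft hp s x).trans hN)).2
    · show kk B (lft F B p s) v = 0
      rw [kk_lft hFB hp s]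
      exact hp.zero v hv
  · intro h hh'
    rw [Finset.mem_filter] at hh'
    exact Finset.mem_product.2 ⟨mem_conf2.2 (valid_dwn hFB hh'.2.1 hh'.2.2), Finset.mem_univ _⟩
  · rintro ⟨p, s⟩ hq
    exact dwn_lft hFB (mem_conf2.1 (Finset.mem_product.1 hq).1) s
  · intro h hh'
    rw [Finset.mem_filter] at hh'
    exact lft_dwn hFB hh'.2.1 hh'.2.2
  · rintro ⟨p, s⟩ hq
    have hp := mem_conf2.1 (Finset.mem_product.1 hq).1
    show wt6 c F p * Φ p = _
    rw [prod_wp hFB hp s]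
    congr 1
    exact hΦ _ _ (kk_lft hFB hp s).symm fun f hf => (hh_lft_mem hFB p s hf).symm

theorem rep_one (hFB : F ⊆ B) {N : ℤ} (hN : hb F ≤ N) :
    S (gg B) (fun e => cF c F e.1) (UF F B) (fun _ => N) (fun _ => 1) =
      2 ^ (B \ F).card * Z6 c F := by
  have := rep (c := c) hFB (fun _ => 1) (fun _ _ _ _ => rfl) hN
  simpa [Z6] using this

theorem E_rep (hFB : F ⊆ B) (Φ : Pr2 → ℝ)
    (hΦ : ∀ p q : Pr2, p.1 = q.1 → (∀ f ∈ F, p.2 f = q.2 f) → Φ p = Φ q)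
    {N : ℤ} (hN : hb F ≤ N) :
    E c F (fun ω => Φ (ω.1, ω.2.1)) =
      S (gg B) (fun e => cF c F e.1) (UF F B) (fun _ => N) (fun h => Φ (kk B h, hh B h)) /
        S (gg B) (fun e => cF c F e.1) (UF F B) (fun _ => N) (fun _ => 1) := by
  rw [E_eq6, rep hFB Φ hΦ hN, rep_one hFB hN, mul_div_mul_left _ _ (by positivity)]

end rep

/-! ### domination -/

section dom
variable {c : ℝ} {F B : Finset P2}

theorem UF_nonneg (F B : Finset P2) (a : Sit B → ℤ) : 0 ≤ UF F B a := by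
  unfold UF; split_ifs <;> norm_num

theorem UF_ne_zero {a : Sit B → ℤ} (h : UF F B a ≠ 0) :
    0 ≤ a ∧ ∀ v, v ∉ intVerts F → kk B a v = 0 := by
  unfold UF at h
  by_contra hcon
  rw [if_neg hcon] at h
  exact h rfl

theorem UF_of {a : Sit B → ℤ} (h : 0 ≤ a ∧ ∀ v, v ∉ intVerts F → kk B a v = 0) :
    UF F B a = 1 := by
  unfold UF; rw [if_pos h]

theorem dom_UF {F' : Finset P2} (hFF : F ⊆ F') : Dom (UF F B) (UF F' B) := by
  refine ⟨UF_nonneg F B, UF_nonneg F' B, fun a b => ?_⟩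
  by_cases ha : UF F B a = 0
  · rw [ha, zero_mul]; exact mul_nonneg (UF_nonneg _ _ _) (UF_nonneg _ _ _)
  by_cases hb : UF F' B b = 0
  · rw [hb, mul_zero]; exact mul_nonneg (UF_nonneg _ _ _) (UF_nonneg _ _ _)
  obtain ⟨a0, a1⟩ := UF_ne_zero ha
  obtain ⟨b0, b1⟩ := UF_ne_zero hb
  rw [UF_of ⟨a0, a1⟩, UF_of ⟨b0, b1⟩, UF_of, UF_of]
  · refine ⟨le_sup_of_le_left a0, fun v hv => ?_⟩
    show max (kk B a v) (kk B b v) = 0
    rw [a1 v (fun h => hv (intVerts_mono hFF h)), b1 v hv, max_self]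
  · refine ⟨le_inf a0 b0, fun v hv => ?_⟩
    show min (kk B a v) (kk B b v) = 0
    rw [a1 v hv]
    exact min_eq_left (b0 _)

theorem cF_one_le (hc : 1 ≤ c) (F : Finset P2) (e : Edge) : 1 ≤ cF c F e := by
  unfold cF; split_ifs
  · exact hc
  · exact le_rfl

theorem cF_mono (hc : 1 ≤ c) {F F' : Finset P2} (h : F ⊆ F') (e : Edge) : cF c F e ≤ cF c F' e := by
  unfold cF
  by_cases h1 : e ∈ intEdges F
  · rw [if_pos h1, if_pos (intEdges_mono h h1)]
  · rw [if_neg h1]; split_ifs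
    · exact hc
    · exact le_rfl

theorem Z6_pos (hc : 1 ≤ c) (F : Finset P2) : 0 < Z6 c F := by
  rw [← Z_eq]; exact Z_pos hc F

theorem S_one_pos (hc : 1 ≤ c) (hFB : F ⊆ B) {N : ℤ} (hN : hb F ≤ N) :
    0 < S (gg B) (fun e => cF c F e.1) (UF F B) (fun _ => N) (fun _ => 1) := by
  rw [rep_one hFB hN]
  exact mul_pos (by positivity) (Z6_pos hc F)

/-- **Domain monotonicity**, general form: `F ⊆ F' ⊆ B`. -/
theorem E_mono_inc (hc : 1 ≤ c) {F' : Finset P2} (hFF : F ⊆ F') (hF'B : F' ⊆ B) (Φ : Pr2 → ℝ)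
    (hΦ : ∀ p q : Pr2, p.1 = q.1 → (∀ f ∈ F, p.2 f = q.2 f) → Φ p = Φ q)
    (hinc : IncAv (gg B) (fun h => Φ (kk B h, hh B h))) :
    E c F (fun ω => Φ (ω.1, ω.2.1)) ≤ E c F' (fun ω => Φ (ω.1, ω.2.1)) := by
  set N : ℤ := max (hb F) (hb F') with hN
  have h1 : hb F ≤ N := le_max_left _ _
  have h2 : hb F' ≤ N := le_max_right _ _
  have hN0 : 0 ≤ N := le_trans (by linarith [two_le_hb F]) h1
  have hΦ' : ∀ p q : Pr2, p.1 = q.1 → (∀ f ∈ F', p.2 f = q.2 f) → Φ p = Φ q :=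
    fun p q h3 h4 => hΦ p q h3 fun f hf => h4 f (hFF hf)
  rw [E_rep (hFF.trans hF'B) Φ hΦ h1, E_rep hF'B Φ hΦ' h2,
    div_le_div_iff₀ (S_one_pos hc (hFF.trans hF'B) h1) (S_one_pos hc hF'B h2)]
  have key := mono_heights (gg B) (c := fun e => cF c F' e.1) (c' := fun e => cF c F e.1)
    (fun e => cF_one_le hc F e.1) (fun e => cF_mono hc hFF e.1) (dom_UF (B := B) hFF)
    (fun e he a ha => by
      obtain ⟨a0, a1⟩ := UF_ne_zero ha
      have he' : e.1 ∉ intEdges F := by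
        intro h
        apply he
        show cF c F e.1 = cF c F' e.1
        unfold cF
        rw [if_pos h, if_pos (intEdges_mono hFF h)]
      obtain ⟨n1, n2⟩ := not_intVerts_of_edge he'
      exact ⟨a1 _ n1, a1 _ n2⟩) (fun _ => N) (fun _ => hN0) hinc
  linarith

end dom

/-! ### classes of height functions -/

/-- increasing-positive functions of the heights -/
def MP (Ψ : Pr2 → ℝ) : Prop :=
  ∀ B : Finset P2, MPos (fun h : Sit B → ℤ => Ψ (kk B h, hh B h))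

/-- flip-monotone functions of the heights -/
def FL (Ψ : Pr2 → ℝ) : Prop :=
  ∀ B : Finset P2, Fl (fun h : Sit B → ℤ => Ψ (kk B h, hh B h))

/-- functions of the heights at vertices and at the faces of `F` -/
def DepH (F : Finset P2) (Φ : Pr2 → ℝ) : Prop :=
  ∀ p q : Pr2, p.1 = q.1 → (∀ f ∈ F, p.2 f = q.2 f) → Φ p = Φ q

theorem depH_k (F : Finset P2) (Ψ : (P2 → ℤ) → ℝ) : DepH F (fun p => Ψ p.1) :=
  fun p q h _ => congrArg Ψ h

section classes

theorem MP.const {r : ℝ} (hr : 0 ≤ r) : MP (fun _ => r) := fun B => MPos.const hr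

theorem MP.add {Φ Ψ : Pr2 → ℝ} (h : MP Φ) (k : MP Ψ) : MP (fun p => Φ p + Ψ p) :=
  fun B => (h B).add (k B)

theorem MP.mul {Φ Ψ : Pr2 → ℝ} (h : MP Φ) (k : MP Ψ) : MP (fun p => Φ p * Ψ p) :=
  fun B => (h B).mul (k B)

theorem MP.smul {Φ : Pr2 → ℝ} (h : MP Φ) {r : ℝ} (hr : 0 ≤ r) : MP (fun p => r * Φ p) :=
  fun B => (h B).smul hr

theorem MP.sum {κ : Type*} (s : Finset κ) {f : κ → Pr2 → ℝ} (hf : ∀ k ∈ s, MP (f k)) :
    MP (fun p => ∑ k ∈ s, f k p) :=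
  fun B => MPos.sum s fun k hk => hf k hk B

theorem MP.prod {κ : Type*} (s : Finset κ) {f : κ → Pr2 → ℝ} (hf : ∀ k ∈ s, MP (f k)) :
    MP (fun p => ∏ k ∈ s, f k p) :=
  fun B => MPos.prod s fun k hk => hf k hk B

theorem MP.pow {Φ : Pr2 → ℝ} (h : MP Φ) (n : ℕ) : MP (fun p => Φ p ^ n) :=
  fun B => (h B).pow n

theorem MP.k (v : P2) : MP (fun p => (p.1 v : ℝ)) :=
  fun B => MPos.site (Sum.inl (Ann770.vm B be v))

theorem MP.h (f : P2) : MP (fun p => (p.2 f : ℝ)) := by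
  intro B
  by_cases hf : f ∈ B
  · refine (MPos.site (Sum.inr ⟨f, hf⟩)).congr fun h => ?_
    show ((hh B h f : ℤ) : ℝ) = _
    rw [hh_mem h hf]
  · refine (MPos.one).congr fun h => ?_
    show ((hh B h f : ℤ) : ℝ) = _
    unfold hh
    rw [dif_neg hf]; norm_num

theorem MP.signk (v : P2) : MP (fun p => ((p.1 v).sign : ℝ)) :=
  fun B => MPos.sign (Sum.inl (Ann770.vm B be v))

theorem MP.signh (f : P2) : MP (fun p => ((p.2 f).sign : ℝ)) := by
  intro B
  by_cases hf : f ∈ B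
  · refine (MPos.sign (Sum.inr ⟨f, hf⟩)).congr fun h => ?_
    show (((hh B h f).sign : ℤ) : ℝ) = _
    rw [hh_mem h hf]
  · refine (MPos.one).congr fun h => ?_
    show (((hh B h f).sign : ℤ) : ℝ) = _
    unfold hh
    rw [dif_neg hf]; norm_num

theorem hh_ab (B : Finset P2) (h : Sit B → ℤ) (f : P2) : hh B (ab h) f = |hh B h f| := by
  unfold hh
  by_cases hf : f ∈ B
  · rw [dif_pos hf, dif_pos hf]; rfl
  · rw [dif_neg hf, dif_neg hf]; rfl

theorem kk_mono (B : Finset P2) {a b : Sit B → ℤ} (h : a ≤ b) : kk B a ≤ kk B b :=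
  fun v => h _

theorem hh_mono (B : Finset P2) {a b : Sit B → ℤ} (h : a ≤ b) : hh B a ≤ hh B b := by
  intro f
  unfold hh
  split_ifs with hf
  · exact h _
  · exact le_rfl

theorem hh_nonneg (B : Finset P2) {a : Sit B → ℤ} (h : 0 ≤ a) : 0 ≤ hh B a := by
  intro f
  unfold hh
  split_ifs with hf
  · exact h _
  · simp

/-- nonnegative nondecreasing functions of `|k|, |h|` -/
theorem MP.abs {g : Pr2 → ℝ} (h0 : ∀ p, 0 ≤ p → 0 ≤ g p)
    (h1 : ∀ p q : Pr2, 0 ≤ p → p ≤ q → g p ≤ g q) :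
    MP (fun p => g (fun v => |p.1 v|, fun f => |p.2 f|)) := by
  intro B
  have := MPos.abs (S := Sit B) (g := fun a => g (kk B a, hh B a))
    (fun a ha => h0 _ ⟨fun v => ha _, hh_nonneg B ha⟩)
    (fun a b ha hab => h1 _ _ ⟨fun v => ha _, hh_nonneg B ha⟩ ⟨kk_mono B hab, hh_mono B hab⟩)
  refine this.congr fun h => ?_
  have e2 : hh B (ab h) = fun f => |hh B h f| := funext fun f => hh_ab B h f
  show g (fun v => |kk B h v|, fun f => |hh B h f|) = g (kk B (ab h), hh B (ab h))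
  rw [e2]
  rfl

/-- linear forms of the vertex heights on the geometry of `B` -/
theorem lin_sites (B : Finset P2) (s : Finset P2) (w : P2 → ℝ) (h : Sit B → ℤ) :
    ∑ v ∈ s, w v * (kk B h v : ℝ) =
      ∑ x : Sit B, (∑ v ∈ s with (Sum.inl (Ann770.vm B be v) : Sit B) = x, w v) * (h x : ℝ) := by
  rw [← Finset.sum_fiberwise (s := s) (g := fun v => (Sum.inl (Ann770.vm B be v) : Sit B))]
  refine Finset.sum_congr rfl fun x _ => ?_
  rw [Finset.sum_mul]
  refine Finset.sum_congr rfl fun v hv => ?_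
  have := (Finset.mem_filter.1 hv).2
  show w v * (h (Sum.inl (Ann770.vm B be v)) : ℝ) = _
  rw [this]

/-- convex functions of nonnegative linear forms of `k` -/
theorem FL.convex {φ : ℝ → ℝ} (hφ : ConvexOn ℝ Set.univ φ) (s : Finset P2) {w : P2 → ℝ}
    (hw : ∀ v ∈ s, 0 ≤ w v) : FL (fun p => φ (∑ v ∈ s, w v * (p.1 v : ℝ))) := by
  intro B
  have := Fl.convex (S := Sit B) hφ
    (f := fun x => ∑ v ∈ s with (Sum.inl (Ann770.vm B be v) : Sit B) = x, w v)
    (fun x => Finset.sum_nonneg fun v hv => hw v (Finset.mem_filter.1 hv).1)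
  have e : (fun h : Sit B → ℤ => φ (∑ v ∈ s, w v * (((kk B h, hh B h) : Pr2).1 v : ℝ))) =
      fun h : Sit B → ℤ => φ (∑ x : Sit B,
        (∑ v ∈ s with (Sum.inl (Ann770.vm B be v) : Sit B) = x, w v) * (h x : ℝ)) := by
    funext h
    rw [← lin_sites B s w h]
  rw [e]
  exact this

end classes

/-! ### consequences -/

section conseq
variable {c : ℝ} {F B : Finset P2}

theorem E_mono_MP (hc : 1 ≤ c) (hFB : F ⊆ B) {Ψ : Pr2 → ℝ} (hΨ : DepH F Ψ) (h : MP Ψ) :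
    E c F (fun ω => Ψ (ω.1, ω.2.1)) ≤ E c B (fun ω => Ψ (ω.1, ω.2.1)) :=
  E_mono_inc hc hFB (Finset.Subset.refl B) Ψ hΨ (IncAv.of_mpos _ (h B))

theorem E_mono_FL (hc : 1 ≤ c) (hFB : F ⊆ B) {Ψ : Pr2 → ℝ} (hΨ : DepH F Ψ) (h : FL Ψ) :
    E c F (fun ω => Ψ (ω.1, ω.2.1)) ≤ E c B (fun ω => Ψ (ω.1, ω.2.1)) :=
  E_mono_inc hc hFB (Finset.Subset.refl B) Ψ hΨ (IncAv.of_fl _ (h B))

/-- **Positive association** for increasing-positive functions. -/
theorem E_fkg (hc : 1 ≤ c) (F : Finset P2) {Φ Ψ : Pr2 → ℝ} (hΦ : MP Φ) (hΨ : MP Ψ)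
    (dΦ : DepH F Φ) (dΨ : DepH F Ψ) :
    E c F (fun ω => Φ (ω.1, ω.2.1)) * E c F (fun ω => Ψ (ω.1, ω.2.1)) ≤
      E c F (fun ω => Φ (ω.1, ω.2.1) * Ψ (ω.1, ω.2.1)) := by
  have hN := le_refl (hb F)
  have hN0 : (0 : ℤ) ≤ hb F := by linarith [two_le_hb F]
  have hFF := Finset.Subset.refl F
  have hU : LSM (UF F F) := by
    have := dom_UF (B := F) hFF
    exact ⟨this.1, this.2.2⟩
  have dM : DepH F (fun p => Φ p * Ψ p) := fun p q h1 h2 => by
    show Φ p * Ψ p = Φ q * Ψ q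
    rw [dΦ p q h1 h2, dΨ p q h1 h2]
  have key := fkg_heights (gg F) (c := fun e => cF c F e.1) (fun e => cF_one_le hc F e.1) hU
    (fun _ => hb F) (fun _ => hN0) (hΦ F) (hΨ F)
  have e1 := E_rep (c := c) hFF Φ dΦ hN
  have e2 := E_rep (c := c) hFF Ψ dΨ hN
  have e3 := E_rep (c := c) hFF (fun p => Φ p * Ψ p) dM hN
  have hpos := S_one_pos hc hFF hN
  rw [e1, e2]
  rw [show E c F (fun ω => Φ (ω.1, ω.2.1) * Ψ (ω.1, ω.2.1)) = _ from e3]
  rw [div_mul_div_comm, div_le_div_iff₀ (mul_pos hpos hpos) hpos]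
  nlinarith [key, hpos]

/-- nonnegative nondecreasing functions of the absolute values of the vertex heights -/
theorem E_abs_mono (hc : 1 ≤ c) (hFB : F ⊆ B) {g : (P2 → ℤ) → ℝ} (h0 : ∀ a, 0 ≤ a → 0 ≤ g a)
    (h1 : ∀ a b, 0 ≤ a → a ≤ b → g a ≤ g b) :
    E c F (fun ω => g (fun v => |ω.1 v|)) ≤ E c B (fun ω => g (fun v => |ω.1 v|)) := by
  have := MP.abs (g := fun p => g p.1) (fun p hp => h0 _ hp.1) (fun p q hp hpq => h1 _ _ hp.1 hpq.1)
  exact E_mono_MP hc hFB (Ψ := fun p => g (fun v => |p.1 v|))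
    (fun p q h _ => by show g (fun v => |p.1 v|) = g (fun v => |q.1 v|); rw [h]) this

/-- positive association for functions of `|k|` -/
theorem E_abs_fkg (hc : 1 ≤ c) (F : Finset P2) {g g' : (P2 → ℤ) → ℝ} (h0 : ∀ a, 0 ≤ a → 0 ≤ g a)
    (h1 : ∀ a b, 0 ≤ a → a ≤ b → g a ≤ g b) (h0' : ∀ a, 0 ≤ a → 0 ≤ g' a)
    (h1' : ∀ a b, 0 ≤ a → a ≤ b → g' a ≤ g' b) :
    E c F (fun ω => g (fun v => |ω.1 v|)) * E c F (fun ω => g' (fun v => |ω.1 v|)) ≤
      E c F (fun ω => g (fun v => |ω.1 v|) * g' (fun v => |ω.1 v|)) := by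
  have k := MP.abs (g := fun p => g p.1) (fun p hp => h0 _ hp.1)
    (fun p q hp hpq => h1 _ _ hp.1 hpq.1)
  have k' := MP.abs (g := fun p => g' p.1) (fun p hp => h0' _ hp.1)
    (fun p q hp hpq => h1' _ _ hp.1 hpq.1)
  exact E_fkg hc F (Φ := fun p => g (fun v => |p.1 v|)) (Ψ := fun p => g' (fun v => |p.1 v|)) k k'
    (fun p q h _ => by show g (fun v => |p.1 v|) = g (fun v => |q.1 v|); rw [h])
    (fun p q h _ => by show g' (fun v => |p.1 v|) = g' (fun v => |q.1 v|); rw [h])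

open Classical in
/-- **Monotonicity of the probability of height zero.** -/
theorem mono0 (hc : 1 ≤ c) (hFB : F ⊆ B) (v : P2) :
    Pr c B {ω | ω.1 v = 0} ≤ Pr c F {ω | ω.1 v = 0} := by
  have h1 := E_abs_mono hc hFB (g := fun a => if 0 < a v then (1 : ℝ) else 0)
    (fun a _ => by split_ifs <;> norm_num)
    (fun a b _ hab => by
      by_cases ha : 0 < a v
      · simp only [ha, lt_of_lt_of_le ha (hab v), if_true]; exact le_rfl
      · simp only [ha, if_false]; split_ifs <;> norm_num)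
  have e : ∀ G : Finset P2, Pr c G {ω | ω.1 v = 0} =
      1 - E c G (fun ω => if 0 < |ω.1 v| then (1 : ℝ) else 0) := by
    intro G
    have e1 : E c G (fun _ => (1 : ℝ)) = 1 := E_const hc G 1
    rw [eq_sub_iff_add_eq]
    refine Eq.trans ?_ e1
    unfold Pr
    rw [← E_add]
    congr 1
    funext ω
    by_cases h : ω.1 v = 0
    · simp [h]
    · have : 0 < |ω.1 v| := abs_pos.2 h
      simp [h]
  rw [e, e]
  linarith

/-- **Two-point functions** are nonnegative and increase with the domain. -/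
theorem E_two_mono (hc : 1 ≤ c) (hFB : F ⊆ B) (x y : P2) :
    E c F (fun ω => (ω.1 x : ℝ) * ω.1 y) ≤ E c B (fun ω => (ω.1 x : ℝ) * ω.1 y) :=
  E_mono_MP hc hFB (Ψ := fun p => (p.1 x : ℝ) * p.1 y)
    (depH_k F (fun k => (k x : ℝ) * k y)) ((MP.k x).mul (MP.k y))

/-- products of vertex heights -/
theorem E_prod_mono (hc : 1 ≤ c) (hFB : F ⊆ B) {ι : Type*} (s : Finset ι) (x : ι → P2) :
    E c F (fun ω => ∏ i ∈ s, (ω.1 (x i) : ℝ)) ≤ E c B (fun ω => ∏ i ∈ s, (ω.1 (x i) : ℝ)) :=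
  E_mono_MP hc hFB (Ψ := fun p => ∏ i ∈ s, (p.1 (x i) : ℝ))
    (depH_k F (fun k => ∏ i ∈ s, (k (x i) : ℝ))) (MP.prod s fun i _ => MP.k (x i))

/-- **Convex order**: convex functions of nonnegative linear forms. -/
theorem E_convex_mono (hc : 1 ≤ c) (hFB : F ⊆ B) {φ : ℝ → ℝ} (hφ : ConvexOn ℝ Set.univ φ)
    (s : Finset P2) {w : P2 → ℝ} (hw : ∀ v ∈ s, 0 ≤ w v) :
    E c F (fun ω => φ (∑ v ∈ s, w v * (ω.1 v : ℝ))) ≤
      E c B (fun ω => φ (∑ v ∈ s, w v * (ω.1 v : ℝ))) :=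
  E_mono_FL hc hFB (Ψ := fun p => φ (∑ v ∈ s, w v * (p.1 v : ℝ)))
    (depH_k F (fun k => φ (∑ v ∈ s, w v * (k v : ℝ)))) (FL.convex hφ s hw)

open Classical in
/-- coefficients on the interior sites of `B` -/
def co (B s : Finset P2) (w : P2 → ℝ) : Sit B → ℝ :=
  Sum.elim (Sum.elim (fun v => if v.1 ∈ s then w v.1 else 0) (fun _ => 0)) (fun _ => 0)

theorem sum_co (B s : Finset P2) (w : P2 → ℝ) (h : Sit B → ℤ) :
    ∑ x : Sit B, co B s w x * (h x : ℝ) = ∑ v ∈ s ∩ intVerts B, w v * (kk B h v : ℝ) := by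
  classical
  rw [Fintype.sum_sum_type, Fintype.sum_sum_type]
  have e1 : ∑ x : Unit, co B s w (Sum.inl (Sum.inr x)) * (h (Sum.inl (Sum.inr x)) : ℝ) = 0 :=
    Finset.sum_eq_zero fun x _ => by simp [co]
  have e2 : ∑ x : ↥B, co B s w (Sum.inr x) * (h (Sum.inr x) : ℝ) = 0 :=
    Finset.sum_eq_zero fun x _ => by simp [co]
  rw [e1, e2, add_zero, add_zero]
  have e3 : ∀ x : ↥(intVerts B), co B s w (Sum.inl (Sum.inl x)) * (h (Sum.inl (Sum.inl x)) : ℝ) =
      (fun v => if v ∈ s then w v * (kk B h v : ℝ) else 0) x.1 := by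
    intro x
    show (if x.1 ∈ s then w x.1 else 0) * (h (Sum.inl (Sum.inl x)) : ℝ) =
      if x.1 ∈ s then w x.1 * (kk B h x.1 : ℝ) else 0
    rw [kk_mem h x.2]
    split_ifs
    · rfl
    · ring
  rw [Finset.sum_congr rfl fun x _ => e3 x,
    Finset.sum_coe_sort (intVerts B) (fun v => if v ∈ s then w v * (kk B h v : ℝ) else 0),
    ← Finset.sum_filter]
  refine Finset.sum_congr ?_ fun _ _ => rfl
  ext v
  rw [Finset.mem_filter, Finset.mem_inter, and_comm]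

theorem abs_co (B s : Finset P2) (w : P2 → ℝ) (x : Sit B) :
    |co B s w x| = co B s (fun v => |w v|) x := by
  classical
  rcases x with (v | v) | f
  · show |(if v.1 ∈ s then w v.1 else 0)| = if v.1 ∈ s then |w v.1| else 0
    split_ifs <;> simp
  · show |(0 : ℝ)| = 0
    simp
  · show |(0 : ℝ)| = 0
    simp

theorem sum_valid {G : Finset P2} (hG : G ⊆ B) {ω : Cfg} (h : Valid G ω) (s : Finset P2)
    (w : P2 → ℝ) : ∑ v ∈ s ∩ intVerts B, w v * (ω.1 v : ℝ) = ∑ v ∈ s, w v * (ω.1 v : ℝ) := by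
  refine Finset.sum_subset Finset.inter_subset_left fun v hv hv' => ?_
  have : v ∉ intVerts G := fun h' => hv' (Finset.mem_inter.2 ⟨hv, intVerts_mono hG h'⟩)
  rw [h.zero v this]; simp

/-- one-sided cosine comparison -/
theorem E_cos_aux (hc : 1 ≤ c) (hFB : F ⊆ B) {ε : ℝ} (hε : |ε| ≤ 1) (s : Finset P2) (w : P2 → ℝ) :
    E c F (fun ω => (1 / 2) * (∑ v ∈ s, |w v| * (ω.1 v : ℝ)) ^ 2 +
        ε * Real.cos (∑ v ∈ s, w v * (ω.1 v : ℝ))) ≤
      E c B (fun ω => (1 / 2) * (∑ v ∈ s, |w v| * (ω.1 v : ℝ)) ^ 2 +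
        ε * Real.cos (∑ v ∈ s, w v * (ω.1 v : ℝ))) := by
  have hfl := Fl.cos (S := Sit B) (co B s w) hε
  have e : (fun h : Sit B → ℤ => (1 / 2) * (∑ x, |co B s w x| * (h x : ℝ)) ^ 2 +
      ε * Real.cos (∑ x, co B s w x * (h x : ℝ))) =
      fun h : Sit B → ℤ => (1 / 2) * (∑ v ∈ s ∩ intVerts B, |w v| * (kk B h v : ℝ)) ^ 2 +
      ε * Real.cos (∑ v ∈ s ∩ intVerts B, w v * (kk B h v : ℝ)) := by
    funext h
    rw [sum_co]
    simp only [abs_co]
    rw [sum_co]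
  rw [e] at hfl
  have key := E_mono_inc (c := c) hc hFB (Finset.Subset.refl B)
    (fun p : Pr2 => (1 / 2) * (∑ v ∈ s ∩ intVerts B, |w v| * (p.1 v : ℝ)) ^ 2 +
      ε * Real.cos (∑ v ∈ s ∩ intVerts B, w v * (p.1 v : ℝ)))
    (depH_k F (fun k => (1 / 2) * (∑ v ∈ s ∩ intVerts B, |w v| * (k v : ℝ)) ^ 2 +
      ε * Real.cos (∑ v ∈ s ∩ intVerts B, w v * (k v : ℝ))))
    (IncAv.of_fl _ hfl)
  have c1 := E_congr (c := c) (F := F)
    (f := fun ω => (1 / 2) * (∑ v ∈ s ∩ intVerts B, |w v| * (ω.1 v : ℝ)) ^ 2 +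
      ε * Real.cos (∑ v ∈ s ∩ intVerts B, w v * (ω.1 v : ℝ)))
    (g := fun ω => (1 / 2) * (∑ v ∈ s, |w v| * (ω.1 v : ℝ)) ^ 2 +
      ε * Real.cos (∑ v ∈ s, w v * (ω.1 v : ℝ)))
    (fun ω hω => by
      show (1 / 2) * (∑ v ∈ s ∩ intVerts B, |w v| * (ω.1 v : ℝ)) ^ 2 +
        ε * Real.cos (∑ v ∈ s ∩ intVerts B, w v * (ω.1 v : ℝ)) = _
      rw [sum_valid hFB hω s w, sum_valid hFB hω s (fun v => |w v|)])
  have c2 := E_congr (c := c) (F := B)
    (f := fun ω => (1 / 2) * (∑ v ∈ s ∩ intVerts B, |w v| * (ω.1 v : ℝ)) ^ 2 +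
      ε * Real.cos (∑ v ∈ s ∩ intVerts B, w v * (ω.1 v : ℝ)))
    (g := fun ω => (1 / 2) * (∑ v ∈ s, |w v| * (ω.1 v : ℝ)) ^ 2 +
      ε * Real.cos (∑ v ∈ s, w v * (ω.1 v : ℝ)))
    (fun ω hω => by
      show (1 / 2) * (∑ v ∈ s ∩ intVerts B, |w v| * (ω.1 v : ℝ)) ^ 2 +
        ε * Real.cos (∑ v ∈ s ∩ intVerts B, w v * (ω.1 v : ℝ)) = _
      rw [sum_valid (Finset.Subset.refl B) hω s w,
        sum_valid (Finset.Subset.refl B) hω s (fun v => |w v|)])
  rw [← c1, ← c2]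
  exact key

/-- **Cosine comparison**: `|E_B cos X - E_F cos X| ≤ ½ (E_B X_{|w|}² - E_F X_{|w|}²)`. -/
theorem E_cos_mono (hc : 1 ≤ c) (hFB : F ⊆ B) (s : Finset P2) (w : P2 → ℝ) :
    |E c B (fun ω => Real.cos (∑ v ∈ s, w v * (ω.1 v : ℝ))) -
        E c F (fun ω => Real.cos (∑ v ∈ s, w v * (ω.1 v : ℝ)))| ≤
      (1 / 2) * (E c B (fun ω => (∑ v ∈ s, |w v| * (ω.1 v : ℝ)) ^ 2) -
        E c F (fun ω => (∑ v ∈ s, |w v| * (ω.1 v : ℝ)) ^ 2)) := by
  have h1 := E_cos_aux hc hFB (ε := 1) (by norm_num) s w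
  have h2 := E_cos_aux hc hFB (ε := -1) (by norm_num) s w
  rw [E_add, E_add, E_smul, E_smul, E_smul, E_smul] at h1 h2
  rw [abs_le]
  constructor <;> linarith

/-- two-point functions are nonnegative -/
theorem E_two_nonneg (hc : 1 ≤ c) (F : Finset P2) (x y : P2) :
    0 ≤ E c F (fun ω => (ω.1 x : ℝ) * ω.1 y) := by
  have h := E_two_mono hc (Finset.empty_subset F) x y
  refine le_trans (le_of_eq ?_) h
  have : E c ∅ (fun ω => (ω.1 x : ℝ) * ω.1 y) = E c ∅ (fun _ => 0) := by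
    refine E_congr fun ω hω => ?_
    have : x ∉ intVerts (∅ : Finset P2) := by simp [intVerts]
    show (ω.1 x : ℝ) * ω.1 y = 0
    rw [hω.zero x this]; simp
  rw [this, E_const hc]

end conseq

end Crest.Agent.R161.Brg722
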