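import Crest.Agent.R161.Mono_375
import Crest.Agent.R161.Ht_132

/-!
# Bridge between `Defs372` and the abstract height systems (helper375)

For finite face sets `F ⊆ F'` (no topology): `GG F'` is the geometry of `F'` on finite types, and
`E c F` is the `S`-average in `GG F'` with couplings `cF` (`c` on `intEdges F`, `1` elsewhere) and
pins `pinF` (zero on the non-interior vertices of `F`).
-/

set_option autoImplicit false
set_option linter.unusedSectionVars false
set_option linter.unusedVariables false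

open Finset
open Crest.Agent.R161.Geo729 Crest.Agent.R161.Defs372 Crest.Agent.R161.Ht132
open Crest.Agent.R161.Lsm375 Crest.Agent.R161.Gks375 Crest.Agent.R161.Hts375
open Crest.Agent.R161.Abs375 Crest.Agent.R161.Pol375 Crest.Agent.R161.Mono375

namespace Crest.Agent.R161.Brs375

noncomputable section

/-- vertices touching `F` -/
def crn (F : Finset P2) : Finset P2 :=
  F.biUnion fun f => {(f.1, f.2), (f.1 + 1, f.2), (f.1, f.2 + 1), (f.1 + 1, f.2 + 1)}

lemma mem_crn {F : Finset P2} {v : P2} : v ∈ crn F ↔ ∃ f ∈ F, Geo729.IsCorner v f := by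
  simp [crn, Geo729.IsCorner]

lemma crn_of {F : Finset P2} {v f : P2} (hf : f ∈ F) (h : Geo729.IsCorner v f) : v ∈ crn F :=
  mem_crn.2 ⟨f, hf, h⟩

/-- the geometry of `F` on finite types -/
def GG (F : Finset P2) : Geo (crn F) F (intEdges F) where
  inc v f := Geo729.IsCorner v.1 f.1
  v₁ e := ⟨src e.1, crn_of (mem_intEdges.1 e.2).1 (isCorner_src_fA e.1)⟩
  v₂ e := ⟨tgt e.1, crn_of (mem_intEdges.1 e.2).1 (isCorner_tgt_fA e.1)⟩
  f₁ e := ⟨fA e.1, (mem_intEdges.1 e.2).1⟩
  f₂ e := ⟨fB e.1, (mem_intEdges.1 e.2).2⟩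
  inc₁₁ e := isCorner_src_fA e.1
  inc₁₂ e := isCorner_src_fB e.1
  inc₂₁ e := isCorner_tgt_fA e.1
  inc₂₂ e := isCorner_tgt_fB e.1

variable {F F' : Finset P2}

/-- couplings of `F` inside `F'` -/
def cF (F F' : Finset P2) (c : ℝ) (e : intEdges F') : ℝ := if e.1 ∈ intEdges F then c else 1

open Classical in
/-- pins of `F` inside `F'` -/
def pinF (F F' : Finset P2) (a : (crn F') ⊕ F' → ℤ) : ℝ :=
  if 0 ≤ a ∧ ∀ v : crn F', v.1 ∉ intVerts F → a (.inl v) = 0 then 1 else 0

/-- extension of a height function of `GG F'` to a pair on `P2` with the values outside `F`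
canonical -/
def ext (F F' : Finset P2) (h : (crn F') ⊕ F' → ℤ) : Pr2 :=
  (fun v => if hv : v ∈ crn F' then h (.inl ⟨v, hv⟩) else 0,
   fun f => if hf : f ∈ F' then (if f ∈ F then h (.inr ⟨f, hf⟩) else 1) else 1)

/-- restriction of a pair, with signs on the faces of `F' \ F` -/
def res (F F' : Finset P2) (p : Pr2) (s : F' → ℤˣ) : (crn F') ⊕ F' → ℤ
  | .inl v => p.1 v.1
  | .inr f => if f.1 ∈ F then p.2 f.1 else ((s f : ℤˣ) : ℤ)

lemma not_intV_of_corner {v f : P2} (hf : f ∉ F) (h : Geo729.IsCorner v f) : v ∉ intVerts F := by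
  rw [mem_intVerts, intV_iff]
  exact fun h' => hf (h' f h)

lemma src_not {e : Edge} (he : e ∉ intEdges F) : src e ∉ intVerts F ∧ tgt e ∉ intVerts F := by
  rw [mem_intEdges, not_and_or] at he
  rcases he with h | h
  · exact ⟨not_intV_of_corner h (isCorner_src_fA e), not_intV_of_corner h (isCorner_tgt_fA e)⟩
  · exact ⟨not_intV_of_corner h (isCorner_src_fB e), not_intV_of_corner h (isCorner_tgt_fB e)⟩

lemma intEdges_mono (h : F ⊆ F') : intEdges F ⊆ intEdges F' := fun e he => by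
  rw [mem_intEdges] at he ⊢
  exact ⟨h he.1, h he.2⟩

lemma intVerts_crn (h : F ⊆ F') {v : P2} (hv : v ∈ intVerts F) : v ∈ crn F' := by
  have hvF : v ∈ F := (Finset.mem_filter.1 hv).1
  exact crn_of (h hvF) (Or.inl rfl)

/-- pinned valid height functions -/
def PV (F F' : Finset P2) (h : (crn F') ⊕ F' → ℤ) : Prop :=
  (GG F').Valid h ∧ ∀ v : crn F', v.1 ∉ intVerts F → h (.inl v) = 0

lemma valid2_ext (hF : F ⊆ F') {h : (crn F') ⊕ F' → ℤ} (hh : PV F F' h) :
    Valid2 F (ext F F' h) where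
  zero := fun v hv => by
    unfold ext
    simp only
    split_ifs with h1
    · exact hh.2 ⟨v, h1⟩ hv
    · rfl
  even := fun v => by
    unfold ext
    simp only
    split_ifs with h1
    · exact hh.1.1 ⟨v, h1⟩
    · exact Even.zero
  off := fun f hf => by
    unfold ext
    simp only [hf, if_false]
    split_ifs <;> rfl
  corner := fun f hf v hv => by
    unfold ext
    simp only [hF hf, hf, dif_pos, if_pos, crn_of (hF hf) hv]
    exact hh.1.2.2 ⟨v, crn_of (hF hf) hv⟩ ⟨f, hF hf⟩ hv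

lemma pv_res (hF : F ⊆ F') {p : Pr2} (hp : Valid2 F p) (s : F' → ℤˣ) : PV F F' (res F F' p s) := by
  refine ⟨⟨fun v => hp.even v.1, fun f => ?_, fun v f hvf => ?_⟩, fun v hv => hp.zero v.1 hv⟩
  · show Odd (if f.1 ∈ F then p.2 f.1 else ((s f : ℤˣ) : ℤ))
    split_ifs with h1
    · have h2 := hp.even f.1
      have h3 := hp.corner f.1 h1 f.1 (Or.inl rfl)
      obtain ⟨r, hr⟩ := h2
      rw [abs_eq (by norm_num)] at h3
      rcases h3 with h3 | h3
      · exact ⟨r - 1 + (r - r), by omega⟩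
      · exact ⟨r, by omega⟩
    · rcases Int.units_eq_one_or (s f) with h | h <;> rw [h] <;> decide
  · show |p.1 v.1 - (if f.1 ∈ F then p.2 f.1 else ((s f : ℤˣ) : ℤ))| = 1
    split_ifs with h1
    · exact hp.corner f.1 h1 v.1 hvf
    · rw [hp.zero v.1 (not_intV_of_corner h1 hvf)]
      rcases Int.units_eq_one_or (s f) with h | h <;> rw [h] <;> decide

lemma ext_res {p : Pr2} (hF : F ⊆ F') (hp : Valid2 F p) (s : F' → ℤˣ) :
    ext F F' (res F F' p s) = p := by
  refine Prod.ext (funext fun v => ?_) (funext fun f => ?_)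
  · show (if hv : v ∈ crn F' then p.1 v else 0) = p.1 v
    split_ifs with h1
    · rfl
    · exact (hp.zero v fun h => h1 (intVerts_crn hF h)).symm
  · show (if hf : f ∈ F' then (if f ∈ F then (if f ∈ F then p.2 f else ((s ⟨f, hf⟩ : ℤˣ) : ℤ)) else 1)
      else 1) = p.2 f
    by_cases h1 : f ∈ F
    · rw [dif_pos (hF h1), if_pos h1, if_pos h1]
    · rw [hp.off f h1]
      split_ifs <;> rfl

/-- sign of a `±1` integer -/
def sg (a : ℤ) : ℤˣ := if a = 1 then 1 else -1

lemma face_pm {h : (crn F') ⊕ F' → ℤ} (hh : PV F F' h) {f : F'} (hf : f.1 ∉ F) :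
    ((sg (h (.inr f)) : ℤˣ) : ℤ) = h (.inr f) := by
  have h1 := hh.1.2.2 ⟨f.1, crn_of f.2 (Or.inl rfl)⟩ f (Or.inl rfl)
  rw [hh.2 _ (not_intV_of_corner hf (Or.inl rfl)), abs_eq (by norm_num)] at h1
  unfold sg
  rcases h1 with h1 | h1
  · have h2 : h (.inr f) = -1 := by omega
    rw [h2]; decide
  · have h2 : h (.inr f) = 1 := by omega
    rw [h2]; decide

/-- signs of the faces outside `F` (`1` inside) -/
def sgn (F F' : Finset P2) (h : (crn F') ⊕ F' → ℤ) : F' → ℤˣ :=
  fun f => if f.1 ∈ F then 1 else sg (h (.inr f))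

lemma res_ext (hF : F ⊆ F') {h : (crn F') ⊕ F' → ℤ} (hh : PV F F' h) :
    res F F' (ext F F' h) (sgn F F' h) = h := by
  funext x
  rcases x with v | f
  · show (if hv : v.1 ∈ crn F' then h (.inl ⟨v.1, hv⟩) else 0) = h (.inl v)
    rw [dif_pos v.2]
  · show (if f.1 ∈ F then (if hf : f.1 ∈ F' then (if f.1 ∈ F then h (.inr ⟨f.1, hf⟩) else 1) else 1)
      else ((sgn F F' h f : ℤˣ) : ℤ)) = h (.inr f)
    by_cases h1 : f.1 ∈ F
    · rw [if_pos h1, dif_pos f.2, if_pos h1]
    · rw [if_neg h1]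
      unfold sgn
      rw [if_neg h1]
      exact face_pm hh h1

/-- weight of a pinned height function -/
lemma W_res (hF : F ⊆ F') (c : ℝ) {h : (crn F') ⊕ F' → ℤ} (hh : PV F F' h) :
    (GG F').W (cF F F' c) h = wt6 c F (ext F F' h) := by
  classical
  unfold Geo.W
  rw [if_pos hh.1]
  have hw : wt6 c F (ext F F' h) = ∏ e ∈ intEdges F', (if e ∈ intEdges F then
      w6 c (ext F F' h) e else 1) := by
    unfold wt6
    rw [← Finset.prod_subset (intEdges_mono hF) (f := fun e => if e ∈ intEdges F then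
      w6 c (ext F F' h) e else 1) (fun e _ he => if_neg he)]
    exact Finset.prod_congr rfl fun e he => (if_pos he).symm
  rw [hw, ← Finset.prod_attach (intEdges F'), Finset.univ_eq_attach]
  refine Finset.prod_congr rfl fun e _ => ?_
  unfold Geo.wp cF
  by_cases he : e.1 ∈ intEdges F
  · rw [if_pos he, if_pos he]
    unfold w6 Geo.Flat
    have h1 := (mem_intEdges.1 he)
    have e1 : (ext F F' h).1 (src e.1) = h (.inl ((GG F').v₁ e)) := dif_pos _
    have e2 : (ext F F' h).1 (tgt e.1) = h (.inl ((GG F').v₂ e)) := dif_pos _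
    have e3 : (ext F F' h).2 (fA e.1) = h (.inr ((GG F').f₁ e)) :=
      (dif_pos (hF h1.1)).trans (if_pos h1.1)
    have e4 : (ext F F' h).2 (fB e.1) = h (.inr ((GG F').f₂ e)) :=
      (dif_pos (hF h1.2)).trans (if_pos h1.2)
    rw [e1, e2, e3, e4]
    split_ifs <;> rfl
  · rw [if_neg he, if_neg he]
    split_ifs <;> rfl

/-- signs which are `1` on `F` -/
def SG (F F' : Finset P2) : Finset (F' → ℤˣ) :=
  Finset.univ.filter fun s => ∀ f : F', f.1 ∈ F → s f = 1

lemma SG_card_pos (F F' : Finset P2) : 0 < ((SG F F').card : ℝ) := by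
  have : (1 : F' → ℤˣ) ∈ SG F F' := by simp [SG]
  exact_mod_cast Finset.card_pos.2 ⟨_, this⟩

lemma hb_mono (hF : F ⊆ F') : hb F ≤ hb F' := by
  unfold hb
  have := Finset.card_le_card hF
  linarith

lemma one_le_hb (F : Finset P2) : 1 ≤ hb F := by
  unfold hb; linarith [Int.natCast_nonneg F.card]

lemma res_box (hF : F ⊆ F') {p : Pr2} (hp : Valid2 F p) (s : F' → ℤˣ) {M : ℤ} (hM : hb F' ≤ M) :
    res F F' p s ∈ Finset.Icc (-(fun _ => M : (crn F') ⊕ F' → ℤ)) (fun _ => M) := by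
  have hv := valid_mk hp (Finset.empty_subset _)
  have hM' : hb F ≤ M := (hb_mono hF).trans hM
  have key : ∀ x, |res F F' p s x| ≤ M := by
    intro x
    rcases x with v | f
    · exact (hv.abs_vert v.1).trans hM'
    · show |(if f.1 ∈ F then p.2 f.1 else ((s f : ℤˣ) : ℤ))| ≤ M
      split_ifs with h1
      · exact (hv.abs_face f.1).trans hM'
      · have := one_le_hb F'
        rcases Int.units_eq_one_or (s f) with h | h <;> rw [h] <;> simp <;> linarith
  rw [Finset.mem_Icc]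
  exact ⟨fun x => (abs_le.1 (key x)).1, fun x => (abs_le.1 (key x)).2⟩

/-- **Bridge, unnormalised.** -/
theorem S_eq (hF : F ⊆ F') (c : ℝ) {M : ℤ} (hM : hb F' ≤ M) (Φ : Pr2 → ℝ) :
    S (GG F') (cF F F' c) (pinF F F') (fun _ => M) (fun h => Φ (ext F F' h)) =
      (SG F F').card * ∑ p ∈ conf2 F, wt6 c F p * Φ p := by
  classical
  have e1 : ((SG F F').card : ℝ) * ∑ p ∈ conf2 F, wt6 c F p * Φ p =
      ∑ q ∈ conf2 F ×ˢ SG F F', wt6 c F q.1 * Φ q.1 := by
    rw [Finset.sum_product]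
    simp only [Finset.sum_const, nsmul_eq_mul]
    rw [Finset.mul_sum]
  rw [e1]
  unfold S
  have e2 : ∑ h ∈ Finset.Icc (-(fun _ => M : (crn F') ⊕ F' → ℤ)) (fun _ => M),
      (GG F').W (cF F F' c) h * pinF F F' (ab h) * Φ (ext F F' h) =
      ∑ h ∈ (Finset.Icc (-(fun _ => M : (crn F') ⊕ F' → ℤ)) (fun _ => M)).filter (PV F F'),
        wt6 c F (ext F F' h) * Φ (ext F F' h) := by
    rw [Finset.sum_filter]
    refine Finset.sum_congr rfl fun h _ => ?_
    by_cases hh : PV F F' h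
    · rw [if_pos hh, W_res hF c hh]
      unfold pinF
      rw [if_pos, mul_one]
      refine ⟨fun x => abs_nonneg _, fun v hv => ?_⟩
      simp [ab, hh.2 v hv]
    · rw [if_neg hh]
      by_cases h1 : (GG F').Valid h
      · have h2 : ¬ (0 ≤ ab h ∧ ∀ v : crn F', v.1 ∉ intVerts F → ab h (.inl v) = 0) := by
          intro h3
          exact hh ⟨h1, fun v hv => abs_eq_zero.1 (h3.2 v hv)⟩
        unfold pinF
        rw [if_neg h2]; ring
      · unfold Geo.W
        rw [if_neg h1]; ring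
  rw [e2]
  symm
  refine Finset.sum_nbij' (fun q => res F F' q.1 q.2) (fun h => (ext F F' h, sgn F F' h))
    ?_ ?_ ?_ ?_ ?_
  · rintro ⟨p, s⟩ hq
    rw [Finset.mem_product, mem_conf2] at hq
    rw [Finset.mem_filter]
    exact ⟨res_box hF hq.1 s hM, pv_res hF hq.1 s⟩
  · intro h hh
    rw [Finset.mem_filter] at hh
    rw [Finset.mem_product, mem_conf2]
    refine ⟨valid2_ext hF hh.2, ?_⟩
    simp only [SG, Finset.mem_filter, Finset.mem_univ, true_and]
    intro f hf
    unfold sgn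
    rw [if_pos hf]
  · rintro ⟨p, s⟩ hq
    rw [Finset.mem_product, mem_conf2] at hq
    simp only [SG, Finset.mem_filter, Finset.mem_univ, true_and] at hq
    refine Prod.ext (ext_res hF hq.1 s) ?_
    funext f
    show (if f.1 ∈ F then 1 else sg (if f.1 ∈ F then p.2 f.1 else ((s f : ℤˣ) : ℤ))) = s f
    by_cases h1 : f.1 ∈ F
    · rw [if_pos h1, hq.2 f h1]
    · rw [if_neg h1, if_neg h1]
      rcases Int.units_eq_one_or (s f) with h | h <;> rw [h] <;> decide
  · intro h hh
    rw [Finset.mem_filter] at hh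
    exact res_ext hF hh.2
  · rintro ⟨p, s⟩ hq
    rw [Finset.mem_product, mem_conf2] at hq
    simp only
    rw [ext_res hF hq.1 s]

/-- **Bridge**: `E c F` as an `S`-average in the geometry of `F' ⊇ F`. -/
theorem E_bridge (hF : F ⊆ F') {c : ℝ} {M : ℤ} (hM : hb F' ≤ M) (Φ : Pr2 → ℝ) :
    E c F (fun ω => Φ (ω.1, ω.2.1)) =
      S (GG F') (cF F F' c) (pinF F F') (fun _ => M) (fun h => Φ (ext F F' h)) /
      S (GG F') (cF F F' c) (pinF F F') (fun _ => M) (fun _ => 1) := by
  have h1 := S_eq hF c hM (fun _ => 1)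
  rw [S_eq hF c hM Φ, h1, E_eq6]
  unfold Z6
  simp only [mul_one]
  rw [mul_div_mul_left _ _ (SG_card_pos F F').ne']

end

end Crest.Agent.R161.Brs375
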