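import Crest.Agent.R150.Path_357

/-!
# R161, capped cylinders (helper863), part 1: long capped cylinders

For a column weight `W` with Perron-Frobenius data and boundary vectors `B0 B1 ≥ 0`, the capped sums
with `n` free columns on the left, a window of `K` columns and `m` free columns on the right converge
(normalised) to the state `ES` of the infinite cylinder; with a sign `φ v = ±1` inserted in the left
columns they converge to `0`, if `|TW_φ| ≤ TW - κ`.
-/

set_option autoImplicit false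

noncomputable section

open Matrix Filter Topology
open Crest.Agent.R150.Base357

namespace Crest.Agent.R161.Cap863

variable {S V : Type*} [Fintype S] [DecidableEq S] [Fintype V]

/-- left vector: `B0` transported through `n` columns with the insertion `φ` -/
def lv (W : S → S → V → ℝ) (B0 : S → ℝ) (φ : V → ℝ) (n : ℕ) (t : S) : ℝ :=
  ∑ s, B0 s * (TW (fun s s' v => W s s' v * φ v) ^ n) s t

/-- right vector -/
def rv (W : S → S → V → ℝ) (B1 : S → ℝ) (m : ℕ) (t : S) : ℝ :=
  ∑ u, (TW W ^ m) t u * B1 u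

/-- capped sum of a window function -/
def capS (W : S → S → V → ℝ) (B0 B1 : S → ℝ) (φ : V → ℝ) (n K m : ℕ)
    (g : S → (Fin K → S × V) → ℝ) : ℝ :=
  ∑ t, ∑ p : Fin K → S × V, lv W B0 φ n t * pw W t p * g t p * rv W B1 m (ls t p)

lemma rv_tendsto {W : S → S → V → ℝ} {lam : ℝ} {w : S → ℝ} (h : PFData (TW W) lam w)
    (B1 : S → ℝ) (t : S) :
    Tendsto (fun m : ℕ => rv W B1 m t / lam ^ m) atTop (𝓝 (w t * ∑ u, w u * B1 u)) := by
  have e : (fun m : ℕ => rv W B1 m t / lam ^ m) =
      fun m : ℕ => ∑ u, (TW W ^ m) t u / lam ^ m * B1 u := by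
    funext m
    rw [rv, Finset.sum_div]
    exact Finset.sum_congr rfl fun u _ => by ring
  rw [e, Finset.mul_sum]
  refine tendsto_finsetSum _ fun u _ => ?_
  have := (h.tends t u).mul_const (B1 u)
  rwa [mul_assoc] at this

lemma lv_one_tendsto {W : S → S → V → ℝ} {lam : ℝ} {w : S → ℝ} (h : PFData (TW W) lam w)
    (B0 : S → ℝ) (t : S) :
    Tendsto (fun n : ℕ => lv W B0 (fun _ => 1) n t / lam ^ n) atTop
      (𝓝 (w t * ∑ u, w u * B0 u)) := by
  have e : (fun n : ℕ => lv W B0 (fun _ => 1) n t / lam ^ n) =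
      fun n : ℕ => ∑ u, (TW W ^ n) u t / lam ^ n * B0 u := by
    funext n
    rw [lv, Finset.sum_div]
    simp only [mul_one]
    exact Finset.sum_congr rfl fun u _ => by ring
  rw [e, Finset.mul_sum]
  refine tendsto_finsetSum _ fun u _ => ?_
  have := (h.tends u t).mul_const (B0 u)
  have e2 : w t * (w u * B0 u) = w u * w t * B0 u := by ring
  rw [e2]
  exact this

/-- entrywise domination of powers -/
lemma abs_pow_le {A D : Matrix S S ℝ} (hAD : ∀ s t, |A s t| ≤ D s t) (n : ℕ) (s t : S) :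
    |(A ^ n) s t| ≤ (D ^ n) s t := by
  induction n generalizing t with
  | zero =>
    simp only [pow_zero, Matrix.one_apply]
    split_ifs <;> simp
  | succ n ih =>
    rw [pow_succ, pow_succ, Matrix.mul_apply, Matrix.mul_apply]
    refine (Finset.abs_sum_le_sum_abs _ _).trans (Finset.sum_le_sum fun u _ => ?_)
    rw [abs_mul]
    exact mul_le_mul (ih u) (hAD u t) (abs_nonneg _) ((abs_nonneg _).trans (ih u))

lemma lv_tendsto_zero {W : S → S → V → ℝ} {lam : ℝ} {w : S → ℝ} (h : PFData (TW W) lam w)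
    (hsym : (TW W)ᵀ = TW W) {B0 : S → ℝ} (hB0 : ∀ s, 0 ≤ B0 s) {φ : V → ℝ} {κ : ℝ} (hκ : 0 < κ)
    (hφ : ∀ s t, |TW (fun s s' v => W s s' v * φ v) s t| ≤ TW W s t - if s = t then κ else 0)
    (t : S) : Tendsto (fun n : ℕ => lv W B0 φ n t / lam ^ n) atTop (𝓝 0) := by
  set D : Matrix S S ℝ := TW W - κ • (1 : Matrix S S ℝ) with hD
  have hDA : ∀ s t, |TW (fun s s' v => W s s' v * φ v) s t| ≤ D s t := by
    intro s t
    refine (hφ s t).trans (le_of_eq ?_)
    simp [hD, Matrix.one_apply]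
  have hDnn : ∀ s t, 0 ≤ D s t := fun s t => (abs_nonneg _).trans (hDA s t)
  have hDsym : Dᵀ = D := by
    rw [hD, Matrix.transpose_sub, Matrix.transpose_smul, Matrix.transpose_one, hsym]
  have hDw : D *ᵥ w = (lam - κ) • w := by
    rw [hD, Matrix.sub_mulVec, h.eig, Matrix.smul_mulVec, Matrix.one_mulVec, sub_smul]
  have hlk : 0 ≤ lam - κ := by
    have h1 : 0 ≤ (D *ᵥ w) t := by
      rw [Matrix.mulVec, dotProduct]
      exact Finset.sum_nonneg fun u _ => mul_nonneg (hDnn _ _) (h.w_pos u).le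
    rw [hDw] at h1
    simp only [Pi.smul_apply, smul_eq_mul] at h1
    exact nonneg_of_mul_nonneg_left h1 (h.w_pos t)
  have hpow : ∀ n : ℕ, ∑ s, w s * (D ^ n) s t = (lam - κ) ^ n * w t := by
    intro n
    have h1 : (D ^ n) *ᵥ w = (lam - κ) ^ n • w := by
      induction n with
      | zero => simp
      | succ n ih =>
        rw [pow_succ, ← Matrix.mulVec_mulVec, hDw, Matrix.mulVec_smul, ih, smul_smul, pow_succ,
          mul_comm]
    have h2 : ((D ^ n)ᵀ) = D ^ n := by rw [Matrix.transpose_pow, hDsym]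
    have h3 := congrFun h1 t
    rw [Matrix.mulVec, dotProduct] at h3
    simp only [Pi.smul_apply, smul_eq_mul] at h3
    rw [← h3]
    refine Finset.sum_congr rfl fun s _ => ?_
    have h4 : (D ^ n) s t = (D ^ n) t s := by
      conv_lhs => rw [← h2]
      rfl
    rw [h4, mul_comm]
  -- `B0 ≤ C w`
  obtain ⟨C, hC0, hC⟩ : ∃ C : ℝ, 0 ≤ C ∧ ∀ s, B0 s ≤ C * w s := by
    refine ⟨∑ s, B0 s / w s, Finset.sum_nonneg fun s _ => div_nonneg (hB0 s) (h.w_pos s).le,
      fun s => ?_⟩
    have h1 : B0 s / w s ≤ ∑ s, B0 s / w s :=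
      Finset.single_le_sum (f := fun s => B0 s / w s)
        (fun s _ => div_nonneg (hB0 s) (h.w_pos s).le) (Finset.mem_univ s)
    calc B0 s = B0 s / w s * w s := by field_simp [(h.w_pos s).ne']
      _ ≤ _ := mul_le_mul_of_nonneg_right h1 (h.w_pos s).le
  have hbound : ∀ n : ℕ, |lv W B0 φ n t / lam ^ n| ≤ C * w t * ((lam - κ) / lam) ^ n := by
    intro n
    have hl : 0 < lam ^ n := pow_pos h.lam_pos n
    rw [abs_div, abs_of_pos hl, div_le_iff₀ hl]
    calc |lv W B0 φ n t| ≤ ∑ s, |B0 s * (TW (fun s s' v => W s s' v * φ v) ^ n) s t| :=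
          Finset.abs_sum_le_sum_abs _ _
      _ ≤ ∑ s, C * (w s * (D ^ n) s t) := by
          refine Finset.sum_le_sum fun s _ => ?_
          rw [abs_mul, abs_of_nonneg (hB0 s), ← mul_assoc]
          exact mul_le_mul (hC s) (abs_pow_le hDA n s t) (abs_nonneg _)
            (mul_nonneg hC0 (h.w_pos s).le)
      _ = C * ((lam - κ) ^ n * w t) := by rw [← Finset.mul_sum, hpow]
      _ = C * w t * ((lam - κ) / lam) ^ n * lam ^ n := by
          rw [div_pow]
          field_simp
  have hlim : Tendsto (fun n : ℕ => C * w t * ((lam - κ) / lam) ^ n) atTop (𝓝 0) := by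
    have h1 : Tendsto (fun n : ℕ => ((lam - κ) / lam) ^ n) atTop (𝓝 0) := by
      refine tendsto_pow_atTop_nhds_zero_of_lt_one (div_nonneg hlk h.lam_pos.le) ?_
      rw [div_lt_one h.lam_pos]
      linarith
    simpa using h1.const_mul (C * w t)
  rw [tendsto_zero_iff_abs_tendsto_zero]
  exact squeeze_zero (fun n => abs_nonneg _) hbound hlim

/-- normalised capped sums, no insertion -/
theorem capS_tendsto {W : S → S → V → ℝ} {lam : ℝ} {w : S → ℝ} (h : PFData (TW W) lam w)
    (B0 B1 : S → ℝ) (K : ℕ) (g : S → (Fin K → S × V) → ℝ) {n m : ℕ → ℕ}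
    (hn : Tendsto n atTop atTop) (hm : Tendsto m atTop atTop) :
    Tendsto (fun k : ℕ => capS W B0 B1 (fun _ => 1) (n k) K (m k) g / (lam ^ n k * lam ^ m k))
      atTop (𝓝 ((∑ u, w u * B0 u) * (∑ u, w u * B1 u) *
        ∑ t, ∑ p : Fin K → S × V, w t * pw W t p * g t p * w (ls t p))) := by
  have e : (fun k : ℕ => capS W B0 B1 (fun _ => 1) (n k) K (m k) g / (lam ^ n k * lam ^ m k)) =
      fun k : ℕ => ∑ t, ∑ p : Fin K → S × V, (lv W B0 (fun _ => 1) (n k) t / lam ^ n k) *
        (rv W B1 (m k) (ls t p) / lam ^ m k) * (pw W t p * g t p) := by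
    funext k
    rw [capS, Finset.sum_div]
    refine Finset.sum_congr rfl fun t _ => ?_
    rw [Finset.sum_div]
    refine Finset.sum_congr rfl fun p _ => ?_
    rw [div_mul_div_comm]
    ring
  rw [e, Finset.mul_sum]
  refine tendsto_finsetSum _ fun t _ => ?_
  rw [Finset.mul_sum]
  refine tendsto_finsetSum _ fun p _ => ?_
  have h1 := (lv_one_tendsto h B0 t).comp hn
  have h2 := (rv_tendsto h B1 (ls t p)).comp hm
  have h3 := (h1.mul h2).mul_const (pw W t p * g t p)
  have e2 : (∑ u, w u * B0 u) * (∑ u, w u * B1 u) * (w t * pw W t p * g t p * w (ls t p)) =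
      (w t * ∑ u, w u * B0 u) * (w (ls t p) * ∑ u, w u * B1 u) * (pw W t p * g t p) := by ring
  rw [e2]
  exact h3

/-- normalised capped sums with a decoupling insertion -/
theorem capS_tendsto_zero {W : S → S → V → ℝ} {lam : ℝ} {w : S → ℝ} (h : PFData (TW W) lam w)
    (hsym : (TW W)ᵀ = TW W) {B0 : S → ℝ} (hB0 : ∀ s, 0 ≤ B0 s) (B1 : S → ℝ) {φ : V → ℝ} {κ : ℝ}
    (hκ : 0 < κ)
    (hφ : ∀ s t, |TW (fun s s' v => W s s' v * φ v) s t| ≤ TW W s t - if s = t then κ else 0)
    (K : ℕ) (g : S → (Fin K → S × V) → ℝ) {n m : ℕ → ℕ}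
    (hn : Tendsto n atTop atTop) (hm : Tendsto m atTop atTop) :
    Tendsto (fun k : ℕ => capS W B0 B1 φ (n k) K (m k) g / (lam ^ n k * lam ^ m k))
      atTop (𝓝 0) := by
  have e : (fun k : ℕ => capS W B0 B1 φ (n k) K (m k) g / (lam ^ n k * lam ^ m k)) =
      fun k : ℕ => ∑ t, ∑ p : Fin K → S × V, (lv W B0 φ (n k) t / lam ^ n k) *
        (rv W B1 (m k) (ls t p) / lam ^ m k) * (pw W t p * g t p) := by
    funext k
    rw [capS, Finset.sum_div]
    refine Finset.sum_congr rfl fun t _ => ?_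
    rw [Finset.sum_div]
    refine Finset.sum_congr rfl fun p _ => ?_
    rw [div_mul_div_comm]
    ring
  rw [e]
  have key : ∀ t, ∀ p : Fin K → S × V, Tendsto (fun k : ℕ => (lv W B0 φ (n k) t / lam ^ n k) *
        (rv W B1 (m k) (ls t p) / lam ^ m k) * (pw W t p * g t p)) atTop (𝓝 0) := by
    intro t p
    have h1 := (lv_tendsto_zero h hsym hB0 hκ hφ t).comp hn
    have h2 := (rv_tendsto h B1 (ls t p)).comp hm
    have h3 := (h1.mul h2).mul_const (pw W t p * g t p)
    simpa using h3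
  have h4 := tendsto_finsetSum (Finset.univ : Finset S) fun t _ =>
    tendsto_finsetSum (Finset.univ : Finset (Fin K → S × V)) fun p _ => key t p
  simpa using h4

end Crest.Agent.R161.Cap863
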