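import Crest.Agent.R150.Torus_357
import Crest.Agent.R161.Cap1_863

/-!
# R161, capped cylinders (helper863), part 2: spin columns

`SC L = ZMod (2 * L) → Bool` : spins of a column of faces (primal spins on even faces, dual spins on
odd faces).

* `st π a` : horizontal arrows of a face column with spins `a` (`π` = parity of the column)
* `vt π a a'` : vertical arrows between the face columns `a` (left) and `a'` (right, parity `π`)
* `wc c a a'` : weight of the column of six-vertex vertices between two face columns
* `chain_sum` : sums over arrow paths = sums over spin chains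
-/

set_option autoImplicit false

noncomputable section

open Matrix Filter Topology
open Crest.Agent.R150.Base357

namespace Crest.Agent.R161.Cap863

/-- spins of a face column -/
abbrev SC (L : ℕ) : Type := ZMod (2 * L) → Bool

/-- parity of a row -/
def par {L : ℕ} : ZMod (2 * L) →+* ZMod 2 := ZMod.castHom (Dvd.intro L rfl) (ZMod 2)

/-- weight of the four faces around a six-vertex vertex: lower left, lower right, upper left, upper
right -/
def wt4 (c : ℝ) (x y z u : Bool) : ℝ :=
  if x = u ∧ y = z then c else if x = u ∨ y = z then 1 else 0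

/-- weight between two face columns -/
def wc {L : ℕ} [NeZero (2 * L)] (c : ℝ) (a a' : SC L) : ℝ :=
  ∏ j, wt4 c (a (j - 1)) (a' (j - 1)) (a j) (a' j)

/-- horizontal arrows of a face column of parity `π` -/
def st {L : ℕ} (π : ZMod 2) (a : SC L) : CS (2 * L) := fun j =>
  if π + par j = 0 then (a j != a (j - 1)) else (a j == a (j - 1))

/-- vertical arrows between two face columns, the right one has parity `π` -/
def vt {L : ℕ} (π : ZMod 2) (a a' : SC L) : CS (2 * L) := fun j =>
  if π + par j = 0 then (a j == a' j) else (a j != a' j)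

/-- the next face column from the vertical arrows -/
def nx {L : ℕ} (π : ZMod 2) (a : SC L) (v : CS (2 * L)) : SC L := fun j =>
  if π + par j = 0 then (a j == v j) else (a j != v j)

lemma vt_nx {L : ℕ} (π : ZMod 2) (a : SC L) (v : CS (2 * L)) : vt π a (nx π a v) = v := by
  funext j
  simp only [vt, nx]
  split_ifs <;> cases a j <;> cases v j <;> rfl

lemma nx_vt {L : ℕ} (π : ZMod 2) (a a' : SC L) : nx π a (vt π a a') = a' := by
  funext j
  simp only [vt, nx]
  split_ifs <;> cases a j <;> cases a' j <;> rfl

/-- vertical arrows ↔ next column -/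
def nxEquiv {L : ℕ} (π : ZMod 2) (a : SC L) : CS (2 * L) ≃ SC L where
  toFun := nx π a
  invFun := vt π a
  left_inv := vt_nx π a
  right_inv := nx_vt π a

lemma zmod2_cases (x : ZMod 2) : x = 0 ∨ x = 1 := by
  revert x; decide

lemma par_aux1 (x y : ZMod 2) : (x + 1 + y = 0) ↔ ¬ (x + y = 0) := by
  revert x y; decide

lemma par_aux2 (x y : ZMod 2) : (x + 1 + (y + 1) = 0) ↔ (x + y = 0) := by
  revert x y; decide

/-- local weight identity -/
lemma wt_local (c : ℝ) (e : Bool) (x y z u : Bool) :
    wt 1 1 c (if e then (z != x) else (z == x)) (if e then (u == y) else (u != y))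
      (if e then (x == y) else (x != y)) (if e then (z != u) else (z == u)) = wt4 c x y z u := by
  cases e <;> cases x <;> cases y <;> cases z <;> cases u <;> simp [wt, wt4]

/-- the right horizontal arrow is determined -/
lemma wt_local_ne (c : ℝ) (e : Bool) (x y z u r : Bool)
    (h : wt 1 1 c (if e then (z != x) else (z == x)) r
      (if e then (x == y) else (x != y)) (if e then (z != u) else (z == u)) ≠ 0) :
    r = (if e then (u == y) else (u != y)) := by
  revert h
  cases e <;> cases x <;> cases y <;> cases z <;> cases u <;> cases r <;> simp [wt]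

section

variable {L : ℕ} [NeZero (2 * L)]

omit [NeZero (2 * L)] in
lemma par_sub_one (j : ZMod (2 * L)) : par (j - 1) = par j + 1 := by
  rw [map_sub, map_one]
  rcases zmod2_cases (par j) with h | h <;> rw [h] <;> decide

/-- the four arrows around a vertex, from the spins -/
lemma arrows_at (π : ZMod 2) (a a' : SC L) (j : ZMod (2 * L)) :
    st π a j = (if decide (π + par j = 0) then (a j != a (j - 1)) else (a j == a (j - 1))) ∧
    st (π + 1) a' j =
      (if decide (π + par j = 0) then (a' j == a' (j - 1)) else (a' j != a' (j - 1))) ∧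
    vt (π + 1) a a' (j - 1) =
      (if decide (π + par j = 0) then (a (j - 1) == a' (j - 1)) else (a (j - 1) != a' (j - 1))) ∧
    vt (π + 1) a a' j =
      (if decide (π + par j = 0) then (a j != a' j) else (a j == a' j)) := by
  have h1 : (π + 1 + par j = 0) ↔ ¬ (π + par j = 0) := par_aux1 π (par j)
  have h2 : (π + 1 + par (j - 1) = 0) ↔ (π + par j = 0) := by
    rw [par_sub_one]
    exact par_aux2 π (par j)
  refine ⟨?_, ?_, ?_, ?_⟩
  · unfold st; by_cases h : π + par j = 0 <;> simp [h]
  · unfold st
    by_cases h : π + par j = 0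
    · simp [h, h1]
    · simp [h, h1]
  · unfold vt
    by_cases h : π + par j = 0
    · simp only [h2, h]; simp
    · simp only [h2, h]; simp
  · unfold vt
    by_cases h : π + par j = 0
    · simp [h, h1]
    · simp [h, h1]

lemma colW_spin (c : ℝ) (π : ZMod 2) (a a' : SC L) :
    colW c (st π a) (st (π + 1) a') (vt (π + 1) a a') = wc c a a' := by
  unfold colW wc
  refine Finset.prod_congr rfl fun j _ => ?_
  obtain ⟨h1, h2, h3, h4⟩ := arrows_at π a a' j
  rw [h1, h2, h3, h4]
  exact wt_local c _ _ _ _ _

lemma colW_ne {c : ℝ} {π : ZMod 2} {a : SC L} {s' v : CS (2 * L)}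
    (h : colW c (st π a) s' v ≠ 0) : s' = st (π + 1) (nx (π + 1) a v) := by
  funext j
  have h0 : wt 1 1 c (st π a j) (s' j) (v (j - 1)) (v j) ≠ 0 :=
    fun h' => h (Finset.prod_eq_zero (Finset.mem_univ j) h')
  obtain ⟨h1, h2, h3, h4⟩ := arrows_at π a (nx (π + 1) a v) j
  rw [vt_nx] at h3 h4
  rw [h2]
  rw [h1, h3, h4] at h0
  have := wt_local_ne c (decide (π + par j = 0)) (a (j - 1)) (nx (π + 1) a v (j - 1)) (a j)
    (nx (π + 1) a v j) (s' j) h0
  exact this

/-- flux conservation -/
lemma bal_of_colW {c : ℝ} {s s' v : CS (2 * L)} (h : colW c s s' v ≠ 0) (hs : Bal s) : Bal s' := by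
  have h0 : ∀ j, wt 1 1 c (s j) (s' j) (v (j - 1)) (v j) ≠ 0 :=
    fun j h' => h (Finset.prod_eq_zero (Finset.mem_univ j) h')
  have key : ∀ l r d t : Bool, wt 1 1 c l r d t ≠ 0 →
      (if l = true then 1 else 0 : ℤ) + (if d = true then 1 else 0) =
        (if r = true then 1 else 0) + (if t = true then 1 else 0) := by
    intro l r d t
    cases l <;> cases r <;> cases d <;> cases t <;> simp [wt]
  have hsum : ∑ j, (if s j = true then 1 else 0 : ℤ) = ∑ j, (if s' j = true then 1 else 0 : ℤ) := by
    have h1 : ∑ j, ((if s j = true then 1 else 0 : ℤ) + (if v (j - 1) = true then 1 else 0)) =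
        ∑ j, ((if s' j = true then 1 else 0 : ℤ) + (if v j = true then 1 else 0)) :=
      Finset.sum_congr rfl fun j _ => key _ _ _ _ (h0 j)
    rw [Finset.sum_add_distrib, Finset.sum_add_distrib] at h1
    have h2 : ∑ j, (if v (j - 1) = true then 1 else 0 : ℤ) = ∑ j, (if v j = true then 1 else 0) :=
      Equiv.sum_comp (Equiv.subRight (1 : ZMod (2 * L))) (fun j => (if v j = true then 1 else 0 : ℤ))
    linarith
  unfold Bal at hs ⊢
  rw [Finset.sum_boole, Finset.sum_boole] at hsum
  have : (Finset.univ.filter fun j : ZMod (2 * L) => s j = true).card =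
      (Finset.univ.filter fun j : ZMod (2 * L) => s' j = true).card := by exact_mod_cast hsum
  rw [← this]
  exact hs

/-- one column -/
lemma one_col (c : ℝ) (π : ZMod 2) (a : SC L) (hb : Bal (st π a))
    (H : BS (2 * L) → CS (2 * L) → ℝ) (H' : SC L → ℝ)
    (hH : ∀ (a' : SC L) (hb' : Bal (st (π + 1) a')),
      H ⟨st (π + 1) a', hb'⟩ (vt (π + 1) a a') = H' a') :
    ∑ s' : BS (2 * L), ∑ v : CS (2 * L), WB c ⟨st π a, hb⟩ s' v * H s' v =
      ∑ a' : SC L, wc c a a' * H' a' := by
  rw [Finset.sum_comm]
  conv_rhs => rw [← Equiv.sum_comp (nxEquiv (π + 1) a)]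
  refine Finset.sum_congr rfl fun v _ => ?_
  show _ = wc c a (nx (π + 1) a v) * H' (nx (π + 1) a v)
  have hw : wc c a (nx (π + 1) a v) = colW c (st π a) (st (π + 1) (nx (π + 1) a v)) v := by
    have := colW_spin c π a (nx (π + 1) a v)
    rw [vt_nx] at this
    exact this.symm
  by_cases h : colW c (st π a) (st (π + 1) (nx (π + 1) a v)) v = 0
  · rw [hw, h, zero_mul]
    refine Finset.sum_eq_zero fun s' _ => ?_
    by_cases h2 : colW c (st π a) s'.1 v = 0
    · show colW c (st π a) s'.1 v * _ = 0
      rw [h2, zero_mul]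
    · exact absurd (by rw [← colW_ne h2]; exact h2) (not_not.2 h)
  · have hb' : Bal (st (π + 1) (nx (π + 1) a v)) := bal_of_colW h hb
    rw [Finset.sum_eq_single ⟨st (π + 1) (nx (π + 1) a v), hb'⟩]
    · have := hH (nx (π + 1) a v) hb'
      rw [vt_nx] at this
      rw [this, hw]
      rfl
    · intro s' _ hne
      have h2 : colW c (st π a) s'.1 v = 0 := by
        by_contra h3
        exact hne (Subtype.ext (colW_ne h3))
      show colW c (st π a) s'.1 v * _ = 0
      rw [h2, zero_mul]
    · intro h3
      exact absurd (Finset.mem_univ _) h3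

/-- weight of a spin chain started at `a` -/
def pws (c : ℝ) {T : ℕ} (a : SC L) (α : Fin T → SC L) : ℝ :=
  pw (fun a a' (_ : Unit) => wc c a a') a fun i => (α i, ())

/-- arrows of a spin chain started at `a`, a face column of parity `π` -/
def arr : (T : ℕ) → (π : ZMod 2) → (a : SC L) → (Fin T → SC L) → (Fin T → CS (2 * L) × CS (2 * L))
  | 0, _, _, _ => Fin.elim0
  | T + 1, π, a, α => Fin.cons (st (π + 1) (α 0), vt (π + 1) a (α 0))
      (arr T (π + 1) (α 0) fun i => α i.succ)

lemma pws_succ (c : ℝ) {T : ℕ} (a : SC L) (α : Fin (T + 1) → SC L) :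
    pws c a α = wc c a (α 0) * pws c (α 0) fun i => α i.succ := by
  unfold pws
  rw [pw_succ]

@[simp] lemma pws_zero (c : ℝ) (a : SC L) (α : Fin 0 → SC L) : pws c a α = 1 := by
  unfold pws; simp

/-- **sums over arrow paths are sums over spin chains** -/
theorem chain_sum (c : ℝ) : ∀ (T : ℕ) (π : ZMod 2) (a : SC L) (hb : Bal (st π a))
    (H : (Fin T → CS (2 * L) × CS (2 * L)) → ℝ),
    ∑ p : Fin T → BS (2 * L) × CS (2 * L), pw (WB c) ⟨st π a, hb⟩ p * H (fun i => fb (p i)) =
      ∑ α : Fin T → SC L, pws c a α * H (arr T π a α)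
  | 0, π, a, hb, H => by
    simp only [Finset.univ_unique, Finset.sum_singleton, pw_zero, pws_zero, one_mul]
    congr 1
    funext i
    exact i.elim0
  | T + 1, π, a, hb, H => by
    rw [← (Fin.consEquiv fun _ => BS (2 * L) × CS (2 * L)).sum_comp, Fintype.sum_prod_type,
      Fintype.sum_prod_type]
    rw [← (Fin.consEquiv fun _ => SC L).sum_comp, Fintype.sum_prod_type]
    have h1 := one_col c π a hb
      (fun s' v => ∑ p : Fin T → BS (2 * L) × CS (2 * L), pw (WB c) s' p *
        H (Fin.cons (s'.1, v) fun i => fb (p i)))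
      (fun a' => ∑ α : Fin T → SC L, pws c a' α *
        H (Fin.cons (st (π + 1) a', vt (π + 1) a a') (arr T (π + 1) a' α)))
      (fun a' hb' => chain_sum c T (π + 1) a' hb' fun q =>
        H (Fin.cons (st (π + 1) a', vt (π + 1) a a') q))
    refine Eq.trans ?_ (h1.trans ?_)
    · refine Finset.sum_congr rfl fun s' _ => Finset.sum_congr rfl fun v _ => ?_
      rw [Finset.mul_sum]
      refine Finset.sum_congr rfl fun p _ => ?_
      rw [pw_succ]
      simp only [Fin.consEquiv, Equiv.coe_fn_mk, Fin.cons_zero, Fin.cons_succ]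
      rw [mul_assoc]
      congr 2
      congr 1
      funext i
      refine Fin.cases ?_ (fun i => ?_) i
      · rfl
      · rfl
    · refine Finset.sum_congr rfl fun a' _ => ?_
      rw [Finset.mul_sum]
      refine Finset.sum_congr rfl fun α _ => ?_
      rw [pws_succ]
      simp only [Fin.consEquiv, Equiv.coe_fn_mk, Fin.cons_zero, Fin.cons_succ, arr]
      rw [mul_assoc]

end

end Crest.Agent.R161.Cap863
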