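import Crest.Agent.R161.Cap2_863

/-!
# R161, capped cylinders (helper863), part 3: caps, the capped sum as a sum over spin chains

* `capS_path` : the capped sum as a sum over paths
* `capL a` / `capR a` : left cap (all even faces `+`), right cap (all even faces equal)
* `capS_spin` : the capped sum of the six-vertex columns is a sum over capped spin chains
-/

set_option autoImplicit false
set_option linter.unusedSectionVars false

noncomputable section

open Matrix Filter Topology
open Crest.Agent.R150.Base357

namespace Crest.Agent.R161.Cap863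

section generic

variable {S V : Type*} [Fintype S] [DecidableEq S] [Fintype V]

lemma pwL_mul (W : S → S → V → ℝ) (φ : V → ℝ) : ∀ (l : List (S × V)) (s : S),
    pwL (fun s s' v => W s s' v * φ v) s l = pwL W s l * (l.map fun x => φ x.2).prod
  | [], s => by simp [pwL]
  | x :: l, s => by
    simp only [pwL, List.map_cons, List.prod_cons]
    rw [pwL_mul W φ l x.1]
    ring

lemma pw_mul (W : S → S → V → ℝ) (φ : V → ℝ) {n : ℕ} (s : S) (p : Fin n → S × V) :
    pw (fun s s' v => W s s' v * φ v) s p = pw W s p * ∏ i, φ (p i).2 := by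
  unfold pw
  rw [pwL_mul, List.map_ofFn, List.prod_ofFn]
  rfl

lemma sum_ls (W : S → S → V → ℝ) (n : ℕ) (s : S) (X : S → ℝ) :
    ∑ p : Fin n → S × V, pw W s p * X (ls s p) = ∑ t, (TW W ^ n) s t * X t := by
  have h : ∀ p : Fin n → S × V, pw W s p * X (ls s p) =
      ∑ t, (if ls s p = t then pw W s p else 0) * X t := by
    intro p
    rw [Finset.sum_eq_single (ls s p)]
    · rw [if_pos rfl]
    · intro t _ ht
      rw [if_neg ht.symm, zero_mul]
    · intro h
      exact absurd (Finset.mem_univ _) h
  rw [Finset.sum_congr rfl fun p _ => h p, Finset.sum_comm]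
  refine Finset.sum_congr rfl fun t _ => ?_
  rw [← Finset.sum_mul, pw_sum]

/-- the capped sum as a path sum -/
lemma capS_path (W : S → S → V → ℝ) (B0 B1 : S → ℝ) (φ : V → ℝ) (n K m : ℕ)
    (g : (Fin K → S × V) → ℝ) :
    capS W B0 B1 φ n K m (fun _ => g) = ∑ s, B0 s * ∑ P : Fin (n + (K + m)) → S × V,
      pw W s P * ((∏ i : Fin n, φ (P (Fin.castAdd (K + m) i)).2) *
        g (fun i => P (Fin.natAdd n (Fin.castAdd m i))) * B1 (ls s P)) := by
  have h1 : ∀ s : S, ∑ P : Fin (n + (K + m)) → S × V,
      pw W s P * ((∏ i : Fin n, φ (P (Fin.castAdd (K + m) i)).2) *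
        g (fun i => P (Fin.natAdd n (Fin.castAdd m i))) * B1 (ls s P)) =
      ∑ t, (TW (fun s s' v => W s s' v * φ v) ^ n) s t *
        ∑ p : Fin K → S × V, pw W t p * g p * rv W B1 m (ls t p) := by
    intro s
    rw [← (appEquiv (S × V) n (K + m)).sum_comp, Fintype.sum_prod_type]
    rw [← sum_ls]
    refine Finset.sum_congr rfl fun q _ => ?_
    rw [← (appEquiv (S × V) K m).sum_comp, Fintype.sum_prod_type, pw_mul, Finset.mul_sum]
    refine Finset.sum_congr rfl fun p _ => ?_
    have h2 : rv W B1 m (ls (ls s q) p) = ∑ r : Fin m → S × V, pw W (ls (ls s q) p) r *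
        B1 (ls (ls (ls s q) p) r) := by
      rw [rv, sum_ls]
    rw [h2, Finset.mul_sum, Finset.mul_sum]
    refine Finset.sum_congr rfl fun r _ => ?_
    simp only [appEquiv, Equiv.coe_fn_mk, pw_append, ls_append, Fin.append_left, Fin.append_right]
    ring
  simp only [h1]
  unfold capS lv
  have h3 : ∀ s, B0 s * ∑ t, (TW (fun s s' v => W s s' v * φ v) ^ n) s t *
        ∑ p : Fin K → S × V, pw W t p * g p * rv W B1 m (ls t p) =
      ∑ t, ∑ p : Fin K → S × V, B0 s * (TW (fun s s' v => W s s' v * φ v) ^ n) s t * pw W t p *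
        g p * rv W B1 m (ls t p) := by
    intro s
    rw [Finset.mul_sum]
    refine Finset.sum_congr rfl fun t _ => ?_
    rw [Finset.mul_sum, Finset.mul_sum]
    refine Finset.sum_congr rfl fun p _ => ?_
    ring
  have h5 := Finset.sum_congr (rfl : (Finset.univ : Finset S) = Finset.univ) fun s _ => h3 s
  refine Eq.trans ?_ h5.symm
  symm
  rw [Finset.sum_comm]
  refine Finset.sum_congr rfl fun t _ => ?_
  rw [Finset.sum_comm]
  refine Finset.sum_congr rfl fun p _ => ?_
  rw [Finset.sum_mul, Finset.sum_mul, Finset.sum_mul]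

end generic

section

variable {L : ℕ} [NeZero (2 * L)]

/-- left cap: all even faces are `+` -/
def capL (a : SC L) : Prop := ∀ j, par j = 0 → a j = true

/-- right cap: all even faces agree -/
def capR (a : SC L) : Prop := ∀ j k, par j = 0 → par k = 0 → a j = a k

instance (a : SC L) : Decidable (capL a) := by unfold capL; infer_instance
instance (a : SC L) : Decidable (capR a) := by unfold capR; infer_instance

/-- the boundary condition in terms of arrows -/
def capB (s : CS (2 * L)) : Prop := ∀ j, par j = 1 → s (j + 1) = !(s j)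

instance (s : CS (2 * L)) : Decidable (capB s) := by unfold capB; infer_instance

lemma capL.capR {a : SC L} (h : capL a) : capR a := fun j k hj hk => by rw [h j hj, h k hk]

omit [NeZero (2 * L)] in
lemma par_add_one (j : ZMod (2 * L)) : par (j + 1) = par j + 1 := by
  rw [map_add, map_one]

lemma capR_iff (a : SC L) : capR a ↔ capB (st 0 a) := by
  have key : ∀ j : ZMod (2 * L), par j = 1 →
      ((st 0 a (j + 1) = !(st 0 a j)) ↔ a (j + 1) = a (j - 1)) := by
    intro j hj
    have h1 : (0 : ZMod 2) + par (j + 1) = 0 := by rw [par_add_one, hj]; decide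
    have h2 : ¬ ((0 : ZMod 2) + par j = 0) := by rw [hj]; decide
    simp only [st, h1, h2, if_true, if_false, add_sub_cancel_right]
    cases a (j + 1) <;> cases a (j - 1) <;> cases a j <;> decide
  constructor
  · intro h j hj
    refine (key j hj).2 (h _ _ ?_ ?_)
    · rw [par_add_one, hj]; decide
    · rw [par_sub_one, hj]; decide
  · intro h
    have h0 : ∀ m : ℕ, a ((2 * m : ℕ) : ZMod (2 * L)) = a 0 := by
      intro m
      induction m with
      | zero => simp
      | succ m ih =>
        have hp : par (((2 * m + 1 : ℕ)) : ZMod (2 * L)) = 1 := by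
          rw [map_natCast]
          push_cast
          rw [show (2 : ZMod 2) = 0 from by decide]
          simp
        have h1 := (key _ hp).1 (h _ hp)
        have e1 : (((2 * m + 1 : ℕ)) : ZMod (2 * L)) + 1 = ((2 * (m + 1) : ℕ) : ZMod (2 * L)) := by
          push_cast; ring
        have e2 : (((2 * m + 1 : ℕ)) : ZMod (2 * L)) - 1 = ((2 * m : ℕ) : ZMod (2 * L)) := by
          push_cast; ring
        rw [e1, e2] at h1
        rw [h1, ih]
    have h2 : ∀ j : ZMod (2 * L), par j = 0 → a j = a 0 := by
      intro j hj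
      have h3 : ((j.val : ℕ) : ZMod (2 * L)) = j := ZMod.natCast_zmod_val j
      have h4 : ((j.val : ℕ) : ZMod 2) = 0 := by
        have := hj
        rw [← h3, map_natCast] at this
        exact this
      have h5 : 2 ∣ j.val := (ZMod.natCast_eq_zero_iff _ _).1 h4
      obtain ⟨m, hm⟩ := h5
      rw [← h3, hm]
      exact h0 m
    intro j k hj hk
    rw [h2 j hj, h2 k hk]

lemma bal_of_capB {s : CS (2 * L)} (h : capB s) : Bal s := by
  classical
  have h1 : ∑ j, (if s j = true then (1 : ℤ) else -1) = 0 := by
    have h2 : ∑ j, (if s j = true then (1 : ℤ) else -1) =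
        ∑ j, (if par j = 1 then (if s j = true then (1 : ℤ) else -1) else 0) +
        ∑ j, (if par j = 1 then 0 else (if s j = true then (1 : ℤ) else -1)) := by
      rw [← Finset.sum_add_distrib]
      refine Finset.sum_congr rfl fun j _ => ?_
      split_ifs <;> simp
    have h3 : ∑ j, (if par j = 1 then 0 else (if s j = true then (1 : ℤ) else -1)) =
        ∑ j, (if par (j + 1) = 1 then 0 else (if s (j + 1) = true then (1 : ℤ) else -1)) :=
      (Equiv.sum_comp (Equiv.addRight (1 : ZMod (2 * L)))
        (fun j => if par j = 1 then 0 else (if s j = true then (1 : ℤ) else -1))).symm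
    have h4 : ∀ j : ZMod (2 * L),
        (if par (j + 1) = 1 then 0 else (if s (j + 1) = true then (1 : ℤ) else -1)) =
        -(if par j = 1 then (if s j = true then (1 : ℤ) else -1) else 0) := by
      intro j
      rcases zmod2_cases (par j) with hj | hj
      · have h5 : par (j + 1) = 1 := by rw [par_add_one, hj]; decide
        rw [if_pos h5, if_neg (by rw [hj]; decide), neg_zero]
      · have h5 : ¬ (par (j + 1) = 1) := by rw [par_add_one, hj]; decide
        rw [if_neg h5, if_pos hj, h j hj]
        cases s j <;> simp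
    rw [h2, h3, Finset.sum_congr rfl fun j _ => h4 j, Finset.sum_neg_distrib, add_neg_cancel]
  have h2 : ∀ j : ZMod (2 * L), (if s j = true then (1 : ℤ) else -1) =
      2 * (if s j = true then 1 else 0) - 1 := by
    intro j; split_ifs <;> norm_num
  rw [Finset.sum_congr rfl fun j _ => h2 j, Finset.sum_sub_distrib, ← Finset.mul_sum,
    Finset.sum_boole] at h1
  simp only [Finset.sum_const, Finset.card_univ, ZMod.card, nsmul_eq_mul, mul_one] at h1
  unfold Bal
  omega

/-- the left caps: spin columns ↔ arrow columns -/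
lemma sum_capL (X : BS (2 * L) → ℝ) :
    ∑ s : BS (2 * L), (if capB s.1 then 1 else 0) * X s =
      ∑ a : SC L, if h : capL a then X ⟨st 0 a, bal_of_capB ((capR_iff a).1 h.capR)⟩ else 0 := by
  classical
  have h1 : ∑ s : BS (2 * L), (if capB s.1 then 1 else 0) * X s =
      ∑ s ∈ Finset.univ.filter (fun s : BS (2 * L) => capB s.1), X s := by
    rw [Finset.sum_filter]
    refine Finset.sum_congr rfl fun s _ => ?_
    split_ifs <;> simp
  have h2 : ∑ a : SC L, (if h : capL a then
        X ⟨st 0 a, bal_of_capB ((capR_iff a).1 h.capR)⟩ else 0) =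
      ∑ a ∈ Finset.univ.filter (fun a : SC L => capL a), (if h : capL a then
        X ⟨st 0 a, bal_of_capB ((capR_iff a).1 h.capR)⟩ else 0) := by
    rw [Finset.sum_filter]
    refine Finset.sum_congr rfl fun a _ => ?_
    by_cases h : capL a
    · rw [if_pos h]
    · rw [if_neg h, dif_neg h]
  rw [h1, h2]
  symm
  refine Finset.sum_bij' (fun a ha => ⟨st 0 a, bal_of_capB ((capR_iff a).1
    (Finset.mem_filter.1 ha).2.capR)⟩) (fun s _ => fun j => if par j = 0 then true else s.1 j)
    ?_ ?_ ?_ ?_ ?_
  · intro a ha
    exact Finset.mem_filter.2 ⟨Finset.mem_univ _, (capR_iff a).1 (Finset.mem_filter.1 ha).2.capR⟩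
  · intro s _
    refine Finset.mem_filter.2 ⟨Finset.mem_univ _, fun j hj => ?_⟩
    simp only [hj, if_true]
  · intro a ha
    have hL := (Finset.mem_filter.1 ha).2
    funext j
    by_cases hj : par j = 0
    · simp only [hj, if_true]
      exact (hL j hj).symm
    · simp only [hj, if_false, st, zero_add]
      have hj1 : par j = 1 := (zmod2_cases _).resolve_left hj
      have : a (j - 1) = true := hL _ (by rw [par_sub_one, hj1]; decide)
      rw [this]
      cases a j <;> rfl
  · intro s hs
    have hB := (Finset.mem_filter.1 hs).2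
    apply Subtype.ext
    funext j
    simp only [st, zero_add]
    by_cases hj : par j = 0
    · have hj1 : ¬ (par (j - 1) = 0) := by rw [par_sub_one, hj]; decide
      simp only [hj, hj1, if_true, if_false]
      have := hB (j - 1) (by rw [par_sub_one, hj]; decide)
      rw [sub_add_cancel] at this
      rw [this]
      cases s.1 (j - 1) <;> rfl
    · have hj1 : par j = 1 := (zmod2_cases _).resolve_left hj
      have hj2 : par (j - 1) = 0 := by rw [par_sub_one, hj1]; decide
      simp only [hj, hj2, if_true, if_false]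
      cases s.1 j <;> rfl
  · intro a ha
    rw [dif_pos (Finset.mem_filter.1 ha).2]

/-- last face column of a spin chain -/
def lsS {T : ℕ} (a : SC L) (α : Fin T → SC L) : SC L := ls a fun i => (α i, ())

lemma lsS_succ {T : ℕ} (a : SC L) (α : Fin (T + 1) → SC L) :
    lsS a α = lsS (α 0) fun i => α i.succ := by
  unfold lsS; rw [ls_succ]

lemma ls_arr : ∀ (T : ℕ) (π : ZMod 2) (a : SC L) (α : Fin T → SC L),
    ls (st π a) (arr T π a α) = st (π + T) (lsS a α)
  | 0, π, a, α => by
    simp [lsS]
  | T + 1, π, a, α => by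
    rw [ls_succ, lsS_succ]
    have : (fun i : Fin T => arr (T + 1) π a α i.succ) = arr T (π + 1) (α 0) fun i => α i.succ := by
      funext i
      rfl
    rw [this]
    have h0 : (arr (T + 1) π a α 0).1 = st (π + 1) (α 0) := rfl
    rw [h0, ls_arr T (π + 1) (α 0)]
    congr 1
    push_cast
    ring

lemma ls_fb {T : ℕ} (s : BS (2 * L)) (p : Fin T → BS (2 * L) × CS (2 * L)) :
    (ls s p).1 = ls s.1 fun i => fb (p i) := by
  induction T generalizing s with
  | zero => simp
  | succ T ih =>
    rw [ls_succ, ls_succ, ih]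
    rfl

/-- **the capped six-vertex sum as a sum over spin chains** -/
theorem capS_spin (c : ℝ) (φ : CS (2 * L) → ℝ) (n K m : ℕ) (hT : Even (n + (K + m)))
    (g : (Fin K → CS (2 * L) × CS (2 * L)) → ℝ) :
    capS (WB c) (fun s : BS (2 * L) => if capB s.1 then 1 else 0)
      (fun s : BS (2 * L) => if capB s.1 then 1 else 0) φ n K m (fun _ p => g fun i => fb (p i)) =
    ∑ a : SC L, if capL a then ∑ α : Fin (n + (K + m)) → SC L, (if capR (lsS a α) then
      pws c a α * ((∏ i : Fin n, φ (arr _ 0 a α (Fin.castAdd (K + m) i)).2) *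
        g (fun i => arr _ 0 a α (Fin.natAdd n (Fin.castAdd m i)))) else 0) else 0 := by
  rw [capS_path]
  rw [sum_capL]
  refine Finset.sum_congr rfl fun a _ => ?_
  by_cases ha : capL a
  · rw [dif_pos ha, if_pos ha]
    have h1 := chain_sum c (n + (K + m)) 0 a (bal_of_capB ((capR_iff a).1 ha.capR))
      (fun P => (∏ i : Fin n, φ (P (Fin.castAdd (K + m) i)).2) *
        g (fun i => P (Fin.natAdd n (Fin.castAdd m i))) *
          (if capB (ls (st 0 a) P) then 1 else 0))
    refine Eq.trans ?_ (h1.trans ?_)
    · refine Finset.sum_congr rfl fun P _ => ?_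
      rw [ls_fb]
      rfl
    · refine Finset.sum_congr rfl fun α _ => ?_
      rw [ls_arr]
      have h2 : (0 : ZMod 2) + ((n + (K + m) : ℕ) : ZMod 2) = 0 := by
        rw [zero_add, ZMod.natCast_eq_zero_iff]
        exact hT.two_dvd
      rw [h2]
      by_cases h3 : capR (lsS a α)
      · rw [if_pos h3, if_pos ((capR_iff _).1 h3), mul_one]
      · rw [if_neg h3, if_neg (fun h => h3 ((capR_iff _).2 h)), mul_zero, mul_zero]
  · rw [dif_neg ha, if_neg ha]

end

end Crest.Agent.R161.Cap863
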