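import Crest.Agent.R150.Pls_989
import Crest.Agent.R161.Cap3_863

/-!
# R161, capped cylinders (helper863), part 4: spins from heights

* `sp h` : the spin of a face of height `h` (`true` iff `h % 4 ∈ {0, 1}`)
* `spinOf ω b` : spins of the plane configuration `ω`, `b` = spin of the face `(0,0)`
* `spin_eq` : a spin field `S` compatible with the arrows `ω` in the box `R` is `spinOf ω (S (0,0))`
* `wconf p` : plane arrow configuration read from a window of `2 R + 1` columns
* `chS n0 β` : plane spin field read from a chain of face columns, centred at the face column `n0`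
-/

set_option autoImplicit false
set_option linter.unusedSectionVars false

noncomputable section

open Matrix Filter Topology MeasureTheory
open Crest.ProbabilityR.SixVertex
open Crest.Agent.R150.Base357 Crest.Agent.R150.Hgt989 Crest.Agent.R150.Pls989

namespace Crest.Agent.R161.Cap863

/-! ### heights and spins -/

/-- spin of a face of height `h` -/
def sp (h : ℤ) : Bool := decide (h % 4 = 0 ∨ h % 4 = 1)

lemma sp_congr {h h' : ℤ} (e : h % 4 = h' % 4) : sp h = sp h' := by
  unfold sp; rw [e]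

/-- spins of a plane configuration -/
def spinOf (ω : Conf) (b : Bool) (f : ℤ × ℤ) : Bool :=
  sp (relH ω f.1 f.2 + if b then 0 else 2)

lemma relH_parity (ω : Conf) (p q : ℤ) : (relH ω p q + p + q) % 2 = 0 := by
  have h1 : ∀ p : ℤ, (relH ω p 0 + p) % 2 = 0 := by
    intro p
    have hs : ∀ p : ℤ, relH ω (p + 1) 0 = relH ω p 0 + dx ω (p + 1, 0) := by
      intro p
      unfold relH
      rw [signedSum_succ (fun i => dx ω (i, 0)) 1 (p + 1)]
      simp [signedSum_self]
    have hd : ∀ v, dx ω v = 1 ∨ dx ω v = -1 := by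
      intro v; unfold dx; split_ifs <;> simp
    induction p using Int.induction_on with
    | zero => simp
    | succ p ih =>
      rw [hs]
      rcases hd ((p:ℤ) + 1, 0) with h | h <;> rw [h] <;> omega
    | pred p ih =>
      have h2 := hs (-(p:ℤ) - 1)
      rw [sub_add_cancel] at h2
      rcases hd (-(p:ℤ), 0) with h | h <;> rw [h] at h2 <;> omega
  have hd : ∀ v, dy ω v = 1 ∨ dy ω v = -1 := by
    intro v; unfold dy; split_ifs <;> simp
  induction q using Int.induction_on with
  | zero => have := h1 p; omega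
  | succ q ih =>
    have h2 := relH_succ_snd ω p q
    rcases hd (p, (q:ℤ) + 1) with h | h <;> rw [h] at h2 <;> omega
  | pred q ih =>
    have h2 := relH_succ_snd ω p (-(q:ℤ) - 1)
    rw [sub_add_cancel] at h2
    rcases hd (p, -(q:ℤ)) with h | h <;> rw [h] at h2 <;> omega

/-- compatibility of a spin field with an arrow configuration -/
structure Compat (R : ℕ) (ω : Conf) (S : ℤ × ℤ → Bool) : Prop where
  hor : ∀ i j : ℤ, |i| ≤ R → |j| ≤ R → (ω (i, j)).1 =
    if (i + j) % 2 = 0 then (S (i, j) != S (i, j - 1)) else (S (i, j) == S (i, j - 1))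
  ver : ∀ i j : ℤ, |i| ≤ R → |j| ≤ R → (ω (i, j)).2 =
    if (i + j) % 2 = 0 then (S (i - 1, j) == S (i, j)) else (S (i - 1, j) != S (i, j))

lemma sp_dx (h : ℤ) (x y v : Bool) (e : Bool)
    (hh : h % 2 = if e then 1 else 0) (hv : v = if e then (x == y) else (x != y)) :
    (sp h = x ↔ sp (h + (if v then -1 else 1)) = y) := by
  have h4 : h % 4 = 0 ∨ h % 4 = 1 ∨ h % 4 = 2 ∨ h % 4 = 3 := by omega
  subst hv
  unfold sp
  cases e <;> cases x <;> cases y <;>
    simp at hh ⊢ <;> omega

lemma sp_dy (h : ℤ) (x y s : Bool) (e : Bool)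
    (hh : h % 2 = if e then 1 else 0) (hs : s = if e then (y != x) else (y == x)) :
    (sp h = x ↔ sp (h + (if s then 1 else -1)) = y) := by
  have h4 : h % 4 = 0 ∨ h % 4 = 1 ∨ h % 4 = 2 ∨ h % 4 = 3 := by omega
  subst hs
  unfold sp
  cases e <;> cases x <;> cases y <;>
    simp at hh ⊢ <;> omega

theorem spin_eq {R : ℕ} {ω : Conf} {S : ℤ × ℤ → Bool} (hc : Compat R ω S) {p q : ℤ}
    (hp : |p| ≤ R) (hq : |q| ≤ R) : spinOf ω (S (0, 0)) (p, q) = S (p, q) := by
  set b := S (0, 0) with hb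
  set k : ℤ := if b then 0 else 2 with hk
  have hk2 : k % 2 = 0 := by rw [hk]; split_ifs <;> rfl
  have hxs : ∀ p : ℤ, relH ω (p + 1) 0 = relH ω p 0 + dx ω (p + 1, 0) := by
    intro p
    unfold relH
    rw [signedSum_succ (fun i => dx ω (i, 0)) 1 (p + 1)]
    simp [signedSum_self]
  -- horizontal step
  have stepx : ∀ p : ℤ, |p + 1| ≤ R →
      (sp (relH ω p 0 + k) = S (p, 0) ↔ sp (relH ω (p + 1) 0 + k) = S (p + 1, 0)) := by
    intro p hp1
    have h1 := hc.ver (p + 1) 0 hp1 (by simp)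
    have h2 := relH_parity ω p 0
    rw [hxs p]
    have h3 : relH ω p 0 + dx ω (p + 1, 0) + k =
        (relH ω p 0 + k) + (if (ω (p + 1, 0)).2 then -1 else 1) := by
      unfold dx; ring
    rw [h3]
    have e1 : p + 1 - 1 = p := by ring
    rw [e1] at h1
    by_cases he : (p + 1 + 0) % 2 = 0
    · refine sp_dx _ _ _ _ true ?_ ?_
      · simp only [if_true]; omega
      · rw [h1, if_pos he, if_pos rfl]
    · refine sp_dx _ _ _ _ false ?_ ?_
      · simp only [Bool.false_eq_true, if_false]; omega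
      · rw [h1, if_neg he]; rfl
  have hrow : ∀ p : ℤ, |p| ≤ R → sp (relH ω p 0 + k) = S (p, 0) := by
    intro p
    induction p using Int.induction_on with
    | zero =>
      intro _
      rw [relH_zero, zero_add, hk]
      cases hb' : b <;> rw [← hb, hb'] <;> decide
    | succ p ih =>
      intro h
      refine (stepx p h).1 (ih ?_)
      rw [abs_le] at h ⊢
      omega
    | pred p ih =>
      intro h
      have h1 : |-(p:ℤ) - 1 + 1| ≤ R := by
        rw [sub_add_cancel]
        rw [abs_le] at h ⊢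
        omega
      have h2 := stepx (-(p:ℤ) - 1) h1
      rw [sub_add_cancel] at h2 h1
      exact h2.2 (ih h1)
  have stepy : ∀ q : ℤ, |q + 1| ≤ R →
      (sp (relH ω p q + k) = S (p, q) ↔ sp (relH ω p (q + 1) + k) = S (p, q + 1)) := by
    intro q hq1
    have h1 := hc.hor p (q + 1) hp hq1
    have h2 := relH_parity ω p q
    rw [relH_succ_snd]
    have h3 : relH ω p q + dy ω (p, q + 1) + k =
        (relH ω p q + k) + (if (ω (p, q + 1)).1 then 1 else -1) := by
      unfold dy; ring
    rw [h3]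
    have e1 : q + 1 - 1 = q := by ring
    rw [e1] at h1
    by_cases he : (p + (q + 1)) % 2 = 0
    · refine sp_dy _ _ _ _ true ?_ ?_
      · simp only [if_true]; omega
      · rw [h1, if_pos he, if_pos rfl]
    · refine sp_dy _ _ _ _ false ?_ ?_
      · simp only [Bool.false_eq_true, if_false]; omega
      · rw [h1, if_neg he]; rfl
  show sp (relH ω p q + k) = S (p, q)
  revert hq
  induction q using Int.induction_on with
  | zero => intro _; exact hrow p hp
  | succ q ih =>
    intro h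
    refine (stepy q h).1 (ih ?_)
    rw [abs_le] at h ⊢
    omega
  | pred q ih =>
    intro h
    have h1 : |-(q:ℤ) - 1 + 1| ≤ R := by
      rw [sub_add_cancel]
      rw [abs_le] at h ⊢
      omega
    have h2 := stepy (-(q:ℤ) - 1) h1
    rw [sub_add_cancel] at h2 h1
    exact h2.2 (ih h1)

/-! ### windows and chains -/

/-- spin functions of the box `R` -/
def LocS (R : ℕ) (F : (ℤ × ℤ → Bool) → ℝ) : Prop :=
  ∀ S S' : ℤ × ℤ → Bool, (∀ f ∈ box R, S f = S' f) → F S = F S'

/-- average over the global sign -/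
def avgF (F : (ℤ × ℤ → Bool) → ℝ) (ω : Conf) : ℝ := (F (spinOf ω true) + F (spinOf ω false)) / 2

/-- difference over the global sign -/
def difF (F : (ℤ × ℤ → Bool) → ℝ) (ω : Conf) : ℝ := (F (spinOf ω true) - F (spinOf ω false)) / 2

lemma spinOf_congr {ω ω' : Conf} {R : ℕ} (h : ∀ v ∈ box R, ω v = ω' v) (b : Bool) {f : ℤ × ℤ}
    (hf : f ∈ box R) : spinOf ω b f = spinOf ω' b f := by
  unfold spinOf
  rw [relH_congr h (mem_box.1 hf).1 (mem_box.1 hf).2]

lemma avgF_congr {F : (ℤ × ℤ → Bool) → ℝ} {R : ℕ} (hF : LocS R F) {ω ω' : Conf}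
    (h : ∀ v ∈ box R, ω v = ω' v) : avgF F ω = avgF F ω' := by
  unfold avgF
  rw [hF _ _ fun f hf => spinOf_congr h true hf, hF _ _ fun f hf => spinOf_congr h false hf]

lemma avgF_loc {F : (ℤ × ℤ → Bool) → ℝ} {R : ℕ} (hF : LocS R F) : Loc (avgF F) :=
  ⟨R, fun _ _ h => avgF_congr hF h⟩

/-- the sign of a spin -/
def sgb (b : Bool) : ℝ := if b then 1 else -1

lemma F_spinOf (F : (ℤ × ℤ → Bool) → ℝ) (ω : Conf) (b : Bool) :
    F (spinOf ω b) = avgF F ω + sgb b * difF F ω := by
  unfold avgF difF sgb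
  cases b <;> simp <;> ring

section

variable {L : ℕ} [NeZero (2 * L)]

/-- plane configuration of a window of `2 R + 1` columns -/
def wconf {R : ℕ} (p : Fin (2 * R + 1) → CS (2 * L) × CS (2 * L)) : Conf := fun v =>
  let i : Fin (2 * R + 1) := Fin.ofNat (2 * R + 1) (v.1 + R).toNat
  ((p i).1 (v.2 : ZMod (2 * L)), (p i).2 (v.2 : ZMod (2 * L)))

/-- plane spin field of a chain of face columns -/
def chS {T : ℕ} (n0 : ℕ) (β : Fin (T + 1) → SC L) (f : ℤ × ℤ) : Bool :=
  β (Fin.ofNat (T + 1) (f.1 + n0).toNat) (f.2 : ZMod (2 * L))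

lemma arr_apply : ∀ (T : ℕ) (π : ZMod 2) (a : SC L) (α : Fin T → SC L) (i : Fin T),
    arr T π a α i = (st (π + ((i : ℕ) + 1 : ℕ)) ((Fin.cons a α : Fin (T + 1) → SC L) i.succ),
      vt (π + ((i : ℕ) + 1 : ℕ)) ((Fin.cons a α : Fin (T + 1) → SC L) i.castSucc)
        ((Fin.cons a α : Fin (T + 1) → SC L) i.succ))
  | 0, _, _, _, i => i.elim0
  | T + 1, π, a, α, i => by
    refine Fin.cases ?_ (fun i => ?_) i
    · simp [arr]
    · have h1 : arr (T + 1) π a α i.succ = arr T (π + 1) (α 0) (fun i => α i.succ) i := by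
        simp [arr]
      have h2 : (Fin.cons (α 0) (fun i => α i.succ) : Fin (T + 1) → SC L) = α := by
        funext j
        refine Fin.cases ?_ (fun j => ?_) j <;> simp
      have h3 : (Fin.cons a α : Fin (T + 2) → SC L) i.succ.castSucc = α i.castSucc := by
        rw [← Fin.succ_castSucc, Fin.cons_succ]
      rw [h1, arr_apply T (π + 1) (α 0), h2, Fin.cons_succ, h3]
      have h4 : (π + 1 + (((i : ℕ) + 1 : ℕ) : ZMod 2)) =
          π + ((((i.succ : Fin (T + 1)) : ℕ) + 1 : ℕ) : ZMod 2) := by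
        simp only [Fin.val_succ]
        push_cast
        ring
      rw [h4]

lemma par_int (i j : ℤ) : (((i : ℤ) : ZMod 2) + par ((j : ℤ) : ZMod (2 * L)) = 0) ↔
    (i + j) % 2 = 0 := by
  rw [map_intCast, ← Int.cast_add, ZMod.intCast_zmod_eq_zero_iff_dvd]
  omega

/-- the arrows of a chain are compatible with its spins -/
lemma chain_compat {R n m : ℕ} (hn : Even (n + R + 1)) (a : SC L)
    (α : Fin (n + ((2 * R + 1) + m)) → SC L) :
    Compat R (wconf fun i : Fin (2 * R + 1) => arr _ 0 a α (Fin.natAdd n (Fin.castAdd m i)))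
      (chS (n + R + 1) (Fin.cons a α : Fin (n + ((2 * R + 1) + m) + 1) → SC L)) := by
  set β : Fin (n + ((2 * R + 1) + m) + 1) → SC L := Fin.cons a α with hβ
  have key : ∀ i : ℤ, |i| ≤ R → ∃ I : Fin (2 * R + 1), (I : ℕ) = (i + R).toNat ∧
      Fin.ofNat (2 * R + 1) (i + R).toNat = I ∧
      Fin.ofNat (n + ((2 * R + 1) + m) + 1) (i + ((n + R + 1 : ℕ) : ℤ)).toNat =
        (Fin.natAdd n (Fin.castAdd m I)).succ ∧
      Fin.ofNat (n + ((2 * R + 1) + m) + 1) (i - 1 + ((n + R + 1 : ℕ) : ℤ)).toNat =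
        (Fin.natAdd n (Fin.castAdd m I)).castSucc ∧
      ((((Fin.natAdd n (Fin.castAdd m I) : Fin (n + ((2 * R + 1) + m))) : ℕ) + 1 : ℕ) : ZMod 2) =
        ((i : ℤ) : ZMod 2) := by
    intro i hi
    rw [abs_le] at hi
    refine ⟨⟨(i + R).toNat, by omega⟩, rfl, ?_, ?_, ?_, ?_⟩
    · apply Fin.ext
      rw [Fin.val_ofNat, Nat.mod_eq_of_lt (by omega)]
    · apply Fin.ext
      rw [Fin.val_ofNat, Nat.mod_eq_of_lt (by omega)]
      simp only [Fin.val_succ, Fin.val_natAdd, Fin.val_castAdd]
      omega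
    · apply Fin.ext
      rw [Fin.val_ofNat, Nat.mod_eq_of_lt (by omega)]
      simp only [Fin.val_castSucc, Fin.val_natAdd, Fin.val_castAdd]
      omega
    · simp only [Fin.val_natAdd, Fin.val_castAdd]
      have h1 : ((n + (i + R).toNat + 1 : ℕ) : ℤ) = i + ((n + R + 1 : ℕ) : ℤ) := by
        push_cast
        rw [Int.toNat_of_nonneg (by omega)]
        ring
      have h2 : (((n + (i + R).toNat + 1 : ℕ) : ℤ) : ZMod 2) = ((n + (i + R).toNat + 1 : ℕ) : ZMod 2) :=
        Int.cast_natCast _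
      rw [← h2, h1, Int.cast_add, Int.cast_natCast, (ZMod.natCast_eq_zero_iff _ _).2 hn.two_dvd,
        add_zero]
  constructor
  · intro i j hi hj
    obtain ⟨I, h1, h2, h3, h4, h5⟩ := key i hi
    simp only [wconf, h2, arr_apply, ← hβ]
    simp only [chS, h3, st, zero_add, h5]
    have h6 := par_int (L := L) i j
    have h7 : ((j - 1 : ℤ) : ZMod (2 * L)) = (j : ZMod (2 * L)) - 1 := by push_cast; ring
    rw [h7]
    by_cases h : (i + j) % 2 = 0
    · rw [if_pos h, if_pos (h6.2 h)]
    · rw [if_neg h, if_neg (fun h' => h (h6.1 h'))]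
  · intro i j hi hj
    obtain ⟨I, h1, h2, h3, h4, h5⟩ := key i hi
    simp only [wconf, h2, arr_apply, ← hβ]
    simp only [chS, h3, h4, vt, zero_add, h5]
    have h6 := par_int (L := L) i j
    by_cases h : (i + j) % 2 = 0
    · rw [if_pos h, if_pos (h6.2 h)]
    · rw [if_neg h, if_neg (fun h' => h (h6.1 h'))]

end

end Crest.Agent.R161.Cap863
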