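import Crest.Agent.R161.Cap4_863

/-!
# R161, capped cylinders (helper863), part 5: the limit of capped cylinders is the plane state

* `Ncap c R n m F` : capped sum of the spin function `F` (box `R`), `n` (`m`) columns to the left
  (right) of the window
* `Ecap c L R k F` : normalised, `n = 2 k + R + 1`, `m = 2 k + R`
* `Ecap_tendsto` : `k → ∞`: the state of the infinite cylinder, averaged over a fair sign
* `plane_cap` : `L → ∞`: the plane state
-/

set_option autoImplicit false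
set_option linter.unusedSectionVars false

noncomputable section

open Matrix Filter Topology MeasureTheory
open Crest.ProbabilityR.SixVertex
open Crest.Agent.R150.Base357 Crest.Agent.R150.Hgt989 Crest.Agent.R150.Pls989

namespace Crest.Agent.R161.Cap863

/-- sign of the vertical arrow in row `0` -/
def φ0 {N : ℕ} (v : CS N) : ℝ := if v 0 then -1 else 1

lemma sgb_sq (b : Bool) : sgb b * sgb b = 1 := by cases b <;> simp [sgb]

section

variable {L : ℕ} [NeZero (2 * L)]

/-- insertion of the sign: strict domination -/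
lemma phi_dom {c : ℝ} (hc : 0 < c) (s t : BS (2 * L)) :
    |TW (fun (s s' : BS (2 * L)) (v : CS (2 * L)) => WB c s s' v * φ0 v) s t| ≤
      TW (WB c) s t - if s = t then 2 else 0 := by
  have hab : ∀ v : CS (2 * L), |φ0 v| = 1 := by
    intro v; unfold φ0; split_ifs <;> simp
  by_cases hst : s = t
  · subst hst
    rw [if_pos rfl]
    have h0 : TW (fun (s s' : BS (2 * L)) (v : CS (2 * L)) => WB c s s' v * φ0 v) s s = 0 := by
      have h1 : ∑ v : CS (2 * L), WB c s s v * φ0 v = -∑ v : CS (2 * L), WB c s s v * φ0 v := by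
        conv_lhs => rw [← (notEquiv (2 * L)).sum_comp]
        rw [← Finset.sum_neg_distrib]
        refine Finset.sum_congr rfl fun v _ => ?_
        have h2 : WB c s s (notEquiv (2 * L) v) = WB c s s v := by
          show colW c s.1 s.1 (fun j => !(v j)) = colW c s.1 s.1 v
          unfold colW
          exact Finset.prod_congr rfl fun j _ => wt_swap_not c _ _ _ _
        have h3 : φ0 (notEquiv (2 * L) v) = -φ0 v := by
          show (if !(v 0) then (-1 : ℝ) else 1) = -(if v 0 then -1 else 1)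
          cases v 0 <;> simp
        rw [h2, h3]
        ring
      show ∑ v : CS (2 * L), WB c s s v * φ0 v = 0
      linarith
    rw [h0, abs_zero]
    have h4 : ∀ b : Bool, colW c s.1 s.1 (fun _ => b) = 1 := by
      intro b
      rw [colW]
      refine Finset.prod_eq_one fun j _ => ?_
      cases s.1 j <;> cases b <;> simp [wt]
    have h5 : ∑ v ∈ ({fun _ => true, fun _ => false} : Finset (CS (2 * L))), colW c s.1 s.1 v ≤
        ∑ v, colW c s.1 s.1 v :=
      Finset.sum_le_sum_of_subset_of_nonneg (Finset.subset_univ _)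
        fun v _ _ => colW_nonneg hc.le _ _ _
    rw [Finset.sum_pair (fun h => by simpa using congrFun h 0), h4, h4] at h5
    show 0 ≤ (∑ v, colW c s.1 s.1 v) - 2
    linarith
  · rw [if_neg hst, sub_zero]
    show |∑ v : CS (2 * L), WB c s t v * φ0 v| ≤ ∑ v : CS (2 * L), WB c s t v
    refine (Finset.abs_sum_le_sum_abs _ _).trans (Finset.sum_le_sum fun v _ => ?_)
    rw [abs_mul, hab, mul_one]
    exact le_of_eq (abs_of_nonneg (colW_nonneg hc.le _ _ _))

/-- spin of row `0` in the face column `k` of a chain -/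
def rowS {T : ℕ} (β : Fin (T + 1) → SC L) (k : ℕ) : ℝ := sgb (β (Fin.ofNat (T + 1) k) 0)

lemma phi_arr {T : ℕ} (a : SC L) (α : Fin T → SC L) (i : Fin T) :
    φ0 (arr T 0 a α i).2 = (if ((i : ℕ) + 1) % 2 = 0 then -1 else 1) *
      (rowS (Fin.cons a α : Fin (T + 1) → SC L) i *
        rowS (Fin.cons a α : Fin (T + 1) → SC L) (i + 1)) := by
  rw [arr_apply]
  have h1 : Fin.ofNat (T + 1) (i : ℕ) = i.castSucc := by
    apply Fin.ext
    rw [Fin.val_ofNat, Nat.mod_eq_of_lt (by omega)]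
    rfl
  have h2 : Fin.ofNat (T + 1) ((i : ℕ) + 1) = i.succ := by
    apply Fin.ext
    rw [Fin.val_ofNat, Nat.mod_eq_of_lt (by omega)]
    rfl
  have h3 : (((i : ℕ) + 1 : ℕ) : ZMod 2) + par (0 : ZMod (2 * L)) = 0 ↔ ((i : ℕ) + 1) % 2 = 0 := by
    rw [map_zero, add_zero, ZMod.natCast_eq_zero_iff]
    omega
  simp only [φ0, vt, rowS, h1, h2, zero_add]
  by_cases h : ((i : ℕ) + 1) % 2 = 0
  · rw [if_pos (h3.2 h), if_pos h]
    cases (Fin.cons a α : Fin (T + 1) → SC L) i.castSucc 0 <;>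
    cases (Fin.cons a α : Fin (T + 1) → SC L) i.succ 0 <;> simp [sgb]
  · rw [if_neg (fun h' => h (h3.1 h')), if_neg h]
    cases (Fin.cons a α : Fin (T + 1) → SC L) i.castSucc 0 <;>
    cases (Fin.cons a α : Fin (T + 1) → SC L) i.succ 0 <;> simp [sgb]

lemma sign_prod (s : ℕ → ℝ) (hs : ∀ k, s k * s k = 1) (k : ℕ) :
    ∏ j ∈ Finset.range k, ((if (j + 1) % 2 = 0 then (-1 : ℝ) else 1) * (s j * s (j + 1))) =
      (-1) ^ (k / 2) * (s 0 * s k) := by
  induction k with
  | zero => simp [hs]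
  | succ k ih =>
    rw [Finset.prod_range_succ, ih]
    have h1 : (-1 : ℝ) ^ ((k + 1) / 2) = (-1) ^ (k / 2) * (if (k + 1) % 2 = 0 then (-1 : ℝ) else 1) := by
      by_cases h : (k + 1) % 2 = 0
      · rw [if_pos h]
        have : (k + 1) / 2 = k / 2 + 1 := by omega
        rw [this, pow_succ]
      · rw [if_neg h]
        have : (k + 1) / 2 = k / 2 := by omega
        rw [this, mul_one]
    rw [h1]
    calc _ = (-1) ^ (k / 2) * (if (k + 1) % 2 = 0 then (-1 : ℝ) else 1) * (s 0 * s (k + 1)) *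
          (s k * s k) := by ring
      _ = _ := by rw [hs, mul_one]

/-- the capped sum of a spin function -/
def Ncap (c : ℝ) (R n m : ℕ) (F : (ℤ × ℤ → Bool) → ℝ) : ℝ :=
  ∑ a : SC L, if capL a then ∑ α : Fin (n + ((2 * R + 1) + m)) → SC L, (if capR (lsS a α) then
    pws c a α * F (chS (n + R + 1) (Fin.cons a α : Fin (n + ((2 * R + 1) + m) + 1) → SC L))
      else 0) else 0

/-- window function of the difference part -/
def g1 {R : ℕ} (F : (ℤ × ℤ → Bool) → ℝ) (p : Fin (2 * R + 1) → CS (2 * L) × CS (2 * L)) : ℝ :=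
  (∏ i : Fin (R + 1), φ0 (p (Fin.castLE (by omega) i)).2) * difF F (wconf p)

lemma F_chain {R n m : ℕ} (hn : Even (n + R + 1)) {F : (ℤ × ℤ → Bool) → ℝ} (hF : LocS R F)
    (a : SC L) (ha : capL a) (α : Fin (n + ((2 * R + 1) + m)) → SC L) :
    F (chS (n + R + 1) (Fin.cons a α : Fin (n + ((2 * R + 1) + m) + 1) → SC L)) =
      avgF F (wconf fun i : Fin (2 * R + 1) => arr _ 0 a α (Fin.natAdd n (Fin.castAdd m i))) +
      (-1) ^ ((n + R + 1) / 2) * ((∏ i : Fin n, φ0 (arr _ 0 a α (Fin.castAdd ((2 * R + 1) + m) i)).2) *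
        g1 F (fun i : Fin (2 * R + 1) => arr _ 0 a α (Fin.natAdd n (Fin.castAdd m i)))) := by
  set β : Fin (n + ((2 * R + 1) + m) + 1) → SC L := Fin.cons a α with hβ
  set p : Fin (2 * R + 1) → CS (2 * L) × CS (2 * L) :=
    fun i => arr _ 0 a α (Fin.natAdd n (Fin.castAdd m i)) with hp
  have hco : Compat R (wconf p) (chS (n + R + 1) β) := chain_compat hn a α
  have h1 : F (chS (n + R + 1) β) = F (spinOf (wconf p) (chS (n + R + 1) β (0, 0))) := by
    refine hF _ _ fun f hf => ?_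
    rw [mem_box] at hf
    exact (spin_eq hco hf.1 hf.2).symm
  rw [h1, F_spinOf F]
  congr 1
  -- the sign
  have hs0 : chS (n + R + 1) β (0, 0) = β (Fin.ofNat _ (n + R + 1)) 0 := by
    unfold chS
    simp only [zero_add, Int.cast_zero]
    congr 2
  have hrow0 : rowS β 0 = 1 := by
    unfold rowS
    have : Fin.ofNat (n + ((2 * R + 1) + m) + 1) 0 = 0 := rfl
    rw [this, hβ, Fin.cons_zero, ha 0 (map_zero _)]
    rfl
  have hprod : ∏ j ∈ Finset.range (n + (R + 1)), ((if (j + 1) % 2 = 0 then (-1 : ℝ) else 1) *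
      (rowS β j * rowS β (j + 1))) = (-1) ^ ((n + R + 1) / 2) * sgb (chS (n + R + 1) β (0, 0)) := by
    rw [sign_prod (rowS β) (fun k => sgb_sq _), hrow0, one_mul, hs0]
    rfl
  rw [Finset.prod_range_add] at hprod
  have e1 : ∏ j ∈ Finset.range n, ((if (j + 1) % 2 = 0 then (-1 : ℝ) else 1) *
      (rowS β j * rowS β (j + 1))) =
      ∏ i : Fin n, φ0 (arr _ 0 a α (Fin.castAdd ((2 * R + 1) + m) i)).2 := by
    rw [← Fin.prod_univ_eq_prod_range (fun j => (if (j + 1) % 2 = 0 then (-1 : ℝ) else 1) *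
      (rowS β j * rowS β (j + 1)))]
    refine Finset.prod_congr rfl fun i _ => ?_
    rw [phi_arr]
    rfl
  have e2 : ∏ j ∈ Finset.range (R + 1), ((if (n + j + 1) % 2 = 0 then (-1 : ℝ) else 1) *
      (rowS β (n + j) * rowS β (n + j + 1))) =
      ∏ i : Fin (R + 1), φ0 (p (Fin.castLE (by omega) i)).2 := by
    rw [← Fin.prod_univ_eq_prod_range (fun j => (if (n + j + 1) % 2 = 0 then (-1 : ℝ) else 1) *
      (rowS β (n + j) * rowS β (n + j + 1)))]
    refine Finset.prod_congr rfl fun i _ => ?_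
    rw [hp]
    simp only
    rw [phi_arr]
    rfl
  rw [e1, e2] at hprod
  unfold g1
  have h3 : sgb (chS (n + R + 1) β (0, 0)) = (-1) ^ ((n + R + 1) / 2) *
      ((∏ i : Fin n, φ0 (arr _ 0 a α (Fin.castAdd ((2 * R + 1) + m) i)).2) *
        ∏ i : Fin (R + 1), φ0 (p (Fin.castLE (by omega) i)).2) := by
    rw [hprod, ← mul_assoc, ← pow_add]
    have : (-1 : ℝ) ^ ((n + R + 1) / 2 + (n + R + 1) / 2) = 1 := by
      rw [← two_mul, pow_mul]; simp
    rw [this, one_mul]
  rw [h3]
  ring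

/-- the boundary vector -/
def Bv (L : ℕ) [NeZero (2 * L)] (s : BS (2 * L)) : ℝ := if capB s.1 then 1 else 0

/-- decomposition of the capped sum -/
lemma Ncap_eq (c : ℝ) {R n m : ℕ} (hn : Even (n + R + 1)) (hT : Even (n + ((2 * R + 1) + m)))
    {F : (ℤ × ℤ → Bool) → ℝ} (hF : LocS R F) :
    Ncap (L := L) c R n m F =
      capS (WB c) (Bv L) (Bv L) (fun _ => 1) n (2 * R + 1) m
        (fun _ p => avgF F (wconf fun i => fb (p i))) +
      (-1) ^ ((n + R + 1) / 2) * capS (WB c) (Bv L) (Bv L) φ0 n (2 * R + 1) m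
        (fun _ p => g1 F fun i => fb (p i)) := by
  have h1 := capS_spin c (fun _ : CS (2 * L) => (1 : ℝ)) n (2 * R + 1) m hT
    (fun p => avgF F (wconf p))
  have h2 := capS_spin c (φ0 (N := 2 * L)) n (2 * R + 1) m hT (fun p => g1 F p)
  unfold Bv
  rw [h1, h2, Finset.mul_sum, ← Finset.sum_add_distrib]
  unfold Ncap
  refine Finset.sum_congr rfl fun a _ => ?_
  by_cases ha : capL a
  · rw [if_pos ha, if_pos ha, if_pos ha, Finset.mul_sum, ← Finset.sum_add_distrib]
    refine Finset.sum_congr rfl fun α _ => ?_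
    by_cases h3 : capR (lsS a α)
    · rw [if_pos h3, if_pos h3, if_pos h3, F_chain hn hF a ha α]
      simp only [Finset.prod_const_one, one_mul]
      ring
    · rw [if_neg h3, if_neg h3, if_neg h3]
      ring
  · rw [if_neg ha, if_neg ha, if_neg ha]
    ring

lemma sum_wB_pos {w : BS (2 * L) → ℝ} (hw : ∀ s, 0 < w s) :
    0 < ∑ u, w u * Bv L u := by
  have ha : capL (fun _ => true : SC L) := fun _ _ => rfl
  refine Finset.sum_pos' (fun s _ => mul_nonneg (hw s).le ?_)
    ⟨⟨st 0 (fun _ => true), bal_of_capB ((capR_iff _).1 ha.capR)⟩, Finset.mem_univ _, ?_⟩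
  · unfold Bv; split_ifs <;> norm_num
  · unfold Bv
    rw [if_pos ((capR_iff _).1 ha.capR), mul_one]
    exact hw _

/-- normalised capped expectation, `k` large -/
def Ecap (c : ℝ) (L : ℕ) [NeZero (2 * L)] (R k : ℕ) (F : (ℤ × ℤ → Bool) → ℝ) : ℝ :=
  Ncap (L := L) c R (2 * k + R + 1) (2 * k + R) F /
    Ncap (L := L) c R (2 * k + R + 1) (2 * k + R) (fun _ => 1)

theorem Ecap_tendsto {c lam : ℝ} (hc : 0 < c) {w : BS (2 * L) → ℝ}
    (h : PFData (TB (2 * L) c) lam w) {R : ℕ} {F : (ℤ × ℤ → Bool) → ℝ} (hF : LocS R F) :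
    Tendsto (fun k : ℕ => Ecap c L R k F) atTop
      (𝓝 (CylE c lam w (2 * R + 1) fun p => avgF F (wconf p))) := by
  have hn : Tendsto (fun k : ℕ => 2 * k + R + 1) atTop atTop :=
    tendsto_atTop_mono (fun k => (by omega : k ≤ 2 * k + R + 1)) tendsto_id
  have hm : Tendsto (fun k : ℕ => 2 * k + R) atTop atTop :=
    tendsto_atTop_mono (fun k => (by omega : k ≤ 2 * k + R)) tendsto_id
  have hB0 : ∀ s : BS (2 * L), 0 ≤ Bv L s := fun s => by unfold Bv; split_ifs <;> norm_num
  set C : ℝ := (∑ u, w u * Bv L u) * (∑ u, w u * Bv L u) with hC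
  have hCpos : 0 < C := mul_pos (sum_wB_pos h.w_pos) (sum_wB_pos h.w_pos)
  have key : ∀ F : (ℤ × ℤ → Bool) → ℝ, LocS R F →
      Tendsto (fun k : ℕ => Ncap (L := L) c R (2 * k + R + 1) (2 * k + R) F /
        (lam ^ (2 * k + R + 1) * lam ^ (2 * k + R))) atTop
        (𝓝 (C * (lam ^ (2 * R + 1) * CylE c lam w (2 * R + 1) fun p => avgF F (wconf p)))) := by
    intro F hF
    have t1 := capS_tendsto (W := WB c) h (Bv L) (Bv L) (2 * R + 1)
      (fun _ p => avgF F (wconf fun i => fb (p i))) hn hm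
    have t2 := capS_tendsto_zero (W := WB c) h (TB_transpose c) hB0 (Bv L) (φ := φ0) (κ := 2)
      (by norm_num) (phi_dom hc) (2 * R + 1) (fun _ p => g1 F fun i => fb (p i)) hn hm
    have t3 : Tendsto (fun k : ℕ => (-1 : ℝ) ^ ((2 * k + R + 1 + R + 1) / 2) *
        (capS (WB c) (Bv L) (Bv L) φ0 (2 * k + R + 1) (2 * R + 1) (2 * k + R)
        (fun _ p => g1 F fun i => fb (p i)) / (lam ^ (2 * k + R + 1) * lam ^ (2 * k + R)))) atTop
        (𝓝 0) := by
      rw [tendsto_zero_iff_abs_tendsto_zero] at t2 ⊢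
      refine t2.congr fun k => ?_
      simp [abs_mul]
    have t4 := t1.add t3
    rw [add_zero] at t4
    have e1 : C * (lam ^ (2 * R + 1) * CylE c lam w (2 * R + 1) fun p => avgF F (wconf p)) =
        (∑ u, w u * Bv L u) * (∑ u, w u * Bv L u) * ∑ t, ∑ p : Fin (2 * R + 1) → BS (2 * L) × CS (2 * L),
          w t * pw (WB c) t p * avgF F (wconf fun i => fb (p i)) * w (ls t p) := by
      rw [hC]
      congr 1
      unfold CylE ES
      have hl : lam ^ (2 * R + 1) ≠ 0 := (pow_pos h.lam_pos _).ne'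
      field_simp
    rw [e1]
    refine t4.congr fun k => ?_
    have hT : Even ((2 * k + R + 1) + ((2 * R + 1) + (2 * k + R))) :=
      ⟨2 * k + 2 * R + 1, by ring⟩
    have hn' : Even ((2 * k + R + 1) + R + 1) := ⟨k + R + 1, by ring⟩
    rw [Ncap_eq c hn' hT hF, add_div, mul_div_assoc]
  have k1 := key F hF
  have k2 := key (fun _ => 1) (fun _ _ _ => rfl)
  have e2 : CylE c lam w (2 * R + 1) (fun p => avgF (fun _ => 1) (wconf p)) = 1 := by
    have : (fun p : Fin (2 * R + 1) → CS (2 * L) × CS (2 * L) => avgF (fun _ => (1 : ℝ)) (wconf p)) =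
        fun _ => 1 := by
      funext p
      unfold avgF
      norm_num
    rw [this]
    exact ES_one (WB c) h (2 * R + 1)
  rw [e2, mul_one] at k2
  have hne : C * lam ^ (2 * R + 1) ≠ 0 := (mul_pos hCpos (pow_pos h.lam_pos _)).ne'
  have k3 := k1.div k2 hne
  have e3 : C * (lam ^ (2 * R + 1) * CylE c lam w (2 * R + 1) fun p => avgF F (wconf p)) /
      (C * lam ^ (2 * R + 1)) = CylE c lam w (2 * R + 1) fun p => avgF F (wconf p) := by
    rw [← mul_assoc, mul_div_assoc, mul_comm, div_mul_cancel₀]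
    exact hne
  rw [e3] at k3
  refine k3.congr fun k => ?_
  have hl : lam ^ (2 * k + R + 1) * lam ^ (2 * k + R) ≠ 0 :=
    mul_ne_zero (pow_pos h.lam_pos _).ne' (pow_pos h.lam_pos _).ne'
  simp only [Pi.div_apply]
  rw [div_div_div_cancel_right₀ hl]
  rfl

/-- the infinite cylinder state of `avgF F` is the long torus limit -/
theorem torus_cyl {c lam : ℝ} {w : BS (2 * L) → ℝ}
    (h : PFData (TB (2 * L) c) lam w) {R : ℕ} {F : (ℤ × ℤ → Bool) → ℝ} (hF : LocS R F) :
    Tendsto (fun M : ℕ => tm M (2 * L) c (avgF F)) atTop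
      (𝓝 (CylE c lam w (2 * R + 1) fun p => avgF F (wconf p))) := by
  rw [← tendsto_add_atTop_iff_nat 1]
  have h1 := torus_tendsto h (2 * R + 1) (-(R : ℤ)) (fun p => avgF F (wconf p))
    (fun m σ => avgF F (lift σ)) ?_
  · refine h1.congr fun m => ?_
    rw [tm_eq]
  · intro m hm σ
    refine avgF_congr hF fun v hv => ?_
    rw [mem_box] at hv
    have hv1 := abs_le.1 hv.1
    unfold wconf lift
    simp only [arrEquiv, Equiv.coe_fn_mk]
    have h3 : ((-(R : ℤ) + ((Fin.ofNat (2 * R + 1) (v.1 + R).toNat :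
        Fin (2 * R + 1)) : ℕ) : ℤ)) = v.1 := by
      have h4 : ((Fin.ofNat (2 * R + 1) (v.1 + R).toNat : Fin (2 * R + 1)) : ℕ) =
          (v.1 + R).toNat := by
        rw [Fin.val_ofNat, Nat.mod_eq_of_lt]
        omega
      rw [h4]
      omega
    rw [h3]

end

/-- **the plane state is the iterated limit of the capped cylinder states** -/
theorem plane_cap {c : ℝ} (hc : 0 < c) {P : Measure Conf} (hP : IsPlane c P) {R : ℕ}
    {F : (ℤ × ℤ → Bool) → ℝ} (hF : LocS R F) :
    ∃ A : ℕ → ℝ, (∀ (L : ℕ) (_ : 2 ≤ L) [NeZero (2 * L)],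
      Tendsto (fun k : ℕ => Ecap c L R k F) atTop (𝓝 (A L))) ∧
      Tendsto A atTop (𝓝 (∫ ω, avgF F ω ∂P)) := by
  obtain ⟨A, hA, hA2⟩ := hP.iter (avgF F) (avgF_loc hF)
  refine ⟨A, fun L hL _ => ?_, hA2⟩
  obtain ⟨lam, w, hpf⟩ := exists_pf L hc
  have h1 := torus_cyl hpf hF
  have h2 := tendsto_nhds_unique (hA L hL) h1
  rw [h2]
  exact Ecap_tendsto hc hpf hF

end Crest.Agent.R161.Cap863
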