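import Crest.Agent.R161.Cap5_863

/-!
# R161, capped cylinders (helper863), part 6: cut variables and insertion tolerance

* `evn f` : the face `f` is even (primal)
* `pa / da S e` : agreement of the two even (odd) faces around the six-vertex vertex `e`
* `ez c S e b` : weight of `z e = b` (`b = true` cut) given the spins; `wt4 = ∑ b, ez`
* `kz c S e b = ez / wt4` : conditional law of `z e`
* `zF c W G S = ∑ z, ∏ e ∈ W, kz c S e (z e) * G S z`
* `insertion_cap`, `insertion_plane` : insertion tolerance of the open dual edges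
-/

set_option autoImplicit false
set_option linter.unusedSectionVars false

noncomputable section

open Matrix Filter Topology MeasureTheory
open Crest.ProbabilityR.SixVertex
open Crest.Agent.R150.Base357 Crest.Agent.R150.Hgt989 Crest.Agent.R150.Pls989

namespace Crest.Agent.R161.Cap863

/-! ### local weights -/

/-- agreement of the primal diagonal; `e = true` iff the lower left face is even -/
def paB (e x y z u : Bool) : Bool := if e then (x == u) else (y == z)

/-- agreement of the dual diagonal -/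
def daB (e x y z u : Bool) : Bool := if e then (y == z) else (x == u)

/-- weight of the cut variable `b` -/
def ezB (c : ℝ) (p d b : Bool) : ℝ :=
  if b then (if p then 1 else 0) else (if d then (if p then c - 1 else 1) else 0)

lemma wt4_eq (c : ℝ) (e x y z u : Bool) :
    wt4 c x y z u = ezB c (paB e x y z u) (daB e x y z u) true +
      ezB c (paB e x y z u) (daB e x y z u) false := by
  cases e <;> cases x <;> cases y <;> cases z <;> cases u <;> simp [wt4, ezB, paB, daB]

lemma ezB_nonneg {c : ℝ} (hc : 1 ≤ c) (p d b : Bool) : 0 ≤ ezB c p d b := by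
  unfold ezB; split_ifs <;> linarith

/-! ### the capped cylinder as one sum -/

section

variable {L : ℕ} [NeZero (2 * L)]

/-- spins at the four faces around the vertex in column `i` (between the face columns `i`, `i + 1`)
and row `j` -/
def quadP {T : ℕ} (β : Fin (T + 1) → SC L) (e : Fin T × ZMod (2 * L)) : Bool :=
  paB (decide ((((e.1 : ℕ) : ZMod 2) + par (e.2 - 1) = 0)))
    (β e.1.castSucc (e.2 - 1)) (β e.1.succ (e.2 - 1)) (β e.1.castSucc e.2) (β e.1.succ e.2)

/-- agreement of the dual diagonal -/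
def quadD {T : ℕ} (β : Fin (T + 1) → SC L) (e : Fin T × ZMod (2 * L)) : Bool :=
  daB (decide ((((e.1 : ℕ) : ZMod 2) + par (e.2 - 1) = 0)))
    (β e.1.castSucc (e.2 - 1)) (β e.1.succ (e.2 - 1)) (β e.1.castSucc e.2) (β e.1.succ e.2)

/-- caps -/
def capsW {T : ℕ} (β : Fin (T + 1) → SC L) : ℝ :=
  (if capL (β 0) then 1 else 0) * (if capR (β (Fin.last T)) then 1 else 0)

lemma capsW_nonneg {T : ℕ} (β : Fin (T + 1) → SC L) : 0 ≤ capsW β := by
  unfold capsW; split_ifs <;> norm_num

/-- weight of all the six-vertex vertices -/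
def bulkW {T : ℕ} (c : ℝ) (β : Fin (T + 1) → SC L) : ℝ :=
  ∏ e : Fin T × ZMod (2 * L), (ezB c (quadP β e) (quadD β e) true +
    ezB c (quadP β e) (quadD β e) false)

lemma pws_eq {T : ℕ} (c : ℝ) (a : SC L) (α : Fin T → SC L) :
    pws c a α = bulkW c (Fin.cons a α : Fin (T + 1) → SC L) := by
  unfold pws bulkW
  rw [pw_eq_prod, Fintype.prod_prod_type]
  refine Finset.prod_congr rfl fun i _ => ?_
  unfold wc
  refine Finset.prod_congr rfl fun j _ => ?_
  rw [wt4_eq c (decide ((((i : ℕ) : ZMod 2) + par (j - 1) = 0)))]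
  rfl

lemma lsS_eq {T : ℕ} (a : SC L) (α : Fin T → SC L) :
    lsS a α = (Fin.cons a α : Fin (T + 1) → SC L) (Fin.last T) := by
  cases T with
  | zero => simp [lsS]
  | succ T =>
    unfold lsS
    rw [ls_eq_last, ← Fin.succ_last, Fin.cons_succ]

/-- the capped sum as one sum over spin configurations -/
lemma Ncap_sum (c : ℝ) (R n m : ℕ) (F : (ℤ × ℤ → Bool) → ℝ) :
    Ncap (L := L) c R n m F = ∑ β : Fin (n + ((2 * R + 1) + m) + 1) → SC L,
      capsW β * bulkW c β * F (chS (n + R + 1) β) := by
  rw [← (Fin.consEquiv fun _ => SC L).sum_comp, Fintype.sum_prod_type]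
  unfold Ncap
  refine Finset.sum_congr rfl fun a _ => ?_
  by_cases ha : capL a
  · rw [if_pos ha]
    refine Finset.sum_congr rfl fun α _ => ?_
    simp only [Fin.consEquiv, Equiv.coe_fn_mk]
    unfold capsW
    rw [← lsS_eq, Fin.cons_zero, if_pos ha, one_mul, pws_eq]
    split_ifs
    · ring
    · ring
  · rw [if_neg ha]
    symm
    refine Finset.sum_eq_zero fun α _ => ?_
    simp only [Fin.consEquiv, Equiv.coe_fn_mk]
    unfold capsW
    rw [Fin.cons_zero, if_neg ha]
    ring

end

/-! ### plane cut variables -/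

/-- even faces -/
def evn (f : ℤ × ℤ) : Prop := (f.1 + f.2) % 2 = 0

instance (f : ℤ × ℤ) : Decidable (evn f) := by unfold evn; infer_instance

/-- primal agreement at the six-vertex vertex `e` -/
def pa (S : ℤ × ℤ → Bool) (e : ℤ × ℤ) : Bool :=
  paB (decide ((e.1 + e.2) % 2 = 0)) (S (e.1 - 1, e.2 - 1)) (S (e.1, e.2 - 1)) (S (e.1 - 1, e.2))
    (S (e.1, e.2))

/-- dual agreement at the six-vertex vertex `e` -/
def da (S : ℤ × ℤ → Bool) (e : ℤ × ℤ) : Bool :=
  daB (decide ((e.1 + e.2) % 2 = 0)) (S (e.1 - 1, e.2 - 1)) (S (e.1, e.2 - 1)) (S (e.1 - 1, e.2))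
    (S (e.1, e.2))

/-- weight of `z e = b` given the spins -/
def ez (c : ℝ) (S : ℤ × ℤ → Bool) (e : ℤ × ℤ) (b : Bool) : ℝ := ezB c (pa S e) (da S e) b

/-- total weight -/
def wz (c : ℝ) (S : ℤ × ℤ → Bool) (e : ℤ × ℤ) : ℝ := ez c S e true + ez c S e false

/-- conditional probability of `z e = b` given the spins -/
def kz (c : ℝ) (S : ℤ × ℤ → Bool) (e : ℤ × ℤ) (b : Bool) : ℝ := ez c S e b / wz c S e

/-- spin function obtained by integrating the cut variables in the window `W` -/
def zF (c : ℝ) (W : Finset (ℤ × ℤ)) (G : (ℤ × ℤ → Bool) → (W → Bool) → ℝ)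
    (S : ℤ × ℤ → Bool) : ℝ :=
  ∑ z : W → Bool, (∏ e : W, kz c S e (z e)) * G S z

lemma wz_zero {c : ℝ} (hc : 1 ≤ c) {S : ℤ × ℤ → Bool} {e : ℤ × ℤ} (h : wz c S e = 0) (b : Bool) :
    ez c S e b = 0 := by
  have h1 : 0 ≤ ez c S e true := ezB_nonneg hc _ _ _
  have h2 : 0 ≤ ez c S e false := ezB_nonneg hc _ _ _
  unfold wz at h
  cases b <;> linarith

lemma wz_mul_kz {c : ℝ} (hc : 1 ≤ c) (S : ℤ × ℤ → Bool) (e : ℤ × ℤ) (b : Bool) :
    wz c S e * kz c S e b = ez c S e b := by
  unfold kz
  by_cases h : wz c S e = 0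
  · rw [h, zero_mul, wz_zero hc h]
  · field_simp

/-! ### the insertion argument on an abstract finite system -/

section abs

variable {X : Type*} [Fintype X] [DecidableEq X]

/-- pointwise xor -/
def xr (β u : X → Bool) : X → Bool := fun x => xor (β x) (u x)

lemma xr_xr (β u : X → Bool) : xr (xr β u) u = β := by
  funext x; simp [xr]

/-- xor with a fixed configuration as a permutation -/
def xrE (u : X → Bool) : (X → Bool) ≃ (X → Bool) where
  toFun β := xr β u
  invFun β := xr β u
  left_inv β := xr_xr β u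
  right_inv β := xr_xr β u

/-- `od` : the odd sites; `w ≥ 0` depends on the odd spins only through the equalities
`β (f i) = β (g i)`, `i ∈ I`, between odd sites: then adding one equality costs at most a factor 2. -/
lemma half_lemma (od : X → Bool) {ι : Type*} (I : Finset ι) (f g : ι → X)
    (hf : ∀ i ∈ I, od (f i) = true) (hg : ∀ i ∈ I, od (g i) = true)
    (w0 : (X → Bool) → ℝ) (hw0 : ∀ β, 0 ≤ w0 β)
    (hinv : ∀ β u : X → Bool, (∀ x, od x = false → u x = false) → w0 (xr β u) = w0 β)
    (f0 g0 : X) (hf0 : od f0 = true) (hg0 : od g0 = true) :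
    ∑ β : X → Bool, w0 β * (if (∀ i ∈ I, β (f i) = β (g i)) then 1 else 0) ≤
      2 * ∑ β : X → Bool, w0 β * (if (∀ i ∈ I, β (f i) = β (g i)) then 1 else 0) *
        (if β f0 = β g0 then 1 else 0) := by
  classical
  by_cases hex : ∃ u : X → Bool, (∀ x, od x = false → u x = false) ∧
      (∀ i ∈ I, u (f i) = u (g i)) ∧ u f0 ≠ u g0
  · obtain ⟨u, hu1, hu2, hu3⟩ := hex
    have h1 : ∑ β : X → Bool, w0 β * (if (∀ i ∈ I, β (f i) = β (g i)) then 1 else 0) *
        (if β f0 = β g0 then (0 : ℝ) else 1) =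
        ∑ β : X → Bool, w0 β * (if (∀ i ∈ I, β (f i) = β (g i)) then 1 else 0) *
        (if β f0 = β g0 then 1 else 0) := by
      rw [← (xrE u).sum_comp]
      refine Finset.sum_congr rfl fun β _ => ?_
      show w0 (xr β u) * (if (∀ i ∈ I, xr β u (f i) = xr β u (g i)) then 1 else 0) *
        (if xr β u f0 = xr β u g0 then (0 : ℝ) else 1) = _
      rw [hinv β u hu1]
      have e1 : (∀ i ∈ I, xr β u (f i) = xr β u (g i)) ↔ (∀ i ∈ I, β (f i) = β (g i)) := by
        refine forall₂_congr fun i hi => ?_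
        unfold xr
        rw [hu2 i hi]
        cases β (f i) <;> cases β (g i) <;> cases u (g i) <;> simp
      have e2 : (xr β u f0 = xr β u g0) ↔ ¬ (β f0 = β g0) := by
        unfold xr
        revert hu3
        cases β f0 <;> cases β g0 <;> cases u f0 <;> cases u g0 <;> simp
      by_cases h2 : ∀ i ∈ I, β (f i) = β (g i)
      · rw [if_pos h2, if_pos (e1.2 h2)]
        by_cases h3 : β f0 = β g0
        · rw [if_pos h3, if_neg (fun h => (e2.1 h) h3)]
        · rw [if_neg h3, if_pos (e2.2 h3)]
      · rw [if_neg h2, if_neg (fun h => h2 (e1.1 h))]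
        ring
    have h2 : ∑ β : X → Bool, w0 β * (if (∀ i ∈ I, β (f i) = β (g i)) then 1 else 0) =
        ∑ β : X → Bool, w0 β * (if (∀ i ∈ I, β (f i) = β (g i)) then 1 else 0) *
        (if β f0 = β g0 then 1 else 0) +
        ∑ β : X → Bool, w0 β * (if (∀ i ∈ I, β (f i) = β (g i)) then 1 else 0) *
        (if β f0 = β g0 then (0 : ℝ) else 1) := by
      rw [← Finset.sum_add_distrib]
      refine Finset.sum_congr rfl fun β _ => ?_
      split_ifs <;> ring
    rw [h2, h1]
    linarith
  · push Not at hex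
    have h1 : ∑ β : X → Bool, w0 β * (if (∀ i ∈ I, β (f i) = β (g i)) then 1 else 0) =
        ∑ β : X → Bool, w0 β * (if (∀ i ∈ I, β (f i) = β (g i)) then 1 else 0) *
        (if β f0 = β g0 then 1 else 0) := by
      refine Finset.sum_congr rfl fun β _ => ?_
      by_cases h2 : ∀ i ∈ I, β (f i) = β (g i)
      · have h3 := hex (fun x => if od x = true then β x else false) (fun x hx => by simp [hx])
          (fun i hi => by simp [hf i hi, hg i hi, h2 i hi])
        simp only [hf0, hg0, if_true] at h3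
        rw [if_pos h3, mul_one]
      · rw [if_neg h2]; ring
    have h2 : 0 ≤ ∑ β : X → Bool, w0 β * (if (∀ i ∈ I, β (f i) = β (g i)) then 1 else 0) *
        (if β f0 = β g0 then 1 else 0) :=
      Finset.sum_nonneg fun β _ => mul_nonneg (mul_nonneg (hw0 β) (by split_ifs <;> norm_num))
        (by split_ifs <;> norm_num)
    linarith

end abs

end Crest.Agent.R161.Cap863
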