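import Crest.Agent.R161.Cap6_863

/-!
# R161, capped cylinders (helper863), part 7: insertion tolerance

* `sum_z_comp` : summing the cut variables outside the window
* `ins_abs` : insertion tolerance on an abstract finite system of even and odd spins
* `Ncap_zF`, `ins_cap`, `ins_plane` : capped cylinder and plane versions
-/

set_option autoImplicit false
set_option linter.unusedSectionVars false

noncomputable section

open Matrix Filter Topology MeasureTheory
open Crest.ProbabilityR.SixVertex
open Crest.Agent.R150.Base357 Crest.Agent.R150.Hgt989 Crest.Agent.R150.Pls989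

namespace Crest.Agent.R161.Cap863

/-! ### sums over cut variables -/

section zsum

variable {V W : Type*} [Fintype V] [DecidableEq V] [Fintype W] [DecidableEq W]

lemma sum_z_prod (f : V → Bool → ℝ) :
    ∑ z : V → Bool, ∏ v, f v (z v) = ∏ v, (f v true + f v false) := by
  rw [← Fintype.piFinset_univ, ← Finset.prod_univ_sum]
  refine Finset.prod_congr rfl fun v _ => ?_
  rw [Fintype.sum_bool]

lemma sum_z_comp (f : V → Bool → ℝ) (ι : W → V) (hι : Function.Injective ι) (k : W → Bool → ℝ)
    (hk : ∀ w b, (f (ι w) true + f (ι w) false) * k w b = f (ι w) b) (g : (W → Bool) → ℝ) :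
    ∑ z : V → Bool, (∏ v, f v (z v)) * g (fun w => z (ι w)) =
      (∏ v, (f v true + f v false)) * ∑ ζ : W → Bool, (∏ w, k w (ζ w)) * g ζ := by
  classical
  have h1 : ∀ z : V → Bool, (∏ v, f v (z v)) * g (fun w => z (ι w)) =
      ∑ ζ : W → Bool, g ζ * ∏ v, (f v (z v) * if ∀ w, ι w = v → z v = ζ w then 1 else 0) := by
    intro z
    rw [Finset.sum_eq_single (fun w => z (ι w))]
    · rw [mul_comm]
      congr 1
      refine Finset.prod_congr rfl fun v _ => ?_
      rw [if_pos, mul_one]
      intro w hw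
      show z v = z (ι w)
      rw [hw]
    · intro ζ _ hζ
      have h2 : ∃ w, z (ι w) ≠ ζ w := by
        by_contra h
        push Not at h
        exact hζ (funext fun w => (h w).symm)
      obtain ⟨w, hw⟩ := h2
      rw [Finset.prod_eq_zero (Finset.mem_univ (ι w)), mul_zero]
      rw [if_neg, mul_zero]
      intro h
      exact hw (h w rfl)
    · intro h
      exact absurd (Finset.mem_univ _) h
  simp_rw [h1]
  rw [Finset.sum_comm, Finset.mul_sum]
  refine Finset.sum_congr rfl fun ζ _ => ?_
  rw [← Finset.mul_sum, sum_z_prod (fun v b => f v b * if ∀ w, ι w = v → b = ζ w then 1 else 0)]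
  rw [mul_comm (∏ w, k w (ζ w)) (g ζ), mul_left_comm]
  congr 1
  rw [Fintype.prod_of_injective ι hι (fun w => k w (ζ w))
    (fun v => if h : ∃ w, ι w = v then k h.choose (ζ h.choose) else 1)
    (fun v hv => dif_neg fun ⟨w, hw⟩ => hv ⟨w, hw⟩)
    (fun w => by
      have h : ∃ w', ι w' = ι w := ⟨w, rfl⟩
      have h2 : h.choose = w := hι h.choose_spec
      simp only [dif_pos h]
      rw [h2])]
  rw [← Finset.prod_mul_distrib]
  refine Finset.prod_congr rfl fun v _ => ?_
  by_cases h : ∃ w, ι w = v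
  · rw [dif_pos h]
    have h2 := h.choose_spec
    set w := h.choose with hw
    have h3 : ∀ b : Bool, (∀ w', ι w' = v → b = ζ w') ↔ b = ζ w := by
      intro b
      constructor
      · intro h; exact h w h2
      · intro h w' hw'
        have : w' = w := hι (hw'.trans h2.symm)
        rw [this]; exact h
    simp only [h3]
    have h4 := hk w (ζ w)
    rw [h2] at h4
    rw [h4]
    cases ζ w <;> simp
  · rw [dif_neg h]
    have h3 : ∀ b : Bool, (∀ w', ι w' = v → b = ζ w') := fun b w' hw' => absurd ⟨w', hw'⟩ h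
    rw [if_pos (h3 _), if_pos (h3 _)]
    ring

end zsum

/-! ### the abstract insertion inequality -/

section insabs

variable {X V : Type*} [Fintype X] [DecidableEq X] [Fintype V] [DecidableEq V]

/-- weight of spins and cut variables -/
def aw (c : ℝ) (caps : (X → Bool) → ℝ) (p1 p2 d1 d2 : V → X) (β : X → Bool) (z : V → Bool) : ℝ :=
  caps β * ∏ v, ezB c (β (p1 v) == β (p2 v)) (β (d1 v) == β (d2 v)) (z v)

lemma aw_nonneg {c : ℝ} (hc : 1 ≤ c) {caps : (X → Bool) → ℝ} (hcaps : ∀ β, 0 ≤ caps β)
    (p1 p2 d1 d2 : V → X) (β : X → Bool) (z : V → Bool) : 0 ≤ aw c caps p1 p2 d1 d2 β z :=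
  mul_nonneg (hcaps β) (Finset.prod_nonneg fun _ _ => ezB_nonneg hc _ _ _)

theorem ins_fix {c : ℝ} (hc : 1 ≤ c) (od : X → Bool) (p1 p2 d1 d2 : V → X)
    (hp1 : ∀ v, od (p1 v) = false) (hp2 : ∀ v, od (p2 v) = false)
    (hd1 : ∀ v, od (d1 v) = true) (hd2 : ∀ v, od (d2 v) = true)
    (caps : (X → Bool) → ℝ) (hcaps : ∀ β, 0 ≤ caps β)
    (hinv : ∀ β u : X → Bool, (∀ x, od x = false → u x = false) → caps (xr β u) = caps β)
    (g : (X → Bool) → ℝ) (hg : ∀ β, 0 ≤ g β)
    (ginv : ∀ β u : X → Bool, (∀ x, od x = false → u x = false) → g (xr β u) = g β)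
    (e0 : V) (z : V → Bool) (hz : z e0 = false) :
    (c - 1) * ∑ β : X → Bool, aw c caps p1 p2 d1 d2 β (Function.update z e0 true) * g β ≤
      2 * ∑ β : X → Bool, aw c caps p1 p2 d1 d2 β z * g β := by
  classical
  set I : Finset V := Finset.univ.filter fun v => v ≠ e0 ∧ z v = false with hI
  set w0 : (X → Bool) → ℝ := fun β => caps β * (∏ v ∈ Finset.univ.erase e0,
    (if z v = true then (if (β (p1 v) == β (p2 v)) then (1 : ℝ) else 0) else
      (if (β (p1 v) == β (p2 v)) then c - 1 else 1))) *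
      (if (β (p1 e0) == β (p2 e0)) then 1 else 0) * g β with hw0
  have hw0n : ∀ β, 0 ≤ w0 β := by
    intro β
    refine mul_nonneg (mul_nonneg (mul_nonneg (hcaps β) (Finset.prod_nonneg fun v _ => ?_)) ?_)
      (hg β)
    · split_ifs <;> linarith
    · split_ifs <;> norm_num
  have hpx : ∀ (β u : X → Bool), (∀ x, od x = false → u x = false) → ∀ v,
      xr β u (p1 v) = β (p1 v) ∧ xr β u (p2 v) = β (p2 v) := by
    intro β u hu v
    unfold xr
    rw [hu _ (hp1 v), hu _ (hp2 v)]
    simp
  have hw0i : ∀ β u : X → Bool, (∀ x, od x = false → u x = false) → w0 (xr β u) = w0 β := by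
    intro β u hu
    simp only [hw0]
    rw [hinv β u hu, ginv β u hu]
    simp only [(hpx β u hu _).1, (hpx β u hu _).2]
  have hprod : ∀ β : X → Bool, (∏ v ∈ Finset.univ.erase e0,
      ezB c (β (p1 v) == β (p2 v)) (β (d1 v) == β (d2 v)) (z v)) =
      (∏ v ∈ Finset.univ.erase e0,
    (if z v = true then (if (β (p1 v) == β (p2 v)) then (1 : ℝ) else 0) else
      (if (β (p1 v) == β (p2 v)) then c - 1 else 1))) *
      (if (∀ i ∈ I, β (d1 i) = β (d2 i)) then 1 else 0) := by
    intro β
    have e1 : (if (∀ i ∈ I, β (d1 i) = β (d2 i)) then (1 : ℝ) else 0) =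
        ∏ v ∈ Finset.univ.erase e0, (if z v = true then 1 else
          if β (d1 v) = β (d2 v) then 1 else 0) := by
      by_cases h : ∀ i ∈ I, β (d1 i) = β (d2 i)
      · rw [if_pos h]
        symm
        refine Finset.prod_eq_one fun v hv => ?_
        by_cases hzv : z v = true
        · rw [if_pos hzv]
        · rw [if_neg hzv, if_pos]
          refine h v ?_
          rw [hI, Finset.mem_filter]
          exact ⟨Finset.mem_univ _, Finset.ne_of_mem_erase hv, by simpa using hzv⟩
      · rw [if_neg h]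
        push Not at h
        obtain ⟨i, hi, hne⟩ := h
        rw [hI, Finset.mem_filter] at hi
        symm
        refine Finset.prod_eq_zero (Finset.mem_erase.2 ⟨hi.2.1, Finset.mem_univ i⟩) ?_
        rw [if_neg (by simp [hi.2.2]), if_neg hne]
    rw [e1, ← Finset.prod_mul_distrib]
    refine Finset.prod_congr rfl fun v _ => ?_
    unfold ezB
    cases z v <;> cases β (p1 v) <;> cases β (p2 v) <;> cases β (d1 v) <;> cases β (d2 v) <;> simp
  have hA : ∀ β : X → Bool, aw c caps p1 p2 d1 d2 β (Function.update z e0 true) * g β =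
      w0 β * (if (∀ i ∈ I, β (d1 i) = β (d2 i)) then 1 else 0) := by
    intro β
    unfold aw
    rw [← Finset.mul_prod_erase _ _ (Finset.mem_univ e0)]
    have e1 : (∏ v ∈ Finset.univ.erase e0, ezB c (β (p1 v) == β (p2 v)) (β (d1 v) == β (d2 v))
        (Function.update z e0 true v)) = ∏ v ∈ Finset.univ.erase e0,
        ezB c (β (p1 v) == β (p2 v)) (β (d1 v) == β (d2 v)) (z v) := by
      refine Finset.prod_congr rfl fun v hv => ?_
      rw [Function.update_of_ne (Finset.ne_of_mem_erase hv)]
    rw [e1, hprod β, Function.update_self]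
    simp only [hw0]
    unfold ezB
    rw [if_pos rfl]
    ring
  have hB : ∀ β : X → Bool, (c - 1) * (w0 β * (if (∀ i ∈ I, β (d1 i) = β (d2 i)) then 1 else 0) *
      (if β (d1 e0) = β (d2 e0) then 1 else 0)) ≤ aw c caps p1 p2 d1 d2 β z * g β := by
    intro β
    unfold aw
    rw [← Finset.mul_prod_erase _ _ (Finset.mem_univ e0), hprod β, hz]
    simp only [hw0]
    set Q : ℝ := ∏ v ∈ Finset.univ.erase e0,
      (if z v = true then (if (β (p1 v) == β (p2 v)) then (1 : ℝ) else 0) else
      (if (β (p1 v) == β (p2 v)) then c - 1 else 1)) with hQ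
    set J : ℝ := (if (∀ i ∈ I, β (d1 i) = β (d2 i)) then (1 : ℝ) else 0) with hJ
    have hQ0 : 0 ≤ Q := by
      refine Finset.prod_nonneg fun v _ => ?_
      split_ifs <;> linarith
    have hJ0 : 0 ≤ J := by rw [hJ]; split_ifs <;> norm_num
    have h0 : 0 ≤ caps β * Q * J * g β :=
      mul_nonneg (mul_nonneg (mul_nonneg (hcaps β) hQ0) hJ0) (hg β)
    have e1 : (c - 1) * ((if (β (p1 e0) == β (p2 e0)) then (1 : ℝ) else 0) *
        (if β (d1 e0) = β (d2 e0) then 1 else 0)) ≤
        ezB c (β (p1 e0) == β (p2 e0)) (β (d1 e0) == β (d2 e0)) false := by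
      unfold ezB
      cases β (p1 e0) <;> cases β (p2 e0) <;> cases β (d1 e0) <;> cases β (d2 e0) <;> simp
    calc (c - 1) * (caps β * Q * (if (β (p1 e0) == β (p2 e0)) then 1 else 0) * g β * J *
          (if β (d1 e0) = β (d2 e0) then 1 else 0)) =
          (caps β * Q * J * g β) * ((c - 1) * ((if (β (p1 e0) == β (p2 e0)) then (1 : ℝ) else 0) *
        (if β (d1 e0) = β (d2 e0) then 1 else 0))) := by ring
      _ ≤ (caps β * Q * J * g β) * ezB c (β (p1 e0) == β (p2 e0)) (β (d1 e0) == β (d2 e0)) false :=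
          mul_le_mul_of_nonneg_left e1 h0
      _ = _ := by ring
  have hmain := half_lemma od I d1 d2 (fun i _ => hd1 i) (fun i _ => hd2 i) w0 hw0n hw0i
    (d1 e0) (d2 e0) (hd1 e0) (hd2 e0)
  have hsum : (c - 1) * ∑ β : X → Bool, w0 β * (if (∀ i ∈ I, β (d1 i) = β (d2 i)) then 1 else 0) *
        (if β (d1 e0) = β (d2 e0) then 1 else 0) ≤ ∑ β : X → Bool, aw c caps p1 p2 d1 d2 β z * g β := by
    rw [Finset.mul_sum]
    exact Finset.sum_le_sum fun β _ => hB β
  simp_rw [hA]
  have hc1 : 0 ≤ c - 1 := by linarith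
  have h5 := mul_le_mul_of_nonneg_left hmain hc1
  rw [mul_left_comm] at h5
  refine le_trans ?_ (mul_le_mul_of_nonneg_left hsum (by norm_num : (0 : ℝ) ≤ 2))
  convert h5

/-- splitting a sum over cut variables at one edge -/
lemma sum_z_split (e0 : V) (f : (V → Bool) → ℝ) :
    ∑ z : V → Bool, f z = ∑ z : V → Bool, if z e0 then 0 else
      (f (Function.update z e0 true) + f z) := by
  classical
  have h1 : ∑ z : V → Bool, f z = ∑ z : V → Bool, ((if z e0 then f z else 0) +
      (if z e0 then 0 else f z)) := by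
    refine Finset.sum_congr rfl fun z _ => ?_
    split_ifs <;> ring
  have h2 : ∑ z : V → Bool, (if z e0 then f z else 0) =
      ∑ z : V → Bool, (if z e0 then 0 else f (Function.update z e0 true)) := by
    let σ : (V → Bool) ≃ (V → Bool) :=
      { toFun := fun z => Function.update z e0 (!z e0)
        invFun := fun z => Function.update z e0 (!z e0)
        left_inv := fun z => by simp
        right_inv := fun z => by simp }
    rw [← σ.sum_comp]
    refine Finset.sum_congr rfl fun z _ => ?_
    show (if (Function.update z e0 (!z e0)) e0 then f (Function.update z e0 (!z e0)) else 0) = _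
    rw [Function.update_self]
    cases hz : z e0 <;> simp
  rw [h1, Finset.sum_add_distrib, h2, ← Finset.sum_add_distrib]
  refine Finset.sum_congr rfl fun z _ => ?_
  split_ifs <;> ring

theorem ins_abs {c : ℝ} (hc : 1 ≤ c) (od : X → Bool) (p1 p2 d1 d2 : V → X)
    (hp1 : ∀ v, od (p1 v) = false) (hp2 : ∀ v, od (p2 v) = false)
    (hd1 : ∀ v, od (d1 v) = true) (hd2 : ∀ v, od (d2 v) = true)
    (caps : (X → Bool) → ℝ) (hcaps : ∀ β, 0 ≤ caps β)
    (hinv : ∀ β u : X → Bool, (∀ x, od x = false → u x = false) → caps (xr β u) = caps β)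
    (g : (X → Bool) → (V → Bool) → ℝ) (hg : ∀ β z, 0 ≤ g β z)
    (ginv : ∀ β u : X → Bool, (∀ x, od x = false → u x = false) → ∀ z, g (xr β u) z = g β z)
    (e0 : V) (ge : ∀ β z b, g β (Function.update z e0 b) = g β z) :
    (c - 1) * ∑ β : X → Bool, ∑ z : V → Bool, aw c caps p1 p2 d1 d2 β z * g β z ≤
      (c + 1) * ∑ β : X → Bool, ∑ z : V → Bool, aw c caps p1 p2 d1 d2 β z *
        (if z e0 then 0 else g β z) := by
  classical
  rw [Finset.sum_comm]
  have h1 := sum_z_split e0 (fun z : V → Bool => ∑ β : X → Bool, aw c caps p1 p2 d1 d2 β z * g β z)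
  rw [h1]
  rw [Finset.sum_comm (f := fun β z => aw c caps p1 p2 d1 d2 β z * (if z e0 then 0 else g β z))]
  rw [Finset.mul_sum, Finset.mul_sum]
  refine Finset.sum_le_sum fun z _ => ?_
  cases hz : z e0
  · simp only [Bool.false_eq_true, if_false]
    simp_rw [ge]
    have := ins_fix hc od p1 p2 d1 d2 hp1 hp2 hd1 hd2 caps hcaps hinv (fun β => g β z)
      (fun β => hg β z) (fun β u hu => ginv β u hu z) e0 z hz
    linarith
  · simp

end insabs

end Crest.Agent.R161.Cap863
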