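import Crest.Agent.R161.Cap7_863

/-!
# R161, capped cylinders (helper863), part 8: insertion tolerance on cylinders and in the plane

* `od`, `cp1 .. cd2` : odd sites, primal / dual diagonals of the vertices of a cylinder
* `Ncap_zF` : joint sum over spins and cut variables
* `ins_cap` : insertion tolerance on capped cylinders
* `ins_plane` : insertion tolerance in the plane
-/

set_option autoImplicit false
set_option linter.unusedSectionVars false

noncomputable section

open Matrix Filter Topology MeasureTheory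
open Crest.ProbabilityR.SixVertex
open Crest.Agent.R150.Base357 Crest.Agent.R150.Hgt989 Crest.Agent.R150.Pls989

namespace Crest.Agent.R161.Cap863

section

variable {L : ℕ} [NeZero (2 * L)] {T : ℕ}

/-- odd sites -/
def od (x : Fin (T + 1) × ZMod (2 * L)) : Bool := !decide (((x.1 : ℕ) : ZMod 2) + par x.2 = 0)

/-- the lower left site of the vertex `v` is even -/
def lle (v : Fin T × ZMod (2 * L)) : Bool := decide (((v.1 : ℕ) : ZMod 2) + par (v.2 - 1) = 0)

def cp1 (v : Fin T × ZMod (2 * L)) : Fin (T + 1) × ZMod (2 * L) :=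
  if lle v then (v.1.castSucc, v.2 - 1) else (v.1.succ, v.2 - 1)
def cp2 (v : Fin T × ZMod (2 * L)) : Fin (T + 1) × ZMod (2 * L) :=
  if lle v then (v.1.succ, v.2) else (v.1.castSucc, v.2)
def cd1 (v : Fin T × ZMod (2 * L)) : Fin (T + 1) × ZMod (2 * L) :=
  if lle v then (v.1.succ, v.2 - 1) else (v.1.castSucc, v.2 - 1)
def cd2 (v : Fin T × ZMod (2 * L)) : Fin (T + 1) × ZMod (2 * L) :=
  if lle v then (v.1.castSucc, v.2) else (v.1.succ, v.2)

lemma od_false {x : Fin (T + 1) × ZMod (2 * L)} (h : ((x.1 : ℕ) : ZMod 2) + par x.2 = 0) :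
    od x = false := by
  unfold od; rw [decide_eq_true h]; rfl

lemma od_true {x : Fin (T + 1) × ZMod (2 * L)} (h : ((x.1 : ℕ) : ZMod 2) + par x.2 = 1) :
    od x = true := by
  unfold od
  rw [decide_eq_false]
  · rfl
  · rw [h]; decide

lemma lle_true {v : Fin T × ZMod (2 * L)} (h : lle v = true) :
    ((v.1 : ℕ) : ZMod 2) + par (v.2 - 1) = 0 := by
  unfold lle at h
  exact of_decide_eq_true h

lemma lle_false {v : Fin T × ZMod (2 * L)} (h : lle v = false) :
    ((v.1 : ℕ) : ZMod 2) + par (v.2 - 1) = 1 := by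
  unfold lle at h
  exact (zmod2_cases _).resolve_left (of_decide_eq_false h)

lemma par_shift (a : ZMod 2) (j : ZMod (2 * L)) : a + par j = (a + par (j - 1)) + 1 := by
  rw [map_sub, map_one]; ring

lemma od_cp1 (v : Fin T × ZMod (2 * L)) : od (cp1 v) = false := by
  apply od_false
  unfold cp1
  cases h : lle v
  · rw [if_neg (by simp), Fin.val_succ, Nat.cast_add, Nat.cast_one, add_right_comm, lle_false h]
    decide
  · rw [if_pos rfl]
    exact lle_true h

lemma od_cp2 (v : Fin T × ZMod (2 * L)) : od (cp2 v) = false := by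
  apply od_false
  unfold cp2
  cases h : lle v
  · rw [if_neg (by simp)]
    show ((v.1 : ℕ) : ZMod 2) + par v.2 = 0
    rw [par_shift, lle_false h]
    decide
  · rw [if_pos rfl, Fin.val_succ, Nat.cast_add, Nat.cast_one, add_right_comm, par_shift, lle_true h]
    decide

lemma od_cd1 (v : Fin T × ZMod (2 * L)) : od (cd1 v) = true := by
  apply od_true
  unfold cd1
  cases h : lle v
  · rw [if_neg (by simp)]
    exact lle_false h
  · rw [if_pos rfl, Fin.val_succ, Nat.cast_add, Nat.cast_one, add_right_comm, lle_true h, zero_add]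

lemma od_cd2 (v : Fin T × ZMod (2 * L)) : od (cd2 v) = true := by
  apply od_true
  unfold cd2
  cases h : lle v
  · rw [if_neg (by simp), Fin.val_succ, Nat.cast_add, Nat.cast_one, add_right_comm, par_shift,
      lle_false h]
    decide
  · rw [if_pos rfl]
    show ((v.1 : ℕ) : ZMod 2) + par v.2 = 1
    rw [par_shift, lle_true h, zero_add]

lemma quadP_eq (β : Fin (T + 1) × ZMod (2 * L) → Bool) (v : Fin T × ZMod (2 * L)) :
    quadP (Function.curry β) v = (β (cp1 v) == β (cp2 v)) := by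
  unfold quadP cp1 cp2 paB lle Function.curry
  split_ifs <;> rfl

lemma quadD_eq (β : Fin (T + 1) × ZMod (2 * L) → Bool) (v : Fin T × ZMod (2 * L)) :
    quadD (Function.curry β) v = (β (cd1 v) == β (cd2 v)) := by
  unfold quadD cd1 cd2 daB lle Function.curry
  split_ifs <;> rfl

/-- caps on sites -/
def capX (β : Fin (T + 1) × ZMod (2 * L) → Bool) : ℝ := capsW (Function.curry β)

lemma capX_nonneg (β : Fin (T + 1) × ZMod (2 * L) → Bool) : 0 ≤ capX β := capsW_nonneg _

lemma capX_inv (hT : Even T) (β u : Fin (T + 1) × ZMod (2 * L) → Bool)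
    (hu : ∀ x, od x = false → u x = false) : capX (xr β u) = capX β := by
  have h0 : ∀ j : ZMod (2 * L), par j = 0 → xr β u (0, j) = β (0, j) := by
    intro j hj
    unfold xr
    rw [hu (0, j) (od_false (by simp [hj]))]
    simp
  have h1 : ∀ j : ZMod (2 * L), par j = 0 → xr β u (Fin.last T, j) = β (Fin.last T, j) := by
    intro j hj
    unfold xr
    rw [hu (Fin.last T, j) (od_false (by
      have : ((T : ℕ) : ZMod 2) = 0 := (ZMod.natCast_eq_zero_iff _ _).2 hT.two_dvd
      simp [hj, this]))]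
    simp
  have e1 : capL (Function.curry (xr β u) 0) ↔ capL (Function.curry β 0) := by
    unfold capL Function.curry
    refine forall₂_congr fun j hj => ?_
    rw [h0 j hj]
  have e2 : capR (Function.curry (xr β u) (Fin.last T)) ↔ capR (Function.curry β (Fin.last T)) := by
    unfold capR Function.curry
    refine forall_congr' fun j => forall_congr' fun k => forall₂_congr fun hj hk => ?_
    rw [h1 j hj, h1 k hk]
  unfold capX capsW
  simp only [e1, e2]

/-- window vertices inside the box -/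
def InBox (R : ℕ) (e : ℤ × ℤ) : Prop :=
  -(R : ℤ) < e.1 ∧ e.1 ≤ R ∧ -(R : ℤ) < e.2 ∧ e.2 ≤ R

lemma InBox.mem {R : ℕ} {e : ℤ × ℤ} (h : InBox R e) (a b : ℤ) (ha : a = e.1 ∨ a = e.1 - 1)
    (hb : b = e.2 ∨ b = e.2 - 1) : (a, b) ∈ box R := by
  obtain ⟨h1, h2, h3, h4⟩ := h
  unfold box
  simp only [Finset.mem_product, Finset.mem_Icc]
  omega

/-- the vertex of the cylinder -/
def iot (L R n m : ℕ) [NeZero (2 * L)] (e : ℤ × ℤ) (h : InBox R e) :
    Fin (n + ((2 * R + 1) + m)) × ZMod (2 * L) :=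
  (⟨(e.1 - 1 + ((n + R + 1 : ℕ) : ℤ)).toNat, by
    obtain ⟨h1, h2, h3, h4⟩ := h
    omega⟩, (e.2 : ZMod (2 * L)))

lemma iot_inj {R n m : ℕ} (hL : R < L) {e e' : ℤ × ℤ} (h : InBox R e) (h' : InBox R e')
    (heq : iot L R n m e h = iot L R n m e' h') : e = e' := by
  unfold iot at heq
  rw [Prod.mk.injEq, Fin.mk.injEq] at heq
  obtain ⟨h1, h2⟩ := heq
  obtain ⟨a1, a2, a3, a4⟩ := h
  obtain ⟨b1, b2, b3, b4⟩ := h'
  rw [ZMod.intCast_eq_intCast_iff_dvd_sub] at h2
  have h3 : e'.2 - e.2 = 0 := by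
    refine Int.eq_zero_of_abs_lt_dvd h2 ?_
    rw [abs_lt]
    push_cast
    constructor <;> omega
  ext <;> omega

lemma chS_link {R n m : ℕ} (hn : Even (n + R + 1)) {e : ℤ × ℤ} (h : InBox R e)
    (β : Fin (n + ((2 * R + 1) + m) + 1) → SC L) :
    pa (chS (n + R + 1) β) e = quadP β (iot L R n m e h) ∧
    da (chS (n + R + 1) β) e = quadD β (iot L R n m e h) := by
  have hb := h
  obtain ⟨h1, h2, h3, h4⟩ := hb
  have e1 : Fin.ofNat (n + ((2 * R + 1) + m) + 1) (e.1 - 1 + ((n + R + 1 : ℕ) : ℤ)).toNat =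
      (iot L R n m e h).1.castSucc := by
    apply Fin.ext
    rw [Fin.val_ofNat, Nat.mod_eq_of_lt (by omega)]
    rfl
  have e2 : Fin.ofNat (n + ((2 * R + 1) + m) + 1) (e.1 + ((n + R + 1 : ℕ) : ℤ)).toNat =
      (iot L R n m e h).1.succ := by
    apply Fin.ext
    rw [Fin.val_ofNat, Nat.mod_eq_of_lt (by omega)]
    rw [Fin.val_succ]
    unfold iot
    simp only
    omega
  have e3 : (decide ((e.1 + e.2) % 2 = 0)) =
      decide (((((iot L R n m e h).1 : ℕ) : ZMod 2) + par ((iot L R n m e h).2 - 1) = 0)) := by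
    have h5 : (((iot L R n m e h).1 : ℕ) : ZMod 2) = ((e.1 - 1 : ℤ) : ZMod 2) := by
      have h6 : (((iot L R n m e h).1 : ℕ) : ℤ) = e.1 - 1 + ((n + R + 1 : ℕ) : ℤ) := by
        unfold iot
        simp only
        omega
      have h7 : ((((iot L R n m e h).1 : ℕ) : ℤ) : ZMod 2) = (((iot L R n m e h).1 : ℕ) : ZMod 2) :=
        Int.cast_natCast _
      rw [← h7, h6, Int.cast_add, Int.cast_natCast, (ZMod.natCast_eq_zero_iff _ _).2 hn.two_dvd,
        add_zero]
    have h8 : (iot L R n m e h).2 - 1 = ((e.2 - 1 : ℤ) : ZMod (2 * L)) := by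
      unfold iot
      push_cast
      ring
    rw [h5, h8]
    congr 1
    rw [par_int]
    apply propext
    omega
  have e4 : ((e.2 - 1 : ℤ) : ZMod (2 * L)) = (iot L R n m e h).2 - 1 := by
    unfold iot
    push_cast
    ring
  have e5 : ((e.2 : ℤ) : ZMod (2 * L)) = (iot L R n m e h).2 := rfl
  unfold pa da quadP quadD chS
  simp only
  rw [e1, e2, e3, e4, e5]
  exact ⟨rfl, rfl⟩

/-- **joint sum over spins and cut variables** -/
lemma Ncap_zF {c : ℝ} (hc : 1 ≤ c) {R n m : ℕ} (hn : Even (n + R + 1)) (hL : R < L)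
    (W : Finset (ℤ × ℤ)) (hW : ∀ e ∈ W, InBox R e) (G : (ℤ × ℤ → Bool) → (W → Bool) → ℝ) :
    Ncap (L := L) c R n m (zF c W G) =
      ∑ β : Fin (n + ((2 * R + 1) + m) + 1) × ZMod (2 * L) → Bool,
        ∑ z : Fin (n + ((2 * R + 1) + m)) × ZMod (2 * L) → Bool,
          aw c capX cp1 cp2 cd1 cd2 β z *
            G (chS (n + R + 1) (Function.curry β)) (fun e : W => z (iot L R n m e.1 (hW e.1 e.2))) := by
  rw [Ncap_sum, ← (Equiv.curry _ _ _).sum_comp]
  refine Finset.sum_congr rfl fun β _ => ?_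
  simp only [Equiv.curry_apply]
  have h1 : ∀ z : Fin (n + ((2 * R + 1) + m)) × ZMod (2 * L) → Bool,
      aw c capX cp1 cp2 cd1 cd2 β z *
            G (chS (n + R + 1) (Function.curry β)) (fun e : W => z (iot L R n m e.1 (hW e.1 e.2))) =
      capsW (Function.curry β) * ((∏ v, ezB c (quadP (Function.curry β) v)
        (quadD (Function.curry β) v) (z v)) * G (chS (n + R + 1) (Function.curry β))
          (fun e : W => z (iot L R n m e.1 (hW e.1 e.2)))) := by
    intro z
    unfold aw capX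
    rw [mul_assoc]
    congr 2
    refine Finset.prod_congr rfl fun v _ => ?_
    rw [quadP_eq, quadD_eq]
  rw [Finset.sum_congr rfl fun z _ => h1 z, ← Finset.mul_sum, mul_assoc]
  congr 1
  rw [sum_z_comp (fun v b => ezB c (quadP (Function.curry β) v) (quadD (Function.curry β) v) b)
    (fun e : W => iot L R n m e.1 (hW e.1 e.2))
    (fun a b hab => Subtype.ext (iot_inj hL _ _ hab))
    (fun e b => kz c (chS (n + R + 1) (Function.curry β)) e.1 b)]
  · rfl
  · intro e b
    have h2 := chS_link (L := L) (m := m) hn (hW e.1 e.2) (Function.curry β)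
    have h3 := wz_mul_kz hc (chS (n + R + 1) (Function.curry β)) e.1 b
    unfold wz ez at h3
    rw [h2.1, h2.2] at h3
    exact h3

lemma Ncap_one_nonneg {c : ℝ} (hc : 1 ≤ c) (R n m : ℕ) :
    0 ≤ Ncap (L := L) c R n m (fun _ => 1) := by
  rw [Ncap_sum]
  refine Finset.sum_nonneg fun β _ => mul_nonneg (mul_nonneg (capsW_nonneg β) ?_) zero_le_one
  exact Finset.prod_nonneg fun v _ => add_nonneg (ezB_nonneg hc _ _ _) (ezB_nonneg hc _ _ _)

/-- invariance of the spins seen from the window under flips of odd sites -/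
lemma chS_xr {R n m : ℕ} (hn : Even (n + R + 1))
    (β u : Fin (n + ((2 * R + 1) + m) + 1) × ZMod (2 * L) → Bool)
    (hu : ∀ x, od x = false → u x = false) {f : ℤ × ℤ} (hf : f ∈ box R) (he : evn f) :
    chS (n + R + 1) (Function.curry (xr β u)) f = chS (n + R + 1) (Function.curry β) f := by
  unfold box at hf
  simp only [Finset.mem_product, Finset.mem_Icc] at hf
  have h1 : od ((Fin.ofNat (n + ((2 * R + 1) + m) + 1) (f.1 + ((n + R + 1 : ℕ) : ℤ)).toNat,
      ((f.2 : ℤ) : ZMod (2 * L))) : Fin (n + ((2 * R + 1) + m) + 1) × ZMod (2 * L)) = false := by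
    apply od_false
    simp only [Fin.val_ofNat]
    rw [Nat.mod_eq_of_lt (by omega)]
    have h6 : ((f.1 + ((n + R + 1 : ℕ) : ℤ)).toNat : ℤ) = f.1 + ((n + R + 1 : ℕ) : ℤ) := by omega
    have h7 : (((f.1 + ((n + R + 1 : ℕ) : ℤ)).toNat : ℤ) : ZMod 2) =
        ((f.1 + ((n + R + 1 : ℕ) : ℤ)).toNat : ZMod 2) := Int.cast_natCast _
    rw [← h7, h6, Int.cast_add, Int.cast_natCast, (ZMod.natCast_eq_zero_iff _ _).2 hn.two_dvd,
        add_zero]
    exact (par_int (L := L) f.1 f.2).2 he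
  show xr β u _ = β _
  unfold xr
  rw [hu _ h1]
  simp

/-- **insertion tolerance on capped cylinders** -/
theorem ins_cap {c : ℝ} (hc : 1 ≤ c) {R n m : ℕ} (hn : Even (n + R + 1))
    (hT : Even (n + ((2 * R + 1) + m))) (hL : R < L)
    (W : Finset (ℤ × ℤ)) (hW : ∀ e ∈ W, InBox R e) (G : (ℤ × ℤ → Bool) → (W → Bool) → ℝ)
    (hG0 : ∀ S z, 0 ≤ G S z)
    (hG1 : ∀ S S' : ℤ × ℤ → Bool, (∀ f ∈ box R, evn f → S f = S' f) → ∀ z, G S z = G S' z)
    (e0 : W) (hG2 : ∀ S z b, G S (Function.update z e0 b) = G S z) :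
    (c - 1) * Ncap (L := L) c R n m (zF c W G) ≤
      (c + 1) * Ncap (L := L) c R n m (zF c W fun S z => if z e0 then 0 else G S z) := by
  classical
  rw [Ncap_zF hc hn hL W hW, Ncap_zF hc hn hL W hW]
  have hinj : Function.Injective (fun e : W => iot L R n m e.1 (hW e.1 e.2)) :=
    fun a b hab => Subtype.ext (iot_inj hL _ _ hab)
  refine ins_abs hc od cp1 cp2 cd1 cd2 od_cp1 od_cp2 od_cd1 od_cd2 capX capX_nonneg (capX_inv hT)
    (fun β z => G (chS (n + R + 1) (Function.curry β)) (fun e : W => z (iot L R n m e.1 (hW e.1 e.2))))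
    (fun β z => hG0 _ _) (fun β u hu z => hG1 _ _ (fun f hf he => chS_xr hn β u hu hf he) _)
    (iot L R n m e0.1 (hW e0.1 e0.2)) ?_
  intro β z b
  have h1 : (fun e : W => Function.update z (iot L R n m e0.1 (hW e0.1 e0.2)) b
      (iot L R n m e.1 (hW e.1 e.2))) =
      Function.update (fun e : W => z (iot L R n m e.1 (hW e.1 e.2))) e0 b := by
    funext e
    by_cases h : e = e0
    · subst h; simp
    · rw [Function.update_of_ne h, Function.update_of_ne (fun h' => h (hinj h'))]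
  rw [h1, hG2]

end

/-- locality of the integrated functions -/
lemma zF_locS {c : ℝ} {R : ℕ} (W : Finset (ℤ × ℤ)) (hW : ∀ e ∈ W, InBox R e)
    (G : (ℤ × ℤ → Bool) → (W → Bool) → ℝ)
    (hG : ∀ S S' : ℤ × ℤ → Bool, (∀ f ∈ box R, S f = S' f) → ∀ z, G S z = G S' z) :
    LocS R (zF c W G) := by
  intro S S' h
  unfold zF
  refine Finset.sum_congr rfl fun z _ => ?_
  rw [hG S S' h z]
  congr 1
  refine Finset.prod_congr rfl fun e _ => ?_
  have hb := hW e.1 e.2
  have e1 := h _ (hb.mem (e.1.1 - 1) (e.1.2 - 1) (Or.inr rfl) (Or.inr rfl))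
  have e2 := h _ (hb.mem e.1.1 (e.1.2 - 1) (Or.inl rfl) (Or.inr rfl))
  have e3 := h _ (hb.mem (e.1.1 - 1) e.1.2 (Or.inr rfl) (Or.inl rfl))
  have e4 := h _ (hb.mem e.1.1 e.1.2 (Or.inl rfl) (Or.inl rfl))
  unfold kz wz ez pa da
  rw [e1, e2, e3]
  have e4' : S e.1 = S' e.1 := e4
  simp only [Prod.mk.eta, e4']

/-- **insertion tolerance in the plane**: `G ≥ 0` a local function of the even spins and of the cut
variables in the window, not depending on the cut variable `e0` -/
theorem ins_plane {c : ℝ} (hc : 1 ≤ c) {P : Measure Conf} (hP : IsPlane c P) {R : ℕ}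
    (W : Finset (ℤ × ℤ)) (hW : ∀ e ∈ W, InBox R e) (G : (ℤ × ℤ → Bool) → (W → Bool) → ℝ)
    (hG0 : ∀ S z, 0 ≤ G S z)
    (hG1 : ∀ S S' : ℤ × ℤ → Bool, (∀ f ∈ box R, evn f → S f = S' f) → ∀ z, G S z = G S' z)
    (e0 : W) (hG2 : ∀ S z b, G S (Function.update z e0 b) = G S z) :
    (c - 1) * ∫ ω, avgF (zF c W G) ω ∂P ≤
      (c + 1) * ∫ ω, avgF (zF c W fun S z => if z e0 then 0 else G S z) ω ∂P := by
  have hc0 : 0 < c := by linarith
  have l1 : LocS R (zF c W G) := zF_locS W hW G fun S S' h => hG1 S S' fun f hf _ => h f hf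
  have l2 : LocS R (zF c W fun S z => if z e0 then 0 else G S z) :=
    zF_locS W hW _ fun S S' h z => by rw [hG1 S S' (fun f hf _ => h f hf) z]
  obtain ⟨A, hA, hA2⟩ := plane_cap hc0 hP l1
  obtain ⟨B, hB, hB2⟩ := plane_cap hc0 hP l2
  refine le_of_tendsto_of_tendsto (hA2.const_mul (c - 1)) (hB2.const_mul (c + 1)) ?_
  filter_upwards [eventually_ge_atTop (R + 2)] with L hL
  have : NeZero (2 * L) := ⟨by omega⟩
  refine le_of_tendsto_of_tendsto' ((hA L (by omega)).const_mul (c - 1))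
    ((hB L (by omega)).const_mul (c + 1)) fun k => ?_
  unfold Ecap
  rw [← mul_div_assoc, ← mul_div_assoc]
  refine div_le_div_of_nonneg_right ?_ (Ncap_one_nonneg hc _ _ _)
  exact ins_cap hc ⟨k + R + 1, by ring⟩ ⟨2 * k + 2 * R + 1, by ring⟩ (by omega) W hW G hG0 hG1 e0 hG2

end Crest.Agent.R161.Cap863
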