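import Crest.Agent.R161.Ifc_372

/-!
# Row 161, leaf L4 (helper421): positive probability of the ring event

Deterministic part. `Good Z n Q`: the annuli `ball x (2n) \ ball x n` centred at the points `x ∈ nℤ²`,
`|x| ≤ Qn`, all contain a `Z`-circuit. On `Good Z n Q` every face `f` of the region is enclosed: every face
reached from `f` through non-`Z` edges is at sup-distance `≤ 3n` from `f`. In particular every pair `A ⊆ S`
with `A` at distance `≥ 3n` from the complement of `S` is separated by `Z`-edges: `Reach Z A ⊆ S`.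

Probabilistic part. For a translation invariant law `ν` of percolation configurations satisfying the FKG
inequality for increasing local events, `ν (Good n Q) ≥ q ^ (2Q+1)²`.
-/

set_option autoImplicit false

noncomputable section

namespace Crest.Agent.R161.Ring421

open MeasureTheory
open Crest.Agent.R161.Geo729 Crest.Agent.R161.Defs372 Crest.Agent.R161.Dual374
open Crest.Agent.R161.Hull374 Crest.Agent.R161.Ifc372

/-! ### elementary properties of `Reach` -/

theorem dstep_mono {Z Z' : Edge → Prop} (h : ∀ e, Z e → Z' e) {f g : P2} (hs : DStep Z f g) :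
    DStep Z' f g := by
  obtain ⟨e, he, h'⟩ := hs
  exact ⟨e, h e he, h'⟩

theorem reach_anti {Z Z' : Edge → Prop} (h : ∀ e, Z e → Z' e) (A : Set P2) :
    Reach Z' A ⊆ Reach Z A := by
  rintro f ⟨a, ha, hf⟩
  refine ⟨a, ha, ?_⟩
  induction hf with
  | refl => exact .refl
  | tail _ h2 ih => exact ih.tail (dstep_mono (fun e he hz => he (h e hz)) h2)

theorem reach_mono (Z : Edge → Prop) {A B : Set P2} (h : A ⊆ B) : Reach Z A ⊆ Reach Z B :=
  fun _ ⟨a, ha, hf⟩ => ⟨a, h ha, hf⟩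

/-- A set closed under non-`Z` steps and containing `A` contains `Reach Z A`. -/
theorem reach_subset {Z : Edge → Prop} {A T : Set P2} (hA : A ⊆ T)
    (hT : ∀ f g, f ∈ T → DStep (fun e => ¬ Z e) f g → g ∈ T) : Reach Z A ⊆ T := by
  rintro f ⟨a, ha, hf⟩
  induction hf with
  | refl => exact hA ha
  | tail _ h2 ih => exact hT _ _ ih h2

theorem reach_step {Z : Edge → Prop} {A : Set P2} {f g : P2} (hf : f ∈ Reach Z A)
    (h : DStep (fun e => ¬ Z e) f g) : g ∈ Reach Z A := by
  obtain ⟨a, ha, h1⟩ := hf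
  exact ⟨a, ha, h1.tail h⟩

theorem reach_reach (Z : Edge → Prop) (A : Set P2) : Reach Z (Reach Z A) = Reach Z A :=
  Set.Subset.antisymm (reach_subset le_rfl fun _ _ hf h => reach_step hf h)
    (subset_reach Z _)

/-- If every face of `A` lies in a set `B` with `Reach Z B ⊆ S` then `Reach Z A ⊆ S`. -/
theorem reach_subset_of_cover {Z : Edge → Prop} {A S : Set P2}
    (h : ∀ f ∈ A, ∃ B : Set P2, f ∈ B ∧ Reach Z B ⊆ S) : Reach Z A ⊆ S := by
  rintro g ⟨f, hf, hfg⟩
  obtain ⟨B, hfB, hB⟩ := h f hf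
  exact hB ⟨f, hfB, hfg⟩

/-- **Frame lemma**: `A ⊆ I ⊆ S`, every face adjacent to `I` is in `I` or in a set `B` with
`Reach Z B ⊆ S`. Then `Reach Z A ⊆ S`. -/
theorem reach_subset_of_frame {Z : Edge → Prop} {A I S : Set P2} (hA : A ⊆ I) (hI : I ⊆ S)
    (h : ∀ f ∈ I, ∀ g, Adj f g → g ∈ I ∨ ∃ B : Set P2, g ∈ B ∧ Reach Z B ⊆ S) : Reach Z A ⊆ S := by
  have key : Reach Z A ⊆ {f | f ∈ I ∨ ∃ B : Set P2, f ∈ Reach Z B ∧ Reach Z B ⊆ S} := by
    refine reach_subset (fun f hf => Or.inl (hA hf)) ?_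
    rintro f g (hf | ⟨B, hfB, hB⟩) hs
    · rcases h f hf g (dstep_adj hs) with h1 | ⟨B, h1, h2⟩
      · exact Or.inl h1
      · exact Or.inr ⟨B, subset_reach Z B h1, h2⟩
    · exact Or.inr ⟨B, reach_step hfB hs, hB⟩
  intro f hf
  rcases key hf with h1 | ⟨B, h1, h2⟩
  · exact hI h1
  · exact h2 h1

theorem circ_mono {Z Z' : Edge → Prop} (h : ∀ e, Z e → Z' e) {x : P2} {n m : ℕ}
    (hc : Circ Z x n m) : Circ Z' x n m := (reach_anti h _).trans hc

/-- `Reach Z A ⊆ S` only depends on the edges bordering `S`. -/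
theorem reach_subset_congr {Z Z' : Edge → Prop} {A S : Set P2}
    (hZ : ∀ e, fA e ∈ S ∨ fB e ∈ S → (Z e ↔ Z' e)) (h : Reach Z A ⊆ S) : Reach Z' A ⊆ S := by
  have key : Reach Z' A ⊆ Reach Z A := by
    refine reach_subset (subset_reach Z A) ?_
    intro f g hf hs
    refine reach_step hf ?_
    have hfS := h hf
    obtain ⟨e, he, h'⟩ := hs
    refine ⟨e, ?_, h'⟩
    intro hz
    apply he
    refine (hZ e ?_).1 hz
    rcases h' with ⟨h1, _⟩ | ⟨h1, _⟩
    · exact Or.inl (h1 ▸ hfS)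
    · exact Or.inr (h1 ▸ hfS)
  exact key.trans h

theorem reach_subset_iff {Z Z' : Edge → Prop} {A S : Set P2}
    (hZ : ∀ e, fA e ∈ S ∨ fB e ∈ S → (Z e ↔ Z' e)) : Reach Z A ⊆ S ↔ Reach Z' A ⊆ S :=
  ⟨reach_subset_congr hZ, reach_subset_congr fun e he => (hZ e he).symm⟩

/-! ### local increasing events of percolation configurations -/

/-- The event depends only on the edges of the finite set `S`. -/
def LocOn (S : Finset Edge) (A : Set (Edge → Bool)) : Prop :=
  ∀ z z' : Edge → Bool, (∀ e ∈ S, z e = z' e) → (z ∈ A ↔ z' ∈ A)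

/-- local event -/
def LocEv (A : Set (Edge → Bool)) : Prop := ∃ S : Finset Edge, LocOn S A

/-- increasing event -/
def IncEv (A : Set (Edge → Bool)) : Prop :=
  ∀ z z' : Edge → Bool, (∀ e, z e = true → z' e = true) → z ∈ A → z' ∈ A

theorem LocOn.mono {S T : Finset Edge} (h : S ⊆ T) {A : Set (Edge → Bool)} (hA : LocOn S A) :
    LocOn T A := fun z z' hz => hA z z' fun e he => hz e (h he)

theorem LocOn.measurableSet {S : Finset Edge} {A : Set (Edge → Bool)} (hA : LocOn S A) :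
    MeasurableSet A := by
  have : A = (fun z : Edge → Bool => fun e : S => z e) ⁻¹'
      {y | ∃ z : Edge → Bool, z ∈ A ∧ ∀ e : S, z e = y e} := by
    ext z
    constructor
    · intro hz
      exact ⟨z, hz, fun _ => rfl⟩
    · rintro ⟨z', hz', h⟩
      exact (hA z' z fun e he => h ⟨e, he⟩).1 hz'
  rw [this]
  apply measurableSet_preimage
  · exact measurable_pi_lambda _ fun e => measurable_pi_apply _
  · exact Set.Finite.measurableSet (Set.toFinite _)

theorem LocEv.measurableSet {A : Set (Edge → Bool)} (hA : LocEv A) : MeasurableSet A := by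
  obtain ⟨S, hS⟩ := hA
  exact hS.measurableSet

theorem LocEv.inter {A B : Set (Edge → Bool)} (hA : LocEv A) (hB : LocEv B) : LocEv (A ∩ B) := by
  classical
  obtain ⟨S, hS⟩ := hA
  obtain ⟨T, hT⟩ := hB
  refine ⟨S ∪ T, fun z z' h => ?_⟩
  have h1 := hS z z' fun e he => h e (Finset.mem_union_left _ he)
  have h2 := hT z z' fun e he => h e (Finset.mem_union_right _ he)
  simp only [Set.mem_inter_iff, h1, h2]

theorem IncEv.inter {A B : Set (Edge → Bool)} (hA : IncEv A) (hB : IncEv B) : IncEv (A ∩ B) :=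
  fun z z' h hz => ⟨hA z z' h hz.1, hB z z' h hz.2⟩

theorem locEv_univ : LocEv Set.univ := ⟨∅, fun _ _ _ => by simp⟩
theorem incEv_univ : IncEv Set.univ := fun _ _ _ _ => trivial

theorem locEv_iInter {ι : Type*} (s : Finset ι) (A : ι → Set (Edge → Bool))
    (h : ∀ i ∈ s, LocEv (A i)) : LocEv (⋂ i ∈ s, A i) := by
  classical
  induction s using Finset.induction_on with
  | empty => simpa using locEv_univ
  | insert a s ha ih =>
    rw [Finset.set_biInter_insert]
    exact (h a (Finset.mem_insert_self _ _)).inter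
      (ih fun i hi => h i (Finset.mem_insert_of_mem hi))

theorem incEv_iInter {ι : Type*} (s : Finset ι) (A : ι → Set (Edge → Bool))
    (h : ∀ i ∈ s, IncEv (A i)) : IncEv (⋂ i ∈ s, A i) := by
  intro z z' hz hmem
  simp only [Set.mem_iInter] at hmem ⊢
  exact fun i hi => h i hi z z' hz (hmem i hi)

/-- the edges bordering a finite set of faces -/
def bord (S : Finset P2) : Finset Edge :=
  (S ×ˢ (Finset.univ : Finset Bool)) ∪
    (S ×ˢ (Finset.univ : Finset Bool)).image fun p =>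
      (if p.2 then (p.1.1 + 1, p.1.2) else (p.1.1, p.1.2 + 1), p.2)

theorem mem_bord {S : Finset P2} {e : Edge} : e ∈ bord S ↔ fA e ∈ S ∨ fB e ∈ S := by
  obtain ⟨⟨a, b⟩, c⟩ := e
  unfold bord
  simp only [Finset.mem_union, Finset.mem_product, Finset.mem_univ, and_true, fA_mk,
    Finset.mem_image, Prod.exists, Prod.mk.injEq]
  constructor
  · rintro (h | ⟨u, v, w, h, h1, rfl⟩)
    · exact Or.inl h
    · right
      cases w
      · simp only [Bool.false_eq_true, if_false, Prod.mk.injEq] at h1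
        obtain ⟨rfl, rfl⟩ := h1
        simpa using h
      · simp only [if_true, Prod.mk.injEq] at h1
        obtain ⟨rfl, rfl⟩ := h1
        simpa using h
  · rintro (h | h)
    · exact Or.inl h
    · right
      cases c
      · exact ⟨a, b - 1, false, by simpa using h, by simp, rfl⟩
      · exact ⟨a - 1, b, true, by simpa using h, by simp, rfl⟩

/-- separation event -/
def SepZ (A S : Set P2) : Set (Edge → Bool) := {z | Reach (fun e => z e = true) A ⊆ S}

theorem locOn_sepZ (A : Set P2) (S : Finset P2) : LocOn (bord S) (SepZ A S) := by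
  intro z z' h
  exact reach_subset_iff fun e he => by
    have := h e (mem_bord.2 (by simpa using he))
    rw [this]

theorem incEv_sepZ (A S : Set P2) : IncEv (SepZ A S) := fun _ _ h hz => (reach_anti h A).trans hz

theorem circZ_eq (x : P2) (n m : ℕ) : CircZ x n m = SepZ (ball x n) (ball x m) := rfl

theorem locOn_circZ (x : P2) (n m : ℕ) : LocOn (bord (ball x m)) (CircZ x n m) :=
  locOn_sepZ _ _

theorem locEv_circZ (x : P2) (n m : ℕ) : LocEv (CircZ x n m) := ⟨_, locOn_circZ x n m⟩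

theorem incEv_circZ (x : P2) (n m : ℕ) : IncEv (CircZ x n m) := incEv_sepZ _ _

theorem measurableSet_circZ (x : P2) (n m : ℕ) : MeasurableSet (CircZ x n m) :=
  (locEv_circZ x n m).measurableSet

/-! ### translations -/

/-- translation of percolation configurations -/
def shiftZ (a : P2) (z : Edge → Bool) : Edge → Bool := fun e => z (e.1 + a, e.2)

theorem fA_shift (e : Edge) (a : P2) : fA (e.1 + a, e.2) = fA e + a := rfl
theorem fB_shift (e : Edge) (a : P2) : fB (e.1 + a, e.2) = fB e + a := by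
  obtain ⟨⟨u, v⟩, c⟩ := e
  obtain ⟨a1, a2⟩ := a
  cases c <;> simp <;> ring

theorem measurable_shiftZ (a : P2) : Measurable (shiftZ a) :=
  measurable_pi_lambda _ fun _ => measurable_pi_apply _

theorem dstep_shift {Z : Edge → Prop} {f g : P2} (a : P2) :
    DStep (fun e => Z (e.1 + a, e.2)) f g ↔ DStep Z (f + a) (g + a) := by
  constructor
  · rintro ⟨e, he, h⟩
    refine ⟨(e.1 + a, e.2), he, ?_⟩
    rw [fA_shift, fB_shift]
    rcases h with ⟨h1, h2⟩ | ⟨h1, h2⟩
    · exact Or.inl ⟨by rw [h1], by rw [h2]⟩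
    · exact Or.inr ⟨by rw [h1], by rw [h2]⟩
  · rintro ⟨e, he, h⟩
    have hee : ((e.1 - a, e.2) : Edge).1 + a = e.1 := by simp
    refine ⟨(e.1 - a, e.2), ?_, ?_⟩
    · have : (((e.1 - a, e.2) : Edge).1 + a, ((e.1 - a, e.2) : Edge).2) = e := by
        rw [hee]
      simpa only [this] using he
    · have hA : fA (e.1 - a, e.2) = fA e - a := rfl
      have hB : fB (e.1 - a, e.2) = fB e - a := by
        have := fB_shift (e.1 - a, e.2) a
        have h2 : (((e.1 - a, e.2) : Edge).1 + a, ((e.1 - a, e.2) : Edge).2) = e := by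
          rw [hee]
        rw [h2] at this
        rw [this]; simp
      rw [hA, hB]
      rcases h with ⟨h1, h2⟩ | ⟨h1, h2⟩
      · exact Or.inl ⟨by rw [← h1]; simp, by rw [← h2]; simp⟩
      · exact Or.inr ⟨by rw [← h1]; simp, by rw [← h2]; simp⟩

theorem reach_shift {Z : Edge → Prop} (a : P2) (A : Set P2) (f : P2) :
    f ∈ Reach (fun e => Z (e.1 + a, e.2)) A ↔ f + a ∈ Reach Z ((fun x => x + a) '' A) := by
  have key : ∀ {W : Edge → Prop} (b : P2) (B : Set P2) (f : P2),
      f ∈ Reach (fun e => W (e.1 + b, e.2)) B → f + b ∈ Reach W ((fun x => x + b) '' B) := by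
    intro W b B f hf
    have : Reach (fun e => W (e.1 + b, e.2)) B ⊆ {f | f + b ∈ Reach W ((fun x => x + b) '' B)} := by
      refine reach_subset (fun g hg => subset_reach _ _ ⟨g, hg, rfl⟩) ?_
      intro g g' hg hs
      exact reach_step hg ((dstep_shift (Z := fun e => ¬ W e) b).1 hs)
    exact this hf
  refine ⟨key a A f, fun h => ?_⟩
  have h2 := key (W := fun e => Z (e.1 + a, e.2)) (-a) ((fun x => x + a) '' A) (f + a) (by
    have : (fun e : Edge => (fun e => Z (e.1 + a, e.2)) (e.1 + -a, e.2)) = Z := by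
      funext e
      simp
    rw [this]
    exact h)
  have h3 : (fun x : P2 => x + -a) '' ((fun x => x + a) '' A) = A := by
    rw [Set.image_image]
    simp
  rw [h3] at h2
  simpa using h2

theorem ball_shift (x a f : P2) (n : ℕ) : f + a ∈ ball (x + a) n ↔ f ∈ ball x n := by
  obtain ⟨f1, f2⟩ := f
  obtain ⟨x1, x2⟩ := x
  obtain ⟨a1, a2⟩ := a
  simp only [ball, Finset.mem_product, Finset.mem_Icc, Prod.mk_add_mk]
  omega

theorem image_ball (x a : P2) (n : ℕ) :
    (fun f : P2 => f + a) '' (ball x n : Set P2) = (ball (x + a) n : Set P2) := by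
  ext f
  constructor
  · rintro ⟨g, hg, rfl⟩
    exact (ball_shift x a g n).2 hg
  · intro hf
    refine ⟨f - a, ?_, by simp⟩
    have := (ball_shift x a (f - a) n).1 (by simpa using hf)
    exact this

theorem shiftZ_mem_circZ (a x : P2) (n m : ℕ) (z : Edge → Bool) :
    shiftZ a z ∈ CircZ x n m ↔ z ∈ CircZ (x + a) n m := by
  show Reach (fun e => z (e.1 + a, e.2) = true) (ball x n : Set P2) ⊆ _ ↔
    Reach (fun e => z e = true) (ball (x + a) n : Set P2) ⊆ _
  constructor
  · intro h f hf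
    have h1 : f - a ∈ Reach (fun e => z (e.1 + a, e.2) = true) (ball x n : Set P2) := by
      refine (reach_shift (Z := fun e => z e = true) a (ball x n : Set P2) (f - a)).2 ?_
      rw [image_ball]
      simpa using hf
    have h2 := h h1
    have := (ball_shift x a (f - a) m).2 h2
    simpa using this
  · intro h f hf
    have h1 := (reach_shift (Z := fun e => z e = true) a (ball x n : Set P2) f).1 hf
    rw [image_ball] at h1
    exact (ball_shift x a f m).1 (h h1)

/-- translation invariance of a percolation law -/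
def TInv (ν : Measure (Edge → Bool)) : Prop := ∀ a : P2, ν.map (shiftZ a) = ν

theorem TInv.circZ {ν : Measure (Edge → Bool)} (h : TInv ν) (x : P2) (n m : ℕ) :
    ν (CircZ x n m) = ν (CircZ (0, 0) n m) := by
  have h1 : ν (CircZ (0, 0) n m) = ν.map (shiftZ x) (CircZ (0, 0) n m) := by rw [h x]
  rw [h1, Measure.map_apply (measurable_shiftZ x) (measurableSet_circZ _ _ _)]
  congr 1
  ext z
  have := shiftZ_mem_circZ x (0, 0) n m z
  have h0 : ((0, 0) : P2) + x = x := by simp [Prod.ext_iff]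
  rw [h0] at this
  exact this.symm

/-! ### FKG and the ring event -/

/-- FKG inequality for increasing local events -/
def FKGLoc (ν : Measure (Edge → Bool)) : Prop :=
  ∀ A B : Set (Edge → Bool), LocEv A → LocEv B → IncEv A → IncEv B → ν A * ν B ≤ ν (A ∩ B)

theorem FKGLoc.prod_le {ν : Measure (Edge → Bool)} [IsProbabilityMeasure ν] (h : FKGLoc ν)
    {ι : Type*} (s : Finset ι) (A : ι → Set (Edge → Bool)) (hL : ∀ i ∈ s, LocEv (A i))
    (hI : ∀ i ∈ s, IncEv (A i)) : ∏ i ∈ s, ν (A i) ≤ ν (⋂ i ∈ s, A i) := by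
  classical
  induction s using Finset.induction_on with
  | empty => simp
  | insert a s ha ih =>
    rw [Finset.prod_insert ha, Finset.set_biInter_insert]
    have hL' : ∀ i ∈ s, LocEv (A i) := fun i hi => hL i (Finset.mem_insert_of_mem hi)
    have hI' : ∀ i ∈ s, IncEv (A i) := fun i hi => hI i (Finset.mem_insert_of_mem hi)
    calc ν (A a) * ∏ i ∈ s, ν (A i) ≤ ν (A a) * ν (⋂ i ∈ s, A i) := by
          gcongr
          exact ih hL' hI'
      _ ≤ ν (A a ∩ ⋂ i ∈ s, A i) := h _ _ (hL a (Finset.mem_insert_self _ _))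
          (locEv_iInter s A hL') (hI a (Finset.mem_insert_self _ _)) (incEv_iInter s A hI')

/-- the finite set of indices `{-Q..Q}²` -/
def idx (Q : ℕ) : Finset P2 := Finset.Icc (-(Q : ℤ)) Q ×ˢ Finset.Icc (-(Q : ℤ)) Q

theorem card_idx (Q : ℕ) : (idx Q).card = (2 * Q + 1) ^ 2 := by
  unfold idx
  rw [Finset.card_product, Int.card_Icc]
  have : ((Q : ℤ) + 1 - -(Q : ℤ)).toNat = 2 * Q + 1 := by omega
  rw [this, sq]

/-- all annuli of radii `n, 2n` centred on `nℤ² ∩ [-Qn, Qn]²` have a `Z`-circuit -/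
def Good (Z : Edge → Prop) (n Q : ℕ) : Prop :=
  ∀ q ∈ idx Q, Circ Z ((n : ℤ) * q.1, (n : ℤ) * q.2) n (2 * n)

/-- the same event for percolation configurations -/
def GoodZ (n Q : ℕ) : Set (Edge → Bool) :=
  ⋂ q ∈ idx Q, CircZ ((n : ℤ) * q.1, (n : ℤ) * q.2) n (2 * n)

theorem mem_goodZ {n Q : ℕ} {z : Edge → Bool} :
    z ∈ GoodZ n Q ↔ Good (fun e => z e = true) n Q := by
  simp only [GoodZ, Good, Set.mem_iInter]
  rfl

theorem locEv_goodZ (n Q : ℕ) : LocEv (GoodZ n Q) := locEv_iInter _ _ fun _ _ => locEv_circZ _ _ _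
theorem incEv_goodZ (n Q : ℕ) : IncEv (GoodZ n Q) := incEv_iInter _ _ fun _ _ => incEv_circZ _ _ _

/-- **Ring probability.** -/
theorem goodZ_ge {ν : Measure (Edge → Bool)} [IsProbabilityMeasure ν] (hF : FKGLoc ν)
    (hT : TInv ν) {q : ℝ} {n : ℕ} (hq : 0 ≤ q)
    (hn : q ≤ (ν (CircZ (0, 0) n (2 * n))).toReal) (Q : ℕ) :
    q ^ ((2 * Q + 1) ^ 2) ≤ (ν (GoodZ n Q)).toReal := by
  have h1 := hF.prod_le (idx Q)
    (fun q : P2 => CircZ ((n : ℤ) * q.1, (n : ℤ) * q.2) n (2 * n))
    (fun _ _ => locEv_circZ _ _ _) (fun _ _ => incEv_circZ _ _ _)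
  have h2 : ∏ i ∈ idx Q, ν (CircZ ((n : ℤ) * i.1, (n : ℤ) * i.2) n (2 * n)) =
      (ν (CircZ (0, 0) n (2 * n))) ^ ((2 * Q + 1) ^ 2) := by
    rw [Finset.prod_congr rfl fun i _ => hT.circZ _ n (2 * n), Finset.prod_const, card_idx]
  rw [h2] at h1
  calc q ^ ((2 * Q + 1) ^ 2) ≤ (ν (CircZ (0, 0) n (2 * n))).toReal ^ ((2 * Q + 1) ^ 2) := by
        gcongr
    _ = ((ν (CircZ (0, 0) n (2 * n))) ^ ((2 * Q + 1) ^ 2)).toReal := by
        rw [ENNReal.toReal_pow]
    _ ≤ (ν (GoodZ n Q)).toReal := ENNReal.toReal_mono (measure_ne_top _ _) h1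

/-! ### deterministic consequence of `Good` -/

/-- sup distance at most `d` -/
def Near (d : ℤ) (f g : P2) : Prop := |f.1 - g.1| ≤ d ∧ |f.2 - g.2| ≤ d

/-- On `Good Z n Q`, every face reached from `f` (with `|f| ≤ Q n`) through non-`Z` edges is at
sup-distance at most `3 n` from `f`. -/
theorem Good.near {Z : Edge → Prop} {n Q : ℕ} (hn : 1 ≤ n) (h : Good Z n Q) {f : P2}
    (h1 : -((Q : ℤ) * n) ≤ f.1 ∧ f.1 ≤ (Q : ℤ) * n) (h2 : -((Q : ℤ) * n) ≤ f.2 ∧ f.2 ≤ (Q : ℤ) * n)
    {g : P2} (hg : g ∈ Reach Z {f}) : Near (3 * n) f g := by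
  have hn0 : (0 : ℤ) < n := by exact_mod_cast hn
  set q1 := f.1 / (n : ℤ) with hq1
  set q2 := f.2 / (n : ℤ) with hq2
  have e1 : (n : ℤ) * q1 ≤ f.1 := Int.mul_ediv_self_le hn0.ne'
  have e2 : f.1 < (n : ℤ) * q1 + n := Int.lt_mul_ediv_self_add hn0
  have e3 : (n : ℤ) * q2 ≤ f.2 := Int.mul_ediv_self_le hn0.ne'
  have e4 : f.2 < (n : ℤ) * q2 + n := Int.lt_mul_ediv_self_add hn0
  have b1 : -(Q : ℤ) ≤ q1 := by
    rw [hq1, Int.le_ediv_iff_mul_le hn0]
    linarith [h1.1]
  have b2 : q1 ≤ Q := by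
    rw [hq1]
    exact Int.ediv_le_of_le_mul hn0 h1.2
  have b3 : -(Q : ℤ) ≤ q2 := by
    rw [hq2, Int.le_ediv_iff_mul_le hn0]
    linarith [h2.1]
  have b4 : q2 ≤ Q := by
    rw [hq2]
    exact Int.ediv_le_of_le_mul hn0 h2.2
  have hc := h (q1, q2) (by
    simp only [idx, Finset.mem_product, Finset.mem_Icc]
    exact ⟨⟨b1, b2⟩, ⟨b3, b4⟩⟩)
  have hf : f ∈ (ball ((n : ℤ) * q1, (n : ℤ) * q2) n : Set P2) := by
    simp only [ball, Finset.coe_product, Set.mem_prod, Finset.coe_Icc, Set.mem_Icc]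
    constructor <;> constructor <;> linarith
  have hg2 := hc (reach_mono Z (Set.singleton_subset_iff.2 hf) hg)
  simp only [ball, Finset.coe_product, Set.mem_prod, Finset.coe_Icc, Set.mem_Icc] at hg2
  push_cast at hg2
  obtain ⟨⟨g1, g2⟩, ⟨g3, g4⟩⟩ := hg2
  unfold Near
  rw [abs_le, abs_le]
  refine ⟨⟨?_, ?_⟩, ⟨?_, ?_⟩⟩ <;> linarith

/-- On `Good Z n Q`: `Reach Z A ⊆ S` as soon as `A` is in the region and `S` contains the
`3n`-neighbourhood of `A`. -/
theorem Good.reach_subset {Z : Edge → Prop} {n Q : ℕ} (hn : 1 ≤ n) (h : Good Z n Q) {A S : Set P2}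
    (hA : ∀ f ∈ A, (-((Q : ℤ) * n) ≤ f.1 ∧ f.1 ≤ (Q : ℤ) * n) ∧
      (-((Q : ℤ) * n) ≤ f.2 ∧ f.2 ≤ (Q : ℤ) * n))
    (hS : ∀ f ∈ A, ∀ g, Near (3 * n) f g → g ∈ S) : Reach Z A ⊆ S := by
  rintro g ⟨f, hf, hfg⟩
  obtain ⟨h1, h2⟩ := hA f hf
  exact hS f hf g (h.near hn h1 h2 ⟨f, rfl, hfg⟩)

end Crest.Agent.R161.Ring421
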