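import Crest.Agent.R161.Clo_389
import Crest.Agent.R161.Ring1_421
import Crest.Agent.R161.Dmp2_341

/-!
# Row 161, block H-e: the closed ring (helper389), locality of the random domain

* `WF M g 𝒱 ω` : the random domain as a finite set (`∅` if the origin is explored)
* `evD M g 𝒱 D` : the ring event together with `WF = D ∋ (0,0)`
* `evD_dom`, `evD_cut`, `evD_sub`, `outLoc_evD`, `loc_evD`
-/

set_option autoImplicit false

noncomputable section

namespace Crest.Agent.R161.Clo389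

open Finset hiding box
open Crest.Agent.R161.Geo729 Crest.Agent.R161.Defs372 Crest.Agent.R161.Dual374
open Crest.Agent.R161.Hull374 Crest.Agent.R161.Ifc372 Crest.Agent.R161.Arc389

/-! ### congruence lemmas -/

/-- closedness form of `Reach ⊆ Reach` -/
theorem reach_le {Z Z' : Edge → Prop} {A A' : Set P2} (hA : A' ⊆ Reach Z A)
    (h : ∀ e, (fA e ∈ Reach Z A ∨ fB e ∈ Reach Z A) → ¬ Z' e →
      (fA e ∈ Reach Z A ∧ fB e ∈ Reach Z A)) : Reach Z' A' ⊆ Reach Z A := by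
  refine reach_subset' hA ?_
  intro e he
  exact ⟨fun h1 => (h e (Or.inl h1) he).2, fun h1 => (h e (Or.inr h1) he).1⟩

/-- if the edges touching `Reach Z A` have the same status then the reaches agree -/
theorem reach_congr {Z Z' : Edge → Prop} {A : Set P2}
    (h : ∀ e, (fA e ∈ Reach Z A ∨ fB e ∈ Reach Z A) → (Z e ↔ Z' e)) : Reach Z' A = Reach Z A := by
  apply Set.Subset.antisymm
  · refine reach_le (subset_reach _ _) ?_
    intro e he hz
    have hz' : ¬ Z e := fun h1 => hz ((h e he).1 h1)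
    rcases he with h1 | h1
    · exact ⟨h1, (reach_iff hz').1 h1⟩
    · exact ⟨(reach_iff hz').2 h1, h1⟩
  · rintro f ⟨a, ha, hp⟩
    have key : f ∈ Reach Z A ∧ f ∈ Reach Z' A := by
      induction hp with
      | refl => exact ⟨subset_reach _ _ ha, subset_reach _ _ ha⟩
      | @tail b c1 _ h2 ih =>
        obtain ⟨ih1, ih2⟩ := ih
        refine ⟨reach_step' ih1 h2, ?_⟩
        obtain ⟨e, he, h3⟩ := h2
        refine reach_step' ih2 ⟨e, fun h4 => he ((h e ?_).2 h4), h3⟩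
        rcases h3 with ⟨h5, _⟩ | ⟨h5, _⟩
        · exact Or.inl (h5 ▸ ih1)
        · exact Or.inr (h5 ▸ ih1)
    exact key.2

/-- a face of `intEdges D` -/
theorem not_intEdges_of_disjoint {D : Finset P2} {R : Set P2} (hD : ∀ f ∈ D, f ∉ R) {e : Edge}
    (he : fA e ∈ R ∨ fB e ∈ R) : e ∉ intEdges D := by
  rw [mem_intEdges]
  rintro ⟨h1, h2⟩
  rcases he with h | h
  · exact hD _ h1 h
  · exact hD _ h2 h

variable {M g : ℕ} {𝒱 : Finset P2}

theorem reach_hull_subset {Z C : Edge → Prop} {a : P2} (ha : a ∈ ringCells 𝒱) :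
    Reach Z (ball (ctr M a) (M - 2 * g) : Set P2) ⊆ RZ M g 𝒱 Z C :=
  fun f hf => subset_reach _ _ (Or.inr ⟨a, ha, hf⟩)

/-- **Locality off the domain**: if `D` is not explored and the edges not interior to `D` have the same
status, the explored sets agree. -/
theorem RZ_congr_off {Z C Z' C' : Edge → Prop} {D : Finset P2}
    (hD : ∀ f ∈ D, f ∉ RZ M g 𝒱 Z C) (hZ : ∀ e, e ∉ intEdges D → (Z e ↔ Z' e))
    (hC : ∀ e, e ∉ intEdges D → (C e ↔ C' e)) :
    RZ M g 𝒱 Z' C' = RZ M g 𝒱 Z C := by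
  have hH : HZ M g 𝒱 Z' = HZ M g 𝒱 Z := by
    unfold HZ
    ext f
    refine exists_congr fun a => and_congr_right fun ha => ?_
    rw [reach_congr (Z := Z) (Z' := Z') (A := (ball (ctr M a) (M - 2 * g) : Set P2))]
    intro e he
    refine hZ e (not_intEdges_of_disjoint (R := RZ M g 𝒱 Z C) hD ?_)
    exact he.imp (fun h => reach_hull_subset ha h) fun h => reach_hull_subset ha h
  unfold RZ
  rw [hH]
  refine reach_congr (Z := C) (Z' := C') ?_
  intro e he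
  exact hC e (not_intEdges_of_disjoint (R := RZ M g 𝒱 Z C) hD he)

/-- the ring event is also unchanged -/
theorem Ep_congr_off {Z C Z' : Edge → Prop} {D : Finset P2}
    (hD : ∀ f ∈ D, f ∉ RZ M g 𝒱 Z C) (hZ : ∀ e, e ∉ intEdges D → (Z e ↔ Z' e)) :
    Ep M g 𝒱 Z' ↔ Ep M g 𝒱 Z := by
  refine forall_congr' fun a => forall_congr' fun ha => ?_
  unfold Circ
  rw [reach_congr (Z := Z) (Z' := Z') (A := (ball (ctr M a) (M - 2 * g) : Set P2))]
  intro e he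
  refine hZ e (not_intEdges_of_disjoint (R := RZ M g 𝒱 Z C) hD ?_)
  exact he.imp (fun h => reach_hull_subset ha h) fun h => reach_hull_subset ha h

/-- relevant faces of the ring event -/
def ringF (M g : ℕ) (𝒱 : Finset P2) : Finset P2 :=
  (ringCells 𝒱).biUnion fun a => ball (ctr M a) (M - g)

theorem Ep_congr_loc {Z Z' : Edge → Prop}
    (hZ : ∀ e, (fA e ∈ ringF M g 𝒱 ∨ fB e ∈ ringF M g 𝒱) → (Z e ↔ Z' e)) :
    Ep M g 𝒱 Z ↔ Ep M g 𝒱 Z' := by
  refine forall_congr' fun a => forall_congr' fun ha => ?_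
  refine Ring421.reach_subset_iff fun e he => hZ e ?_
  exact he.imp (fun h => Finset.mem_biUnion.2 ⟨a, ha, h⟩) fun h => Finset.mem_biUnion.2 ⟨a, ha, h⟩

/-- **Finite range**: on the ring event the explored set only depends on the edges touching the regions
`ringF` (status `Z`) and `regF` (status `C`). -/
theorem RZ_congr_loc (hM0 : 0 < M) {Z C Z' C' : Edge → Prop} (hE : Ep M g 𝒱 Z)
    (hZ : ∀ e, (fA e ∈ ringF M g 𝒱 ∨ fB e ∈ ringF M g 𝒱) → (Z e ↔ Z' e))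
    (hC : ∀ e, (fA e ∈ regF M 𝒱 ∨ fB e ∈ regF M 𝒱) → (C e ↔ C' e)) :
    RZ M g 𝒱 Z' C' = RZ M g 𝒱 Z C := by
  have hH : HZ M g 𝒱 Z' = HZ M g 𝒱 Z := by
    unfold HZ
    ext f
    refine exists_congr fun a => and_congr_right fun ha => ?_
    rw [reach_congr (Z := Z) (Z' := Z') (A := (ball (ctr M a) (M - 2 * g) : Set P2))]
    intro e he
    refine hZ e (he.imp (fun h => ?_) fun h => ?_)
    · exact Finset.mem_biUnion.2 ⟨a, ha, hE a ha h⟩
    · exact Finset.mem_biUnion.2 ⟨a, ha, hE a ha h⟩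
  have key : ∀ (C C' : Edge → Prop), (∀ e, (fA e ∈ regF M 𝒱 ∨ fB e ∈ regF M 𝒱) → (C e ↔ C' e)) →
      Reach C' (OutR M 𝒱 ∪ HZ M g 𝒱 Z) ⊆ Reach C (OutR M 𝒱 ∪ HZ M g 𝒱 Z) := by
    intro C C' hC
    refine reach_le (subset_reach _ _) ?_
    intro e he hz
    by_cases hreg : fA e ∈ regF M 𝒱 ∨ fB e ∈ regF M 𝒱
    · have hz' : ¬ C e := fun h1 => hz ((hC e hreg).1 h1)
      rcases he with h1 | h1
      · exact ⟨h1, (reach_iff hz').1 h1⟩
      · exact ⟨(reach_iff hz').2 h1, h1⟩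
    · rw [not_or, mem_regF hM0, mem_regF hM0] at hreg
      exact ⟨subset_reach _ _ (Or.inl hreg.1), subset_reach _ _ (Or.inl hreg.2)⟩
  unfold RZ
  rw [hH]
  exact Set.Subset.antisymm (key C C' hC) (key C' C fun e he => (hC e he).symm)

/-! ### the random domain as a finite set -/

open Classical in
/-- the random domain (empty if the origin is explored) -/
def WF (M g : ℕ) (𝒱 : Finset P2) (ω : Cfg) : Finset P2 :=
  if (0, 0) ∈ RZ M g 𝒱 (plusE ω) (cutE ω) then ∅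
  else (regF M 𝒱).filter fun f => f ∈ WZ M g 𝒱 (plusE ω) (cutE ω)

theorem WF_of_not (hM0 : 0 < M) {ω : Cfg} (h : (0, 0) ∉ RZ M g 𝒱 (plusE ω) (cutE ω)) :
    (WF M g 𝒱 ω : Set P2) = WZ M g 𝒱 (plusE ω) (cutE ω) := by
  classical
  unfold WF
  rw [if_neg h, Finset.coe_filter]
  ext f
  refine ⟨fun hf => hf.2, fun hf => ⟨?_, hf⟩⟩
  have := ((comp_subset h).trans (compl_RZ_subset hM0)) hf
  simpa using this

theorem WF_subset (ω : Cfg) : WF M g 𝒱 ω ⊆ regF M 𝒱 := by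
  classical
  unfold WF
  split_ifs
  · exact Finset.empty_subset _
  · exact Finset.filter_subset _ _

theorem zero_mem_WF_iff (hM0 : 0 < M) {ω : Cfg} :
    ((0, 0) : P2) ∈ WF M g 𝒱 ω ↔ (0, 0) ∉ RZ M g 𝒱 (plusE ω) (cutE ω) := by
  constructor
  · intro h h0
    unfold WF at h
    rw [if_pos h0] at h
    exact absurd h (Finset.notMem_empty _)
  · intro h
    rw [← Finset.mem_coe, WF_of_not hM0 h]
    exact Relation.ReflTransGen.refl

/-- the ring event together with `WF = D ∋ (0,0)` -/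
def evD (M g : ℕ) (𝒱 D : Finset P2) : Set Cfg :=
  {ω | Ep M g 𝒱 (plusE ω) ∧ WF M g 𝒱 ω = D ∧ ((0, 0) : P2) ∈ D}

theorem mem_evD {D : Finset P2} {ω : Cfg} : ω ∈ evD M g 𝒱 D ↔
    Ep M g 𝒱 (plusE ω) ∧ WF M g 𝒱 ω = D ∧ ((0, 0) : P2) ∈ D := Iff.rfl

theorem evD_not_explored (hM0 : 0 < M) {D : Finset P2} {ω : Cfg} (h : ω ∈ evD M g 𝒱 D) :
    (0, 0) ∉ RZ M g 𝒱 (plusE ω) (cutE ω) ∧ (D : Set P2) = WZ M g 𝒱 (plusE ω) (cutE ω) ∧
      ∀ f ∈ D, f ∉ RZ M g 𝒱 (plusE ω) (cutE ω) := by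
  obtain ⟨-, h1, h2⟩ := h
  have h0 : (0, 0) ∉ RZ M g 𝒱 (plusE ω) (cutE ω) := (zero_mem_WF_iff hM0).1 (h1 ▸ h2)
  have h3 : (D : Set P2) = WZ M g 𝒱 (plusE ω) (cutE ω) := by rw [← h1, WF_of_not hM0 h0]
  refine ⟨h0, h3, fun f hf => ?_⟩
  have : f ∈ WZ M g 𝒱 (plusE ω) (cutE ω) := h3 ▸ Finset.mem_coe.2 hf
  exact comp_subset h0 this

theorem evD_struct (hM : 2 * g < M) (h𝒱 : IsConn (𝒱 : Set P2)ᶜ) {D : Finset P2} {ω : Cfg}
    (h : ω ∈ evD M g 𝒱 D) : Dom D ∧ Dmp341.CutE D ω ∧ D ⊆ regF M 𝒱 := by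
  have hM0 : 0 < M := by omega
  obtain ⟨h0, h1, -⟩ := evD_not_explored hM0 h
  obtain ⟨h2, h3, h4, h5, -⟩ := WZ_struct (Z := plusE ω) hM h𝒱 h0 (fun _ => ()) (fun _ _ => rfl)
  rw [← h1] at h2 h3 h4 h5
  refine ⟨⟨h3, h4⟩, fun e he => h5 e (Dmp341.mem_bdE_iff_Bd.1 he), ?_⟩
  exact_mod_cast h2

theorem plusE_off {D : Finset P2} {ω ω' : Cfg} (h1 : ∀ v, v ∉ intVerts D → ω.1 v = ω'.1 v)
    (h3 : ∀ e, e ∉ intEdges D → ω.2.2 e = ω'.2.2 e) {e : Edge} (he : e ∉ intEdges D) :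
    plusE ω e ↔ plusE ω' e := by
  refine plusE_congr (B := D) (fun v hv => ?_) h3 he
  rw [h1 v hv, sub_self]
  exact dvd_zero _

/-- **The event `evD` depends only on the outside of `D`.** -/
theorem outLoc_evD (hM0 : 0 < M) (D : Finset P2) :
    Dmp341.OutLoc D (fun ω => ω ∈ evD M g 𝒱 D) := by
  have key : ∀ ω ω' : Cfg, (∀ v, v ∉ intVerts D → ω.1 v = ω'.1 v) →
      (∀ e, e ∉ intEdges D → ω.2.2 e = ω'.2.2 e) → ω ∈ evD M g 𝒱 D → ω' ∈ evD M g 𝒱 D := by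
    intro ω ω' h1 h3 h
    obtain ⟨h0, h4, h5⟩ := evD_not_explored hM0 h
    have hR : RZ M g 𝒱 (plusE ω') (cutE ω') = RZ M g 𝒱 (plusE ω) (cutE ω) :=
      RZ_congr_off h5 (fun e he => plusE_off h1 h3 he) fun e he => by unfold cutE; rw [h3 e he]
    have h0' : (0, 0) ∉ RZ M g 𝒱 (plusE ω') (cutE ω') := by rw [hR]; exact h0
    refine ⟨?_, ?_, h.2.2⟩
    · exact (Ep_congr_off h5 fun e he => plusE_off h1 h3 he).2 h.1
    · rw [← Finset.coe_inj, WF_of_not hM0 h0', h4]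
      unfold WZ
      rw [hR]
  intro ω ω' h1 _ h3
  exact propext ⟨key ω ω' h1 h3, key ω' ω (fun v hv => (h1 v hv).symm) fun e he => (h3 e he).symm⟩

/-- sites on which the ring event and the random domain depend -/
def sitesF (M g : ℕ) (𝒱 : Finset P2) : Finset P2 :=
  (regF M 𝒱 ∪ ringF M g 𝒱) ∪ ((regF M 𝒱 ∪ ringF M g 𝒱).image fun v => ((v.1 + 1, v.2) : P2)) ∪
    ((regF M 𝒱 ∪ ringF M g 𝒱).image fun v => ((v.1, v.2 + 1) : P2))

theorem edge_site {e : Edge} (he : fA e ∈ regF M 𝒱 ∪ ringF M g 𝒱 ∨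
    fB e ∈ regF M 𝒱 ∪ ringF M g 𝒱) : e.1 ∈ sitesF M g 𝒱 := by
  unfold sitesF
  rcases he with h | h
  · exact Finset.mem_union_left _ (Finset.mem_union_left _ h)
  · obtain ⟨⟨i, j⟩, b⟩ := e
    cases b
    · refine Finset.mem_union_right _ (Finset.mem_image.2 ⟨_, h, ?_⟩)
      simp
    · refine Finset.mem_union_left _ (Finset.mem_union_right _ (Finset.mem_image.2 ⟨_, h, ?_⟩))
      simp

theorem plusE_agree {S : Set P2} {ω ω' : Cfg} (h : AgreeOn S ω ω') {e : Edge} (he : e.1 ∈ S) :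
    (plusE ω e ↔ plusE ω' e) ∧ (cutE ω e ↔ cutE ω' e) := by
  obtain ⟨v, b⟩ := e
  obtain ⟨h1, -, h3⟩ := h v he
  unfold plusE cutE
  rw [h3 b]
  simp only [src_mk, h1, and_self]

/-- **The event `evD` is local.** -/
theorem loc_evD (hM0 : 0 < M) (D : Finset P2) :
    Loc (sitesF M g 𝒱 : Set P2) (fun ω => ω ∈ evD M g 𝒱 D) := by
  have key : ∀ ω ω' : Cfg, AgreeOn (sitesF M g 𝒱 : Set P2) ω ω' → ω ∈ evD M g 𝒱 D →
      ω' ∈ evD M g 𝒱 D := by
    intro ω ω' h hω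
    have hZ : ∀ e, (fA e ∈ ringF M g 𝒱 ∨ fB e ∈ ringF M g 𝒱) → (plusE ω e ↔ plusE ω' e) := by
      intro e he
      refine (plusE_agree h (edge_site ?_)).1
      exact he.imp (Finset.mem_union_right _) (Finset.mem_union_right _)
    have hC : ∀ e, (fA e ∈ regF M 𝒱 ∨ fB e ∈ regF M 𝒱) → (cutE ω e ↔ cutE ω' e) := by
      intro e he
      refine (plusE_agree h (edge_site ?_)).2
      exact he.imp (Finset.mem_union_left _) (Finset.mem_union_left _)
    obtain ⟨h0, h4, -⟩ := evD_not_explored hM0 hω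
    have hR : RZ M g 𝒱 (plusE ω') (cutE ω') = RZ M g 𝒱 (plusE ω) (cutE ω) :=
      RZ_congr_loc hM0 hω.1 hZ hC
    have h0' : (0, 0) ∉ RZ M g 𝒱 (plusE ω') (cutE ω') := by rw [hR]; exact h0
    refine ⟨(Ep_congr_loc hZ).1 hω.1, ?_, hω.2.2⟩
    rw [← Finset.coe_inj, WF_of_not hM0 h0', h4]
    unfold WZ
    rw [hR]
  intro ω ω' h
  refine propext ⟨key ω ω' h, key ω' ω fun v hv => ?_⟩
  obtain ⟨h1, h2, h3⟩ := h v hv
  exact ⟨h1.symm, h2.symm, fun b => (h3 b).symm⟩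

/-- heights of plus parity are unchanged by shifts by multiples of `4` -/
theorem plusE_addH4 (ω : Cfg) (e : Edge) : plusE (addH 4 ω) e ↔ plusE ω e := by
  unfold plusE addH
  simp only
  have : (4 : ℤ) ∣ ω.1 (src e) + 4 ↔ (4 : ℤ) ∣ ω.1 (src e) := by omega
  rw [this]

theorem evD_addH4 (D : Finset P2) (ω : Cfg) : addH 4 ω ∈ evD M g 𝒱 D ↔ ω ∈ evD M g 𝒱 D := by
  have h1 : plusE (addH 4 ω) = plusE ω := by
    funext e
    exact propext (plusE_addH4 ω e)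
  have h2 : cutE (addH 4 ω) = cutE ω := rfl
  unfold evD WF
  rw [Set.mem_ofPred_eq, Set.mem_ofPred_eq, h1, h2]

end Crest.Agent.R161.Clo389
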