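import Crest.Agent.R161.Csq2_472

/-!
# Row 161, leaf L3 (helper472), part 3: crossings of squares by plus-cut edges

`nu_cross_quarter`: under `nu P` (plus-cut percolation of the symmetrised state) the rectangle
`[x0, x0+n] × [y0, y0+n-1]` is crossed from left to right with probability `≥ 1/4`.
-/

set_option autoImplicit false

noncomputable section

namespace Crest.Agent.R161.Csq472

open MeasureTheory Finset
open Crest.Agent.R161.Geo729 Crest.Agent.R161.Defs372 Crest.Agent.R161.Dual374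
open Crest.Agent.R161.Hull374 Crest.Agent.R161.Ifc372

theorem measurable_plusMap : Measurable plusMap := by
  classical
  rw [measurable_pi_iff]
  intro e
  refine measurable_to_bool ?_
  have : (fun ω : Cfg => plusMap ω e) ⁻¹' {true} =
      {ω : Cfg | ω.2.2 e = true} ∩ {ω : Cfg | (4 : ℤ) ∣ ω.1 (src e)} := by
    ext ω
    simp [plusMap, plusE]
  rw [this]
  refine MeasurableSet.inter ?_ ?_
  · exact (measurableSet_singleton true).preimage
      (by fun_prop : Measurable fun ω : Cfg => ω.2.2 e)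
  · exact (MeasurableSet.of_discrete (s := {k : ℤ | (4 : ℤ) ∣ k})).preimage
      (by fun_prop : Measurable fun ω : Cfg => ω.1 (src e))

theorem measurable_addH (a : ℤ) : Measurable (addH a) := by
  unfold addH
  fun_prop

theorem plusE_addH_two {ω : Cfg} (he : ∀ v, Even (ω.1 v)) {e : Edge} (h : minusE ω e) :
    plusE (addH 2 ω) e := by
  refine ⟨h.1, ?_⟩
  have h1 := he (src e)
  have h2 := h.2
  simp only [addH]
  obtain ⟨m, hm⟩ := h1
  rw [hm] at h2 ⊢
  omega

/-- A walk of cut edges has constant height. -/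
theorem walk_const {ω : Cfg} (hcut : ∀ e, ω.2.2 e = true → ω.1 (src e) = ω.1 (tgt e))
    {R : Edge → Prop} {a b : P2}
    (h : Relation.ReflTransGen (PStep (fun e => ω.2.2 e = true ∧ R e)) a b) :
    ω.1 b = ω.1 a ∧
      ((4 : ℤ) ∣ ω.1 a → Relation.ReflTransGen (PStep (fun e => plusE ω e ∧ R e)) a b) ∧
      (¬ (4 : ℤ) ∣ ω.1 a → Relation.ReflTransGen (PStep (fun e => minusE ω e ∧ R e)) a b) := by
  induction h with
  | refl => exact ⟨rfl, fun _ => .refl, fun _ => .refl⟩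
  | @tail b d _ hbd ih =>
    obtain ⟨e, ⟨he1, he2⟩, hd⟩ := hbd
    obtain ⟨i1, i2, i3⟩ := ih
    have hc := hcut e he1
    have hb : ω.1 (src e) = ω.1 a ∧ ω.1 d = ω.1 a := by
      rcases hd with ⟨h1, h2⟩ | ⟨h1, h2⟩
      · rw [h1] at i1; rw [h2]; exact ⟨i1, by rw [← hc]; exact i1⟩
      · rw [h1] at i1; rw [h2]; exact ⟨by rw [hc]; exact i1, by rw [hc]; exact i1⟩
    refine ⟨hb.2, fun h4 => (i2 h4).tail ⟨e, ⟨⟨he1, ?_⟩, he2⟩, hd⟩,
      fun h4 => (i3 h4).tail ⟨e, ⟨⟨he1, ?_⟩, he2⟩, hd⟩⟩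
    · rw [hb.1]; exact h4
    · rw [hb.1]; exact h4

theorem lrc_plus_or_minus {ω : Cfg} (hcut : ∀ e, ω.2.2 e = true → ω.1 (src e) = ω.1 (tgt e))
    {x0 x1 y0 y1 : ℤ} (h : LRc x0 x1 y0 y1 fun e => ω.2.2 e = true) :
    LRc x0 x1 y0 y1 (plusE ω) ∨ LRc x0 x1 y0 y1 (minusE ω) := by
  obtain ⟨a, b, h1, h2, h3, h4, h5⟩ := h
  obtain ⟨_, k1, k2⟩ := walk_const hcut h5
  by_cases h : (4 : ℤ) ∣ ω.1 a
  · exact Or.inl ⟨a, b, h1, h2, h3, h4, k1 h⟩
  · exact Or.inr ⟨a, b, h1, h2, h3, h4, k2 h⟩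

theorem nu_apply {P : Measure Cfg} {A : Set (Edge → Bool)} (hA : MeasurableSet A) :
    nu P A = (2 : ENNReal)⁻¹ * P {ω | plusMap ω ∈ A} +
      (2 : ENNReal)⁻¹ * P {ω | plusMap (addH 2 ω) ∈ A} := by
  unfold nu Psym
  rw [Measure.map_apply measurable_plusMap hA, Measure.add_apply, Measure.smul_apply,
    Measure.smul_apply, smul_eq_mul, smul_eq_mul,
    Measure.map_apply (measurable_addH 2) (measurable_plusMap hA)]
  rfl

/-- **Square crossings** by plus-cut edges. -/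
theorem nu_cross_quarter {c : ℝ} (hc : 1 ≤ c) (hc2 : c ≤ 2) {P : Measure Cfg}
    [IsProbabilityMeasure P] (hv : ∀ᵐ ω ∂P, GValid ω) (hCI : CondIndep c P) (hSw : SwapInv P)
    (hZ : ZInv P) (x0 y0 : ℤ) (n : ℕ) (hn : 1 ≤ n) :
    1 / 4 ≤ (nu P {z | LRc x0 (x0 + n) y0 (y0 + n - 1) fun e => z e = true}).toReal := by
  have h0 := cross_half hc hc2 hv hCI hSw hZ x0 y0 n hn
  rw [nu_apply (measurableSet_LRc _ _ _ _)]
  set A : Set Cfg := {ω | plusMap ω ∈ {z | LRc x0 (x0 + n) y0 (y0 + n - 1) fun e => z e = true}}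
  set B : Set Cfg :=
    {ω | plusMap (addH 2 ω) ∈ {z | LRc x0 (x0 + n) y0 (y0 + n - 1) fun e => z e = true}}
  have hAB : P {ω | LRc x0 (x0 + n) y0 (y0 + n - 1) fun e => ω.2.2 e = true} ≤ P A + P B := by
    refine le_trans (measure_mono_ae ?_) (measure_union_le A B)
    filter_upwards [hv] with ω hω h
    rcases lrc_plus_or_minus (fun e he => (hω.edge e).1 he) h with h' | h'
    · left
      refine LRc.mono (fun e _ he => ?_) h'
      simpa [plusMap] using he
    · right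
      refine LRc.mono (fun e _ he => ?_) h'
      simpa [plusMap] using plusE_addH_two hω.even he
  have h1 := ENNReal.toReal_mono
    (ENNReal.add_ne_top.2 ⟨measure_ne_top P A, measure_ne_top P B⟩) hAB
  rw [ENNReal.toReal_add (measure_ne_top _ _) (measure_ne_top _ _)] at h1
  rw [ENNReal.toReal_add (ENNReal.mul_ne_top (by simp) (measure_ne_top _ _))
    (ENNReal.mul_ne_top (by simp) (measure_ne_top _ _)), ENNReal.toReal_mul, ENNReal.toReal_mul]
  simp only [ENNReal.toReal_inv, ENNReal.toReal_ofNat]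
  linarith

end Crest.Agent.R161.Csq472
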