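import Crest.Agent.R161.Mod4b_991
import Crest.Agent.R161.Csq3_472
import Crest.Agent.R161.Aut_373

/-!
# Row 161, leaf L1 (helper991): convergence of mod-4 observables

`tendsto_psym`: under `IsState c P` and delocalisation, `E c F f → ∫ f d(Psym P)` along simply
connected domains, for every local `f` with `f (addH 4 ω) = f ω`.
-/

set_option autoImplicit false

noncomputable section

namespace Crest.Agent.R161.Mod991

open Finset hiding box
open MeasureTheory
open Crest.Agent.R161.Geo729 Crest.Agent.R161.Defs372 Crest.Agent.R161.Ht132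
open Crest.Agent.R161.LcD991 Crest.Agent.R161.Ifc372

/-- **Delocalisation** (output of leaf L2): the probability of height `0` at the origin is small in
large domains. -/
def Deloc (c : ℝ) : Prop := ∀ ε : ℝ, 0 < ε → ∃ n : ℕ, ∀ F : Finset P2, Dom F → box n ⊆ F →
  Pr c F {ω | ω.1 (0, 0) = 0} < ε

theorem addH_addH (a b : ℤ) (ω : Cfg) : addH a (addH b ω) = addH (b + a) ω := by
  unfold addH
  simp only [add_assoc]

theorem addH_zero (ω : Cfg) : addH 0 ω = ω := by
  unfold addH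
  simp

theorem per_nat {α : Type*} {f : Cfg → α} (h4 : ∀ ω, f (addH 4 ω) = f ω) (n : ℕ) (ω : Cfg) :
    f (addH (4 * n) ω) = f ω := by
  induction n with
  | zero => simp [addH_zero]
  | succ n ih =>
    have : addH (4 * ((n + 1 : ℕ) : ℤ)) ω = addH 4 (addH (4 * n) ω) := by
      rw [addH_addH]
      congr 1
    rw [this, h4, ih]

theorem per_int {α : Type*} {f : Cfg → α} (h4 : ∀ ω, f (addH 4 ω) = f ω) (n : ℤ) (ω : Cfg) :
    f (addH (4 * n) ω) = f ω := by
  rcases Int.eq_nat_or_neg n with ⟨m, rfl | rfl⟩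
  · exact per_nat h4 m ω
  · have h := per_nat h4 m (addH (4 * -(m : ℤ)) ω)
    rw [addH_addH] at h
    have e : (4 * -(m : ℤ) + 4 * m : ℤ) = 0 := by ring
    rw [e, addH_zero] at h
    exact h.symm

theorem addH_norm0 (ω : Cfg) : addH (ω.1 (0, 0)) (norm0 ω) = ω := by
  unfold norm0
  rw [addH_addH, neg_add_cancel, addH_zero]

theorem split4 {f : Cfg → ℝ} (h4 : ∀ ω, f (addH 4 ω) = f ω) {ω : Cfg} (he : Even (ω.1 (0, 0))) :
    f ω = (f (norm0 ω) + f (addH 2 (norm0 ω))) / 2 +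
      sg4 ω * ((f (norm0 ω) - f (addH 2 (norm0 ω))) / 2) := by
  unfold sg4
  by_cases h : (4 : ℤ) ∣ ω.1 (0, 0)
  · obtain ⟨n, hn⟩ := h
    have h1 : f ω = f (norm0 ω) := by
      conv_lhs => rw [← addH_norm0 ω, hn]
      exact per_int h4 n _
    rw [if_pos ⟨n, hn⟩, h1]
    ring
  · obtain ⟨r, hr⟩ := he
    obtain ⟨n, hn⟩ : ∃ n : ℤ, ω.1 (0, 0) = 2 + 4 * n := by
      refine ⟨(r - 1) / 2, ?_⟩
      omega
    have h1 : f ω = f (addH 2 (norm0 ω)) := by
      conv_lhs => rw [← addH_norm0 ω, hn]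
      rw [← addH_addH]
      exact per_int h4 n _
    rw [if_neg h, h1]
    ring

theorem loc_addH {α : Type*} {S : Set P2} {f : Cfg → α} (hf : Loc S f) (a : ℤ) :
    Loc S (fun ω => f (addH a ω)) := by
  intro ω ω' h
  refine hf _ _ fun v hv => ?_
  obtain ⟨h1, h2, h3⟩ := h v hv
  refine ⟨?_, ?_, h3⟩
  · simp only [addH]; rw [h1]
  · simp only [addH]; rw [h2]

theorem loc_mono {α : Type*} {S T : Set P2} (hST : S ⊆ T) {f : Cfg → α} (hf : Loc S f) :
    Loc T f := fun ω ω' h => hf ω ω' fun v hv => h v (hST hv)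

theorem integral_psym {c : ℝ} {P : Measure Cfg} (hP : IsState c P) {S : Finset P2} {f : Cfg → ℝ}
    (hf : Loc (S : Set P2) f) :
    ∫ ω, f ω ∂(Psym P) = ∫ ω, (f ω + f (addH 2 ω)) / 2 ∂P := by
  have hm := Aut373.loc_measurable hf
  have hi := Aut373.loc_integrable hP hf
  have hi2 := Aut373.loc_integrable hP (loc_addH hf 2)
  have ha := Csq472.measurable_addH 2
  have hi3 : Integrable f (P.map (addH 2)) :=
    (integrable_map_measure hm.aestronglyMeasurable ha.aemeasurable).2 hi2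
  unfold Psym
  rw [integral_add_measure (hi.smul_measure (by simp)) (hi3.smul_measure (by simp)),
    integral_smul_measure, integral_smul_measure,
    integral_map ha.aemeasurable hm.aestronglyMeasurable]
  have e : (fun ω => (f ω + f (addH 2 ω)) / 2) =
      fun ω => (1 / 2 : ℝ) * (f ω + f (addH 2 ω)) := by funext ω; ring
  rw [e, integral_const_mul, integral_add hi hi2]
  simp only [ENNReal.toReal_inv, ENNReal.toReal_ofNat, smul_eq_mul]
  ring

/-- **Convergence of mod-4 observables** (leaf L1). -/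
theorem tendsto_psym {c : ℝ} (hc : 1 ≤ c) {P : Measure Cfg} (hP : IsState c P) (hdel : Deloc c)
    {S : Finset P2} {f : Cfg → ℝ} (hf : Loc (S : Set P2) f) (h4 : ∀ ω, f (addH 4 ω) = f ω)
    {ε : ℝ} (hε : 0 < ε) :
    ∃ n : ℕ, ∀ F : Finset P2, Dom F → box n ⊆ F → |E c F f - ∫ ω, f ω ∂(Psym P)| < ε := by
  obtain ⟨m, hm⟩ := Aut373.exists_box S
  have hSm : (S : Set P2) ⊆ (box m : Set P2) := by exact_mod_cast hm m le_rfl
  set g : Cfg → ℝ := fun ω => (f ω + f (addH 2 ω)) / 2 with hg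
  set d : Cfg → ℝ := fun ω => (f ω - f (addH 2 ω)) / 2 with hd
  have hgl : Loc (S : Set P2) g := fun ω ω' h => by
    simp only [hg]
    rw [hf ω ω' h]
    have := loc_addH hf 2 ω ω' h
    simp only at this
    rw [this]
  have hdl : Loc (box m : Set P2) d := fun ω ω' h => by
    simp only [hd]
    rw [loc_mono hSm hf ω ω' h]
    have := loc_addH (loc_mono hSm hf) 2 ω ω' h
    simp only at this
    rw [this]
  obtain ⟨C, hC⟩ : ∃ C : ℝ, C = ∑ π ∈ PatF (m + 1), |Dpat c m d π| := ⟨_, rfl⟩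
  have hC0 : 0 ≤ C := by rw [hC]; exact Finset.sum_nonneg fun _ _ => abs_nonneg _
  obtain ⟨n1, hn1⟩ := hP.lim S g hgl (ε / 2) (by linarith)
  obtain ⟨n2, hn2⟩ := hdel (ε / (2 * (C + 1))) (by positivity)
  refine ⟨max (max n1 n2) (m + 1), fun F hF hbox => ?_⟩
  have hbm : ∀ a b : ℕ, a ≤ b → box a ⊆ box b := by
    intro a b hab v hv
    rw [mem_box] at hv ⊢
    omega
  have hb1 : box n1 ⊆ F := (hbm _ _ (by omega)).trans hbox
  have hb2 : box n2 ⊆ F := (hbm _ _ (by omega)).trans hbox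
  have hb3 : box (m + 1) ⊆ F := (hbm _ _ (by omega)).trans hbox
  have h1 := hn1 F hF hb1
  have h2 := hn2 F hF hb2
  have h3 := abs_E_sg4_le hc hdl hb3
  rw [← hC] at h3
  have e1 : E c F f = E c F (fun ω => g (norm0 ω)) + E c F (fun ω => sg4 ω * d (norm0 ω)) := by
    rw [← E_add]
    exact E_congr fun ω hω => split4 h4 (hω.even (0, 0))
  have e2 : ∫ ω, f ω ∂(Psym P) = ∫ ω, g ω ∂P := integral_psym hP hf
  rw [e1, e2]
  have h4' : C * Pr c F {ω | ω.1 (0, 0) = 0} ≤ ε / 2 := by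
    have h5 : 0 ≤ Pr c F {ω | ω.1 (0, 0) = 0} := by
      have := (slc_site hc F (0, 0)).nonneg 0
      simpa using this
    calc C * Pr c F {ω | ω.1 (0, 0) = 0} ≤ (C + 1) * (ε / (2 * (C + 1))) :=
          mul_le_mul (by linarith) h2.le h5 (by linarith)
      _ = ε / 2 := by field_simp
  have h6 : E c F (fun ω => g (norm0 ω)) + E c F (fun ω => sg4 ω * d (norm0 ω)) - ∫ ω, g ω ∂P =
      (E c F (fun ω => g (norm0 ω)) - ∫ ω, g ω ∂P) + E c F (fun ω => sg4 ω * d (norm0 ω)) := by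
    ring
  rw [h6]
  refine (abs_add_le _ _).trans_lt ?_
  linarith

end Crest.Agent.R161.Mod991
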