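import Crest.Agent.R161.CloL_389
import Crest.Agent.R161.NuInv_421
import Crest.Agent.R161.Mod4c_991

/-!
# Row 161, block H-e: the closed ring (helper389), probability

* `EpS`: ring event of the plus-cut percolation; `BadS`: ring event without closing circuits around some
  boundary midpoint.
* `bad_nu`: `nu P (BadS) ≤ ε nu P (EpS)` for `M ≥ lam g`, `g ≥ g0`, `lam = lam(ε)`, from FKG and `LemU`.
* `inner_subset`: off `BadS`, the ring event implies that the inner blocks are contained in `WF`.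
-/

set_option autoImplicit false

noncomputable section

namespace Crest.Agent.R161.Clo389

open Finset hiding box
open MeasureTheory
open Crest.Agent.R161.Geo729 Crest.Agent.R161.Defs372 Crest.Agent.R161.Dual374
open Crest.Agent.R161.Hull374 Crest.Agent.R161.Ifc372 Crest.Agent.R161.Arc389
open Crest.Agent.R161.Ring421 Crest.Agent.R161.NuInv421

variable {M g : ℕ} {𝒱 : Finset P2}

/-- ring event of a percolation configuration -/
def EpS (M g : ℕ) (𝒱 : Finset P2) : Set (Edge → Bool) := {z | Ep M g 𝒱 (fun e => z e = true)}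

theorem plusMap_true (ω : Cfg) : (fun e => plusMap ω e = true) = plusE ω := by
  funext e
  unfold plusMap
  exact propext (by simp)

theorem mem_EpS {ω : Cfg} : plusMap ω ∈ EpS M g 𝒱 ↔ Ep M g 𝒱 (plusE ω) := by
  unfold EpS
  rw [Set.mem_ofPred_eq, plusMap_true]

theorem locOn_EpS : LocOn (bord (ringF M g 𝒱)) (EpS M g 𝒱) := by
  intro z z' h
  refine Ep_congr_loc fun e he => ?_
  rw [h e (mem_bord.2 he)]

theorem incEv_EpS : IncEv (EpS M g 𝒱) := by
  intro z z' h hz a ha
  exact (Ring421.reach_anti h _).trans (hz a ha)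

/-- some circuit round the midpoint `e` at the scales `L^j n`, `j < J` -/
def MidS (M n L J : ℕ) (e : Edge) : Set (Edge → Bool) :=
  {z | ∃ j < J, Circ (fun e' => z e' = true) (mid M e) (L ^ j * n) (2 * (L ^ j * n))}

theorem locOn_circ (x : P2) (n m K : ℕ) (h : m ≤ K) :
    LocOn (bord (ball x K)) {z | Circ (fun e' => z e' = true) x n m} := by
  intro z z' hz
  refine Ring421.reach_subset_iff fun e he => ?_
  rw [hz e (mem_bord.2 (he.imp (fun h1 => ?_) fun h1 => ?_))]
  · exact ball_mono h (Finset.mem_coe.1 h1)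
  · exact ball_mono h (Finset.mem_coe.1 h1)

theorem locEv_MidS (M n L J : ℕ) (e : Edge) : LocEv (MidS M n L J e) := by
  refine ⟨bord (ball (mid M e) (∑ j ∈ Finset.range J, 2 * (L ^ j * n))), ?_⟩
  intro z z' hz
  refine exists_congr fun j => and_congr_right fun hj => ?_
  refine locOn_circ (mid M e) _ _ _ ?_ z z' hz
  exact Finset.single_le_sum (f := fun j => 2 * (L ^ j * n)) (fun _ _ => Nat.zero_le _)
    (Finset.mem_range.2 hj)

theorem incEv_MidS (M n L J : ℕ) (e : Edge) : IncEv (MidS M n L J e) := by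
  rintro z z' h ⟨j, hj, hc⟩
  exact ⟨j, hj, (Ring421.reach_anti h _).trans hc⟩

theorem indP_congr {A B : Cfg → Prop} {ω ω' : Cfg} (h : A ω ↔ B ω') : indP A ω = indP B ω' := by
  unfold indP
  by_cases h1 : A ω
  · rw [if_pos h1, if_pos (h.1 h1)]
  · rw [if_neg h1, if_neg fun h2 => h1 (h.2 h2)]

/-- locality of plus-cut events as functions of the configuration -/
theorem loc_plus {S : Finset Edge} {A : Set (Edge → Bool)} (hA : LocOn S A) :
    Loc ((S.image Prod.fst : Finset P2) : Set P2) (indP fun ω => plusMap ω ∉ A) := by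
  classical
  intro ω ω' h
  have key : plusMap ω ∈ A ↔ plusMap ω' ∈ A := by
    apply hA
    intro e he
    have := (plusE_agree h (e := e) (by
      rw [Finset.mem_coe, Finset.mem_image]; exact ⟨e, he, rfl⟩)).1
    unfold plusMap
    rw [decide_eq_decide]
    exact this
  exact indP_congr (not_congr key)

theorem psym_prob {P : Measure Cfg} [IsProbabilityMeasure P] : IsProbabilityMeasure (Psym P) := by
  constructor
  unfold Psym
  rw [Measure.add_apply, Measure.smul_apply, Measure.smul_apply,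
    Measure.map_apply (measurable_addH 2) MeasurableSet.univ]
  simp only [Set.preimage_univ, measure_univ, smul_eq_mul, mul_one]
  exact ENNReal.inv_two_add_inv_two

theorem integral_indP_psym {P : Measure Cfg} [IsProbabilityMeasure P] {A : Set (Edge → Bool)}
    (hA : MeasurableSet A) :
    ∫ ω, indP (fun ω => plusMap ω ∉ A) ω ∂(Psym P) = (nu P).real Aᶜ := by
  classical
  have := psym_prob (P := P)
  have h1 : (fun ω => indP (fun ω => plusMap ω ∉ A) ω) =
      (plusMap ⁻¹' Aᶜ).indicator (fun _ => (1 : ℝ)) := by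
    funext ω
    unfold indP
    by_cases h : plusMap ω ∈ A
    · rw [if_neg (not_not.2 h), Set.indicator_of_notMem]
      intro h'; exact h' h
    · rw [if_pos h, Set.indicator_of_mem]
      exact h
  have hm : MeasurableSet (plusMap ⁻¹' Aᶜ) := measurable_plusMap hA.compl
  rw [h1, integral_indicator_const _ hm, smul_eq_mul, mul_one]
  unfold nu Measure.real
  rw [Measure.map_apply measurable_plusMap hA.compl]

/-- **The closing circuits exist with high probability.** -/
theorem nu_mid_compl {c : ℝ} (hc : 1 ≤ c) {P : Measure Cfg} (hP : IsState c P)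
    (hdel : Mod991.Deloc c) {ε : ℝ} {J n0 L : ℕ}
    (hU : ∀ F : Finset P2, Dom F → ∀ (x : P2) (n : ℕ), n0 ≤ n →
      E c F (fun ω => indP (fun ω => ∀ j : ℕ, j < J →
        ¬ Circ (plusE ω) x (L ^ j * n) (2 * (L ^ j * n))) ω) ≤ ε)
    (M n : ℕ) (hn : n0 ≤ n) (e : Edge) : (nu P).real (MidS M n L J e)ᶜ ≤ ε := by
  classical
  have := hP.prob
  obtain ⟨S, hS⟩ := locEv_MidS M n L J e
  have hmeas : MeasurableSet (MidS M n L J e) := (locEv_MidS M n L J e).measurableSet
  have hloc := loc_plus hS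
  have h4 : ∀ ω, indP (fun ω => plusMap ω ∉ MidS M n L J e) (addH 4 ω) =
      indP (fun ω => plusMap ω ∉ MidS M n L J e) ω := by
    intro ω
    have : plusMap (addH 4 ω) = plusMap ω := by
      funext e'
      unfold plusMap
      rw [decide_eq_decide]
      exact plusE_addH4 ω e'
    exact indP_congr (by rw [this])
  rw [← integral_indP_psym hmeas]
  refine le_of_forall_pos_le_add fun η hη => ?_
  obtain ⟨k, hk⟩ := Mod991.tendsto_psym hc hP hdel hloc h4 hη
  have h1 := hk (Defs372.box k) (Rect597.dom_box k) (Finset.Subset.refl _)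
  have h2 := hU (Defs372.box k) (Rect597.dom_box k) (mid M e) n hn
  have h3 : E c (Defs372.box k) (indP fun ω => plusMap ω ∉ MidS M n L J e) ≤ ε := by
    refine le_trans (le_of_eq ?_) h2
    congr 1
    funext ω
    have : plusMap ω ∉ MidS M n L J e ↔ ∀ j : ℕ, j < J →
        ¬ Circ (plusE ω) (mid M e) (L ^ j * n) (2 * (L ^ j * n)) := by
      unfold MidS
      rw [Set.mem_ofPred_eq, plusMap_true]
      push Not
      rfl
    exact indP_congr this
  rw [abs_lt] at h1
  linarith [h1.1, h1.2]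

/-- ring event without a closing circuit round some boundary midpoint -/
def BadS (M g : ℕ) (𝒱 : Finset P2) : Set (Edge → Bool) :=
  {z | z ∈ EpS M g 𝒱 ∧ ∃ e ∈ bdEdges 𝒱, ∀ n m : ℕ, 2 * g ≤ n → 4 * m ≤ M →
    ¬ Circ (fun e' => z e' = true) (mid M e) n m}

theorem BadS_subset : BadS M g 𝒱 ⊆ EpS M g 𝒱 := fun _ h => h.1

theorem locEv_BadS : LocEv (BadS M g 𝒱) := by
  refine ⟨bord (ringF M g 𝒱) ∪ (bdEdges 𝒱).biUnion (fun e => bord (ball (mid M e) M)), ?_⟩
  intro z z' h
  have h1 : z ∈ EpS M g 𝒱 ↔ z' ∈ EpS M g 𝒱 :=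
    locOn_EpS z z' fun e he => h e (Finset.mem_union_left _ he)
  refine and_congr h1 (exists_congr fun e => and_congr_right fun he => ?_)
  refine forall_congr' fun n => forall_congr' fun m => forall_congr' fun _ =>
    forall_congr' fun hm => not_congr ?_
  refine locOn_circ (mid M e) n m M (by omega) z z' fun e' he' => h e' ?_
  exact Finset.mem_union_right _ (Finset.mem_biUnion.2 ⟨e, he, he'⟩)

/-- **H-e, probability.** -/
theorem bad_nu {c : ℝ} (hc : 1 ≤ c) {P : Measure Cfg} (hP : IsState c P)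
    (hdel : Mod991.Deloc c) (hF : FKGLoc (nu P)) (hU : LemU c) (𝒱 : Finset P2) {ε : ℝ}
    (hε : 0 < ε) :
    ∃ lam g0 : ℕ, 16 ≤ lam ∧ 1 ≤ g0 ∧ ∀ g M : ℕ, g0 ≤ g → lam * g ≤ M →
      (nu P).real (BadS M g 𝒱) ≤ ε * (nu P).real (EpS M g 𝒱) := by
  classical
  have := hP.prob
  set N : ℕ := (bdEdges 𝒱).card with hN
  have hε' : 0 < ε / (N + 1) := by positivity
  obtain ⟨J, n0, L, hL, h⟩ := hU _ hε'
  have hL1 : 1 ≤ L := le_trans (by norm_num) hL
  refine ⟨16 * L ^ J, max n0 1, ?_, le_max_right _ _, fun g M hg hM => ?_⟩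
  · have : 1 ≤ L ^ J := Nat.one_le_pow _ _ hL1
    omega
  have hg0 : n0 ≤ 2 * g := by
    have := (le_max_left n0 1).trans hg
    omega
  have hsub : BadS M g 𝒱 ⊆ ⋃ e ∈ bdEdges 𝒱, (EpS M g 𝒱 ∩ (MidS M (2 * g) L J e)ᶜ) := by
    rintro z ⟨hz, e, he, hall⟩
    rw [Set.mem_iUnion₂]
    refine ⟨e, he, hz, ?_⟩
    rintro ⟨j, hj, hcirc⟩
    refine hall _ _ ?_ ?_ hcirc
    · exact Nat.le_mul_of_pos_left _ (pow_pos hL1 j)
    · have h1 : L ^ j ≤ L ^ J := Nat.pow_le_pow_right hL1 hj.le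
      have h2 : L ^ j * (2 * g) ≤ L ^ J * (2 * g) := Nat.mul_le_mul_right _ h1
      calc 4 * (2 * (L ^ j * (2 * g))) ≤ 4 * (2 * (L ^ J * (2 * g))) := by omega
        _ = 16 * L ^ J * g := by ring
        _ ≤ M := hM
  have hone : ∀ e ∈ bdEdges 𝒱, (nu P).real (EpS M g 𝒱 ∩ (MidS M (2 * g) L J e)ᶜ) ≤
      ε / (N + 1) * (nu P).real (EpS M g 𝒱) := by
    intro e _
    have hEm : MeasurableSet (EpS M g 𝒱) := (locOn_EpS).measurableSet
    have hMm : MeasurableSet (MidS M (2 * g) L J e) := (locEv_MidS _ _ _ _ _).measurableSet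
    have h1 : (nu P).real (EpS M g 𝒱) * (nu P).real (MidS M (2 * g) L J e) ≤
        (nu P).real (EpS M g 𝒱 ∩ MidS M (2 * g) L J e) := by
      have := hF (EpS M g 𝒱) (MidS M (2 * g) L J e) ⟨_, locOn_EpS⟩ (locEv_MidS M (2 * g) L J e)
        incEv_EpS (incEv_MidS M (2 * g) L J e)
      unfold Measure.real
      rw [← ENNReal.toReal_mul]
      exact ENNReal.toReal_mono (measure_ne_top _ _) this
    have h2 : (nu P).real (EpS M g 𝒱 ∩ (MidS M (2 * g) L J e)ᶜ) =
        (nu P).real (EpS M g 𝒱) - (nu P).real (EpS M g 𝒱 ∩ MidS M (2 * g) L J e) := by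
      have := measureReal_inter_add_sdiff (μ := nu P) (s := EpS M g 𝒱) hMm
      rw [Set.sdiff_eq] at this
      linarith
    have h3 : (nu P).real (MidS M (2 * g) L J e) = 1 - (nu P).real (MidS M (2 * g) L J e)ᶜ := by
      rw [probReal_compl_eq_one_sub hMm]
      ring
    have h4 := nu_mid_compl hc hP hdel h M (2 * g) hg0 e
    have h5 : 0 ≤ (nu P).real (EpS M g 𝒱) := measureReal_nonneg
    rw [h2]
    rw [h3] at h1
    nlinarith
  calc (nu P).real (BadS M g 𝒱)
      ≤ (nu P).real (⋃ e ∈ bdEdges 𝒱, (EpS M g 𝒱 ∩ (MidS M (2 * g) L J e)ᶜ)) :=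
        measureReal_mono hsub (measure_ne_top _ _)
    _ ≤ ∑ e ∈ bdEdges 𝒱, (nu P).real (EpS M g 𝒱 ∩ (MidS M (2 * g) L J e)ᶜ) :=
        measureReal_biUnion_finset_le _ _
    _ ≤ ∑ _e ∈ bdEdges 𝒱, ε / (N + 1) * (nu P).real (EpS M g 𝒱) := Finset.sum_le_sum hone
    _ = N * (ε / (N + 1) * (nu P).real (EpS M g 𝒱)) := by rw [Finset.sum_const, nsmul_eq_mul]
    _ ≤ ε * (nu P).real (EpS M g 𝒱) := by
        have h5 : 0 ≤ (nu P).real (EpS M g 𝒱) := measureReal_nonneg
        have h6 : (N : ℝ) * (ε / (N + 1)) ≤ ε := by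
          rw [mul_div_assoc', div_le_iff₀ (by positivity)]
          nlinarith
        calc (N : ℝ) * (ε / (N + 1) * (nu P).real (EpS M g 𝒱))
            = (N * (ε / (N + 1))) * (nu P).real (EpS M g 𝒱) := by ring
          _ ≤ ε * (nu P).real (EpS M g 𝒱) := mul_le_mul_of_nonneg_right h6 h5

/-- **Off the bad event the inner blocks are contained in the random domain.** -/
theorem inner_subset {𝒱in : Finset P2} (hg : 1 ≤ g) (hM : 2 * g < M) (hin : Inner 𝒱 𝒱in)
    (hinc : IsConn (𝒱in : Set P2)) (h0 : (0, 0) ∈ 𝒱in) {ω : Cfg} (hE : Ep M g 𝒱 (plusE ω))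
    (hbad : plusMap ω ∉ BadS M g 𝒱) :
    regF M 𝒱in ⊆ WF M g 𝒱 ω ∧ ((0, 0) : P2) ∈ WF M g 𝒱 ω := by
  have hM0 : 0 < M := by omega
  have hmid : ∀ e ∈ bdEdges 𝒱, ∃ n m : ℕ, 2 * g ≤ n ∧ 4 * m ≤ M ∧ Circ (plusE ω) (mid M e) n m := by
    intro e he
    by_contra hcon
    push Not at hcon
    apply hbad
    refine ⟨mem_EpS.2 hE, e, he, fun n m hn hm => ?_⟩
    rw [plusMap_true]
    exact hcon n m hn hm
  obtain ⟨h1, h2⟩ := closed (C := cutE ω) hg hM (fun e he => he.1) hin hinc h0 hE hmid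
  have h00 : nv M (0, 0) = (0, 0) := by
    rw [nv_eq_iff hM0, mem_ball]
    simp only [cv, mul_zero]
    have : (0 : ℤ) < M := by exact_mod_cast hM0
    omega
  have h3 : (0, 0) ∉ RZ M g 𝒱 (plusE ω) (cutE ω) := h1 _ (by rw [h00]; exact h0)
  refine ⟨?_, (zero_mem_WF_iff hM0).2 h3⟩
  rw [← Finset.coe_subset, WF_of_not hM0 h3]
  exact h2

end Crest.Agent.R161.Clo389
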