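import Crest.Agent.R161.CloP_389
import Crest.Agent.R161.Mix_695

/-!
# Row 161, block H-e: the ring event in the form of `Mix_695` (helper389)

* `WW M g 𝒱 ω` : random domain as a set, `∅` off the ring event or if the origin is explored
* `ringEv` : `Mix695.RingEv` for the ring event `Ep` and `WW`
* `bad_le` : the ring is good up to a small conditional probability
-/

set_option autoImplicit false

noncomputable section

namespace Crest.Agent.R161.Clo389

open Finset hiding box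
open MeasureTheory
open Crest.Agent.R161.Geo729 Crest.Agent.R161.Defs372 Crest.Agent.R161.Dual374
open Crest.Agent.R161.Hull374 Crest.Agent.R161.Ifc372 Crest.Agent.R161.Arc389
open Crest.Agent.R161.Ring421 Crest.Agent.R161.NuInv421 Crest.Agent.R161.Mix695

variable {M g : ℕ} {𝒱 𝒱in : Finset P2}

/-- the ring event -/
def EpC (M g : ℕ) (𝒱 : Finset P2) (ω : Cfg) : Prop := Ep M g 𝒱 (plusE ω)

/-- random domain as a set -/
def WW (M g : ℕ) (𝒱 : Finset P2) (ω : Cfg) : Set P2 :=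
  {f | EpC M g 𝒱 ω ∧ f ∈ WF M g 𝒱 ω}

theorem WW_eq {ω : Cfg} (h : EpC M g 𝒱 ω) : WW M g 𝒱 ω = (WF M g 𝒱 ω : Set P2) := by
  ext f
  exact ⟨fun hf => hf.2, fun hf => ⟨h, hf⟩⟩

theorem plusE_addH4k (ω : Cfg) (k : ℤ) : plusE (addH (4 * k) ω) = plusE ω := by
  funext e
  unfold plusE addH
  simp only
  have : (4 : ℤ) ∣ ω.1 (src e) + 4 * k ↔ (4 : ℤ) ∣ ω.1 (src e) := by omega
  rw [this]

theorem cutE_addH (ω : Cfg) (a : ℤ) : cutE (addH a ω) = cutE ω := rfl

theorem EpC_per : Per4 (EpC M g 𝒱) := fun ω k => by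
  unfold EpC
  rw [plusE_addH4k]

theorem WF_per (ω : Cfg) (k : ℤ) : WF M g 𝒱 (addH (4 * k) ω) = WF M g 𝒱 ω := by
  unfold WF
  rw [plusE_addH4k, cutE_addH]

theorem WW_per : Per4 (WW M g 𝒱) := fun ω k => by
  unfold WW
  rw [EpC_per ω k, WF_per ω k]

theorem agree_symm {S : Set P2} {ω ω' : Cfg} (h : AgreeOn S ω ω') : AgreeOn S ω' ω := fun v hv => by
  obtain ⟨h1, h2, h3⟩ := h v hv
  exact ⟨h1.symm, h2.symm, fun b => (h3 b).symm⟩

theorem EpC_loc : Loc (sitesF M g 𝒱 : Set P2) (EpC M g 𝒱) := by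
  intro ω ω' h
  refine propext (Ep_congr_loc fun e he => (plusE_agree h (edge_site ?_)).1)
  exact he.imp (Finset.mem_union_right _) (Finset.mem_union_right _)

theorem WW_loc (hM0 : 0 < M) : Loc (sitesF M g 𝒱 : Set P2) (WW M g 𝒱) := by
  intro ω ω' h
  have hE := EpC_loc ω ω' h
  by_cases hω : EpC M g 𝒱 ω
  · have hω' : EpC M g 𝒱 ω' := hE ▸ hω
    rw [WW_eq hω, WW_eq hω']
    have hR : RZ M g 𝒱 (plusE ω') (cutE ω') = RZ M g 𝒱 (plusE ω) (cutE ω) := by
      refine RZ_congr_loc hM0 hω ?_ ?_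
      · intro e he
        refine (plusE_agree h (edge_site ?_)).1
        exact he.imp (Finset.mem_union_right _) (Finset.mem_union_right _)
      · intro e he
        refine (plusE_agree h (edge_site ?_)).2
        exact he.imp (Finset.mem_union_left _) (Finset.mem_union_left _)
    unfold WF WZ
    rw [hR]
  · have hω' : ¬ EpC M g 𝒱 ω' := hE ▸ hω
    ext f
    exact ⟨fun hf => absurd hf.1 hω, fun hf => absurd hf.1 hω'⟩

/-- **The ring event.** -/
theorem ringEv (hM : 2 * g < M) (h𝒱 : IsConn (𝒱 : Set P2)ᶜ) (h0 : (0, 0) ∈ 𝒱in) :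
    RingEv (EpC M g 𝒱) (WW M g 𝒱) (regF M 𝒱in) (regF M 𝒱) (sitesF M g 𝒱) := by
  have hM0 : 0 < M := by omega
  have h00 : nv M (0, 0) = (0, 0) := by
    rw [nv_eq_iff hM0, mem_ball]
    simp only [cv, mul_zero]
    have : (0 : ℤ) < M := by exact_mod_cast hM0
    omega
  have h0reg : ((0, 0) : P2) ∈ regF M 𝒱in := by
    rw [mem_regF hM0, h00]
    exact h0
  have hiff : ∀ (D : Finset P2), ((0, 0) : P2) ∈ D → ∀ ω,
      (EpC M g 𝒱 ω ∧ WW M g 𝒱 ω = (D : Set P2)) ↔ ω ∈ evD M g 𝒱 D := by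
    intro D hD ω
    constructor
    · rintro ⟨h1, h2⟩
      refine ⟨h1, ?_, hD⟩
      rw [WW_eq h1] at h2
      exact_mod_cast h2
    · rintro ⟨h1, h2, -⟩
      exact ⟨h1, by rw [WW_eq h1, h2]⟩
  refine RingEv.of_loc EpC_per WW_per EpC_loc (WW_loc hM0) ?_ ?_ ?_
  · intro ω hω _
    rw [WW_eq hω]
    exact_mod_cast WF_subset ω
  · intro D ω hω hsub hD
    have h0D : ((0, 0) : P2) ∈ D := by
      have : ((0, 0) : P2) ∈ WW M g 𝒱 ω := hsub (Finset.mem_coe.2 h0reg)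
      rw [hD] at this
      exact_mod_cast this
    obtain ⟨h1, h2, -⟩ := evD_struct hM h𝒱 ((hiff D h0D ω).1 ⟨hω, hD⟩)
    exact ⟨h1, h2⟩
  · intro D hD _
    have h0D := hD h0reg
    intro ω ω' h1 h2 h3
    have := outLoc_evD (g := g) (𝒱 := 𝒱) hM0 D ω ω' h1 h2 h3
    simp only [hiff D h0D]
    exact this

theorem sym_ind_EpC (ω : Cfg) : sym (ind (EpC M g 𝒱)) ω = 2 * GA (EpS M g 𝒱) ω := by
  classical
  have h1 : ∀ ω, ind (EpC M g 𝒱) ω = if plusMap ω ∈ EpS M g 𝒱 then 1 else 0 := by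
    intro ω
    by_cases h : EpC M g 𝒱 ω
    · rw [ind_of h, if_pos (mem_EpS.2 h)]
    · rw [ind_of_not h, if_neg fun h' => h (mem_EpS.1 h')]
  unfold sym GA
  rw [h1, h1]
  ring

/-- **The ring is good up to a small conditional probability.** -/
theorem bad_le {c : ℝ} (hc : 1 ≤ c) {P : Measure Cfg} (hP : IsState c P)
    (hdel : Mod991.Deloc c) (hF : FKGLoc (nu P)) (hU : LemU c) (𝒱 𝒱in : Finset P2)
    (hin : Inner 𝒱 𝒱in) (hinc : IsConn (𝒱in : Set P2)) (h0 : (0, 0) ∈ 𝒱in) {ε : ℝ}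
    (hε : 0 < ε) :
    ∃ lam g0 : ℕ, 16 ≤ lam ∧ 1 ≤ g0 ∧ ∀ g M : ℕ, g0 ≤ g → lam * g ≤ M →
      ∫ ω, sym (ind (bad (EpC M g 𝒱) (WW M g 𝒱) (regF M 𝒱in))) ω ∂P ≤
        ε * ∫ ω, sym (ind (EpC M g 𝒱)) ω ∂P := by
  classical
  have := hP.prob
  obtain ⟨lam, g0, h16, hg0, h⟩ := bad_nu hc hP hdel hF hU 𝒱 hε
  refine ⟨lam, g0, h16, hg0, fun g M hg hM => ?_⟩
  have hg1 : 1 ≤ g := hg0.trans hg
  have hM2 : 2 * g < M := by
    have : 16 * g ≤ lam * g := Nat.mul_le_mul_right _ h16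
    omega
  have hb := h g M hg hM
  have hE : ∫ ω, sym (ind (EpC M g 𝒱)) ω ∂P = 2 * (nu P).real (EpS M g 𝒱) := by
    rw [nu_real (locOn_EpS.measurableSet), ← integral_const_mul]
    exact integral_congr_ae (Filter.Eventually.of_forall fun ω => sym_ind_EpC ω)
  have hB : ∫ ω, sym (ind (bad (EpC M g 𝒱) (WW M g 𝒱) (regF M 𝒱in))) ω ∂P ≤
      2 * (nu P).real (BadS M g 𝒱) := by
    obtain ⟨S, hS⟩ := locEv_BadS (M := M) (g := g) (𝒱 := 𝒱)
    rw [nu_real (locEv_BadS.measurableSet), ← integral_const_mul]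
    refine integral_mono_of_nonneg (Filter.Eventually.of_forall fun ω =>
      sym_nonneg (ind_nonneg _) ω) ?_ (Filter.Eventually.of_forall fun ω => ?_)
    · exact (Aut373.loc_integrable hP (loc_GA hS)).const_mul 2
    · have key : ∀ ω, ind (bad (EpC M g 𝒱) (WW M g 𝒱) (regF M 𝒱in)) ω ≤
          if plusMap ω ∈ BadS M g 𝒱 then 1 else 0 := by
        intro ω
        by_cases hω : plusMap ω ∈ BadS M g 𝒱
        · rw [if_pos hω]; exact ind_le_one _ _
        · rw [if_neg hω, ind_of_not]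
          rintro ⟨h1, h2⟩
          apply h2
          rw [WW_eq h1]
          exact_mod_cast (inner_subset hg1 hM2 hin hinc h0 h1 hω).1
      simp only
      unfold sym GA
      have h1 := key ω
      have h2 := key (addH 2 ω)
      linarith
  rw [hE]
  calc _ ≤ 2 * (nu P).real (BadS M g 𝒱) := hB
    _ ≤ 2 * (ε * (nu P).real (EpS M g 𝒱)) := by linarith
    _ = ε * (2 * (nu P).real (EpS M g 𝒱)) := by ring

end Crest.Agent.R161.Clo389
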