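import Crest.Agent.R161.Arc_389
import Crest.Agent.R161.Dmp2_341

/-!
# Row 161, block H-e: the closed ring (helper389), deterministic part

Coarse grid of side `2M` lattice steps, margin `g`. `𝒱` is a finite set of coarse vertices; the ring
consists of the coarse cells having a corner in `𝒱` and a corner outside `𝒱`.

* `ctr M a`: centre of the coarse cell `a`; `cv M v`: position of the coarse vertex `v`;
  `mid M e`: midpoint of the coarse edge `e`; `nv M f`: coarse vertex nearest to the face `f`.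
* `Ep M g 𝒱 Z`: every ring cell carries a `Z`-circuit in the collar `M - 2g … M - g`.
* `RZ`, `WZ`: explored set from the outer region and the hulls, and the random domain.
* `closed`: if moreover every boundary coarse edge has a `Z`-circuit around its midpoint at a scale between
  `2g` and `M/4`, the random domain contains all the blocks of `𝒱in`.
-/

set_option autoImplicit false

noncomputable section

namespace Crest.Agent.R161.Clo389

open Finset hiding box
open Crest.Agent.R161.Geo729 Crest.Agent.R161.Defs372 Crest.Agent.R161.Dual374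
open Crest.Agent.R161.Hull374 Crest.Agent.R161.Ifc372 Crest.Agent.R161.Arc389

/-! ### the coarse grid -/

/-- centre of the coarse cell `a` (faces `[2M a₁, 2M a₁ + 2M) × [2M a₂, 2M a₂ + 2M)`) -/
def ctr (M : ℕ) (a : P2) : P2 := (2 * M * a.1 + M, 2 * M * a.2 + M)

/-- position of the coarse vertex `v` -/
def cv (M : ℕ) (v : P2) : P2 := (2 * M * v.1, 2 * M * v.2)

/-- midpoint of the coarse edge `e` -/
def mid (M : ℕ) (e : Edge) : P2 :=
  (M * ((src e).1 + (tgt e).1), M * ((src e).2 + (tgt e).2))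

/-- coarse vertex nearest to the face `f` -/
def nv (M : ℕ) (f : P2) : P2 := ((f.1 + M) / (2 * M), (f.2 + M) / (2 * M))

theorem ediv_eq_iff' {m x v : ℤ} (hm : 0 < m) : x / m = v ↔ m * v ≤ x ∧ x < m * v + m := by
  constructor
  · rintro rfl
    have h1 := Int.emod_add_mul_ediv x m
    have h2 := Int.emod_nonneg x hm.ne'
    have h3 := Int.emod_lt_of_pos x hm
    constructor <;> linarith
  · rintro ⟨h1, h2⟩
    apply le_antisymm
    · by_contra h
      push Not at h
      have h3 : v + 1 ≤ x / m := h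
      have h4 := Int.mul_ediv_self_le (x := x) (k := m) hm.ne'
      nlinarith
    · exact (Int.le_ediv_iff_mul_le hm).2 (by linarith)

theorem nv_eq_iff {M : ℕ} (hM : 0 < M) {f v : P2} : nv M f = v ↔ f ∈ ball (cv M v) M := by
  have h2 : (0 : ℤ) < 2 * M := by exact_mod_cast (by omega : 0 < 2 * M)
  rw [mem_ball]
  obtain ⟨a, b⟩ := v
  simp only [nv, cv, Prod.mk.injEq, ediv_eq_iff' h2]
  constructor
  · rintro ⟨⟨h3, h4⟩, h5, h6⟩
    refine ⟨?_, ?_, ?_, ?_⟩ <;> linarith
  · rintro ⟨h3, h4, h5, h6⟩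
    refine ⟨⟨?_, ?_⟩, ?_, ?_⟩ <;> linarith

theorem mem_block {M : ℕ} (hM : 0 < M) (f : P2) : f ∈ ball (cv M (nv M f)) M :=
  (nv_eq_iff hM).1 rfl

theorem nv_cv {M : ℕ} (hM : 0 < M) (v : P2) : nv M (cv M v) = v :=
  (nv_eq_iff hM).2 (self_mem_ball hM)

/-- **Crossing lemma.** A step between two different blocks happens near the midpoint of the coarse edge or
inside one of the two squares at the ends of the common side. -/
theorem cross {M g : ℕ} (hg : 1 ≤ g) (hM : 2 * g < M) (e : Edge) (h : nv M (fA e) ≠ nv M (fB e)) :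
    ∃ e' : Edge, src e' = nv M (fB e) ∧ tgt e' = nv M (fA e) ∧
      ((fA e ∈ ball (mid M e') (2 * g) ∧ fB e ∈ ball (mid M e') (2 * g)) ∨
        ∃ a, Geo729.IsCorner (nv M (fA e)) a ∧ Geo729.IsCorner (nv M (fB e)) a ∧
          fB e ∈ ball (ctr M a) (M - 2 * g)) := by
  have hM0 : 0 < M := by omega
  have hA := mem_ball.1 (mem_block hM0 (fA e))
  have hB := mem_ball.1 (mem_block hM0 (fB e))
  have hcast : ((M - 2 * g : ℕ) : ℤ) = M - 2 * g := by omega
  have hMg : (2 * (g : ℤ)) < M := by exact_mod_cast hM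
  have hg1 : (1 : ℤ) ≤ g := by exact_mod_cast hg
  have hMpos : (0 : ℤ) < M := by exact_mod_cast hM0
  -- comparison of block indices
  have cmp : ∀ x y k : ℤ, 2 * (M : ℤ) * x < 2 * M * y + 2 * M * k → x < y + k := by
    intro x y k hxy
    by_contra hcon
    push Not at hcon
    have : 2 * (M : ℤ) * (y + k) ≤ 2 * M * x := by
      apply mul_le_mul_of_nonneg_left hcon; positivity
    linarith
  obtain ⟨⟨i, j⟩, b⟩ := e
  cases b
  · -- horizontal edge: vertical step
    simp only [fA_mk, fB_h] at h hA hB ⊢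
    set v := nv M (i, j) with hv
    set v' := nv M (i, j - 1) with hv'
    simp only [cv] at hA hB
    have h1 : v.1 = v'.1 := by
      have := cmp v.1 v'.1 1 (by linarith)
      have := cmp v'.1 v.1 1 (by linarith)
      omega
    have h2 : v.2 = v'.2 + 1 := by
      have h3 := cmp v.2 v'.2 2 (by linarith)
      have h4 := cmp v'.2 v.2 1 (by linarith)
      have h5 : v.2 ≠ v'.2 := fun h5 => h (Prod.ext h1 h5)
      omega
    have hvv : v = (v'.1, v'.2 + 1) := Prod.ext h1 h2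
    have hj : j = 2 * M * v'.2 + M := by
      rw [h2] at hA
      have h3 : 2 * (M : ℤ) * (v'.2 + 1) = 2 * M * v'.2 + 2 * M := by ring
      rw [h3] at hA
      omega
    refine ⟨(v', true), rfl, by rw [tgt_v]; exact hvv.symm, ?_⟩
    have hmid : mid M (v', true) = (2 * M * v'.1, 2 * M * v'.2 + M) := by
      simp only [mid, src_mk, tgt_v, Prod.mk.injEq]
      constructor <;> ring
    rcases lt_or_ge i (2 * M * v'.1 + 2 * g) with hi | hi
    · rcases lt_or_ge i (2 * M * v'.1 - 2 * g) with hi' | hi'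
      · right
        refine ⟨(v'.1 - 1, v'.2), ?_, ?_, ?_⟩
        · rw [hvv]
          right; right; right
          simp
        · right; left
          simp
        · rw [mem_ball]
          simp only [ctr, hcast]
          have h4 : 2 * (M : ℤ) * (v'.1 - 1) = 2 * M * v'.1 - 2 * M := by ring
          rw [h4, hj]
          refine ⟨?_, ?_, ?_, ?_⟩ <;> linarith
      · left
        rw [hmid, mem_ball, mem_ball, hj]
        simp only
        push_cast
        refine ⟨⟨?_, ?_, ?_, ?_⟩, ?_, ?_, ?_, ?_⟩ <;> linarith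
    · right
      refine ⟨v', ?_, ?_, ?_⟩
      · rw [hvv]
        right; right; left
        rfl
      · left; rfl
      · rw [mem_ball]
        simp only [ctr, hcast]
        rw [hj]
        refine ⟨?_, ?_, ?_, ?_⟩ <;> linarith
  · -- vertical edge: horizontal step
    simp only [fA_mk, fB_v] at h hA hB ⊢
    set v := nv M (i, j) with hv
    set v' := nv M (i - 1, j) with hv'
    simp only [cv] at hA hB
    have h1 : v.2 = v'.2 := by
      have := cmp v.2 v'.2 1 (by linarith)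
      have := cmp v'.2 v.2 1 (by linarith)
      omega
    have h2 : v.1 = v'.1 + 1 := by
      have h3 := cmp v.1 v'.1 2 (by linarith)
      have h4 := cmp v'.1 v.1 1 (by linarith)
      have h5 : v.1 ≠ v'.1 := fun h5 => h (Prod.ext h5 h1)
      omega
    have hvv : v = (v'.1 + 1, v'.2) := Prod.ext h2 h1
    have hi : i = 2 * M * v'.1 + M := by
      rw [h2] at hA
      have h3 : 2 * (M : ℤ) * (v'.1 + 1) = 2 * M * v'.1 + 2 * M := by ring
      rw [h3] at hA
      omega
    refine ⟨(v', false), rfl, by rw [tgt_h]; exact hvv.symm, ?_⟩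
    have hmid : mid M (v', false) = (2 * M * v'.1 + M, 2 * M * v'.2) := by
      simp only [mid, src_mk, tgt_h, Prod.mk.injEq]
      constructor <;> ring
    rcases lt_or_ge j (2 * M * v'.2 + 2 * g) with hj | hj
    · rcases lt_or_ge j (2 * M * v'.2 - 2 * g) with hj' | hj'
      · right
        refine ⟨(v'.1, v'.2 - 1), ?_, ?_, ?_⟩
        · rw [hvv]
          right; right; right
          simp
        · right; right; left
          simp
        · rw [mem_ball]
          simp only [ctr, hcast]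
          have h4 : 2 * (M : ℤ) * (v'.2 - 1) = 2 * M * v'.2 - 2 * M := by ring
          rw [h4, hi]
          refine ⟨?_, ?_, ?_, ?_⟩ <;> linarith
      · left
        rw [hmid, mem_ball, mem_ball, hi]
        simp only
        push_cast
        refine ⟨⟨?_, ?_, ?_, ?_⟩, ?_, ?_, ?_, ?_⟩ <;> linarith
    · right
      refine ⟨v', ?_, ?_, ?_⟩
      · rw [hvv]
        right; left
        rfl
      · left; rfl
      · rw [mem_ball]
        simp only [ctr, hcast]
        rw [hi]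
        refine ⟨?_, ?_, ?_, ?_⟩ <;> linarith

/-! ### ring cells and boundary edges -/

/-- coarse cells with a corner in `𝒱` and a corner outside `𝒱` -/
def ringCells (𝒱 : Finset P2) : Finset P2 :=
  (𝒱.biUnion fun v => {(v.1, v.2), (v.1 - 1, v.2), (v.1, v.2 - 1), (v.1 - 1, v.2 - 1)}).filter
    fun a => ∃ v ∈ Dmp341.corners a, v ∉ 𝒱

theorem mem_ringCells {𝒱 : Finset P2} {a : P2} : a ∈ ringCells 𝒱 ↔
    (∃ v ∈ 𝒱, Geo729.IsCorner v a) ∧ ∃ v, v ∉ 𝒱 ∧ Geo729.IsCorner v a := by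
  unfold ringCells
  rw [Finset.mem_filter, Finset.mem_biUnion]
  refine and_congr ?_ ?_
  · refine exists_congr fun v => and_congr Iff.rfl ?_
    rw [isCorner_iff]
    simp only [Finset.mem_insert, Finset.mem_singleton]
  · constructor
    · rintro ⟨v, h1, h2⟩
      exact ⟨v, h2, Dmp341.mem_corners.1 h1⟩
    · rintro ⟨v, h1, h2⟩
      exact ⟨v, Dmp341.mem_corners.2 h2, h1⟩

/-- coarse edges with exactly one end in `𝒱` -/
def bdEdges (𝒱 : Finset P2) : Finset Edge :=
  ((𝒱 ∪ (𝒱.image fun v => ((v.1 - 1, v.2) : P2)) ∪ 𝒱.image fun v => ((v.1, v.2 - 1) : P2)) ×ˢ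
    (Finset.univ : Finset Bool)).filter fun e => ¬ (src e ∈ 𝒱 ↔ tgt e ∈ 𝒱)

theorem mem_bdEdges {𝒱 : Finset P2} {e : Edge} : e ∈ bdEdges 𝒱 ↔ ¬ (src e ∈ 𝒱 ↔ tgt e ∈ 𝒱) := by
  unfold bdEdges
  rw [Finset.mem_filter, and_iff_right_iff_imp]
  intro h
  rw [Finset.mem_product]
  refine ⟨?_, Finset.mem_univ _⟩
  obtain ⟨⟨i, j⟩, b⟩ := e
  by_cases h1 : src ((i, j), b) ∈ 𝒱
  · exact Finset.mem_union_left _ (Finset.mem_union_left _ h1)
  · have h2 : tgt ((i, j), b) ∈ 𝒱 := by tauto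
    cases b
    · refine Finset.mem_union_left _ (Finset.mem_union_right _ ?_)
      rw [Finset.mem_image]
      exact ⟨_, h2, by simp⟩
    · refine Finset.mem_union_right _ ?_
      rw [Finset.mem_image]
      exact ⟨_, h2, by simp⟩

/-! ### the ring event and the random domain -/

/-- every ring cell carries a `Z`-circuit in its collar -/
def Ep (M g : ℕ) (𝒱 : Finset P2) (Z : Edge → Prop) : Prop :=
  ∀ a ∈ ringCells 𝒱, Circ Z (ctr M a) (M - 2 * g) (M - g)

/-- outer region: faces whose nearest coarse vertex is not in `𝒱` -/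
def OutR (M : ℕ) (𝒱 : Finset P2) : Set P2 := {f | nv M f ∉ 𝒱}

/-- union of the inner hulls of the ring cells -/
def HZ (M g : ℕ) (𝒱 : Finset P2) (Z : Edge → Prop) : Set P2 :=
  {f | ∃ a ∈ ringCells 𝒱, f ∈ Reach Z (ball (ctr M a) (M - 2 * g) : Set P2)}

/-- explored set -/
def RZ (M g : ℕ) (𝒱 : Finset P2) (Z C : Edge → Prop) : Set P2 :=
  Reach C (OutR M 𝒱 ∪ HZ M g 𝒱 Z)

/-- the random domain -/
def WZ (M g : ℕ) (𝒱 : Finset P2) (Z C : Edge → Prop) : Set P2 := Comp (RZ M g 𝒱 Z C)ᶜ (0, 0)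

theorem reach_step' {Z : Edge → Prop} {A : Set P2} {f g : P2} (hf : f ∈ Reach Z A)
    (h : DStep (fun e => ¬ Z e) f g) : g ∈ Reach Z A := by
  obtain ⟨a, ha, h1⟩ := hf
  exact ⟨a, ha, h1.tail h⟩

/-- a set containing `A` and closed under non-`Z` steps contains the reach -/
theorem reach_subset' {Z : Edge → Prop} {A T : Set P2} (hA : A ⊆ T)
    (hT : ∀ e, ¬ Z e → (fA e ∈ T ↔ fB e ∈ T)) : Reach Z A ⊆ T := by
  rintro f ⟨a, ha, hf⟩
  induction hf with
  | refl => exact hA ha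
  | tail _ h2 ih =>
    obtain ⟨e, he, h3 | h3⟩ := h2
    · rw [h3.2]; exact (hT e he).1 (h3.1 ▸ ih)
    · rw [h3.2]; exact (hT e he).2 (h3.1 ▸ ih)

theorem reach_iff {Z : Edge → Prop} {A : Set P2} {e : Edge} (he : ¬ Z e) :
    fA e ∈ Reach Z A ↔ fB e ∈ Reach Z A :=
  ⟨fun h => reach_step' h ⟨e, he, Or.inl ⟨rfl, rfl⟩⟩,
    fun h => reach_step' h ⟨e, he, Or.inr ⟨rfl, rfl⟩⟩⟩

/-- **Localisation of the explored set.** -/
theorem RZ_subset {M g : ℕ} {𝒱 : Finset P2} {Z C : Edge → Prop} (hg : 1 ≤ g) (hM : 2 * g < M)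
    (hZC : ∀ e, Z e → C e) (n : Edge → ℕ) (hn : ∀ e ∈ bdEdges 𝒱, 2 * g ≤ n e) :
    RZ M g 𝒱 Z C ⊆ OutR M 𝒱 ∪ HZ M g 𝒱 Z ∪
      {f | ∃ e ∈ bdEdges 𝒱, f ∈ Reach Z (ball (mid M e) (n e) : Set P2)} := by
  refine reach_subset' (fun f hf => Or.inl hf) ?_
  -- the two parts other than `OutR` are closed under steps across non-`C` edges
  have hH : ∀ e, ¬ C e → (fA e ∈ HZ M g 𝒱 Z ↔ fB e ∈ HZ M g 𝒱 Z) := by
    intro e he
    have hZ : ¬ Z e := fun h => he (hZC e h)
    refine exists_congr fun a => and_congr Iff.rfl (reach_iff hZ)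
  have hB : ∀ e, ¬ C e → (fA e ∈ {f | ∃ e ∈ bdEdges 𝒱, f ∈ Reach Z (ball (mid M e) (n e) : Set P2)} ↔
      fB e ∈ {f | ∃ e ∈ bdEdges 𝒱, f ∈ Reach Z (ball (mid M e) (n e) : Set P2)}) := by
    intro e he
    have hZ : ¬ Z e := fun h => he (hZC e h)
    refine exists_congr fun a => and_congr Iff.rfl (reach_iff hZ)
  intro e he
  -- a step between `OutR` and its complement
  by_cases hout : (fA e ∈ OutR M 𝒱 ↔ fB e ∈ OutR M 𝒱)
  · constructor
    · rintro ((h | h) | h)
      · exact Or.inl (Or.inl (hout.1 h))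
      · exact Or.inl (Or.inr ((hH e he).1 h))
      · exact Or.inr ((hB e he).1 h)
    · rintro ((h | h) | h)
      · exact Or.inl (Or.inl (hout.2 h))
      · exact Or.inl (Or.inr ((hH e he).2 h))
      · exact Or.inr ((hB e he).2 h)
  · have hne : nv M (fA e) ≠ nv M (fB e) := by
      intro h
      apply hout
      unfold OutR
      simp only [Set.mem_ofPred_eq, h]
    have hmix : ¬ (nv M (fB e) ∈ 𝒱 ↔ nv M (fA e) ∈ 𝒱) := by
      intro h
      apply hout
      unfold OutR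
      simp only [Set.mem_ofPred_eq, h]
    obtain ⟨e', h1, h2, h3⟩ := cross hg hM e hne
    have he' : e' ∈ bdEdges 𝒱 := by
      rw [mem_bdEdges, h1, h2]
      exact hmix
    have key : (fA e ∈ HZ M g 𝒱 Z ∧ fB e ∈ HZ M g 𝒱 Z) ∨
        ((fA e ∈ {f | ∃ e ∈ bdEdges 𝒱, f ∈ Reach Z (ball (mid M e) (n e) : Set P2)}) ∧
          fB e ∈ {f | ∃ e ∈ bdEdges 𝒱, f ∈ Reach Z (ball (mid M e) (n e) : Set P2)}) := by
      rcases h3 with ⟨h4, h5⟩ | ⟨a, h4, h5, h6⟩
      · right
        exact ⟨⟨e', he', subset_reach _ _ (ball_mono (hn e' he') h4)⟩,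
          ⟨e', he', subset_reach _ _ (ball_mono (hn e' he') h5)⟩⟩
      · left
        have ha : a ∈ ringCells 𝒱 := by
          rw [mem_ringCells]
          by_cases hv : nv M (fB e) ∈ 𝒱
          · exact ⟨⟨_, hv, h5⟩, ⟨_, fun h => hmix ⟨fun _ => h, fun _ => hv⟩, h4⟩⟩
          · have hv' : nv M (fA e) ∈ 𝒱 := by tauto
            exact ⟨⟨_, hv', h4⟩, ⟨_, hv, h5⟩⟩
        have h7 : fB e ∈ HZ M g 𝒱 Z := ⟨a, ha, subset_reach _ _ h6⟩
        exact ⟨(hH e he).2 h7, h7⟩
    rcases key with ⟨h4, h5⟩ | ⟨h4, h5⟩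
    · exact ⟨fun _ => Or.inl (Or.inr h5), fun _ => Or.inl (Or.inr h4)⟩
    · exact ⟨fun _ => Or.inr h5, fun _ => Or.inr h4⟩

/-! ### connectedness -/

/-- the union of the blocks of a connected set of coarse vertices is connected -/
theorem conn_blowup {M : ℕ} (hM : 0 < M) {S : Set P2} (hS : IsConn S) :
    IsConn {f | nv M f ∈ S} := by
  have hMz : (0 : ℤ) < M := by exact_mod_cast hM
  have h1 : ∀ f, nv M f ∈ S → Conn {f | nv M f ∈ S} (cv M (nv M f)) f := by
    intro f hf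
    refine (isConn_ball (cv M (nv M f)) M (cv M (nv M f)) (self_mem_ball hM) f
      (mem_block hM f)).mono ?_
    intro f' hf'
    have : nv M f' = nv M f := (nv_eq_iff hM).2 hf'
    simpa only [Set.mem_ofPred_eq, this] using hf
  have h2 : ∀ u v, u ∈ S → v ∈ S → Adj u v → Conn {f | nv M f ∈ S} (cv M u) (cv M v) := by
    intro u v hu hv ha
    refine conn_rect fun i j hi1 hi2 hj1 hj2 => ?_
    have key : nv M (i, j) = u ∨ nv M (i, j) = v := by
      obtain ⟨u1, u2⟩ := u
      obtain ⟨v1, v2⟩ := v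
      rw [nv_eq_iff hM, nv_eq_iff hM, mem_ball, mem_ball]
      simp only [cv] at hi1 hi2 hj1 hj2 ⊢
      simp only [Adj, Prod.mk.injEq] at ha
      rcases ha with ⟨h3, h4⟩ | ⟨h3, h4⟩ | ⟨h3, h4⟩ | ⟨h3, h4⟩
      · subst h3 h4
        have e1 : 2 * (M : ℤ) * (u1 + 1) = 2 * M * u1 + 2 * M := by ring
        rw [e1] at hi1 hi2 ⊢
        rw [min_eq_left (by linarith)] at hi1
        rw [max_eq_right (by linarith)] at hi2
        rw [min_self] at hj1
        rw [max_self] at hj2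
        rcases lt_or_ge i (2 * M * u1 + M) with h | h
        · left; refine ⟨?_, ?_, ?_, ?_⟩ <;> linarith
        · right; refine ⟨?_, ?_, ?_, ?_⟩ <;> linarith
      · subst h3 h4
        have e1 : 2 * (M : ℤ) * (u1 - 1) = 2 * M * u1 - 2 * M := by ring
        rw [e1] at hi1 hi2 ⊢
        rw [min_eq_right (by linarith)] at hi1
        rw [max_eq_left (by linarith)] at hi2
        rw [min_self] at hj1
        rw [max_self] at hj2
        rcases lt_or_ge i (2 * M * u1 - M) with h | h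
        · right; refine ⟨?_, ?_, ?_, ?_⟩ <;> linarith
        · left; refine ⟨?_, ?_, ?_, ?_⟩ <;> linarith
      · subst h3 h4
        have e1 : 2 * (M : ℤ) * (u2 + 1) = 2 * M * u2 + 2 * M := by ring
        rw [e1] at hj1 hj2 ⊢
        rw [min_eq_left (by linarith)] at hj1
        rw [max_eq_right (by linarith)] at hj2
        rw [min_self] at hi1
        rw [max_self] at hi2
        rcases lt_or_ge j (2 * M * u2 + M) with h | h
        · left; refine ⟨?_, ?_, ?_, ?_⟩ <;> linarith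
        · right; refine ⟨?_, ?_, ?_, ?_⟩ <;> linarith
      · subst h3 h4
        have e1 : 2 * (M : ℤ) * (u2 - 1) = 2 * M * u2 - 2 * M := by ring
        rw [e1] at hj1 hj2 ⊢
        rw [min_eq_right (by linarith)] at hj1
        rw [max_eq_left (by linarith)] at hj2
        rw [min_self] at hi1
        rw [max_self] at hi2
        rcases lt_or_ge j (2 * M * u2 - M) with h | h
        · right; refine ⟨?_, ?_, ?_, ?_⟩ <;> linarith
        · left; refine ⟨?_, ?_, ?_, ?_⟩ <;> linarith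
    rcases key with h | h
    · simpa only [Set.mem_ofPred_eq, h] using hu
    · simpa only [Set.mem_ofPred_eq, h] using hv
  intro f hf g hg
  refine Conn.trans (h1 f hf).symm (Conn.trans ?_ (h1 g hg))
  have h3 := hS _ hf _ hg
  revert h3
  generalize nv M f = u
  generalize nv M g = w
  intro h3
  induction h3 with
  | refl => exact .refl
  | tail _ h4 ih => exact ih.trans (h2 _ _ h4.1 h4.2.1 h4.2.2)

theorem isConn_ball' (x : P2) (n : ℕ) : IsConn ((ball x n : Finset P2) : Set P2) := isConn_ball x n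

/-- connected sets all meeting the connected set `A` -/
theorem isConn_union {ι : Type*} {A : Set P2} (hA : IsConn A) (I : ι → Prop) (B : ι → Set P2)
    (hB : ∀ i, I i → IsConn (B i)) (hm : ∀ i, I i → ∃ f ∈ B i, f ∈ A) :
    IsConn (A ∪ {f | ∃ i, I i ∧ f ∈ B i}) := by
  have key : ∀ f, f ∈ A ∪ {f | ∃ i, I i ∧ f ∈ B i} →
      ∃ a ∈ A, Conn (A ∪ {f | ∃ i, I i ∧ f ∈ B i}) a f := by
    rintro f (hf | ⟨i, hi, hf⟩)
    · exact ⟨f, hf, .refl⟩
    · obtain ⟨a, ha, haA⟩ := hm i hi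
      exact ⟨a, haA, (hB i hi a ha f hf).mono fun f' hf' => Or.inr ⟨i, hi, hf'⟩⟩
  intro f hf g hg
  obtain ⟨a, ha, h1⟩ := key f hf
  obtain ⟨b, hb, h2⟩ := key g hg
  exact (h1.symm.trans ((hA a ha b hb).mono Set.subset_union_left)).trans h2

/-- the seeds of the exploration are connected -/
theorem seeds_conn {M g : ℕ} {𝒱 : Finset P2} (Z : Edge → Prop) (hM : 2 * g < M)
    (h𝒱 : IsConn (𝒱 : Set P2)ᶜ) : IsConn (OutR M 𝒱 ∪ HZ M g 𝒱 Z) := by
  have hM0 : 0 < M := by omega
  have h1 : IsConn (OutR M 𝒱) := by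
    have := conn_blowup hM0 h𝒱
    simpa only [OutR, Set.mem_compl_iff, Finset.mem_coe] using this
  refine isConn_union h1 (fun a => a ∈ ringCells 𝒱) _
    (fun a _ => reach_isConn Z _ (isConn_ball _ _)) ?_
  intro a ha
  obtain ⟨-, v, hv, hva⟩ := mem_ringCells.1 ha
  have hcast : ((M - 2 * g : ℕ) : ℤ) = M - 2 * g := by omega
  have hMg : (2 * (g : ℤ)) < M := by exact_mod_cast hM
  have hMpos : (0 : ℤ) < M := by exact_mod_cast hM0
  obtain ⟨a1, a2⟩ := a
  -- a face of the inner square in the block of `v`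
  have hex : ∃ f, f ∈ ball (ctr M (a1, a2)) (M - 2 * g) ∧ nv M f = v := by
    simp only [nv_eq_iff hM0, mem_ball, ctr, cv, hcast]
    rcases hva with h | h | h | h <;> rw [h] <;> simp only
    · refine ⟨(2 * M * a1 + M - 1, 2 * M * a2 + M - 1), ⟨?_, ?_, ?_, ?_⟩, ?_, ?_, ?_, ?_⟩ <;>
        simp only <;> linarith
    · refine ⟨(2 * M * a1 + M, 2 * M * a2 + M - 1), ⟨?_, ?_, ?_, ?_⟩, ?_, ?_, ?_, ?_⟩ <;>
        simp only <;> linarith
    · refine ⟨(2 * M * a1 + M - 1, 2 * M * a2 + M), ⟨?_, ?_, ?_, ?_⟩, ?_, ?_, ?_, ?_⟩ <;>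
        simp only <;> linarith
    · refine ⟨(2 * M * a1 + M, 2 * M * a2 + M), ⟨?_, ?_, ?_, ?_⟩, ?_, ?_, ?_, ?_⟩ <;>
        simp only <;> linarith
  obtain ⟨f, hf, hfv⟩ := hex
  refine ⟨f, subset_reach _ _ hf, ?_⟩
  show nv M f ∉ 𝒱
  rw [hfv]; exact hv

/-- the region of the blocks of `𝒱` is finite -/
def regF (M : ℕ) (𝒱 : Finset P2) : Finset P2 := 𝒱.biUnion fun v => ball (cv M v) M

theorem mem_regF {M : ℕ} (hM : 0 < M) {𝒱 : Finset P2} {f : P2} :
    f ∈ regF M 𝒱 ↔ nv M f ∈ 𝒱 := by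
  unfold regF
  rw [Finset.mem_biUnion]
  constructor
  · rintro ⟨v, hv, hf⟩
    rwa [(nv_eq_iff hM).2 hf]
  · intro h
    exact ⟨_, h, mem_block hM f⟩

theorem compl_RZ_subset {M g : ℕ} (hM : 0 < M) {𝒱 : Finset P2} {Z C : Edge → Prop} :
    (RZ M g 𝒱 Z C)ᶜ ⊆ (regF M 𝒱 : Set P2) := by
  intro f hf
  by_contra h
  exact hf (subset_reach _ _ (Or.inl fun h' => h ((mem_regF hM).2 h')))

/-- **Structure of the random domain**: if the origin is not explored, the domain and its complement are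
connected, it is contained in the blocks of `𝒱`, its boundary edges are cut and the height is constant on
its boundary. -/
theorem WZ_struct {α : Type*} {M g : ℕ} {𝒱 : Finset P2} {Z C : Edge → Prop} (hM : 2 * g < M)
    (h𝒱 : IsConn (𝒱 : Set P2)ᶜ) (h0 : (0, 0) ∉ RZ M g 𝒱 Z C) (K : P2 → α)
    (hK : ∀ e, C e → K (src e) = K (tgt e)) :
    WZ M g 𝒱 Z C ⊆ (regF M 𝒱 : Set P2) ∧ IsConn (WZ M g 𝒱 Z C) ∧ IsConn (WZ M g 𝒱 Z C)ᶜ ∧
      (∀ e, Bd (WZ M g 𝒱 Z C) e → C e) ∧
      (∀ e e', Bd (WZ M g 𝒱 Z C) e → Bd (WZ M g 𝒱 Z C) e' → K (src e) = K (src e')) := by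
  have hM0 : 0 < M := by omega
  have hfin : (RZ M g 𝒱 Z C)ᶜ.Finite := (Finset.finite_toSet _).subset (compl_RZ_subset hM0)
  have hne : (OutR M 𝒱 ∪ HZ M g 𝒱 Z).Nonempty := by
    obtain ⟨v, hv⟩ := Finset.exists_notMem 𝒱
    refine ⟨cv M v, Or.inl ?_⟩
    show nv M (cv M v) ∉ 𝒱
    rw [nv_cv hM0]; exact hv
  obtain ⟨h1, h2, h3, h4⟩ := explore C _ (seeds_conn Z hM h𝒱) hne (0, 0) h0 (Or.inr hfin) K hK
  exact ⟨(comp_subset h0).trans (compl_RZ_subset hM0), h3, h4, h1, h2⟩

/-! ### the inner blocks are contained in the random domain -/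

theorem block_disjoint {M g : ℕ} {𝒱 : Finset P2} (hg : 1 ≤ g) (hM : 2 * g < M) {v : P2}
    (hv : ∀ u : P2, |u.1 - v.1| ≤ 1 → |u.2 - v.2| ≤ 1 → u ∈ 𝒱) {f : P2} (hf : nv M f = v) :
    f ∉ OutR M 𝒱 ∧ (∀ a ∈ ringCells 𝒱, f ∉ ball (ctr M a) (M - g)) ∧
      ∀ e ∈ bdEdges 𝒱, ∀ m : ℕ, 4 * m ≤ M → f ∉ ball (mid M e) m := by
  have hM0 : 0 < M := by omega
  have hMpos : (0 : ℤ) < M := by exact_mod_cast hM0
  have hfb := mem_ball.1 ((nv_eq_iff hM0).1 hf)
  simp only [cv] at hfb
  -- comparison of block indices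
  have cmp : ∀ x y k : ℤ, (M : ℤ) * x < M * y + M * k → x < y + k := by
    intro x y k hxy
    by_contra hcon
    push Not at hcon
    have : (M : ℤ) * (y + k) ≤ M * x := by
      apply mul_le_mul_of_nonneg_left hcon; positivity
    linarith
  refine ⟨?_, ?_, ?_⟩
  · intro h
    apply h
    rw [hf]
    exact hv v (by simp) (by simp)
  · intro a ha hfa
    obtain ⟨-, u, hu, hua⟩ := mem_ringCells.1 ha
    apply hu
    have hcast : ((M - g : ℕ) : ℤ) = M - g := by omega
    rw [mem_ball] at hfa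
    simp only [ctr, hcast] at hfa
    have hg1 : (1 : ℤ) ≤ g := by exact_mod_cast hg
    have h1 : 2 * a.1 < 2 * v.1 + 1 := cmp _ _ _ (by linarith)
    have h2 : 2 * v.1 < 2 * a.1 + 3 := cmp _ _ _ (by linarith)
    have h3 : 2 * a.2 < 2 * v.2 + 1 := cmp _ _ _ (by linarith)
    have h4 : 2 * v.2 < 2 * a.2 + 3 := cmp _ _ _ (by linarith)
    apply hv
    · rw [abs_le]
      rcases hua with h | h | h | h <;> rw [h] <;> simp only <;> omega
    · rw [abs_le]
      rcases hua with h | h | h | h <;> rw [h] <;> simp only <;> omega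
  · intro e he m hm hfm
    rw [mem_bdEdges] at he
    apply he
    have hm' : 4 * (m : ℤ) ≤ M := by exact_mod_cast hm
    rw [mem_ball] at hfm
    simp only [mid] at hfm
    set s1 := (src e).1 + (tgt e).1 with hs1
    set s2 := (src e).2 + (tgt e).2 with hs2
    have h1 : s1 < 2 * v.1 + 2 := cmp _ _ _ (by linarith)
    have h2 : 2 * v.1 < s1 + 2 := cmp _ _ _ (by linarith)
    have h3 : s2 < 2 * v.2 + 2 := cmp _ _ _ (by linarith)
    have h4 : 2 * v.2 < s2 + 2 := cmp _ _ _ (by linarith)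
    have hsrc : src e ∈ 𝒱 := by
      obtain ⟨⟨i, j⟩, b⟩ := e
      cases b
      · simp only [src_mk, tgt_h] at hs1 hs2 ⊢
        apply hv <;> rw [abs_le] <;> simp only <;> omega
      · simp only [src_mk, tgt_v] at hs1 hs2 ⊢
        apply hv <;> rw [abs_le] <;> simp only <;> omega
    have htgt : tgt e ∈ 𝒱 := by
      obtain ⟨⟨i, j⟩, b⟩ := e
      cases b
      · simp only [src_mk, tgt_h] at hs1 hs2 ⊢
        apply hv <;> rw [abs_le] <;> simp only <;> omega
      · simp only [src_mk, tgt_v] at hs1 hs2 ⊢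
        apply hv <;> rw [abs_le] <;> simp only <;> omega
    exact ⟨fun _ => htgt, fun _ => hsrc⟩

/-- coarse vertices all of whose neighbours (including diagonal ones) are in `𝒱` -/
def Inner (𝒱 : Finset P2) (𝒱in : Finset P2) : Prop :=
  ∀ v ∈ 𝒱in, ∀ u : P2, |u.1 - v.1| ≤ 1 → |u.2 - v.2| ≤ 1 → u ∈ 𝒱

/-- **Closed ring.** On the ring event, if every boundary coarse edge has a `Z`-circuit around its
midpoint at a scale between `2g` and `M/4`, the inner blocks are not explored and are contained in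
the random domain. -/
theorem closed {M g : ℕ} {𝒱 𝒱in : Finset P2} {Z C : Edge → Prop} (hg : 1 ≤ g) (hM : 2 * g < M)
    (hZC : ∀ e, Z e → C e) (hin : Inner 𝒱 𝒱in) (hinc : IsConn (𝒱in : Set P2))
    (h0 : (0, 0) ∈ 𝒱in) (hE : Ep M g 𝒱 Z)
    (hmid : ∀ e ∈ bdEdges 𝒱, ∃ n m : ℕ, 2 * g ≤ n ∧ 4 * m ≤ M ∧ Circ Z (mid M e) n m) :
    (∀ f, nv M f ∈ 𝒱in → f ∉ RZ M g 𝒱 Z C) ∧
      (regF M 𝒱in : Set P2) ⊆ WZ M g 𝒱 Z C := by
  classical
  have hM0 : 0 < M := by omega
  choose! n m hn hm hc using hmid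
  have hsub := RZ_subset (C := C) hg hM hZC n hn
  have h1 : ∀ f, nv M f ∈ 𝒱in → f ∉ RZ M g 𝒱 Z C := by
    intro f hf hR
    obtain ⟨h2, h3, h4⟩ := block_disjoint hg hM (fun u => hin _ hf u) (f := f) rfl
    rcases hsub hR with (h | ⟨a, ha, h⟩) | ⟨e, he, h⟩
    · exact h2 h
    · exact h3 a ha (hE a ha h)
    · exact h4 e he (m e) (hm e he) (hc e he h)
  refine ⟨h1, ?_⟩
  intro f hf
  have hf' : nv M f ∈ 𝒱in := (mem_regF hM0).1 hf
  have h00 : nv M (0, 0) = (0, 0) := by
    rw [nv_eq_iff hM0, mem_ball]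
    simp only [cv, mul_zero]
    have : (0 : ℤ) < M := by exact_mod_cast hM0
    omega
  have hconn := conn_blowup hM0 hinc (0, 0) (by
    show nv M (0, 0) ∈ (𝒱in : Set P2)
    rw [h00]; exact Finset.mem_coe.2 h0) f (by simpa using hf')
  exact hconn.mono fun f' hf' => h1 f' (by simpa using hf')

end Crest.Agent.R161.Clo389
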