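import Crest.Agent.R161.Ifc_372

/-!
# Row 161, leaf L3 (helper472), part 1: the finite comparison

* `Hts`, `hts` : heights `(k, h)` of a configuration.
* `pcut c w e` : conditional probability that `e` is cut given the heights `w`; `pcut'` the dual one.
* `Ep S p f` : expectation of `f (open set)` for independent edges `e ∈ S` open with probability `p e`.
* `Ep_mono` : monotonicity in `p` for increasing `f`.
* `sig`, `sw` : exchange of vertices and faces (translation by `(1/2, 1/2)`), `pcut'_sig`.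
* `LRc`, `DBT` : crossing events, `lrc_or_dbt` : duality, `dbt_iff` : dual crossings are crossings of the
  exchanged configuration.
-/

set_option autoImplicit false

noncomputable section

namespace Crest.Agent.R161.Csq472

open MeasureTheory Finset
open Crest.Agent.R161.Geo729 Crest.Agent.R161.Defs372 Crest.Agent.R161.Dual374
open Crest.Agent.R161.Hull374 Crest.Agent.R161.Ifc372

/-- pairs (heights at vertices, heights at faces) -/
abbrev Hts : Type := (P2 → ℤ) × (P2 → ℤ)

/-- heights of a configuration -/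
def hts (ω : Cfg) : Hts := (ω.1, ω.2.1)

/-- conditional probability that the edge `e` is cut (`z e = true`), given the heights -/
def pcut (c : ℝ) (w : Hts) (e : Edge) : ℝ :=
  if w.1 (src e) = w.1 (tgt e) then (if w.2 (fA e) = w.2 (fB e) then 1 / c else 1) else 0

/-- the same with the roles of vertices and faces exchanged -/
def pcut' (c : ℝ) (w : Hts) (e : Edge) : ℝ :=
  if w.2 (fA e) = w.2 (fB e) then (if w.1 (src e) = w.1 (tgt e) then 1 / c else 1) else 0

/-- local corner condition at the edge `e` -/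
def CornerAt (w : Hts) (e : Edge) : Prop :=
  |w.1 (src e) - w.2 (fA e)| = 1 ∧ |w.1 (src e) - w.2 (fB e)| = 1 ∧
    |w.1 (tgt e) - w.2 (fA e)| = 1 ∧ |w.1 (tgt e) - w.2 (fB e)| = 1

theorem isCorner_edge (e : Edge) : Geo729.IsCorner (src e) (fA e) ∧
    Geo729.IsCorner (src e) (fB e) ∧ Geo729.IsCorner (tgt e) (fA e) ∧
    Geo729.IsCorner (tgt e) (fB e) := by
  obtain ⟨⟨a, b⟩, s⟩ := e
  cases s <;> simp [Geo729.IsCorner]

theorem cornerAt_of {ω : Cfg} (h : ∀ f v, Geo729.IsCorner v f → |ω.1 v - ω.2.1 f| = 1) (e : Edge) :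
    CornerAt (hts ω) e := by
  obtain ⟨h1, h2, h3, h4⟩ := isCorner_edge e
  exact ⟨h _ _ h1, h _ _ h2, h _ _ h3, h _ _ h4⟩

theorem pcut_nonneg {c : ℝ} (hc : 1 ≤ c) (w : Hts) (e : Edge) : 0 ≤ pcut c w e := by
  unfold pcut
  split_ifs <;> positivity

theorem pcut_le_one {c : ℝ} (hc : 1 ≤ c) (w : Hts) (e : Edge) : pcut c w e ≤ 1 := by
  unfold pcut
  split_ifs
  · rw [div_le_one (by linarith)]; exact hc
  · exact le_rfl
  · norm_num

theorem pcut'_nonneg {c : ℝ} (hc : 1 ≤ c) (w : Hts) (e : Edge) : 0 ≤ pcut' c w e := by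
  unfold pcut'
  split_ifs <;> positivity

theorem pcut'_le_one {c : ℝ} (hc : 1 ≤ c) (w : Hts) (e : Edge) : pcut' c w e ≤ 1 := by
  unfold pcut'
  split_ifs
  · rw [div_le_one (by linarith)]; exact hc
  · exact le_rfl
  · norm_num

/-- **Comparison**: for `c ≤ 2` an uncut primal edge is less likely than a cut dual edge. -/
theorem one_sub_pcut_le {c : ℝ} (hc : 1 ≤ c) (hc2 : c ≤ 2) {w : Hts} {e : Edge}
    (hw : CornerAt w e) : 1 - pcut c w e ≤ pcut' c w e := by
  unfold pcut pcut'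
  by_cases h1 : w.1 (src e) = w.1 (tgt e) <;> by_cases h2 : w.2 (fA e) = w.2 (fB e)
  · simp only [h1, h2, if_true]
    have : 1 / 2 ≤ 1 / c := one_div_le_one_div_of_le (by linarith) hc2
    linarith
  · simp [h1, h2]
  · simp [h1, h2]
  · exfalso
    obtain ⟨a1, a2, a3, a4⟩ := hw
    rcases (abs_eq (by norm_num : (0 : ℤ) ≤ 1)).1 a1 with a1 | a1 <;>
    rcases (abs_eq (by norm_num : (0 : ℤ) ≤ 1)).1 a2 with a2 | a2 <;>
    rcases (abs_eq (by norm_num : (0 : ℤ) ≤ 1)).1 a3 with a3 | a3 <;>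
    rcases (abs_eq (by norm_num : (0 : ℤ) ≤ 1)).1 a4 with a4 | a4 <;> omega

/-! ### independent edges -/

/-- Expectation of `f A`, `A` = random set of open edges of `S`, independent with probabilities `p`. -/
def Ep (S : Finset Edge) (p : Edge → ℝ) (f : Finset Edge → ℝ) : ℝ :=
  ∑ A ∈ S.powerset, (∏ e ∈ S, if e ∈ A then p e else 1 - p e) * f A

theorem Ep_empty (p : Edge → ℝ) (f : Finset Edge → ℝ) : Ep ∅ p f = f ∅ := by
  simp [Ep]

theorem Ep_insert {S : Finset Edge} {e : Edge} (he : e ∉ S) (p : Edge → ℝ)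
    (f : Finset Edge → ℝ) :
    Ep (insert e S) p f = (1 - p e) * Ep S p f + p e * Ep S p (fun A => f (insert e A)) := by
  classical
  unfold Ep
  rw [Finset.sum_powerset_insert he, Finset.mul_sum, Finset.mul_sum]
  congr 1
  · refine Finset.sum_congr rfl fun A hA => ?_
    have hA' : e ∉ A := fun h => he (Finset.mem_powerset.1 hA h)
    rw [Finset.prod_insert he, if_neg hA']
    ring
  · refine Finset.sum_congr rfl fun A hA => ?_
    rw [Finset.prod_insert he, if_pos (Finset.mem_insert_self e A)]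
    have : (∏ x ∈ S, if x ∈ insert e A then p x else 1 - p x) =
        ∏ x ∈ S, if x ∈ A then p x else 1 - p x := by
      refine Finset.prod_congr rfl fun x hx => ?_
      have hxe : x ≠ e := fun h => he (h ▸ hx)
      simp [Finset.mem_insert, hxe]
    rw [this]
    ring

theorem Ep_congr_p {S : Finset Edge} {p q : Edge → ℝ} (h : ∀ e ∈ S, p e = q e)
    (f : Finset Edge → ℝ) : Ep S p f = Ep S q f := by
  unfold Ep
  refine Finset.sum_congr rfl fun A _ => ?_
  congr 1
  exact Finset.prod_congr rfl fun e he => by rw [h e he]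

theorem Ep_mono_f {S : Finset Edge} {p : Edge → ℝ} (h0 : ∀ e ∈ S, 0 ≤ p e)
    (h1 : ∀ e ∈ S, p e ≤ 1) {f g : Finset Edge → ℝ} (hfg : ∀ A, f A ≤ g A) :
    Ep S p f ≤ Ep S p g := by
  unfold Ep
  refine Finset.sum_le_sum fun A _ => mul_le_mul_of_nonneg_left (hfg A) ?_
  refine Finset.prod_nonneg fun e he => ?_
  split_ifs
  · exact h0 e he
  · linarith [h1 e he]

/-- Monotonicity of the expectation of an increasing function in the edge probabilities. -/
theorem Ep_mono {S : Finset Edge} {p q : Edge → ℝ} (h0 : ∀ e ∈ S, 0 ≤ p e)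
    (hpq : ∀ e ∈ S, p e ≤ q e) (h1 : ∀ e ∈ S, q e ≤ 1) {f : Finset Edge → ℝ}
    (hf : ∀ A B, A ⊆ B → f A ≤ f B) : Ep S p f ≤ Ep S q f := by
  classical
  induction S using Finset.induction_on generalizing f with
  | empty => rw [Ep_empty, Ep_empty]
  | insert e S he ih =>
    rw [Ep_insert he, Ep_insert he]
    have ihf := ih (fun x hx => h0 x (Finset.mem_insert_of_mem hx))
      (fun x hx => hpq x (Finset.mem_insert_of_mem hx))
      (fun x hx => h1 x (Finset.mem_insert_of_mem hx)) hf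
    have ihg := ih (fun x hx => h0 x (Finset.mem_insert_of_mem hx))
      (fun x hx => hpq x (Finset.mem_insert_of_mem hx))
      (fun x hx => h1 x (Finset.mem_insert_of_mem hx)) (f := fun A => f (insert e A))
      (fun A B hAB => hf _ _ (Finset.insert_subset_insert e hAB))
    have hfg : Ep S q f ≤ Ep S q (fun A => f (insert e A)) := by
      refine Ep_mono_f (fun x hx => ?_) (fun x hx => h1 x (Finset.mem_insert_of_mem hx))
        fun A => hf _ _ (Finset.subset_insert e A)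
      exact (h0 x (Finset.mem_insert_of_mem hx)).trans (hpq x (Finset.mem_insert_of_mem hx))
    have hp0 := h0 e (Finset.mem_insert_self e S)
    have hpe := hpq e (Finset.mem_insert_self e S)
    have hq1 := h1 e (Finset.mem_insert_self e S)
    calc (1 - p e) * Ep S p f + p e * Ep S p (fun A => f (insert e A))
        ≤ (1 - p e) * Ep S q f + p e * Ep S q (fun A => f (insert e A)) :=
          add_le_add (mul_le_mul_of_nonneg_left ihf (by linarith))
            (mul_le_mul_of_nonneg_left ihg hp0)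
      _ ≤ (1 - q e) * Ep S q f + q e * Ep S q (fun A => f (insert e A)) := by
          nlinarith [mul_nonneg (sub_nonneg.2 hpe) (sub_nonneg.2 hfg)]

/-- Reindexing by an injective map of edges. -/
theorem Ep_image {S : Finset Edge} (s : Edge → Edge) (hs : Function.Injective s) (p : Edge → ℝ)
    (f : Finset Edge → ℝ) :
    Ep (S.image s) p f = Ep S (fun e => p (s e)) (fun A => f (A.image s)) := by
  classical
  induction S using Finset.induction_on generalizing f with
  | empty => simp [Ep_empty]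
  | insert e S he ih =>
    have he' : s e ∉ S.image s := by
      rw [Finset.mem_image]
      rintro ⟨x, hx, hxe⟩
      exact he (hs hxe ▸ hx)
    rw [Finset.image_insert, Ep_insert he', Ep_insert he, ih, ih]
    congr 2
    unfold Ep
    refine Finset.sum_congr rfl fun A _ => ?_
    simp only [Finset.image_insert]

/-! ### exchange of vertices and faces -/

/-- edge map of the translation by `(1/2, 1/2)` followed by duality -/
def sig (e : Edge) : Edge :=
  if e.2 then ((e.1.1, e.1.2 + 1), false) else ((e.1.1 + 1, e.1.2), true)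

@[simp] theorem sig_h (v : P2) : sig (v, false) = ((v.1 + 1, v.2), true) := rfl
@[simp] theorem sig_v (v : P2) : sig (v, true) = ((v.1, v.2 + 1), false) := rfl

/-- inverse of `sig` -/
def sigInv (e : Edge) : Edge :=
  if e.2 then ((e.1.1 - 1, e.1.2), false) else ((e.1.1, e.1.2 - 1), true)

theorem sigInv_sig (e : Edge) : sigInv (sig e) = e := by
  obtain ⟨⟨a, b⟩, s⟩ := e
  cases s <;> simp [sig, sigInv]

theorem sig_sigInv (e : Edge) : sig (sigInv e) = e := by
  obtain ⟨⟨a, b⟩, s⟩ := e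
  cases s <;> simp [sig, sigInv]

theorem sig_injective : Function.Injective sig := fun a b h => by
  rw [← sigInv_sig a, h, sigInv_sig]

theorem fB_sig (e : Edge) : fB (sig e) = src e := by
  obtain ⟨⟨a, b⟩, s⟩ := e
  cases s <;> simp

theorem fA_sig (e : Edge) : fA (sig e) = tgt e := by
  obtain ⟨⟨a, b⟩, s⟩ := e
  cases s <;> simp

theorem src_sig (e : Edge) : src (sig e) = ((fB e).1 + 1, (fB e).2 + 1) := by
  obtain ⟨⟨a, b⟩, s⟩ := e
  cases s <;> simp

theorem tgt_sig (e : Edge) : tgt (sig e) = ((fA e).1 + 1, (fA e).2 + 1) := by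
  obtain ⟨⟨a, b⟩, s⟩ := e
  cases s <;> simp

/-- exchange map on heights (six-vertex translation by one unit), normalised at the origin -/
def sw (w : Hts) : Hts :=
  (fun v => w.2 v - w.2 (0, 0), fun f => w.1 (f.1 + 1, f.2 + 1) - w.2 (0, 0))

theorem pcut'_sig (c : ℝ) (w : Hts) (e : Edge) : pcut' c w (sig e) = pcut c (sw w) e := by
  have h1 : ((sw w).1 (src e) = (sw w).1 (tgt e)) ↔ (w.2 (fA (sig e)) = w.2 (fB (sig e))) := by
    rw [fA_sig, fB_sig]
    simp only [sw]
    constructor <;> intro h <;> linarith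
  have h2 : ((sw w).2 (fA e) = (sw w).2 (fB e)) ↔ (w.1 (src (sig e)) = w.1 (tgt (sig e))) := by
    rw [src_sig, tgt_sig]
    simp only [sw]
    constructor <;> intro h <;> linarith
  unfold pcut pcut'
  simp only [h1, h2]

/-! ### crossing events -/

/-- left-right crossing of the rectangle `[x0,x1] × [y0,y1]` by edges satisfying `Z` -/
def LRc (x0 x1 y0 y1 : ℤ) (Z : Edge → Prop) : Prop :=
  ∃ a b : P2, a.1 = x0 ∧ y0 ≤ a.2 ∧ a.2 ≤ y1 ∧ b.1 = x1 ∧
    Relation.ReflTransGen (PStep (fun e => Z e ∧ RE x0 x1 y0 y1 e)) a b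

/-- bottom-top crossing by faces, through edges satisfying `Z` -/
def DBT (x0 x1 y0 y1 : ℤ) (Z : Edge → Prop) : Prop :=
  ∃ f g : P2, f.2 = y0 - 1 ∧ x0 ≤ f.1 ∧ f.1 < x1 ∧ g.2 = y1 ∧
    Relation.ReflTransGen (DStep (fun e => Z e ∧ RE x0 x1 y0 y1 e)) f g

theorem lrc_or_dbt (x0 x1 y0 y1 : ℤ) (hx : x0 < x1) (hy : y0 ≤ y1) (Z : Edge → Prop) :
    LRc x0 x1 y0 y1 Z ∨ DBT x0 x1 y0 y1 (fun e => ¬ Z e) :=
  dual_rect x0 x1 y0 y1 hx hy Z

/-- transposition of edges -/
def tr (e : Edge) : Edge := ((e.1.2, e.1.1), !e.2)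

@[simp] theorem tr_tr (e : Edge) : tr (tr e) = e := by
  obtain ⟨⟨a, b⟩, s⟩ := e
  simp [tr]

/-- transposition of points -/
def tp (v : P2) : P2 := (v.2, v.1)

@[simp] theorem tp_tp (v : P2) : tp (tp v) = v := rfl

theorem src_tr (e : Edge) : src (tr e) = tp (src e) := by
  obtain ⟨⟨a, b⟩, s⟩ := e
  cases s <;> simp [tr, tp]

theorem tgt_tr (e : Edge) : tgt (tr e) = tp (tgt e) := by
  obtain ⟨⟨a, b⟩, s⟩ := e
  cases s <;> simp [tr, tp]

/-- A dual crossing through `Z`-edges is a bottom-top crossing of the exchanged edges, i.e. the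
transpose of a left-right crossing of the rectangle `[y0-1, y1] × [x0, x1-1]`. -/
theorem dbt_iff (x0 x1 y0 y1 : ℤ) (Z : Edge → Prop) :
    DBT x0 x1 y0 y1 Z ↔ LRc (y0 - 1) y1 x0 (x1 - 1) (fun e => Z (sig (tr e))) := by
  have hstep : ∀ f g : P2, DStep (fun e => Z e ∧ RE x0 x1 y0 y1 e) f g ↔
      PStep (fun e => Z (sig (tr e)) ∧ RE (y0 - 1) y1 x0 (x1 - 1) e) (tp f) (tp g) := by
    intro f g
    have hRE : ∀ e : Edge, RE x0 x1 y0 y1 (sig (tr e)) ↔ RE (y0 - 1) y1 x0 (x1 - 1) e := by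
      intro e
      obtain ⟨⟨a, b⟩, s⟩ := e
      cases s
      · simp only [tr, Bool.not_false, sig_v, RE, true_and, Bool.false_eq_true, false_and,
          or_false]
        omega
      · simp only [tr, Bool.not_true, sig_h, RE, true_and, false_and,
          false_or, Bool.true_eq_false]
        omega
    constructor
    · rintro ⟨e, ⟨he1, he2⟩, h⟩
      refine ⟨tr (sigInv e), ⟨?_, ?_⟩, ?_⟩
      · simpa [tr_tr, sig_sigInv] using he1
      · rw [← hRE]; simpa [tr_tr, sig_sigInv] using he2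
      · have hA : tgt (tr (sigInv e)) = tp (fA e) := by
          rw [tgt_tr, ← fA_sig, sig_sigInv]
        have hB : src (tr (sigInv e)) = tp (fB e) := by
          rw [src_tr, ← fB_sig, sig_sigInv]
        rcases h with ⟨h1, h2⟩ | ⟨h1, h2⟩
        · right; exact ⟨by rw [h1, hA], by rw [h2, hB]⟩
        · left; exact ⟨by rw [h1, hB], by rw [h2, hA]⟩
    · rintro ⟨e, ⟨he1, he2⟩, h⟩
      refine ⟨sig (tr e), ⟨he1, (hRE e).2 he2⟩, ?_⟩
      have hA : fA (sig (tr e)) = tp (tgt e) := by rw [fA_sig, tgt_tr]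
      have hB : fB (sig (tr e)) = tp (src e) := by rw [fB_sig, src_tr]
      rcases h with ⟨h1, h2⟩ | ⟨h1, h2⟩
      · right; exact ⟨by rw [hB, ← h1]; rfl, by rw [hA, ← h2]; rfl⟩
      · left; exact ⟨by rw [hA, ← h1]; rfl, by rw [hB, ← h2]; rfl⟩
  constructor
  · rintro ⟨f, g, h1, h2, h3, h4, h5⟩
    refine ⟨tp f, tp g, h1, h2, by simp only [tp]; omega, h4, ?_⟩
    exact Relation.ReflTransGen.lift tp (fun a b hab => (hstep a b).1 hab) _ _ h5
  · rintro ⟨a, b, h1, h2, h3, h4, h5⟩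
    refine ⟨tp a, tp b, h1, h2, by simp only [tp]; omega, h4, ?_⟩
    refine Relation.ReflTransGen.lift tp (fun a b hab => (hstep _ _).2 ?_) _ _ h5
    simpa using hab

theorem LRc.mono {x0 x1 y0 y1 : ℤ} {Z Z' : Edge → Prop}
    (h : ∀ e, RE x0 x1 y0 y1 e → Z e → Z' e) (hL : LRc x0 x1 y0 y1 Z) : LRc x0 x1 y0 y1 Z' := by
  obtain ⟨a, b, h1, h2, h3, h4, h5⟩ := hL
  refine ⟨a, b, h1, h2, h3, h4, ?_⟩
  refine Relation.ReflTransGen.mono ?_ _ _ h5
  rintro u v ⟨e, ⟨he1, he2⟩, h'⟩
  exact ⟨e, ⟨h _ he2 he1, he2⟩, h'⟩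

theorem DBT.mono {x0 x1 y0 y1 : ℤ} {Z Z' : Edge → Prop}
    (h : ∀ e, RE x0 x1 y0 y1 e → Z e → Z' e) (hL : DBT x0 x1 y0 y1 Z) : DBT x0 x1 y0 y1 Z' := by
  obtain ⟨a, b, h1, h2, h3, h4, h5⟩ := hL
  refine ⟨a, b, h1, h2, h3, h4, ?_⟩
  refine Relation.ReflTransGen.mono ?_ _ _ h5
  rintro u v ⟨e, ⟨he1, he2⟩, h'⟩
  exact ⟨e, ⟨h _ he2 he1, he2⟩, h'⟩

theorem LRc.translate {x0 x1 y0 y1 : ℤ} (t : P2) {Z : Edge → Prop}
    (hL : LRc x0 x1 y0 y1 (fun e => Z (e.1 + t, e.2))) :
    LRc (x0 + t.1) (x1 + t.1) (y0 + t.2) (y1 + t.2) Z := by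
  obtain ⟨a, b, h1, h2, h3, h4, h5⟩ := hL
  refine ⟨a + t, b + t, ?_, ?_, ?_, ?_, ?_⟩
  · simp [h1]
  · simpa using h2
  · simpa using h3
  · simp [h4]
  · refine Relation.ReflTransGen.lift (fun v => v + t) ?_ _ _ h5
    rintro u v ⟨e, ⟨he1, he2⟩, h⟩
    obtain ⟨⟨p, q⟩, s⟩ := e
    obtain ⟨t1, t2⟩ := t
    refine ⟨((p + t1, q + t2), s), ⟨he1, ?_⟩, ?_⟩
    · rcases he2 with ⟨k1, k2, k3, k4, k5⟩ | ⟨k1, k2, k3, k4, k5⟩
      · left; refine ⟨k1, ?_, ?_, ?_, ?_⟩ <;> simp_all
      · right; refine ⟨k1, ?_, ?_, ?_, ?_⟩ <;> simp_all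
    · rcases h with ⟨k1, k2⟩ | ⟨k1, k2⟩
      · left
        subst k1 k2
        cases s <;> simp [src, tgt, add_right_comm]
      · right
        subst k1 k2
        cases s <;> simp [src, tgt, add_right_comm]

end Crest.Agent.R161.Csq472
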