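import Crest.Agent.R161.Csq1_472

/-!
# Row 161, leaf L3 (helper472), part 2: crossings of squares by cut edges

Hypotheses on the plane state `P : Measure Cfg`:
* `CondIndep c P` : given the heights the cut variables are independent with probabilities `pcut`;
* `SwapInv P` : the law of the heights is invariant under the exchange `sw` (six-vertex translation by
  one unit, exchanging vertices and faces);
* `ZInv P` : the law of the cut variables is invariant under transposition and translations;
* `∀ᵐ ω ∂P, GValid ω`.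

Results: `cross_half`, `nu_cross_quarter`.
-/

set_option autoImplicit false

noncomputable section

namespace Crest.Agent.R161.Csq472

open MeasureTheory Finset
open Crest.Agent.R161.Geo729 Crest.Agent.R161.Defs372 Crest.Agent.R161.Dual374
open Crest.Agent.R161.Hull374 Crest.Agent.R161.Ifc372

/-- Given the heights, the cut variables are independent: law of every finite pattern. -/
def CondIndep (c : ℝ) (P : Measure Cfg) : Prop :=
  ∀ (S : Finset Edge) (η : Edge → Bool),
    (P {ω | ∀ e ∈ S, ω.2.2 e = η e}).toReal =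
      ∫ ω, ∏ e ∈ S, (if η e = true then pcut c (hts ω) e else 1 - pcut c (hts ω) e) ∂P

/-- Invariance of the law of the heights under the exchange of vertices and faces. -/
def SwapInv (P : Measure Cfg) : Prop :=
  P.map (fun ω => sw (hts ω)) = P.map hts

/-- Invariance of the law of the cut variables under transposition and translations. -/
structure ZInv (P : Measure Cfg) : Prop where
  tr : P.map (fun ω : Cfg => fun e => ω.2.2 (Csq472.tr e)) = P.map (fun ω : Cfg => ω.2.2)
  trans : ∀ t : P2,
    P.map (fun ω : Cfg => fun e : Edge => ω.2.2 (e.1 + t, e.2)) = P.map (fun ω : Cfg => ω.2.2)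

theorem measurable_hts : Measurable hts := by
  unfold hts
  fun_prop

theorem measurable_zc : Measurable (fun ω : Cfg => ω.2.2) := by fun_prop

theorem measurable_sw : Measurable sw := by
  unfold sw
  fun_prop

theorem measurable_pcut (c : ℝ) (e : Edge) : Measurable (fun w : Hts => pcut c w e) := by
  unfold pcut
  refine Measurable.ite (measurableSet_eq_fun (by fun_prop) (by fun_prop)) ?_ measurable_const
  exact Measurable.ite (measurableSet_eq_fun (by fun_prop) (by fun_prop)) measurable_const
    measurable_const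

theorem measurable_pcut' (c : ℝ) (e : Edge) : Measurable (fun w : Hts => pcut' c w e) := by
  unfold pcut'
  refine Measurable.ite (measurableSet_eq_fun (by fun_prop) (by fun_prop)) ?_ measurable_const
  exact Measurable.ite (measurableSet_eq_fun (by fun_prop) (by fun_prop)) measurable_const
    measurable_const

theorem measurable_Ep {X : Type*} [MeasurableSpace X] (S : Finset Edge) (p : X → Edge → ℝ)
    (hp : ∀ e, Measurable fun x => p x e) (f : Finset Edge → ℝ) :
    Measurable fun x => Ep S (p x) f := by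
  unfold Ep
  refine Finset.measurable_fun_sum _ fun A _ => ?_
  refine Measurable.mul_const ?_ _
  refine Finset.measurable_fun_prod _ fun e _ => ?_
  split_ifs
  · exact hp e
  · exact measurable_const.sub (hp e)

theorem Ep_bound {S : Finset Edge} {p : Edge → ℝ} (h0 : ∀ e ∈ S, 0 ≤ p e)
    (h1 : ∀ e ∈ S, p e ≤ 1) {f : Finset Edge → ℝ} {M : ℝ} (hf : ∀ A, |f A| ≤ M) :
    |Ep S p f| ≤ (2 : ℝ) ^ S.card * M := by
  unfold Ep
  refine (Finset.abs_sum_le_sum_abs _ _).trans ?_
  calc ∑ A ∈ S.powerset, |(∏ e ∈ S, if e ∈ A then p e else 1 - p e) * f A|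
      ≤ ∑ _A ∈ S.powerset, M := by
        refine Finset.sum_le_sum fun A _ => ?_
        rw [abs_mul]
        have hnn : 0 ≤ ∏ e ∈ S, (if e ∈ A then p e else 1 - p e) := by
          refine Finset.prod_nonneg fun e he => ?_
          split_ifs
          · exact h0 e he
          · linarith [h1 e he]
        have hle : ∏ e ∈ S, (if e ∈ A then p e else 1 - p e) ≤ 1 := by
          refine Finset.prod_le_one (fun e he => ?_) fun e he => ?_
          · split_ifs
            · exact h0 e he
            · linarith [h1 e he]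
          · split_ifs
            · exact h1 e he
            · linarith [h0 e he]
        rw [abs_of_nonneg hnn]
        calc _ ≤ 1 * |f A| := mul_le_mul_of_nonneg_right hle (abs_nonneg _)
          _ ≤ M := by rw [one_mul]; exact hf A
    _ = (2 : ℝ) ^ S.card * M := by
        rw [Finset.sum_const, Finset.card_powerset, nsmul_eq_mul]
        push_cast
        ring

theorem integrable_Ep {P : Measure Cfg} [IsProbabilityMeasure P] (S : Finset Edge)
    (p : Cfg → Edge → ℝ) (hp : ∀ e, Measurable fun x => p x e) (h0 : ∀ x e, 0 ≤ p x e)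
    (h1 : ∀ x e, p x e ≤ 1) (f : Finset Edge → ℝ) :
    Integrable (fun ω => Ep S (p ω) f) P := by
  have hM : ∃ M, ∀ A ∈ S.powerset, |f A| ≤ M := by
    refine ⟨∑ A ∈ S.powerset, |f A|, fun A hA => ?_⟩
    exact Finset.single_le_sum (f := fun A => |f A|) (fun _ _ => abs_nonneg _) hA
  obtain ⟨M, hM⟩ := hM
  have hM0 : 0 ≤ M := (abs_nonneg _).trans (hM ∅ (Finset.empty_mem_powerset S))
  have hf' : ∀ x, Ep S (p x) f = Ep S (p x) (fun A => if A ∈ S.powerset then f A else 0) := by
    intro x
    unfold Ep
    refine Finset.sum_congr rfl fun A hA => ?_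
    simp only [if_pos hA]
  refine Integrable.of_bound (C := (2 : ℝ) ^ S.card * M)
    (measurable_Ep S p hp f).aestronglyMeasurable (Filter.Eventually.of_forall fun x => ?_)
  rw [Real.norm_eq_abs, hf' x]
  refine Ep_bound (fun e _ => h0 x e) (fun e _ => h1 x e) fun A => ?_
  split_ifs with hA
  · exact hM A hA
  · simpa using hM0

/-- Sets of percolation configurations depending on finitely many edges are measurable. -/
theorem measurableSet_of_local (S : Finset Edge) (A : Set (Edge → Bool))
    (hA : ∀ z z' : Edge → Bool, (∀ e ∈ S, z e = z' e) → z ∈ A → z' ∈ A) : MeasurableSet A := by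
  classical
  have h : A = (fun (z : Edge → Bool) (e : S) => z e) ⁻¹'
      ((fun (z : Edge → Bool) (e : S) => z e) '' A) := by
    ext z
    constructor
    · intro hz; exact ⟨z, hz, rfl⟩
    · rintro ⟨z', hz', h⟩
      exact hA z' z (fun e he => congrFun h ⟨e, he⟩) hz'
  rw [h]
  have hm : Measurable (fun (z : Edge → Bool) (e : S) => z e) := by fun_prop
  exact hm (Set.toFinite _).measurableSet

open Classical in
/-- Probability of an event of the cut variables of `S` (in terms of the set of cut edges). -/
theorem prob_cut {c : ℝ} {P : Measure Cfg} [IsProbabilityMeasure P] (hc : 1 ≤ c)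
    (hCI : CondIndep c P) (S : Finset Edge) (Q : Finset Edge → Prop) :
    (P {ω | Q (S.filter fun e => ω.2.2 e = true)}).toReal =
      ∫ ω, Ep S (fun e => pcut c (hts ω) e) (fun A => if Q A then 1 else 0) ∂P := by
  have hset : {ω : Cfg | Q (S.filter fun e => ω.2.2 e = true)} =
      ⋃ A ∈ S.powerset.filter Q, {ω : Cfg | ∀ e ∈ S, ω.2.2 e = decide (e ∈ A)} := by
    ext ω
    simp only [Set.mem_ofPred_eq, Set.mem_iUnion, Finset.mem_filter, Finset.mem_powerset,
      exists_prop]
    constructor
    · intro h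
      refine ⟨S.filter fun e => ω.2.2 e = true, ⟨Finset.filter_subset _ _, h⟩, fun e he => ?_⟩
      by_cases hz : ω.2.2 e = true
      · rw [hz]; simp [he, hz]
      · have : ω.2.2 e = false := by simpa using hz
        rw [this]; simp [he, this]
    · rintro ⟨A, ⟨hA1, hA2⟩, hA3⟩
      have : (S.filter fun e => ω.2.2 e = true) = A := by
        ext e
        rw [Finset.mem_filter]
        constructor
        · rintro ⟨h1, h2⟩
          have := hA3 e h1
          rw [h2] at this
          simpa using this.symm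
        · intro h
          refine ⟨hA1 h, ?_⟩
          rw [hA3 e (hA1 h)]
          simpa using h
      rw [this]
      exact hA2
  have hmeas : ∀ A : Finset Edge,
      MeasurableSet {ω : Cfg | ∀ e ∈ S, ω.2.2 e = decide (e ∈ A)} := by
    intro A
    have : {ω : Cfg | ∀ e ∈ S, ω.2.2 e = decide (e ∈ A)} =
        (fun ω : Cfg => ω.2.2) ⁻¹' {z | ∀ e ∈ S, z e = decide (e ∈ A)} := rfl
    rw [this]
    refine measurable_zc (measurableSet_of_local S _ ?_)
    intro z z' hzz hz e he
    rw [← hzz e he]
    exact hz e he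
  have hdisj : Set.PairwiseDisjoint (↑(S.powerset.filter Q) : Set (Finset Edge))
      (fun A => {ω : Cfg | ∀ e ∈ S, ω.2.2 e = decide (e ∈ A)}) := by
    intro A hA B hB hAB
    rw [Function.onFun, Set.disjoint_left]
    intro ω h1 h2
    apply hAB
    have hAS : A ⊆ S := Finset.mem_powerset.1 (Finset.mem_filter.1 hA).1
    have hBS : B ⊆ S := Finset.mem_powerset.1 (Finset.mem_filter.1 hB).1
    ext e
    constructor
    · intro he
      have k1 := h1 e (hAS he)
      have k2 := h2 e (hAS he)
      rw [k1] at k2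
      simpa [he] using k2
    · intro he
      have k1 := h1 e (hBS he)
      have k2 := h2 e (hBS he)
      rw [k1] at k2
      simpa [he] using k2
  rw [hset, measure_biUnion_finset hdisj fun A _ => hmeas A,
    ENNReal.toReal_sum fun A _ => measure_ne_top _ _]
  have h1 : ∀ A : Finset Edge, (P {ω | ∀ e ∈ S, ω.2.2 e = decide (e ∈ A)}).toReal =
      ∫ ω, ∏ e ∈ S, (if e ∈ A then pcut c (hts ω) e else 1 - pcut c (hts ω) e) ∂P := by
    intro A
    rw [hCI S fun e => decide (e ∈ A)]
    simp only [decide_eq_true_eq]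
  rw [Finset.sum_congr rfl fun A _ => h1 A, ← integral_finsetSum]
  · congr 1
    ext ω
    unfold Ep
    rw [Finset.sum_filter]
    refine Finset.sum_congr rfl fun A _ => ?_
    by_cases h : Q A <;> simp [h]
  · intro A _
    have hi := integrable_Ep (P := P) S (fun ω e => pcut c (hts ω) e)
      (fun e => (measurable_pcut c e).comp measurable_hts) (fun _ _ => pcut_nonneg hc _ _)
      (fun _ _ => pcut_le_one hc _ _) (fun B => if B = A ∩ S then 1 else 0)
    refine hi.congr (Filter.Eventually.of_forall fun ω => ?_)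
    simp only
    unfold Ep
    rw [Finset.sum_eq_single_of_mem (A ∩ S) (Finset.mem_powerset.2 Finset.inter_subset_right)]
    · beta_reduce
      rw [if_pos rfl, mul_one]
      refine Finset.prod_congr rfl fun e he => ?_
      simp [he]
    · intro B _ hB
      beta_reduce
      rw [if_neg hB, mul_zero]

/-- flipping all edges -/
theorem Ep_compl [DecidableEq Edge] (S : Finset Edge) (p : Edge → ℝ) (f : Finset Edge → ℝ) :
    Ep S p f = Ep S (fun e => 1 - p e) (fun A => f (S \ A)) := by
  unfold Ep
  refine Finset.sum_nbij' (fun A => S \ A) (fun A => S \ A) ?_ ?_ ?_ ?_ ?_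
  · intro A _; exact Finset.mem_powerset.2 Finset.sdiff_subset
  · intro A _; exact Finset.mem_powerset.2 Finset.sdiff_subset
  · intro A hA; exact Finset.sdiff_sdiff_eq_self (Finset.mem_powerset.1 hA)
  · intro A hA; exact Finset.sdiff_sdiff_eq_self (Finset.mem_powerset.1 hA)
  · intro A hA
    beta_reduce
    rw [Finset.sdiff_sdiff_eq_self (Finset.mem_powerset.1 hA)]
    congr 1
    refine Finset.prod_congr rfl fun e he => ?_
    by_cases h : e ∈ A <;> simp [h, he]

/-! ### rectangles -/

open Classical in
/-- the finite set of edges `RE x0 x1 y0 y1` -/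
def reF (x0 x1 y0 y1 : ℤ) : Finset Edge :=
  ((Finset.Icc x0 x1 ×ˢ Finset.Icc y0 y1) ×ˢ Finset.univ).filter fun e => RE x0 x1 y0 y1 e

theorem mem_reF {x0 x1 y0 y1 : ℤ} {e : Edge} : e ∈ reF x0 x1 y0 y1 ↔ RE x0 x1 y0 y1 e := by
  classical
  unfold reF
  rw [Finset.mem_filter]
  constructor
  · exact fun h => h.2
  · intro h
    refine ⟨?_, h⟩
    simp only [Finset.mem_product, Finset.mem_Icc, Finset.mem_univ, and_true]
    unfold RE at h
    omega

theorem measurableSet_LRc (x0 x1 y0 y1 : ℤ) :
    MeasurableSet {z : Edge → Bool | LRc x0 x1 y0 y1 fun e => z e = true} := by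
  refine measurableSet_of_local (reF x0 x1 y0 y1) _ ?_
  intro z z' h hz
  exact LRc.mono (fun e he hze => by rw [← h e (mem_reF.2 he)]; exact hze) hz

theorem measurableSet_LRc' (x0 x1 y0 y1 : ℤ) :
    MeasurableSet {ω : Cfg | LRc x0 x1 y0 y1 fun e => ω.2.2 e = true} :=
  measurable_zc (measurableSet_LRc x0 x1 y0 y1)

/-- Translation invariance for left-right crossings. -/
theorem ZInv.lrc_le {P : Measure Cfg} (h : ZInv P) (x0 x1 y0 y1 : ℤ) (t : P2) :
    P {ω | LRc x0 x1 y0 y1 fun e => ω.2.2 e = true} ≤
      P {ω | LRc (x0 + t.1) (x1 + t.1) (y0 + t.2) (y1 + t.2) fun e => ω.2.2 e = true} := by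
  have h1 : (P.map (fun ω : Cfg => fun e : Edge => ω.2.2 (e.1 + t, e.2)))
      {z : Edge → Bool | LRc x0 x1 y0 y1 fun e => z e = true} =
      (P.map (fun ω : Cfg => ω.2.2)) {z : Edge → Bool | LRc x0 x1 y0 y1 fun e => z e = true} := by
    rw [h.trans t]
  rw [Measure.map_apply (by fun_prop) (measurableSet_LRc _ _ _ _),
    Measure.map_apply measurable_zc (measurableSet_LRc _ _ _ _)] at h1
  have h2 : P {ω : Cfg | LRc x0 x1 y0 y1 fun e => ω.2.2 e = true} =
      P {ω : Cfg | LRc x0 x1 y0 y1 fun e => ω.2.2 (e.1 + t, e.2) = true} := h1.symm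
  rw [h2]
  exact measure_mono fun ω hω => LRc.translate t hω

/-- **Dual crossings are dominated by primal crossings.** -/
theorem dbt_le {c : ℝ} (hc : 1 ≤ c) (hc2 : c ≤ 2) {P : Measure Cfg} [IsProbabilityMeasure P]
    (hv : ∀ᵐ ω ∂P, GValid ω) (hCI : CondIndep c P) (hSw : SwapInv P) (hZ : ZInv P)
    (x0 x1 y0 y1 : ℤ) :
    (P {ω | DBT x0 x1 y0 y1 fun e => ¬ ω.2.2 e = true}).toReal ≤
      (P {ω | LRc (y0 - 1) y1 x0 (x1 - 1) fun e => ω.2.2 e = true}).toReal := by
  classical
  set S := reF x0 x1 y0 y1 with hS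
  set S' := S.image sigInv with hS'
  have hSS' : S'.image sig = S := by
    rw [hS', Finset.image_image]
    have : sig ∘ sigInv = id := by
      funext e; exact sig_sigInv e
    rw [this, Finset.image_id]
  -- step 1
  have e1 : {ω : Cfg | DBT x0 x1 y0 y1 fun e => ¬ ω.2.2 e = true} =
      {ω : Cfg | (fun A : Finset Edge => DBT x0 x1 y0 y1 fun e => e ∉ A)
        (S.filter fun e => ω.2.2 e = true)} := by
    ext ω
    simp only [Set.mem_ofPred_eq]
    constructor
    · refine DBT.mono fun e _ h => ?_
      simp [h]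
    · refine DBT.mono fun e he h => ?_
      simpa [mem_reF.2 he, hS] using h
  rw [e1]
  refine (le_of_eq (prob_cut hc hCI S
    (fun A : Finset Edge => DBT x0 x1 y0 y1 fun e => e ∉ A))).trans ?_
  -- step 2
  set f : Finset Edge → ℝ := fun A => if DBT x0 x1 y0 y1 (fun e => e ∈ A) then 1 else 0 with hf
  have hfmono : ∀ A B : Finset Edge, A ⊆ B → f A ≤ f B := by
    intro A B hAB
    simp only [hf]
    by_cases h : DBT x0 x1 y0 y1 (fun e => e ∈ A)
    · rw [if_pos h, if_pos (DBT.mono (fun e _ he => hAB he) h)]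
    · rw [if_neg h]
      split_ifs <;> norm_num
  have e2 : ∀ᵐ ω ∂P, Ep S (fun e => pcut c (hts ω) e)
        (fun A => if (fun A : Finset Edge => DBT x0 x1 y0 y1 fun e => e ∉ A) A then 1 else 0) ≤
      Ep S' (fun e => pcut c (sw (hts ω)) e) (fun A => f (A.image sig)) := by
    filter_upwards [hv] with ω hω
    rw [Ep_compl]
    have e3 : Ep S (fun e => 1 - pcut c (hts ω) e)
        (fun A => if (fun A : Finset Edge => DBT x0 x1 y0 y1 fun e => e ∉ A) (S \ A)
          then 1 else 0) = Ep S (fun e => 1 - pcut c (hts ω) e) f := by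
      unfold Ep
      refine Finset.sum_congr rfl fun A hA => ?_
      congr 1
      simp only [hf]
      have : (DBT x0 x1 y0 y1 fun e => e ∉ S \ A) ↔ DBT x0 x1 y0 y1 fun e => e ∈ A := by
        constructor
        · refine DBT.mono fun e he h => ?_
          by_contra hA'
          exact h (Finset.mem_sdiff.2 ⟨mem_reF.2 he, hA'⟩)
        · refine DBT.mono fun e he h => ?_
          simp [h]
      simp only [this]
    rw [e3]
    refine (Ep_mono (q := pcut' c (hts ω)) (fun e _ => ?_) (fun e _ => ?_) (fun e _ => ?_)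
      hfmono).trans ?_
    · linarith [pcut_le_one hc (hts ω) e]
    · exact one_sub_pcut_le hc hc2 (cornerAt_of hω.corner e)
    · exact pcut'_le_one hc _ _
    · rw [← hSS', Ep_image sig sig_injective]
      refine le_of_eq (Ep_congr_p (fun e _ => ?_) _)
      exact pcut'_sig c (hts ω) e
  have hint1 := integrable_Ep (P := P) S (fun ω e => pcut c (hts ω) e)
      (fun e => (measurable_pcut c e).comp measurable_hts) (fun _ _ => pcut_nonneg hc _ _)
      (fun _ _ => pcut_le_one hc _ _)
      (fun A => if (fun A : Finset Edge => DBT x0 x1 y0 y1 fun e => e ∉ A) A then (1 : ℝ) else 0)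
  have hint2 := integrable_Ep (P := P) S' (fun ω e => pcut c (sw (hts ω)) e)
      (fun e => ((measurable_pcut c e).comp measurable_sw).comp measurable_hts)
      (fun _ _ => pcut_nonneg hc _ _)
      (fun _ _ => pcut_le_one hc _ _) (fun A => f (A.image sig))
  refine (integral_mono_ae hint1 hint2 e2).trans ?_
  -- step 3: exchange
  have hG : Measurable (fun w : Hts => Ep S' (fun e => pcut c w e) (fun A => f (A.image sig))) :=
    measurable_Ep S' (fun w e => pcut c w e) (fun e => measurable_pcut c e) _
  have e4 : ∫ ω, Ep S' (fun e => pcut c (sw (hts ω)) e) (fun A => f (A.image sig)) ∂P =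
      ∫ ω, Ep S' (fun e => pcut c (hts ω) e) (fun A => f (A.image sig)) ∂P := by
    rw [← integral_map (μ := P) (φ := fun ω => sw (hts ω))
      (measurable_sw.comp measurable_hts).aemeasurable
      (f := fun w : Hts => Ep S' (fun e => pcut c w e) (fun A => f (A.image sig)))
      hG.aestronglyMeasurable, hSw,
      integral_map measurable_hts.aemeasurable hG.aestronglyMeasurable]
  rw [e4]
  have e5 : (fun A : Finset Edge => f (A.image sig)) = fun A =>
      if (fun A : Finset Edge => DBT x0 x1 y0 y1 fun e => e ∈ A.image sig) A then 1 else 0 := by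
    funext A; simp only [hf]
  rw [e5]
  refine (le_of_eq (prob_cut hc hCI S'
    (fun A : Finset Edge => DBT x0 x1 y0 y1 fun e => e ∈ A.image sig)).symm).trans ?_
  -- step 4: transposition
  have h1 : (P.map (fun ω : Cfg => fun e => ω.2.2 (Csq472.tr e)))
      {z : Edge → Bool | LRc (y0 - 1) y1 x0 (x1 - 1) fun e => z e = true} =
      (P.map (fun ω : Cfg => ω.2.2))
        {z : Edge → Bool | LRc (y0 - 1) y1 x0 (x1 - 1) fun e => z e = true} := by
    rw [hZ.tr]
  rw [Measure.map_apply (by fun_prop) (measurableSet_LRc _ _ _ _),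
    Measure.map_apply measurable_zc (measurableSet_LRc _ _ _ _)] at h1
  have h2 : P {ω : Cfg | LRc (y0 - 1) y1 x0 (x1 - 1) fun e => ω.2.2 e = true} =
      P {ω : Cfg | LRc (y0 - 1) y1 x0 (x1 - 1) fun e => ω.2.2 (Csq472.tr e) = true} := h1.symm
  rw [h2]
  refine ENNReal.toReal_mono (measure_ne_top _ _) (measure_mono ?_)
  intro ω hω
  simp only [Set.mem_ofPred_eq] at hω ⊢
  rw [dbt_iff] at hω
  refine LRc.mono (fun e _ he => ?_) hω
  obtain ⟨x, hx, hxe⟩ := Finset.mem_image.1 he
  rw [← sig_injective hxe]
  exact (Finset.mem_filter.1 hx).2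

/-- **Crossings of squares by cut edges have probability `≥ 1/2`** (rectangle of length `n` and
height `n - 1`, at any place). -/
theorem cross_half {c : ℝ} (hc : 1 ≤ c) (hc2 : c ≤ 2) {P : Measure Cfg} [IsProbabilityMeasure P]
    (hv : ∀ᵐ ω ∂P, GValid ω) (hCI : CondIndep c P) (hSw : SwapInv P) (hZ : ZInv P)
    (x0 y0 : ℤ) (n : ℕ) (hn : 1 ≤ n) :
    1 / 2 ≤ (P {ω | LRc x0 (x0 + n) y0 (y0 + n - 1) fun e => ω.2.2 e = true}).toReal := by
  have h1 : (1 : ℝ) ≤ (P {ω | LRc x0 (x0 + n) y0 (y0 + n - 1) fun e => ω.2.2 e = true}).toReal +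
      (P {ω | DBT x0 (x0 + n) y0 (y0 + n - 1) fun e => ¬ ω.2.2 e = true}).toReal := by
    rw [← ENNReal.toReal_add (measure_ne_top _ _) (measure_ne_top _ _)]
    have : (1 : ENNReal) ≤ P {ω | LRc x0 (x0 + n) y0 (y0 + n - 1) fun e => ω.2.2 e = true} +
        P {ω | DBT x0 (x0 + n) y0 (y0 + n - 1) fun e => ¬ ω.2.2 e = true} := by
      rw [← measure_univ (μ := P)]
      refine (measure_mono ?_).trans (measure_union_le _ _)
      intro ω _
      rcases lrc_or_dbt x0 (x0 + n) y0 (y0 + n - 1) (by omega) (by omega)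
        (fun e => ω.2.2 e = true) with h | h
      · exact Or.inl h
      · exact Or.inr h
    have h3 := ENNReal.toReal_mono
      (ENNReal.add_ne_top.2 ⟨measure_ne_top _ _, measure_ne_top _ _⟩) this
    simpa using h3
  have h2 := dbt_le hc hc2 hv hCI hSw hZ x0 (x0 + n) y0 (y0 + n - 1)
  have h3 := hZ.lrc_le (y0 - 1) (y0 + n - 1) x0 (x0 + n - 1) (x0 - (y0 - 1), y0 - x0)
  have e1 : y0 - 1 + (x0 - (y0 - 1)) = x0 := by ring
  have e2 : y0 + (n : ℤ) - 1 + (x0 - (y0 - 1)) = x0 + n := by ring
  have e3 : x0 + (y0 - x0) = y0 := by ring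
  have e4 : x0 + (n : ℤ) - 1 + (y0 - x0) = y0 + n - 1 := by ring
  simp only [e1, e2, e3, e4] at h3
  have h4 := ENNReal.toReal_mono (measure_ne_top _ _) h3
  linarith

end Crest.Agent.R161.Csq472
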