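import Crest.Agent.R161.Csq3_472
import Crest.Agent.R161.NuInv_421
import Crest.Agent.R161.Tas1_682

/-!
# Row 161, leaf L3 (helper472), part 4: literal input of the Tassion theorem

* `zlaw_map_aut`, `zInv_of_isState` : invariance of the law of the cut variables, from `IsState`;
* `sq_crossing` : `∃ c0 > 0, ∀ n ≥ 1, c0 ≤ (nu P).real {z | LRc z 0 n 0 n}` (the hypothesis `sq` of
  `tassion`, helper682), from `IsState c P`, `CondIndep c P`, `SwapInv P`, `1 ≤ c ≤ 2`.
-/

set_option autoImplicit false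

noncomputable section

namespace Crest.Agent.R161.Csq472

open MeasureTheory Finset
open Crest.Agent.R161.Geo729 Crest.Agent.R161.Defs372 Crest.Agent.R161.Dual374
open Crest.Agent.R161.Hull374 Crest.Agent.R161.Ifc372 Crest.Agent.R161.Aut373
open Crest.Agent.R161.NuInv421 Crest.Agent.R161.Ring421

variable {c : ℝ} {P : Measure Cfg}

open Classical in
theorem zlaw_aut_loc (hP : IsState c P) (σ : Aut) {A : Set (Edge → Bool)} (hA : LocEv A) :
    (P.map fun ω : Cfg => zact σ ω.2.2).real A = (P.map fun ω : Cfg => ω.2.2).real A := by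
  have := hP.prob
  have hmA := hA.measurableSet
  obtain ⟨S, hS⟩ := hA
  set f : Cfg → ℝ := fun ω => if ω.2.2 ∈ A then 1 else 0 with hf
  have hloc : Loc ((S.image Prod.fst : Finset P2) : Set P2) f := by
    intro ω ω' h
    have h1 : ω.2.2 ∈ A ↔ ω'.2.2 ∈ A := by
      refine hS _ _ fun e he => ?_
      exact (h e.1 (Finset.mem_coe.2 (Finset.mem_image_of_mem _ he))).2.2 e.2
    simp only [hf, h1]
  have hn : Neut f := fun ω _ a _ => rfl
  have h1 := integral_aut hP σ hloc hn
  have hmz : Measurable (fun ω : Cfg => zact σ ω.2.2) := (measurable_zact σ).comp measurable_zc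
  have e1 : (P.map fun ω : Cfg => zact σ ω.2.2).real A = ∫ ω, f (σ.cfg ω) ∂P := by
    unfold Measure.real
    rw [Measure.map_apply hmz hmA]
    have : (fun ω : Cfg => f (σ.cfg ω)) =
        ((fun ω : Cfg => zact σ ω.2.2) ⁻¹' A).indicator (fun _ => (1 : ℝ)) := by
      funext ω
      simp only [hf, Set.indicator, Set.mem_preimage]
      rfl
    rw [this, integral_indicator (hmz hmA)]
    simp [Measure.real]
  have e2 : (P.map fun ω : Cfg => ω.2.2).real A = ∫ ω, f ω ∂P := by
    unfold Measure.real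
    rw [Measure.map_apply measurable_zc hmA]
    have : f = ((fun ω : Cfg => ω.2.2) ⁻¹' A).indicator (fun _ => (1 : ℝ)) := by
      funext ω
      simp only [hf, Set.indicator, Set.mem_preimage]
    rw [this, integral_indicator (measurable_zc hmA)]
    simp [Measure.real]
  rw [e1, e2, h1]

/-- Invariance of the law of the cut variables under lattice automorphisms. -/
theorem zlaw_map_aut (hP : IsState c P) (σ : Aut) :
    (P.map fun ω : Cfg => zact σ ω.2.2) = P.map fun ω : Cfg => ω.2.2 := by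
  have := hP.prob
  have i1 : IsProbabilityMeasure (P.map fun ω : Cfg => zact σ ω.2.2) :=
    Measure.isProbabilityMeasure_map ((measurable_zact σ).comp measurable_zc).aemeasurable
  have i2 : IsProbabilityMeasure (P.map fun ω : Cfg => ω.2.2) :=
    Measure.isProbabilityMeasure_map measurable_zc.aemeasurable
  exact ext_of_loc fun A hA => zlaw_aut_loc hP σ hA

/-- The state has the invariances required by `cross_half`. -/
theorem zInv_of_isState (hP : IsState c P) : ZInv P where
  tr := by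
    have h := zlaw_map_aut hP (Aut.ofRefl (Sym597.Refl.diag 0))
    have e : (fun ω : Cfg => zact (Aut.ofRefl (Sym597.Refl.diag 0)) ω.2.2) =
        fun ω : Cfg => fun e => ω.2.2 (Csq472.tr e) := by
      funext ω e
      obtain ⟨⟨a, b⟩, s⟩ := e
      cases s <;> simp [zact, Aut.ofRefl, Sym597.Refl.diag, Csq472.tr]
    rw [e] at h
    exact h
  trans := fun t => zlaw_map_aut hP (Aut.tr t)

/-- `RE`-crossings are crossings inside the rectangle (vertex form). -/
theorem LRc.toTas {x0 x1 y0 y1 : ℤ} {z : Edge → Bool} (hx : x0 ≤ x1)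
    (h : LRc x0 x1 y0 y1 fun e => z e = true) : Tas682.LRc z x0 x1 y0 y1 := by
  obtain ⟨a, b, h1, h2, h3, h4, h5⟩ := h
  refine ⟨a, b, h1, h4, ⟨?_, ?_, h2, h3⟩, ?_⟩
  · omega
  · omega
  · refine Relation.ReflTransGen.mono ?_ _ _ h5
    rintro u v ⟨e, ⟨he1, he2⟩, h⟩
    refine ⟨⟨e, he1, h⟩, ?_⟩
    obtain ⟨⟨p, q⟩, s⟩ := e
    rcases h with ⟨k1, k2⟩ | ⟨k1, k2⟩ <;> subst k1 k2 <;>
      rcases he2 with ⟨k1, k2, k3, k4, k5⟩ | ⟨k1, k2, k3, k4, k5⟩ <;>
      simp only at k1 k2 k3 k4 k5 <;> subst k1 <;>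
      simp only [src_mk, tgt_h, tgt_v, Tas682.Rect, Set.mem_ofPred_eq] <;> omega

/-- **Square crossings, literal hypothesis `sq` of `tassion`.** -/
theorem sq_crossing (hc : 1 ≤ c) (hc2 : c ≤ 2) (hP : IsState c P) (hCI : CondIndep c P)
    (hSw : SwapInv P) :
    ∃ c0 > (0 : ℝ), ∀ n : ℕ, 1 ≤ n → c0 ≤ (nu P).real {z | Tas682.LRc z 0 n 0 n} := by
  have := hP.prob
  refine ⟨1 / 4, by norm_num, fun n hn => ?_⟩
  have h := nu_cross_quarter hc hc2 hP.valid hCI hSw (zInv_of_isState hP) 0 0 n hn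
  refine h.trans ?_
  refine ENNReal.toReal_mono (measure_ne_top _ _) (measure_mono ?_)
  intro z hz
  have h1 := LRc.toTas (by omega) hz
  obtain ⟨u, v, hu, hv, hoc⟩ := h1
  refine ⟨u, v, hu, by rw [hv]; ring, hoc.monoS ?_⟩
  rintro ⟨p, q⟩ ⟨k1, k2, k3, k4⟩
  simp only at k1 k2 k3 k4
  simp only [Tas682.Rect, Set.mem_ofPred_eq]
  omega

end Crest.Agent.R161.Csq472
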