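import Crest.Agent.R161.Exp_760
import Crest.Agent.R161.Box_760

/-!
# Row 161: identification of the plane state (helper760)

`isState_of`: a probability measure `Q` on gradient configurations with the Markov property at the
explored domains (`QMarkov`) and with all boxes surrounded by cut circuits (`QSur`) is the limit of
all the zero boundary condition laws (`IsState c Q`), provided that the finite-volume laws of the cut
variables converge along simply connected domains (`ZConv`).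
-/

set_option autoImplicit false

noncomputable section

namespace Crest.Agent.R161.Iso760

open Finset hiding box
open Crest.Agent.R161.Geo729 Crest.Agent.R161.Defs372 MeasureTheory
open Crest.Agent.R161.Hull374 Crest.Agent.R161.Exp760 Crest.Agent.R161.Box760
open Crest.Agent.R161.Dmp341

/-- convergence of the laws of the cut variables along all simply connected domains -/
def ZConv (c : ℝ) : Prop :=
  ∀ (S : Finset Edge) (f : (Edge → Bool) → ℝ), (∀ z z' : Edge → Bool, (∀ e ∈ S, z e = z' e) → f z = f z') →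
    ∃ a : ℝ, ∀ ε : ℝ, 0 < ε → ∃ n : ℕ, ∀ F : Finset P2, Dom F → box n ⊆ F →
      |E c F (fun ω => f ω.2.2) - a| < ε

open Classical in
/-- Markov property at the explored domains -/
def QMarkov (c : ℝ) (Q : Measure Cfg) : Prop :=
  ∀ (n : ℕ) (D : Finset P2), Dom D → ((0, 0) : P2) ∈ D → D ⊆ box n →
    ∀ G : Cfg → ℝ, Loc (↑D : Set P2) G →
      ∫ ω, (if DF (box n) (0, 0) ω = D then G (norm0 ω) else 0) ∂Q =
        Q.real {ω | DF (box n) (0, 0) ω = D} * E c D (fun ω => G (norm0 ω))

/-- every box is surrounded by a cut circuit -/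
def QSur (Q : Measure Cfg) : Prop :=
  ∀ (m : ℕ) (ε : ℝ), 0 < ε → ∃ n : ℕ, m ≤ n ∧ Q.real {ω | ∃ f ∈ box m, f ∈ RR (box n) ω} < ε

/-! ### local events of the cut variables -/

/-- edges touching `B` -/
def tE (B : Finset P2) : Finset Edge :=
  (B ∪ B.image (fun f => (f.1 + 1, f.2)) ∪ B.image (fun f => (f.1, f.2 + 1))) ×ˢ Finset.univ

lemma mem_tE {B : Finset P2} {e : Edge} (h : fA e ∈ B ∨ fB e ∈ B) : e ∈ tE B := by
  obtain ⟨⟨a, b⟩, s⟩ := e
  simp only [tE, mem_product, mem_union, mem_image, mem_univ, and_true]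
  rcases h with h | h
  · exact Or.inl (Or.inl h)
  · cases s
    · simp only [fB_h] at h
      exact Or.inr ⟨_, h, by simp⟩
    · simp only [fB_v] at h
      exact Or.inl (Or.inr ⟨_, h, by simp⟩)

/-- a function of the cut variables near `B` is a local observable -/
lemma loc_of_z {α : Type*} (S : Finset Edge) {f : (Edge → Bool) → α}
    (hf : ∀ z z' : Edge → Bool, (∀ e ∈ S, z e = z' e) → f z = f z') :
    Loc (↑(S.image Prod.fst) : Set P2) (fun ω : Cfg => f ω.2.2) := by
  intro ω ω' h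
  refine hf _ _ fun e he => ?_
  have := (h e.1 (by simp only [coe_image]; exact ⟨e, he, rfl⟩)).2.2 e.2
  exact this

/-- the explored domain as a function of the cut variables -/
lemma DF_z (B : Finset P2) (x : P2) (ω : Cfg) : DF B x ω = DF B x (fun _ => 0, fun _ => 0, ω.2.2) :=
  DF_congr_B fun _ _ => rfl

open Classical in
/-- the indicator of `{DF = D}` as a function of the cut variables -/
def iD (B D : Finset P2) (z : Edge → Bool) : ℝ :=
  if DF B (0, 0) (fun _ => 0, fun _ => 0, z) = D then 1 else 0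

lemma iD_loc (B D : Finset P2) (z z' : Edge → Bool) (h : ∀ e ∈ tE B, z e = z' e) :
    iD B D z = iD B D z' := by
  unfold iD
  rw [DF_congr_B (ω := (fun _ => 0, fun _ => 0, z)) (ω' := (fun _ => 0, fun _ => 0, z'))
    fun e he => h e (mem_tE he)]

lemma iD_eq (B D : Finset P2) (ω : Cfg) [Decidable (DF B (0, 0) ω = D)] :
    iD B D ω.2.2 = if DF B (0, 0) ω = D then 1 else 0 := by
  unfold iD
  by_cases h : DF B (0, 0) ω = D
  · rw [if_pos h, if_pos (by rw [← DF_z]; exact h)]
  · rw [if_neg h, if_neg (by rw [← DF_z]; exact h)]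

lemma measurable_DF (B D : Finset P2) : MeasurableSet {ω : Cfg | DF B (0, 0) ω = D} := by
  classical
  have h1 := Loc.measurable (L := (tE B).image Prod.fst) (loc_of_z (tE B) (iD_loc B D))
  have h2 : {ω : Cfg | DF B (0, 0) ω = D} = (fun ω : Cfg => iD B D ω.2.2) ⁻¹' {1} := by
    ext ω
    simp only [Set.mem_ofPred_eq, Set.mem_preimage, Set.mem_singleton_iff, iD_eq]
    by_cases h : DF B (0, 0) ω = D <;> simp [h]
  rw [h2]
  exact h1 (measurableSet_singleton _)

lemma Pr_eq (c : ℝ) (F B D : Finset P2) :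
    Pr c F {ω | DF B (0, 0) ω = D} = E c F (fun ω => iD B D ω.2.2) := by
  classical
  unfold Pr
  refine E_congr fun ω _ => ?_
  rw [iD_eq]
  by_cases h : DF B (0, 0) ω = D <;> simp [h]

lemma integral_iD (Q : Measure Cfg) (B D : Finset P2) :
    ∫ ω, iD B D ω.2.2 ∂Q = Q.real {ω | DF B (0, 0) ω = D} := by
  classical
  rw [← integral_indicator_one (measurable_DF B D)]
  refine integral_congr_ae (Filter.Eventually.of_forall fun ω => ?_)
  simp only
  rw [iD_eq]
  by_cases h : DF B (0, 0) ω = D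
  · rw [if_pos h, Set.indicator_of_mem (by exact h)]; rfl
  · rw [if_neg h, Set.indicator_of_notMem (by exact h)]

/-- local functions of the cut variables are bounded -/
lemma z_bdd (S : Finset Edge) {f : (Edge → Bool) → ℝ}
    (hf : ∀ z z' : Edge → Bool, (∀ e ∈ S, z e = z' e) → f z = f z') : ∃ M : ℝ, 0 ≤ M ∧ ∀ z, |f z| ≤ M := by
  classical
  let g : (S → Bool) → ℝ := fun y => f fun e => if h : e ∈ S then y ⟨e, h⟩ else true
  obtain ⟨M, hM⟩ := (Set.finite_range fun y => |g y|).bddAbove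
  refine ⟨max M 0, le_max_right _ _, fun z => (hM ⟨fun e => z e, ?_⟩).trans (le_max_left _ _)⟩
  simp only [g]
  congr 1
  refine hf _ _ fun e he => ?_
  simp [he]


/-! ### the bad event -/

/-- the box `m` is not surrounded inside the box `n` -/
def bad (m n : ℕ) : Set Cfg := {ω | ¬ box m ⊆ DF (box n) (0, 0) ω}

lemma bad_sub {m n : ℕ} (hm : 1 ≤ m) {ω : Cfg} (h : ω ∈ bad m n) :
    ∃ f ∈ box m, f ∈ RR (box n) ω := by
  by_contra hcon
  push Not at hcon
  apply h
  have := sub_DF (B := box n) (x := (0, 0)) (ω := ω) (L := ↑(box m)) (box_conn m)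
    (by exact zero_mem_box hm) (fun f hf => hcon f hf)
  exact_mod_cast this

lemma ind_bad (m n : ℕ) (hm : 1 ≤ m) (ω : Cfg) [Decidable (ω ∈ bad m n)] :
    (if ω ∈ bad m n then (1 : ℝ) else 0) = 1 - ∑ D ∈ doms (box n) (box m), iD (box n) D ω.2.2 := by
  classical
  have h := sum_doms (B := box n) (box_sc n) (zero_mem_box hm) ω 1
  rw [Finset.sum_congr rfl fun D _ => iD_eq (box n) D ω, ← h]
  by_cases h1 : ω ∈ bad m n
  · have h2 : ¬ box m ⊆ DF (box n) (0, 0) ω := h1
    simp [h1, h2]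
  · have h2 : box m ⊆ DF (box n) (0, 0) ω := by
      by_contra h3; exact h1 h3
    simp [h1, h2]

lemma iD_nonneg (B D : Finset P2) (z : Edge → Bool) : 0 ≤ iD B D z := by
  unfold iD; split_ifs <;> norm_num

lemma iD_le_one (B D : Finset P2) (z : Edge → Bool) : iD B D z ≤ 1 := by
  unfold iD; split_ifs <;> norm_num

lemma abs_E_le {c : ℝ} (hc : 1 ≤ c) {F : Finset P2} {f g : Cfg → ℝ}
    (h : ∀ ω, Valid F ω → |f ω| ≤ g ω) : |E c F f| ≤ E c F g := by
  rw [abs_le]
  constructor
  · have h1 := E_mono hc (F := F) (f := fun ω => (-1) * g ω) (g := f)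
      fun ω hω => by have := (abs_le.1 (h ω hω)).1; linarith
    rw [E_smul] at h1
    linarith
  · exact E_mono hc fun ω hω => (abs_le.1 (h ω hω)).2

open Classical in
lemma Pr_bad {c : ℝ} (hc : 1 ≤ c) (F : Finset P2) {m n : ℕ} (hm : 1 ≤ m) :
    E c F (fun ω => if ω ∈ bad m n then (1 : ℝ) else 0) =
      1 - ∑ D ∈ doms (box n) (box m), E c F (fun ω => iD (box n) D ω.2.2) := by
  rw [← E_sum]
  rw [show (fun ω => if ω ∈ bad m n then (1 : ℝ) else 0) =
    fun ω => 1 - ∑ D ∈ doms (box n) (box m), iD (box n) D ω.2.2 from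
      funext fun ω => ind_bad m n hm ω]
  rw [E_sub, E_const hc]

lemma loc_norm0 {α : Type*} {S : Set P2} {G : Cfg → α} (hG : Loc S G) (h0 : ((0, 0) : P2) ∈ S) :
    Loc S (fun ω => G (norm0 ω)) := by
  intro ω ω' h
  refine hG _ _ fun v hv => ?_
  obtain ⟨h1, h2, h3⟩ := h v hv
  have h4 := (h _ h0).1
  refine ⟨?_, ?_, h3⟩
  · simp only [norm0, addH, h1, h4]
  · simp only [norm0, addH, h2, h4]

/-- finite-volume decomposition -/
lemma E_split {c : ℝ} (hc : 1 ≤ c) {F : Finset P2} {m n : ℕ} (hm : 1 ≤ m) (hmn : m ≤ n)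
    (hF : box n ⊆ F) {G : Cfg → ℝ} (hG : Loc (↑(box m) : Set P2) G) {M : ℝ}
    (hM : ∀ ω, CornerOn (box m) ω → |G (norm0 ω)| ≤ M) :
    |E c F (fun ω => G (norm0 ω)) -
      ∑ D ∈ doms (box n) (box m), E c F (fun ω => iD (box n) D ω.2.2) *
        E c D (fun ω => G (norm0 ω))| ≤
      M * (1 - ∑ D ∈ doms (box n) (box m), E c F (fun ω => iD (box n) D ω.2.2)) := by
  classical
  have h1 := E_explore hc (F := F) (box_sc n) hF (zero_mem_box hm) hG
  have h2 : ∑ D ∈ doms (box n) (box m), E c F (fun ω => iD (box n) D ω.2.2) *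
      E c D (fun ω => G (norm0 ω)) =
      E c F (fun ω => if box m ⊆ DF (box n) (0, 0) ω then G (norm0 ω) else 0) := by
    rw [h1]
    exact Finset.sum_congr rfl fun D _ => by rw [Pr_eq]
  rw [h2, ← E_sub, ← Pr_bad hc F hm, ← E_smul]
  refine abs_E_le hc fun ω hω => ?_
  by_cases h3 : box m ⊆ DF (box n) (0, 0) ω
  · have h4 : ω ∉ bad m n := fun h => h h3
    simp [h3, h4]
  · have h4 : ω ∈ bad m n := h3
    simp only [h3, h4, if_true, if_false, sub_zero, mul_one]
    exact hM ω (cornerOn_of_valid hω ((box_mono hmn).trans hF))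

section Q

variable {c : ℝ} {Q : Measure Cfg}

lemma integrable_norm0 [IsProbabilityMeasure Q] (hv : ∀ᵐ ω ∂Q, GValid ω) {m : ℕ} (hm : 1 ≤ m)
    {G : Cfg → ℝ} (hG : Loc (↑(box m) : Set P2) G) : Integrable (fun ω => G (norm0 ω)) Q := by
  obtain ⟨M, -, hM⟩ := bdd_norm0 (box_conn m) (zero_mem_box hm) hG
  refine Integrable.of_bound
    (Loc.measurable (L := box m) (loc_norm0 hG (zero_mem_box hm))).aestronglyMeasurable M ?_
  filter_upwards [hv] with ω hω
  exact hM ω (cornerOn_of_gvalid hω)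

lemma Q_bad [IsProbabilityMeasure Q] {m n : ℕ} (hm : 1 ≤ m) :
    Q.real (bad m n) = 1 - ∑ D ∈ doms (box n) (box m), Q.real {ω | DF (box n) (0, 0) ω = D} := by
  classical
  have hmeas : MeasurableSet (bad m n) := by
    have : bad m n = (⋃ D ∈ doms (box n) (box m), {ω | DF (box n) (0, 0) ω = D})ᶜ := by
      ext ω
      simp only [Set.mem_compl_iff, Set.mem_iUnion, Set.mem_ofPred_eq]
      constructor
      · rintro h ⟨D, hD, h2⟩
        exact h (h2 ▸ (mem_doms.1 hD).2.1)
      · intro h h1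
        exact h ⟨DF (box n) (0, 0) ω, mem_doms.2 ⟨DF_sub _ _ _, h1,
          DF_dom (box_sc n) (mem_DF_not_RR (h1 (zero_mem_box hm)))⟩, rfl⟩
    rw [this]
    exact (Finset.measurableSet_biUnion _ fun D _ => measurable_DF _ D).compl
  rw [← integral_indicator_one hmeas]
  have h1 : (bad m n).indicator (1 : Cfg → ℝ) =
      fun ω => 1 - ∑ D ∈ doms (box n) (box m), iD (box n) D ω.2.2 := by
    funext ω
    rw [← ind_bad m n hm ω]
    rfl
  have hint : ∀ D ∈ doms (box n) (box m), Integrable (fun ω : Cfg => iD (box n) D ω.2.2) Q := by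
    intro D _
    refine Integrable.of_bound (Loc.measurable (L := (tE (box n)).image Prod.fst)
      (loc_of_z (tE (box n)) (iD_loc (box n) D))).aestronglyMeasurable 1
      (Filter.Eventually.of_forall fun ω => ?_)
    rw [Real.norm_of_nonneg (iD_nonneg _ _ _)]
    exact iD_le_one _ _ _
  rw [h1, integral_sub (integrable_const _) (integrable_finsetSum _ hint),
    integral_finsetSum _ hint]
  simp only [integral_iD, integral_const, probReal_univ, smul_eq_mul, mul_one]

/-- infinite-volume decomposition -/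
lemma Q_split [IsProbabilityMeasure Q] (hv : ∀ᵐ ω ∂Q, GValid ω) (hQ : QMarkov c Q) {m n : ℕ}
    (hm : 1 ≤ m) {G : Cfg → ℝ} (hG : Loc (↑(box m) : Set P2) G) {M : ℝ} 
    (hM : ∀ ω, CornerOn (box m) ω → |G (norm0 ω)| ≤ M) :
    |∫ ω, G (norm0 ω) ∂Q -
      ∑ D ∈ doms (box n) (box m), Q.real {ω | DF (box n) (0, 0) ω = D} *
        E c D (fun ω => G (norm0 ω))| ≤ M * Q.real (bad m n) := by
  classical
  have hint := integrable_norm0 hv hm hG
  have hmeasD := fun D => measurable_DF (box n) D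
  have h1 : ∀ D ∈ doms (box n) (box m), Q.real {ω | DF (box n) (0, 0) ω = D} *
      E c D (fun ω => G (norm0 ω)) =
      ∫ ω, ({ω | DF (box n) (0, 0) ω = D}.indicator fun ω => G (norm0 ω)) ω ∂Q := by
    intro D hD
    rw [mem_doms] at hD
    rw [← hQ n D hD.2.2 (hD.2.1 (zero_mem_box hm)) hD.1 G
      (Loc.mono hG (by exact_mod_cast hD.2.1))]
    refine integral_congr_ae (Filter.Eventually.of_forall fun ω => ?_)
    simp only
    by_cases h : DF (box n) (0, 0) ω = D
    · rw [if_pos h, Set.indicator_of_mem (by exact h)]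
    · rw [if_neg h, Set.indicator_of_notMem (by exact h)]
  have hintD : ∀ D ∈ doms (box n) (box m), Integrable
      ({ω | DF (box n) (0, 0) ω = D}.indicator fun ω => G (norm0 ω)) Q :=
    fun D _ => hint.indicator (hmeasD D)
  rw [Finset.sum_congr rfl h1, ← integral_finsetSum _ hintD, ← integral_sub hint
    (integrable_finsetSum _ hintD)]
  have hbm : MeasurableSet (bad m n) := by
    have : bad m n = (⋃ D ∈ doms (box n) (box m), {ω | DF (box n) (0, 0) ω = D})ᶜ := by
      ext ω
      simp only [Set.mem_compl_iff, Set.mem_iUnion, Set.mem_ofPred_eq]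
      constructor
      · rintro h ⟨D, hD, h2⟩
        exact h (h2 ▸ (mem_doms.1 hD).2.1)
      · intro h h1
        exact h ⟨DF (box n) (0, 0) ω, mem_doms.2 ⟨DF_sub _ _ _, h1,
          DF_dom (box_sc n) (mem_DF_not_RR (h1 (zero_mem_box hm)))⟩, rfl⟩
    rw [this]
    exact (Finset.measurableSet_biUnion _ fun D _ => measurable_DF _ D).compl
  have h2 : M * Q.real (bad m n) = ∫ ω, ((bad m n).indicator fun _ => M) ω ∂Q := by
    rw [integral_indicator_const _ hbm, smul_eq_mul, mul_comm]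
  rw [h2, ← Real.norm_eq_abs]
  refine norm_integral_le_of_norm_le ((integrable_const M).indicator hbm) ?_
  filter_upwards [hv] with ω hω
  have h3 := sum_doms (B := box n) (box_sc n) (zero_mem_box hm) ω (G (norm0 ω))
  have h4 : ∑ D ∈ doms (box n) (box m),
      ({ω | DF (box n) (0, 0) ω = D}.indicator fun ω => G (norm0 ω)) ω =
      if box m ⊆ DF (box n) (0, 0) ω then G (norm0 ω) else 0 := by
    rw [h3]
    refine Finset.sum_congr rfl fun D _ => ?_
    by_cases h : DF (box n) (0, 0) ω = D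
    · rw [if_pos h, Set.indicator_of_mem (by exact h)]
    · rw [if_neg h, Set.indicator_of_notMem (by exact h)]
  rw [h4]
  by_cases h5 : box m ⊆ DF (box n) (0, 0) ω
  · rw [if_pos h5, sub_self, norm_zero]
    exact Set.indicator_nonneg (fun _ _ => (abs_nonneg _).trans (hM ω (cornerOn_of_gvalid hω))) ω
  · rw [if_neg h5, sub_zero, Set.indicator_of_mem (by exact h5)]
    exact hM ω (cornerOn_of_gvalid hω)


/-- the law of the cut variables under `Q` is the finite-volume limit -/
theorem Q_z [IsProbabilityMeasure Q] (_hc : 1 ≤ c) (hv : ∀ᵐ ω ∂Q, GValid ω) (hQ : QMarkov c Q)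
    (hS : QSur Q) (S : Finset Edge) {f : (Edge → Bool) → ℝ}
    (hf : ∀ z z' : Edge → Bool, (∀ e ∈ S, z e = z' e) → f z = f z') {a : ℝ}
    (ha : ∀ ε : ℝ, 0 < ε → ∃ n : ℕ, ∀ F : Finset P2, Dom F → box n ⊆ F →
      |E c F (fun ω => f ω.2.2) - a| < ε) : ∫ ω, f ω.2.2 ∂Q = a := by
  obtain ⟨M, hM0, hM⟩ := z_bdd S hf
  have key : ∀ ε : ℝ, 0 < ε → |∫ ω, f ω.2.2 ∂Q - a| ≤ (M + 1 + |a|) * ε := by
    intro ε hε
    obtain ⟨n0, hn0⟩ := ha ε hε
    obtain ⟨s, hs⟩ := exists_box (S.image Prod.fst)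
    set m := max (max n0 s) 1 with hm
    have hm1 : 1 ≤ m := le_max_right _ _
    obtain ⟨n, hmn, hn⟩ := hS m ε hε
    have hG : Loc (↑(box m) : Set P2) (fun ω : Cfg => f ω.2.2) :=
      Loc.mono (loc_of_z S hf) (by
        exact_mod_cast hs.trans (box_mono ((le_max_right _ _).trans (le_max_left _ _))))
    have h1 := Q_split (n := n) hv hQ hm1 hG (M := M) fun ω _ => hM _
    have hbad : Q.real (bad m n) ≤ ε := by
      refine le_trans (measureReal_mono (fun ω hω => ?_)) hn.le
      exact bad_sub hm1 hω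
    have hbad0 : 0 ≤ Q.real (bad m n) := measureReal_nonneg
    have hsum := Q_bad (Q := Q) (n := n) hm1
    set p : Finset P2 → ℝ := fun D => Q.real {ω | DF (box n) (0, 0) ω = D} with hp
    have hp0 : ∀ D, 0 ≤ p D := fun D => measureReal_nonneg
    have hED : ∀ D ∈ doms (box n) (box m), |E c D (fun ω => f ω.2.2) - a| ≤ ε := by
      intro D hD
      rw [mem_doms] at hD
      exact (hn0 D hD.2.2 ((box_mono ((le_max_left _ _).trans (le_max_left _ _))).trans hD.2.1)).le
    have h2 : |∑ D ∈ doms (box n) (box m), p D * E c D (fun ω => f ω.2.2) - a| ≤ (1 + |a|) * ε := by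
      have e1 : ∑ D ∈ doms (box n) (box m), p D * E c D (fun ω => f ω.2.2) - a =
          ∑ D ∈ doms (box n) (box m), p D * (E c D (fun ω => f ω.2.2) - a) -
            a * Q.real (bad m n) := by
        rw [hsum]
        simp only [mul_sub, Finset.sum_sub_distrib, ← Finset.sum_mul]
        ring
      rw [e1]
      refine (abs_sub _ _).trans ?_
      have h3 : |∑ D ∈ doms (box n) (box m), p D * (E c D (fun ω => f ω.2.2) - a)| ≤
          ∑ D ∈ doms (box n) (box m), p D * ε := by
        refine (Finset.abs_sum_le_sum_abs _ _).trans (Finset.sum_le_sum fun D hD => ?_)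
        rw [abs_mul, abs_of_nonneg (hp0 D)]
        exact mul_le_mul_of_nonneg_left (hED D hD) (hp0 D)
      have h4 : ∑ D ∈ doms (box n) (box m), p D * ε ≤ ε := by
        rw [← Finset.sum_mul]
        have : ∑ D ∈ doms (box n) (box m), p D = 1 - Q.real (bad m n) := by rw [hsum]; ring
        rw [this]
        nlinarith
      have h5 : |a * Q.real (bad m n)| ≤ |a| * ε := by
        rw [abs_mul, abs_of_nonneg hbad0]
        exact mul_le_mul_of_nonneg_left hbad (abs_nonneg _)
      linarith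
    have h6 : M * Q.real (bad m n) ≤ M * ε := mul_le_mul_of_nonneg_left hbad hM0
    have h7 := abs_sub_le (∫ ω, f ω.2.2 ∂Q)
      (∑ D ∈ doms (box n) (box m), p D * E c D (fun ω => f ω.2.2)) a
    calc |∫ ω, f ω.2.2 ∂Q - a| ≤ _ := h7
      _ ≤ M * ε + (1 + |a|) * ε := add_le_add (h1.trans h6) h2
      _ = (M + 1 + |a|) * ε := by ring
  by_contra hne
  have hpos : 0 < |∫ ω, f ω.2.2 ∂Q - a| := abs_pos.2 (sub_ne_zero.2 hne)
  have hC : 0 < M + 1 + |a| := by positivity
  have := key (|∫ ω, f ω.2.2 ∂Q - a| / (2 * (M + 1 + |a|))) (by positivity)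
  have h8 : (M + 1 + |a|) * (|∫ ω, f ω.2.2 ∂Q - a| / (2 * (M + 1 + |a|))) =
      |∫ ω, f ω.2.2 ∂Q - a| / 2 := by field_simp
  rw [h8] at this
  linarith

lemma norm0_of_gvalid {ω : Cfg} (h : GValid ω) : norm0 ω = ω := by
  unfold norm0 addH
  rw [h.zero]
  simp

/-- **Identification of the plane state.** -/
theorem isState_of [IsProbabilityMeasure Q] (hc : 1 ≤ c) (hZ : ZConv c)
    (hv : ∀ᵐ ω ∂Q, GValid ω) (hQ : QMarkov c Q) (hS : QSur Q) : IsState c Q := by
  classical
  refine ⟨inferInstance, hv, fun S G hG ε hε => ?_⟩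
  obtain ⟨s, hs⟩ := exists_box S
  set m := max s 1 with hm
  have hm1 : 1 ≤ m := le_max_right _ _
  have hGm : Loc (↑(box m) : Set P2) G :=
    Loc.mono hG (by exact_mod_cast hs.trans (box_mono (le_max_left _ _)))
  obtain ⟨M, hM0, hM⟩ := bdd_norm0 (box_conn m) (zero_mem_box hm1) hGm
  set ε' := ε / (8 * (M + 1)) with hε'
  have hε'0 : 0 < ε' := by positivity
  obtain ⟨n, hmn, hn⟩ := hS m ε' hε'0
  set p : Finset P2 → ℝ := fun D => Q.real {ω | DF (box n) (0, 0) ω = D} with hp
  set T := doms (box n) (box m) with hT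
  have hlim : ∀ D, ∃ N : ℕ, ∀ F : Finset P2, Dom F → box N ⊆ F →
      |E c F (fun ω => iD (box n) D ω.2.2) - p D| < ε' / (T.card + 1) := by
    intro D
    obtain ⟨a, ha⟩ := hZ (tE (box n)) (iD (box n) D) (iD_loc (box n) D)
    have h1 := Q_z hc hv hQ hS (tE (box n)) (iD_loc (box n) D) ha
    rw [integral_iD] at h1
    obtain ⟨N, hN⟩ := ha (ε' / (T.card + 1)) (by positivity)
    exact ⟨N, fun F hF hNF => by rw [hp]; simp only; rw [h1]; exact hN F hF hNF⟩
  choose N hN using hlim
  refine ⟨max n (T.sup N), fun F hF hFn => ?_⟩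
  have hnF : box n ⊆ F := (box_mono (le_max_left _ _)).trans hFn
  have h1 := E_split hc hm1 hmn hnF hGm hM
  have h2 := Q_split (n := n) hv hQ hm1 hGm hM
  have hb := Q_bad (Q := Q) (n := n) hm1
  have hbad : Q.real (bad m n) ≤ ε' := by
    refine le_trans (measureReal_mono (fun ω hω => ?_)) hn.le
    exact bad_sub hm1 hω
  have hnear : ∑ D ∈ T, |E c F (fun ω => iD (box n) D ω.2.2) - p D| ≤ ε' := by
    have h3 : ∀ D ∈ T, |E c F (fun ω => iD (box n) D ω.2.2) - p D| ≤ ε' / (T.card + 1) :=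
      fun D hD => (hN D F hF ((box_mono ((Finset.le_sup hD).trans (le_max_right _ _))).trans hFn)).le
    refine (Finset.sum_le_card_nsmul _ _ _ h3).trans ?_
    rw [nsmul_eq_mul, ← mul_div_assoc, div_le_iff₀ (by positivity)]
    nlinarith
  have hED : ∀ D ∈ T, |E c D (fun ω => G (norm0 ω))| ≤ M := by
    intro D hD
    rw [hT, mem_doms] at hD
    have := abs_E_le hc (F := D) (f := fun ω => G (norm0 ω)) (g := fun _ => M)
      fun ω hω => hM ω (cornerOn_of_valid hω hD.2.1)
    rwa [E_const hc] at this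
  have h4 : |∑ D ∈ T, E c F (fun ω => iD (box n) D ω.2.2) * E c D (fun ω => G (norm0 ω)) -
      ∑ D ∈ T, p D * E c D (fun ω => G (norm0 ω))| ≤ M * ε' := by
    rw [← Finset.sum_sub_distrib]
    refine (Finset.abs_sum_le_sum_abs _ _).trans ?_
    calc ∑ D ∈ T, |E c F (fun ω => iD (box n) D ω.2.2) * E c D (fun ω => G (norm0 ω)) -
          p D * E c D (fun ω => G (norm0 ω))|
        ≤ ∑ D ∈ T, M * |E c F (fun ω => iD (box n) D ω.2.2) - p D| := by
          refine Finset.sum_le_sum fun D hD => ?_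
          rw [← sub_mul, abs_mul, mul_comm]
          exact mul_le_mul_of_nonneg_right (hED D hD) (abs_nonneg _)
      _ = M * ∑ D ∈ T, |E c F (fun ω => iD (box n) D ω.2.2) - p D| := by rw [Finset.mul_sum]
      _ ≤ M * ε' := mul_le_mul_of_nonneg_left hnear hM0
  have h5 : 1 - ∑ D ∈ T, E c F (fun ω => iD (box n) D ω.2.2) ≤ 2 * ε' := by
    have h6 : ∑ D ∈ T, p D - ∑ D ∈ T, E c F (fun ω => iD (box n) D ω.2.2) ≤ ε' := by
      rw [← Finset.sum_sub_distrib]
      refine le_trans (Finset.sum_le_sum fun D _ => ?_) hnear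
      rw [abs_sub_comm]
      exact le_abs_self _
    have h7 : Q.real (bad m n) = 1 - ∑ D ∈ T, p D := hb
    linarith
  have h8 : ∫ ω, G ω ∂Q = ∫ ω, G (norm0 ω) ∂Q := by
    refine integral_congr_ae ?_
    filter_upwards [hv] with ω hω
    rw [norm0_of_gvalid hω]
  rw [h8]
  have h9 := abs_sub_le (E c F (fun ω => G (norm0 ω)))
    (∑ D ∈ T, E c F (fun ω => iD (box n) D ω.2.2) * E c D (fun ω => G (norm0 ω)))
    (∫ ω, G (norm0 ω) ∂Q)
  have h10 := abs_sub_le
    (∑ D ∈ T, E c F (fun ω => iD (box n) D ω.2.2) * E c D (fun ω => G (norm0 ω)))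
    (∑ D ∈ T, p D * E c D (fun ω => G (norm0 ω)))
    (∫ ω, G (norm0 ω) ∂Q)
  rw [abs_sub_comm] at h2
  have h11 : M * (1 - ∑ D ∈ T, E c F (fun ω => iD (box n) D ω.2.2)) ≤ M * (2 * ε') :=
    mul_le_mul_of_nonneg_left h5 hM0
  have h12 : M * Q.real (bad m n) ≤ M * ε' := mul_le_mul_of_nonneg_left hbad hM0
  have h13 : 4 * (M * ε') < ε := by
    rw [hε']
    rw [show 4 * (M * (ε / (8 * (M + 1)))) = ε * (M / (2 * (M + 1))) by field_simp; ring]
    have : M / (2 * (M + 1)) < 1 := by
      rw [div_lt_one (by positivity)]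
      linarith
    nlinarith
  linarith

end Q

end Crest.Agent.R161.Iso760
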