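import Crest.Agent.R161.SwT_597
import Crest.Agent.R161.Qb_760
import Crest.Agent.R161.Iso_760

/-!
# Row 161: dictionary between six-vertex and Ashkin–Teller coordinates (helper760)

* `H6 κ` : six-vertex height function of Ashkin–Teller heights; `H6_vert`, `H6_face`, `cover`
* `dx_cf`, `dy_cf`, `ice_cf'`, `relH_cf`, `cf_relH`
* `CV κ` : corner condition in the whole plane; `stp_H6`
* `cv_glue`, `valid_ins'`
* `e6` : six-vertex vertex of an edge; `wf c κ e` : weight; `wf_eq`
-/

set_option autoImplicit false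

noncomputable section

namespace Crest.Agent.R161.Mkv760

open MeasureTheory
open Crest.Agent.R161.Geo729 Crest.Agent.R161.Defs372 Crest.Agent.R161.Dmp341
open Crest.Agent.R150.Hgt989 (Conf relH Ice dx dy relH_succ_snd relH_succ_fst relH_zero)
open Crest.Agent.R150.Pls989 (IsPlane)
open Crest.Agent.R161.ExInv792 (KH khmap hts measurable_khmap measurable_hts)
open Crest.Agent.R161.SwT597 (Stp cf NC)
open Crest.Agent.R161.Qb760

/-! ### coordinates -/

/-- six-vertex height function of Ashkin–Teller heights -/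
def H6 (κ : KH) (x : ℤ × ℤ) : ℤ :=
  if (x.1 + x.2) % 2 = 0 then κ.1 ((x.1 - x.2) / 2, (x.1 + x.2) / 2)
  else κ.2 ((x.1 - x.2 - 1) / 2, (x.1 + x.2 - 1) / 2)

/-- six-vertex face of a vertex -/
def v6 (v : P2) : ℤ × ℤ := (v.1 + v.2, v.2 - v.1)
/-- six-vertex face of a face -/
def f6 (f : P2) : ℤ × ℤ := (f.1 + f.2 + 1, f.2 - f.1)

lemma H6_vert (κ : KH) (v : P2) : H6 κ (v6 v) = κ.1 v := by
  obtain ⟨a, b⟩ := v
  unfold H6 v6
  simp only
  have h1 : (a + b + (b - a)) % 2 = 0 := by omega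
  rw [if_pos h1, show (a + b - (b - a)) / 2 = a by omega, show (a + b + (b - a)) / 2 = b by omega]

lemma H6_face (κ : KH) (f : P2) : H6 κ (f6 f) = κ.2 f := by
  obtain ⟨a, b⟩ := f
  unfold H6 f6
  simp only
  have h1 : ¬ (a + b + 1 + (b - a)) % 2 = 0 := by omega
  rw [if_neg h1, show (a + b + 1 - (b - a) - 1) / 2 = a by omega,
    show (a + b + 1 + (b - a) - 1) / 2 = b by omega]

lemma cover (x : ℤ × ℤ) : (∃ v : P2, x = v6 v) ∨ (∃ f : P2, x = f6 f) := by
  obtain ⟨p, q⟩ := x
  unfold v6 f6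
  by_cases h : (p + q) % 2 = 0
  · left
    refine ⟨((p - q) / 2, (p + q) / 2), ?_⟩
    ext
    · simp only; omega
    · simp only; omega
  · right
    refine ⟨((p - q - 1) / 2, (p + q - 1) / 2), ?_⟩
    ext
    · simp only; omega
    · simp only; omega

lemma H6_khmap (w : Conf) : H6 (khmap w) = fun x => relH w x.1 x.2 := by
  funext x
  rcases cover x with ⟨v, rfl⟩ | ⟨f, rfl⟩
  · rw [H6_vert]; rfl
  · rw [H6_face]; rfl

/-! ### arrows of a height function -/

lemma dx_cf {H : ℤ × ℤ → ℤ} (h : Stp H) (p q : ℤ) :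
    dx (cf H) (p, q) = H (p, q) - H (p - 1, q) := by
  have h1 := (h (p - 1) q).1
  rw [sub_add_cancel] at h1
  unfold dx cf
  simp only [decide_eq_true_eq]
  split_ifs with h2
  · exact h2.symm
  · rcases (abs_eq (by norm_num)).1 h1 with h3 | h3
    · exact h3.symm
    · exact absurd h3 h2

lemma dy_cf {H : ℤ × ℤ → ℤ} (h : Stp H) (p q : ℤ) :
    dy (cf H) (p, q) = H (p, q) - H (p, q - 1) := by
  have h1 := (h p (q - 1)).2
  rw [sub_add_cancel] at h1
  unfold dy cf
  simp only [decide_eq_true_eq]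
  split_ifs with h2
  · exact h2.symm
  · rcases (abs_eq (by norm_num)).1 h1 with h3 | h3
    · exact absurd h3 h2
    · exact h3.symm

lemma ice_cf' {H : ℤ × ℤ → ℤ} (h : Stp H) : Ice (cf H) := by
  intro p q
  rw [dx_cf h, dy_cf h, dy_cf h, dx_cf h]
  simp only [add_sub_cancel_right]
  ring

lemma relH_cf {H : ℤ × ℤ → ℤ} (h : Stp H) (p q : ℤ) :
    relH (cf H) p q = H (p, q) - H (0, 0) := by
  have hp : ∀ p : ℤ, relH (cf H) p 0 = H (p, 0) - H (0, 0) := by
    intro p
    induction p using Int.induction_on with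
    | zero => simp
    | succ p ih =>
      rw [relH_succ_fst (ice_cf' h), ih, dx_cf h, add_sub_cancel_right]
      ring
    | pred p ih =>
      have h1 := relH_succ_fst (ice_cf' h) (-(p : ℤ) - 1) 0
      rw [sub_add_cancel, ih, dx_cf h] at h1
      linarith
  induction q using Int.induction_on with
  | zero => exact hp p
  | succ q ih =>
    rw [relH_succ_snd, ih, dy_cf h, add_sub_cancel_right]
    ring
  | pred q ih =>
    have h1 := relH_succ_snd (cf H) p (-(q : ℤ) - 1)
    rw [sub_add_cancel, ih, dy_cf h] at h1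
    linarith

lemma cf_relH {w : Conf} (h : Ice w) : cf (fun x => relH w x.1 x.2) = w := by
  funext v
  obtain ⟨p, q⟩ := v
  have h1 := relH_succ_snd w p (q - 1)
  have h2 := relH_succ_fst h (p - 1) q
  rw [sub_add_cancel] at h1 h2
  unfold cf
  simp only [h1, add_sub_cancel_left]
  have h3 : relH w p (q - 1) + dy w (p, q) - relH w (p - 1) q = dx w (p, q) := by
    rw [← h1, h2]; ring
  rw [h3]
  unfold dx dy
  ext
  · by_cases h4 : (w (p, q)).1 = true
    · simp [h4]
    · simp [h4]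
  · by_cases h4 : (w (p, q)).2 = true
    · simp [h4]
    · simp [h4]

/-! ### corner condition in the plane -/

/-- even vertex heights, corner condition everywhere -/
structure CV (κ : KH) : Prop where
  ev : ∀ v, Even (κ.1 v)
  corner : ∀ f v, Geo729.IsCorner v f → |κ.1 v - κ.2 f| = 1

lemma stp_H6 {κ : KH} (h : CV κ) : Stp (H6 κ) := by
  intro p q
  rcases cover (p, q) with ⟨v, hv⟩ | ⟨f, hf⟩
  · obtain ⟨a, b⟩ := v
    have e0 := hv
    unfold v6 at e0
    simp only [Prod.mk.injEq] at e0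
    have e1 : (p + 1, q) = f6 (a, b) := by unfold f6; ext <;> simp only <;> omega
    have e2 : (p, q + 1) = f6 (a - 1, b) := by unfold f6; ext <;> simp only <;> omega
    rw [hv, e1, e2, H6_vert, H6_face, H6_face]
    constructor
    · rw [abs_sub_comm]; exact h.corner _ _ (by simp [Geo729.IsCorner])
    · rw [abs_sub_comm]; exact h.corner _ _ (by simp [Geo729.IsCorner])
  · obtain ⟨a, b⟩ := f
    have e0 := hf
    unfold f6 at e0
    simp only [Prod.mk.injEq] at e0
    have e1 : (p + 1, q) = v6 (a + 1, b + 1) := by unfold v6; ext <;> simp only <;> omega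
    have e2 : (p, q + 1) = v6 (a, b + 1) := by unfold v6; ext <;> simp only <;> omega
    rw [hf, e1, e2, H6_vert, H6_face, H6_vert]
    constructor
    · exact h.corner _ _ (by simp [Geo729.IsCorner])
    · exact h.corner _ _ (by simp [Geo729.IsCorner])

lemma cv_khmap {w : Conf} (h : Ice w) : CV (khmap w) where
  ev v := (gvalid_Phi (x := (w, fun _ => true)) h).even v
  corner f v hv := corner_khmap h f v hv

lemma cv_of_stp {κ : KH} (h : CV κ) : Ice (cf (H6 κ)) := ice_cf' (stp_H6 h)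

/-- heights of the arrows of `κ` -/
lemma khmap_cf {κ : KH} (h : CV κ) :
    khmap (cf (H6 κ)) = (fun v => κ.1 v - κ.1 (0, 0), fun f => κ.2 f - κ.1 (0, 0)) := by
  have h0 : H6 κ (0, 0) = κ.1 (0, 0) := by
    have := H6_vert κ (0, 0)
    simpa [v6] using this
  refine Prod.ext ?_ ?_
  · funext v
    simp only [khmap]
    rw [relH_cf (stp_H6 h), h0]
    have := H6_vert κ v
    unfold v6 at this
    rw [this]
  · funext f
    simp only [khmap]
    rw [relH_cf (stp_H6 h), h0]
    have := H6_face κ f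
    unfold f6 at this
    rw [this]

lemma cv_glue {D : Finset P2} {q : ℤ} {ω β : Cfg} (h : CV (hts ω)) (hc : CutAt D q ω)
    (hβ : Valid D β) : CV (hts (glue D q ω β)) where
  ev v := by
    show Even ((glue D q ω β).1 v)
    by_cases hv : v ∈ intVerts D
    · simp only [glue, hv, if_true]; exact (hβ.even v).add hc.even
    · simp only [glue, hv, if_false]; exact h.ev v
  corner f v hv := by
    show |(glue D q ω β).1 v - (glue D q ω β).2.1 f| = 1
    by_cases hf' : f ∈ D
    · by_cases hv' : v ∈ intVerts D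
      · simp only [glue, hv', hf', if_true]
        have := hβ.corner f hf' v hv
        rwa [add_sub_add_right_eq_sub]
      · simp only [glue, hv', hf', if_true, if_false]
        have h1 := hβ.corner f hf' v hv
        rw [hβ.zero v hv'] at h1
        rw [hc.ht v (mem_bdV.2 ⟨⟨f, hf', hv⟩, hv'⟩), show q - (β.2.1 f + q) = 0 - β.2.1 f by ring]
        exact h1
    · have hv' : v ∉ intVerts D := fun h' => hf' (corner_mem_of_int h' hv)
      simp only [glue, hv', hf', if_false]
      exact h.corner f v hv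

lemma valid_ins' {D : Finset P2} {q : ℤ} {ω : Cfg} (h : CV (hts ω)) (hc : CutAt D q ω) :
    Valid D (ins D q ω) where
  zero := fun v hv => by simp [ins, hv]
  even := fun v => by
    by_cases hv : v ∈ intVerts D
    · simp only [ins, hv, if_true]
      exact (h.ev v).sub hc.even
    · simp [ins, hv]
  off := fun f hf => by simp [ins, hf]
  corner := fun f hf v hv => by
    have h1 : |ω.1 v - ω.2.1 f| = 1 := h.corner f v hv
    by_cases hv' : v ∈ intVerts D
    · simp only [ins, hv', hf, if_true]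
      rwa [sub_sub_sub_cancel_right]
    · simp only [ins, hv', hf, if_true, if_false]
      rw [hc.ht v (mem_bdV.2 ⟨⟨f, hf, hv⟩, hv'⟩)] at h1
      rw [zero_sub, neg_sub]
      exact h1
  cut := fun e he => by simp [ins, he]

/-! ### weights -/

/-- six-vertex vertex of an edge -/
def e6 (e : Edge) : ℤ × ℤ :=
  if e.2 then (e.1.1 + e.1.2 + 1, e.1.2 - e.1.1 + 1) else (e.1.1 + e.1.2 + 1, e.1.2 - e.1.1)

lemma e6_inj {e e' : Edge} (h : e6 e = e6 e') : e = e' := by
  obtain ⟨⟨a, b⟩, s⟩ := e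
  obtain ⟨⟨a', b'⟩, s'⟩ := e'
  cases s <;> cases s' <;> simp [e6, Prod.mk.injEq] at h ⊢ <;> omega

lemma e6_surj (x : ℤ × ℤ) : ∃ e, e6 e = x := by
  obtain ⟨p, q⟩ := x
  by_cases h : (p + q) % 2 = 0
  · refine ⟨(((p - q) / 2, (p + q - 2) / 2), true), ?_⟩
    simp only [e6, if_true]
    ext
    · simp only; omega
    · simp only; omega
  · refine ⟨(((p - q - 1) / 2, (p + q - 1) / 2), false), ?_⟩
    simp only [e6]
    ext
    · simp; omega
    · simp; omega

/-- six-vertex weight of an edge -/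
def wf (c : ℝ) (κ : KH) (e : Edge) : ℝ :=
  if κ.1 (src e) = κ.1 (tgt e) ∧ κ.2 (fA e) = κ.2 (fB e) then c else 1

lemma wf_pos {c : ℝ} (hc : 1 ≤ c) (κ : KH) (e : Edge) : 0 < wf c κ e := by
  unfold wf; split_ifs <;> linarith

/-- weight of the vertex `x` seen from the arrows -/
def w6 (c : ℝ) (H : ℤ × ℤ → ℤ) (x : ℤ × ℤ) : ℝ :=
  if (cf H (x.1 - 1, x.2)).1 ≠ (cf H x).1 then c else 1

/-- the four faces around `e6 e` -/
lemma e6_faces (κ : KH) (e : Edge) :
    (H6 κ ((e6 e).1, (e6 e).2) = (if e.2 then κ.1 (tgt e) else κ.2 (fA e))) ∧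
    (H6 κ ((e6 e).1 - 1, (e6 e).2 - 1) = (if e.2 then κ.1 (src e) else κ.2 (fB e))) ∧
    (H6 κ ((e6 e).1, (e6 e).2 - 1) = (if e.2 then κ.2 (fA e) else κ.1 (tgt e))) ∧
    (H6 κ ((e6 e).1 - 1, (e6 e).2) = (if e.2 then κ.2 (fB e) else κ.1 (src e))) := by
  obtain ⟨⟨a, b⟩, s⟩ := e
  cases s
  · simp only [e6, fA_mk, fB_h, src_mk, tgt_h, Bool.false_eq_true, if_false]
    refine ⟨?_, ?_, ?_, ?_⟩
    · rw [← H6_face κ (a, b)]; rfl
    · rw [← H6_face κ (a, b - 1)]; unfold f6; congr 1; ext <;> simp only <;> ring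
    · rw [← H6_vert κ (a + 1, b)]; unfold v6; congr 1; ext <;> simp only <;> ring
    · rw [← H6_vert κ (a, b)]; unfold v6; congr 1; ext <;> simp
  · simp only [e6, fA_mk, fB_v, src_mk, tgt_v, if_true]
    refine ⟨?_, ?_, ?_, ?_⟩
    · rw [← H6_vert κ (a, b + 1)]; unfold v6; congr 1; ext <;> simp only <;> ring
    · rw [← H6_vert κ (a, b)]; unfold v6; congr 1; ext <;> simp only <;> ring
    · rw [← H6_face κ (a, b)]; unfold f6; congr 1; ext <;> simp only <;> ring
    · rw [← H6_face κ (a - 1, b)]; unfold f6; congr 1; ext <;> simp only <;> ring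

lemma wf_eq {c : ℝ} {κ : KH} (h : CV κ) (e : Edge) : wf c κ e = w6 c (H6 κ) (e6 e) := by
  obtain ⟨g1, g2, g3, g4⟩ := Csq472.isCorner_edge e
  have c1 := h.corner _ _ g1
  have c2 := h.corner _ _ g2
  have c3 := h.corner _ _ g3
  have c4 := h.corner _ _ g4
  obtain ⟨h1, h2, h3, h4⟩ := e6_faces κ e
  unfold wf w6 cf
  have h1' : H6 κ (e6 e) = (if e.2 then κ.1 (tgt e) else κ.2 (fA e)) := h1
  simp only [h1', h2, h3, h4]
  rw [abs_eq (by norm_num)] at c1 c2 c3 c4
  have key : (κ.1 (src e) = κ.1 (tgt e) ∧ κ.2 (fA e) = κ.2 (fB e)) ↔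
      (decide ((if e.2 then κ.2 (fB e) else κ.1 (src e)) -
        (if e.2 then κ.1 (src e) else κ.2 (fB e)) = 1) ≠
       decide ((if e.2 then κ.1 (tgt e) else κ.2 (fA e)) -
        (if e.2 then κ.2 (fA e) else κ.1 (tgt e)) = 1)) := by
    rw [ne_eq, decide_eq_decide]
    cases e.2 <;> simp only [Bool.false_eq_true, if_false, if_true] <;> omega
  by_cases hk : (κ.1 (src e) = κ.1 (tgt e) ∧ κ.2 (fA e) = κ.2 (fB e))
  · rw [if_pos hk, if_pos (key.1 hk)]
  · rw [if_neg hk, if_neg fun h' => hk (key.2 h')]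

end Crest.Agent.R161.Mkv760
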