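import Crest.Agent.R161.Dloc_132
import Crest.Agent.R161.Brg2_722

/-!
Row 161 (helper132): delocalisation, with `Mono2` discharged by helper722's bridge.
-/

set_option autoImplicit false

noncomputable section

namespace Crest.Agent.R161.Dloc132

open Filter Topology MeasureTheory
open Crest.Agent.R161.Geo729 Crest.Agent.R161.Defs372 Crest.Agent.R161.Ifc372

theorem variance_diverges' {c : ℝ} (hc : 1 ≤ c) {P : Measure Cfg} (hP : IsState c P)
    (hG : PlaneGauss c P) (x : P2) (C : ℝ) :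
    ∃ n : ℕ, ∀ F : Finset P2, Dom F → Ifc372.ball x n ⊆ F →
      C < E c F (fun ω => (ω.1 x : ℝ) ^ 2) :=
  variance_diverges hc hP hG (Brg722.mono2 hc) x C

theorem deloc' {c : ℝ} (hc : 1 ≤ c) {P : Measure Cfg} (hP : IsState c P)
    (hG : PlaneGauss c P) (x : P2) {ε : ℝ} (hε : 0 < ε) :
    ∃ n : ℕ, ∀ F : Finset P2, Dom F → Ifc372.ball x n ⊆ F → ∀ b : ℤ,
      Pr c F {ω | ω.1 x = b} < ε :=
  deloc hc hP hG (Brg722.mono2 hc) x hε

theorem deloc_box' {c : ℝ} (hc : 1 ≤ c) {P : Measure Cfg} (hP : IsState c P)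
    (hG : PlaneGauss c P) {ε : ℝ} (hε : 0 < ε) :
    ∃ n : ℕ, ∀ F : Finset P2, Dom F → Defs372.box n ⊆ F → ∀ b : ℤ,
      Pr c F {ω | ω.1 (0, 0) = b} < ε :=
  deloc_box hc hP hG (Brg722.mono2 hc) hε

end Crest.Agent.R161.Dloc132
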