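import Crest.Agent.R161.Green1_722
import Crest.Agent.R161.Ifc_372

/-!
Row 161 (helper132), leaf L2 (Deloc), analytic part: `PlaneGauss c P` is incompatible with bounded
second moments `∫ (k v)^2 dP`.

* `exists_plog_gt` : for every `M` and every `B` there is a mean zero test function `f` with
  `plog f f > M` and bounded Riemann sums `δ² ∑ |f(δ v)| ≤ A` (`A` independent of `M`).
* `unbounded_of_planeGauss`.
-/

set_option autoImplicit false

noncomputable section

namespace Crest.Agent.R161.Dnv132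

open Filter Topology MeasureTheory Set Metric
open Crest.Agent.R161.Green722
open Crest.Agent.R161.Geo729 Crest.Agent.R161.Defs372 Crest.Agent.R161.Ifc372

/-- logarithmic potential -/
def U (g : ℂ → ℝ) (z : ℂ) : ℝ := ∫ w : ℂ, Real.log ‖z - w‖ * g w

theorem plog_eq (f g : ℂ → ℝ) : plog f g = -(2 * Real.pi)⁻¹ * ∫ z : ℂ, f z * U g z := by
  unfold plog U
  rw [← integral_const_mul]
  congr 1
  funext z
  rw [← integral_const_mul, ← integral_const_mul]
  congr 1
  funext w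
  ring

theorem integrable_mul_U {r : ℝ} {f g : ℂ → ℝ} (hf : Tst r f) (hg : Tst r g) :
    Integrable (fun z : ℂ => f z * U g z) := by
  have h := (integrable_log_kernel hf hg).integral_prod_left
  refine h.congr (Eventually.of_forall fun z => ?_)
  simp only
  unfold U
  rw [← integral_const_mul]
  congr 1
  funext w
  ring

theorem integrable_log_mul {r : ℝ} {g : ℂ → ℝ} (hg : Tst r g) (z : ℂ) :
    Integrable (fun w : ℂ => Real.log ‖z - w‖ * g w) := by
  obtain ⟨A, hA⟩ := hg.bdd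
  have hA0 : 0 ≤ A := (abs_nonneg _).trans (hA 0)
  set R : ℝ := ‖z‖ + |r| + 1 with hR
  have h1 : IntegrableOn (fun w : ℂ => Real.log ‖z - w‖) (ball z R) := by
    have h2 := (integrableOn_log R)
    have h3 : Integrable ((ball (0 : ℂ) R).indicator fun u : ℂ => Real.log ‖u‖) :=
      (integrable_indicator_iff isOpen_ball.measurableSet).2 h2
    have h4 := (h3.comp_sub_left z)
    have h5 : (fun w : ℂ => (ball (0 : ℂ) R).indicator (fun u : ℂ => Real.log ‖u‖) (z - w)) =
        (ball z R).indicator (fun w : ℂ => Real.log ‖z - w‖) := by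
      funext w
      simp only [indicator, mem_ball, dist_eq_norm, norm_sub_rev w z, sub_zero]
    rw [h5] at h4
    exact (integrable_indicator_iff isOpen_ball.measurableSet).1 h4
  have h6 : Integrable ((ball z R).indicator fun w : ℂ => A * ‖Real.log ‖z - w‖‖) :=
    (integrable_indicator_iff isOpen_ball.measurableSet).2 (h1.norm.const_mul A)
  refine Integrable.mono' h6 ?_ ?_
  · have h2' : Continuous fun w : ℂ => ‖z - w‖ := by fun_prop
    exact ((Real.measurable_log.comp h2'.measurable).mul hg.meas).aestronglyMeasurable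
  · refine Eventually.of_forall fun w => ?_
    by_cases hw : w ∈ ball z R
    · rw [indicator_of_mem hw, norm_mul, mul_comm]
      gcongr
      exact hA w
    · have : r < ‖w‖ := by
        rw [mem_ball, dist_eq_norm, not_lt] at hw
        have h7 := norm_sub_le w z
        have h8 := le_abs_self r
        linarith
      rw [hg.supp w this, mul_zero, norm_zero]
      exact indicator_nonneg (fun _ _ => mul_nonneg hA0 (norm_nonneg _)) _

theorem U_sub {r : ℝ} {g g' : ℂ → ℝ} (hg : Tst r g) (hg' : Tst r g') (z : ℂ) :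
    U (fun w => g w - g' w) z = U g z - U g' z := by
  unfold U
  rw [← integral_sub (integrable_log_mul hg z) (integrable_log_mul hg' z)]
  congr 1
  funext w
  ring

theorem symm {r : ℝ} {f g : ℂ → ℝ} (hf : Tst r f) (hg : Tst r g) :
    ∫ z : ℂ, f z * U g z = ∫ z : ℂ, g z * U f z := by
  have e1 : ∫ z : ℂ, f z * U g z = ∫ z : ℂ, ∫ w : ℂ, f z * Real.log ‖z - w‖ * g w := by
    congr 1; funext z; unfold U; rw [← integral_const_mul]; congr 1; funext w; ring
  have e2 : ∫ z : ℂ, g z * U f z = ∫ w : ℂ, ∫ z : ℂ, f z * Real.log ‖z - w‖ * g w := by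
    congr 1; funext z; unfold U; rw [← integral_const_mul]; congr 1; funext w
    rw [norm_sub_rev]; ring
  rw [e1, e2]
  exact integral_integral_swap (integrable_log_kernel hf hg)

/-- bound for the potential on the unit disc -/
theorem exists_U_bound {g : ℂ → ℝ} (hg : Tst 1 g) : ∃ B, 0 ≤ B ∧ ∀ z : ℂ, ‖z‖ ≤ 1 → |U g z| ≤ B := by
  obtain ⟨A, hA⟩ := hg.bdd
  have hA0 : 0 ≤ A := (abs_nonneg _).trans (hA 0)
  set k : ℂ → ℝ := (ball (0 : ℂ) 3).indicator fun u => |Real.log ‖u‖| with hk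
  have hki : Integrable k :=
    (integrable_indicator_iff isOpen_ball.measurableSet).2 (integrableOn_log 3).norm
  have hk0 : ∀ u, 0 ≤ k u := fun u => indicator_nonneg (fun _ _ => abs_nonneg _) _
  refine ⟨A * ∫ u, k u, mul_nonneg hA0 (integral_nonneg hk0), fun z hz => ?_⟩
  unfold U
  rw [← Real.norm_eq_abs]
  refine (norm_integral_le_integral_norm _).trans ?_
  have h1 : ∫ u, A * k u = A * ∫ u, k u := integral_const_mul _ _
  rw [← h1]
  have h2 : ∫ u, A * k u = ∫ w, A * k (z - w) := by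
    rw [integral_sub_left_eq_self (fun u => A * k u) volume z]
  rw [h2]
  refine integral_mono (integrable_log_mul hg z).norm ((hki.comp_sub_left z).const_mul A)
    fun w => ?_
  simp only
  by_cases hw : ‖w‖ ≤ 1
  · have h3 : k (z - w) = |Real.log ‖z - w‖| := by
      rw [hk, indicator_of_mem]
      rw [mem_ball_zero_iff]
      have := norm_sub_le z w
      linarith
    rw [h3, norm_mul, mul_comm, Real.norm_eq_abs, Real.norm_eq_abs]
    gcongr
    exact hA w
  · rw [hg.supp w (not_le.mp hw), mul_zero, norm_zero]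
    exact mul_nonneg hA0 (hk0 _)

/-! ### The bump -/

/-- the smooth bump with integral one -/
def bmp : ContDiffBump (0 : ℂ) := ⟨1 / 2, 1, by norm_num, by norm_num⟩

/-- normalised bump -/
def eta (z : ℂ) : ℝ := bmp.normed volume z

theorem eta_smooth : ContDiff ℝ (⊤ : ℕ∞) eta := bmp.contDiff_normed

theorem eta_nonneg (z : ℂ) : 0 ≤ eta z := bmp.nonneg_normed z

theorem eta_integral : ∫ z, eta z = 1 := bmp.integral_normed

theorem eta_supp : HasCompactSupport eta := bmp.hasCompactSupport_normed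

theorem eta_zero {z : ℂ} (hz : 1 < ‖z‖) : eta z = 0 := by
  have h : z ∉ Function.support eta := by
    have := bmp.support_normed_eq (μ := (volume : Measure ℂ))
    intro h
    have h2 : z ∈ ball (0 : ℂ) bmp.rOut := by
      rw [← this]; exact h
    rw [mem_ball_zero_iff] at h2
    have h3 : bmp.rOut = 1 := rfl
    rw [h3] at h2
    linarith
  simpa using h

theorem eta_bdd : ∃ A, 0 < A ∧ ∀ z, |eta z| ≤ A := by
  obtain ⟨A, hA⟩ := eta_smooth.continuous.bounded_above_of_compact_support eta_supp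
  exact ⟨|A| + 1, by positivity, fun z => ((hA z).trans (le_abs_self A)).trans (by linarith)⟩

theorem eta_tst : Tst 1 eta where
  meas := eta_smooth.continuous.measurable
  bdd := by obtain ⟨A, _, hA⟩ := eta_bdd; exact ⟨A, hA⟩
  supp := fun z hz => eta_zero hz

/-- scaled bump -/
def etar (r : ℝ) (z : ℂ) : ℝ := (r ^ 2)⁻¹ * eta (r⁻¹ • z)

theorem etar_smooth (r : ℝ) : ContDiff ℝ (⊤ : ℕ∞) (etar r) := by
  unfold etar
  exact contDiff_const.mul (eta_smooth.comp (contDiff_const_smul r⁻¹))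

theorem etar_zero {r : ℝ} (hr : 0 < r) {z : ℂ} (hz : r < ‖z‖) : etar r z = 0 := by
  unfold etar
  rw [eta_zero, mul_zero]
  rw [norm_smul, norm_inv, Real.norm_of_nonneg hr.le, inv_mul_eq_div, lt_div_iff₀ hr, one_mul]
  exact hz

theorem etar_supp {r : ℝ} (hr : 0 < r) : HasCompactSupport (etar r) := by
  refine HasCompactSupport.intro (isCompact_closedBall (0 : ℂ) r) fun z hz => ?_
  apply etar_zero hr
  simpa using hz

theorem etar_tst {r : ℝ} (hr : 0 < r) (hr1 : r ≤ 1) : Tst 1 (etar r) where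
  meas := (etar_smooth r).continuous.measurable
  bdd := by
    obtain ⟨A, _, hA⟩ := eta_bdd
    refine ⟨(r ^ 2)⁻¹ * A, fun z => ?_⟩
    unfold etar
    rw [abs_mul, abs_of_nonneg (by positivity : (0:ℝ) ≤ (r ^ 2)⁻¹)]
    gcongr
    exact hA _
  supp := fun z hz => etar_zero hr (lt_of_le_of_lt hr1 hz)

/-- change of variables -/
theorem integral_etar {r : ℝ} (hr : 0 < r) (F : ℂ → ℝ) :
    ∫ z, etar r z * F z = ∫ z, eta z * F (r • z) := by
  have h1 : (fun z => eta z * F (r • z)) = fun z => (fun y => r ^ 2 * (etar r y * F y)) (r • z) := by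
    funext z
    simp only
    unfold etar
    rw [smul_smul, inv_mul_cancel₀ hr.ne', one_smul]
    field_simp
  rw [h1, Measure.integral_comp_smul volume (fun y => r ^ 2 * (etar r y * F y)) r,
    Complex.finrank_real_complex, integral_const_mul, smul_eq_mul,
    abs_of_nonneg (by positivity)]
  field_simp

theorem etar_integral {r : ℝ} (hr : 0 < r) : ∫ z, etar r z = 1 := by
  have := integral_etar hr (fun _ => 1)
  simp only [mul_one] at this
  rw [this, eta_integral]

theorem U_etar {r : ℝ} (hr : 0 < r) (z : ℂ) : U (etar r) (r • z) = Real.log r + U eta z := by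
  have h1 : U (etar r) (r • z) = ∫ w, etar r w * Real.log ‖r • z - w‖ := by
    unfold U; congr 1; funext w; ring
  rw [h1, integral_etar hr]
  have h2 : ∀ᵐ w : ℂ, eta w * Real.log ‖r • z - r • w‖ =
      eta w * Real.log r + Real.log ‖z - w‖ * eta w := by
    have h3 : ∀ᵐ w : ℂ, w ≠ z := by rw [ae_iff]; simp
    filter_upwards [h3] with w hw
    rw [← smul_sub, norm_smul, Real.norm_of_nonneg hr.le,
      Real.log_mul hr.ne' (norm_ne_zero_iff.2 (sub_ne_zero.2 hw.symm))]
    ring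
  rw [integral_congr_ae h2, integral_add (eta_tst.integrable.mul_const _)
    (integrable_log_mul eta_tst z), integral_mul_const, eta_integral, one_mul]
  rfl

/-- The test functions `eta_r - eta_1`. -/
def fr (r : ℝ) (z : ℂ) : ℝ := etar r z - eta z

theorem fr_test {r : ℝ} (hr : 0 < r) : Test (fr r) where
  smooth := (etar_smooth r).sub eta_smooth
  supp := (etar_supp hr).sub eta_supp

theorem fr_integral {r : ℝ} (hr : 0 < r) (hr1 : r ≤ 1) : ∫ z, fr r z = 0 := by
  unfold fr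
  rw [integral_sub (etar_tst hr hr1).integrable eta_tst.integrable, etar_integral hr, eta_integral,
    sub_self]

theorem energy_fr {r : ℝ} (hr : 0 < r) (hr1 : r ≤ 1) :
    ∫ z, fr r z * U (fr r) z = Real.log r + 2 * (∫ z, eta z * U eta z) -
      2 * ∫ z, etar r z * U eta z := by
  have t1 := etar_tst hr hr1
  have t2 := eta_tst
  have e0 : ∀ z, fr r z * U (fr r) z = etar r z * U (etar r) z - etar r z * U eta z -
      (eta z * U (etar r) z - eta z * U eta z) := by
    intro z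
    have : U (fr r) z = U (etar r) z - U eta z := U_sub t1 t2 z
    rw [this]
    unfold fr
    ring
  have i1 := integrable_mul_U t1 t1
  have i2 := integrable_mul_U t1 t2
  have i3 := integrable_mul_U t2 t1
  have i4 := integrable_mul_U t2 t2
  have e1 : ∫ z, fr r z * U (fr r) z = (∫ z, etar r z * U (etar r) z) - (∫ z, etar r z * U eta z) -
      ((∫ z, eta z * U (etar r) z) - ∫ z, eta z * U eta z) := by
    have a1 := integral_sub i1 i2
    have a2 := integral_sub i3 i4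
    have a3 := integral_sub (i1.sub i2) (i3.sub i4)
    simp only [Pi.sub_apply] at a3
    rw [integral_congr_ae (Eventually.of_forall e0), a3, a1, a2]
  have e2 : ∫ z, etar r z * U (etar r) z = Real.log r + ∫ z, eta z * U eta z := by
    rw [integral_etar hr]
    simp_rw [U_etar hr, mul_add]
    rw [integral_add (t2.integrable.mul_const _) i4, integral_mul_const, eta_integral, one_mul]
  rw [e1, e2, symm t2 t1]
  ring

theorem exists_plog_gt (M : ℝ) : ∃ r : ℝ, 0 < r ∧ r ≤ 1 ∧ M < plog (fr r) (fr r) := by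
  obtain ⟨B, hB0, hB⟩ := exists_U_bound eta_tst
  set E0 := ∫ z, eta z * U eta z with hE0
  -- choose `r` with `log r < -(2π M) - 2 E0 - 2 B`
  set T : ℝ := -(2 * Real.pi * |M|) - 2 * |E0| - 2 * B - 1 with hT
  have hT0 : T ≤ 0 := by
    have := abs_nonneg M; have := abs_nonneg E0; have := Real.pi_pos
    rw [hT]; nlinarith [mul_nonneg (mul_nonneg (by norm_num : (0:ℝ) ≤ 2) Real.pi_pos.le) (abs_nonneg M)]
  refine ⟨Real.exp T, Real.exp_pos _, Real.exp_le_one_iff.2 hT0, ?_⟩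
  have hr := Real.exp_pos T
  have hr1 : Real.exp T ≤ 1 := Real.exp_le_one_iff.2 hT0
  rw [plog_eq, energy_fr hr hr1, Real.log_exp]
  have h1 : |∫ z, etar (Real.exp T) z * U eta z| ≤ B := by
    rw [← Real.norm_eq_abs]
    refine (norm_integral_le_integral_norm _).trans ?_
    have h2 : ∫ z, ‖etar (Real.exp T) z * U eta z‖ ≤ ∫ z, etar (Real.exp T) z * B := by
      refine integral_mono (integrable_mul_U (etar_tst hr hr1) eta_tst).norm
        ((etar_tst hr hr1).integrable.mul_const B) fun z => ?_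
      simp only
      have h3 : 0 ≤ etar (Real.exp T) z := mul_nonneg (by positivity) (eta_nonneg _)
      by_cases hz : ‖z‖ ≤ 1
      · rw [norm_mul, Real.norm_of_nonneg h3, Real.norm_eq_abs]
        gcongr
        exact hB z hz
      · rw [(etar_tst hr hr1).supp z (not_le.mp hz)]
        simp
    refine h2.trans ?_
    rw [integral_mul_const, etar_integral hr, one_mul]
  have h4 := (abs_le.1 h1).1
  have h5 := le_abs_self E0
  have hpi := Real.pi_pos
  have h6 : M ≤ |M| := le_abs_self M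
  have h7 : T + 2 * E0 - 2 * (∫ z, etar (Real.exp T) z * U eta z) < -(2 * Real.pi * |M|) := by
    rw [hT]; linarith
  have h8 : -(2 * Real.pi)⁻¹ * (T + 2 * E0 - 2 * (∫ z, etar (Real.exp T) z * U eta z)) > |M| := by
    have h9 : 0 < (2 * Real.pi)⁻¹ := by positivity
    have h10 : (2 * Real.pi)⁻¹ * (2 * Real.pi * |M|) = |M| := by field_simp
    nlinarith
  exact lt_of_le_of_lt h6 h8

/-! ### Riemann sums -/

/-- window of lattice points in the unit disc at mesh `t` -/
def win (t : ℝ) : Finset P2 :=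
  Finset.Icc (-(⌊1 / t⌋₊ : ℤ)) ⌊1 / t⌋₊ ×ˢ Finset.Icc (-(⌊1 / t⌋₊ : ℤ)) ⌊1 / t⌋₊

theorem mem_win {t : ℝ} (ht : 0 < t) {v : P2} (h : ‖ptC t v‖ ≤ 1) : v ∈ win t := by
  have key : ∀ a : ℤ, |t * (a : ℝ)| ≤ 1 → a ∈ Finset.Icc (-(⌊1 / t⌋₊ : ℤ)) ⌊1 / t⌋₊ := by
    intro a ha
    rw [abs_mul, abs_of_pos ht] at ha
    have h1 : |(a : ℝ)| ≤ 1 / t := by rw [le_div_iff₀ ht]; linarith
    have h2 : ((|a|.toNat : ℕ) : ℝ) ≤ 1 / t := by
      have : ((|a|.toNat : ℕ) : ℝ) = |(a : ℝ)| := by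
        have h3 : ((|a|.toNat : ℕ) : ℤ) = |a| := Int.toNat_of_nonneg (abs_nonneg a)
        have h4 : (((|a|.toNat : ℕ) : ℤ) : ℝ) = ((|a| : ℤ) : ℝ) := by rw [h3]
        rw [Int.cast_abs] at h4
        exact_mod_cast h4
      rw [this]; exact h1
    have h3 : |a|.toNat ≤ ⌊1 / t⌋₊ := Nat.le_floor h2
    have h4 : |a| ≤ (⌊1 / t⌋₊ : ℤ) := by omega
    rw [Finset.mem_Icc]
    exact abs_le.1 h4
  have h1 : |t * (v.1 : ℝ)| ≤ 1 := by
    refine le_trans ?_ h
    have := Complex.abs_re_le_norm (ptC t v)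
    have e : (ptC t v).re = t * (v.1 : ℝ) := by simp [ptC]
    rwa [e] at this
  have h2 : |t * (v.2 : ℝ)| ≤ 1 := by
    refine le_trans ?_ h
    have := Complex.abs_im_le_norm (ptC t v)
    have e : (ptC t v).im = t * (v.2 : ℝ) := by simp [ptC]
    rwa [e] at this
  exact Finset.mem_product.2 ⟨key _ h1, key _ h2⟩

theorem card_win {t : ℝ} (ht : 0 < t) (ht1 : t ≤ 1) : t ^ 2 * ((win t).card : ℝ) ≤ 9 := by
  unfold win
  rw [Finset.card_product, Int.card_Icc]
  have h1 : ((⌊1 / t⌋₊ : ℤ) + 1 - -(⌊1 / t⌋₊ : ℤ)).toNat = 2 * ⌊1 / t⌋₊ + 1 := by omega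
  rw [h1]
  have h2 : (⌊1 / t⌋₊ : ℝ) ≤ 1 / t := Nat.floor_le (by positivity)
  have h3 : t * (⌊1 / t⌋₊ : ℝ) ≤ 1 := by rw [le_div_iff₀ ht] at h2; linarith
  push_cast
  have h4 : t * (2 * (⌊1 / t⌋₊ : ℝ) + 1) ≤ 3 := by nlinarith
  have h5 : 0 ≤ t * (2 * (⌊1 / t⌋₊ : ℝ) + 1) := by positivity
  calc t ^ 2 * ((2 * (⌊1 / t⌋₊ : ℝ) + 1) * (2 * (⌊1 / t⌋₊ : ℝ) + 1))
      = (t * (2 * (⌊1 / t⌋₊ : ℝ) + 1)) ^ 2 := by ring
    _ ≤ 3 ^ 2 := pow_le_pow_left₀ h5 h4 2
    _ = 9 := by norm_num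

theorem ptC_smul (r δ : ℝ) (v : P2) : r⁻¹ • ptC δ v = ptC (δ / r) v := by
  unfold ptC
  rw [Complex.real_smul]
  push_cast
  ring

theorem eta_sum {A : ℝ} (hA0 : 0 < A) (hA : ∀ z, |eta z| ≤ A) {t : ℝ} (ht : 0 < t) (ht1 : t ≤ 1)
    (S : Finset P2) : t ^ 2 * ∑ v ∈ S, |eta (ptC t v)| ≤ 9 * A := by
  have h1 : ∑ v ∈ S, |eta (ptC t v)| ≤ ∑ v ∈ win t, |eta (ptC t v)| := by
    have h2 : ∑ v ∈ S, |eta (ptC t v)| = ∑ v ∈ S.filter (fun v => v ∈ win t), |eta (ptC t v)| := by
      rw [Finset.sum_filter]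
      refine Finset.sum_congr rfl fun v _ => ?_
      split_ifs with h
      · rfl
      · have : 1 < ‖ptC t v‖ := by
          by_contra h'
          exact h (mem_win ht (not_lt.1 h'))
        rw [eta_zero this, abs_zero]
    rw [h2]
    refine Finset.sum_le_sum_of_subset_of_nonneg ?_ fun _ _ _ => abs_nonneg _
    intro v hv
    exact (Finset.mem_filter.1 hv).2
  have h3 : ∑ v ∈ win t, |eta (ptC t v)| ≤ (win t).card * A := by
    rw [← nsmul_eq_mul]
    exact Finset.sum_le_card_nsmul _ _ _ fun v _ => hA _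
  have h4 := card_win ht ht1
  have h5 : 0 ≤ t ^ 2 := by positivity
  calc t ^ 2 * ∑ v ∈ S, |eta (ptC t v)| ≤ t ^ 2 * ((win t).card * A) :=
        mul_le_mul_of_nonneg_left (h1.trans h3) h5
    _ = (t ^ 2 * ((win t).card : ℝ)) * A := by ring
    _ ≤ 9 * A := mul_le_mul_of_nonneg_right h4 hA0.le

/-- Uniform bound of the Riemann sums of `|fr r|`. -/
theorem riemann_bound : ∃ A : ℝ, 0 < A ∧ ∀ r : ℝ, 0 < r → r ≤ 1 → ∀ δ : ℝ, 0 < δ → δ ≤ r →
    ∀ S : Finset P2, δ ^ 2 * ∑ v ∈ S, |fr r (ptC δ v)| ≤ A := by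
  obtain ⟨A, hA0, hA⟩ := eta_bdd
  refine ⟨18 * A, by positivity, fun r hr hr1 δ hδ hδr S => ?_⟩
  have h1 : ∑ v ∈ S, |fr r (ptC δ v)| ≤ ∑ v ∈ S, |etar r (ptC δ v)| + ∑ v ∈ S, |eta (ptC δ v)| := by
    rw [← Finset.sum_add_distrib]
    refine Finset.sum_le_sum fun v _ => ?_
    unfold fr
    exact abs_sub _ _
  have h2 : δ ^ 2 * ∑ v ∈ S, |etar r (ptC δ v)| = (δ / r) ^ 2 * ∑ v ∈ S, |eta (ptC (δ / r) v)| := by
    rw [Finset.mul_sum, Finset.mul_sum]
    refine Finset.sum_congr rfl fun v _ => ?_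
    unfold etar
    rw [abs_mul, abs_of_nonneg (by positivity : (0:ℝ) ≤ (r ^ 2)⁻¹), ptC_smul]
    field_simp
  have h3 := eta_sum hA0 hA (t := δ / r) (by positivity) (by rw [div_le_one hr]; exact hδr) S
  have h4 := eta_sum hA0 hA (t := δ) hδ (hδr.trans hr1) S
  calc δ ^ 2 * ∑ v ∈ S, |fr r (ptC δ v)|
      ≤ δ ^ 2 * (∑ v ∈ S, |etar r (ptC δ v)| + ∑ v ∈ S, |eta (ptC δ v)|) :=
        mul_le_mul_of_nonneg_left h1 (by positivity)
    _ = δ ^ 2 * ∑ v ∈ S, |etar r (ptC δ v)| + δ ^ 2 * ∑ v ∈ S, |eta (ptC δ v)| := by ring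
    _ ≤ 9 * A + 9 * A := by rw [h2]; exact add_le_add h3 h4
    _ = 18 * A := by ring

theorem fr_zero {r : ℝ} (hr : 0 < r) (hr1 : r ≤ 1) {z : ℂ} (hz : 1 < ‖z‖) : fr r z = 0 := by
  unfold fr
  rw [etar_zero hr (lt_of_le_of_lt hr1 hz), eta_zero hz, sub_zero]

theorem X_fr {r : ℝ} (hr : 0 < r) (hr1 : r ≤ 1) {δ : ℝ} (hδ : 0 < δ) (ω : Cfg) :
    X δ (fr r) ω = ∑ v ∈ win δ, (δ ^ 2 * fr r (ptC δ v)) * (ω.1 v : ℝ) := by
  unfold X
  rw [tsum_eq_sum (s := win δ), Finset.mul_sum]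
  · refine Finset.sum_congr rfl fun v _ => ?_
    ring
  · intro v hv
    have : 1 < ‖ptC δ v‖ := by
      by_contra h'
      exact hv (mem_win hδ (not_lt.1 h'))
    rw [fr_zero hr hr1 this, mul_zero]

/-- **No plane state with bounded second moments satisfies `PlaneGauss`.** -/
theorem unbounded_of_planeGauss {c : ℝ} (hc : 0 < c) {P : Measure Cfg} (hP : PlaneGauss c P)
    {C : ℝ} (hint : ∀ v : P2, Integrable (fun ω : Cfg => (ω.1 v : ℝ) ^ 2) P)
    (hC : ∀ v : P2, ∫ ω : Cfg, (ω.1 v : ℝ) ^ 2 ∂P ≤ C) : False := by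
  obtain ⟨A, hA0, hA⟩ := riemann_bound
  have hC0 : 0 ≤ C := (integral_nonneg fun _ => sq_nonneg _).trans (hC (0, 0))
  have hk : 0 < kap c := by
    unfold kap
    have : 0 < Real.arcsin (c / 2) := Real.arcsin_pos.2 (by positivity)
    positivity
  -- bound of the second moments
  have key : ∀ r : ℝ, 0 < r → r ≤ 1 → ∀ δ : ℝ, 0 < δ → δ ≤ r →
      ∫ ω, (X δ (fr r) ω) ^ 2 ∂P ≤ A * (A * C) := by
    intro r hr hr1 δ hδ hδr
    set a : P2 → ℝ := fun v => δ ^ 2 * fr r (ptC δ v) with ha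
    have hsum : ∑ v ∈ win δ, |a v| ≤ A := by
      have := hA r hr hr1 δ hδ hδr (win δ)
      rw [Finset.mul_sum] at this
      refine le_trans (le_of_eq ?_) this
      refine Finset.sum_congr rfl fun v _ => ?_
      rw [ha, abs_mul, abs_of_nonneg (by positivity : (0:ℝ) ≤ δ ^ 2)]
    have hsum0 : 0 ≤ ∑ v ∈ win δ, |a v| := Finset.sum_nonneg fun _ _ => abs_nonneg _
    have h1 : ∀ ω : Cfg, (X δ (fr r) ω) ^ 2 ≤
        (∑ v ∈ win δ, |a v|) * ∑ v ∈ win δ, |a v| * (ω.1 v : ℝ) ^ 2 := by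
      intro ω
      rw [X_fr hr hr1 hδ]
      refine Finset.sum_sq_le_sum_mul_sum_of_sq_le_mul _ (fun v _ => abs_nonneg _)
        (fun v _ => mul_nonneg (abs_nonneg _) (sq_nonneg _)) fun v _ => le_of_eq ?_
      rw [mul_pow, ← sq_abs (δ ^ 2 * fr r (ptC δ v))]
      ring
    have h2 : Integrable (fun ω : Cfg => (∑ v ∈ win δ, |a v|) *
        ∑ v ∈ win δ, |a v| * (ω.1 v : ℝ) ^ 2) P :=
      (integrable_finsetSum _ fun v _ => (hint v).const_mul _).const_mul _
    calc ∫ ω, (X δ (fr r) ω) ^ 2 ∂P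
        ≤ ∫ ω, (∑ v ∈ win δ, |a v|) * ∑ v ∈ win δ, |a v| * (ω.1 v : ℝ) ^ 2 ∂P :=
          integral_mono_of_nonneg (Eventually.of_forall fun _ => sq_nonneg _) h2
            (Eventually.of_forall h1)
      _ = (∑ v ∈ win δ, |a v|) * ∑ v ∈ win δ, |a v| * ∫ ω : Cfg, (ω.1 v : ℝ) ^ 2 ∂P := by
          rw [integral_const_mul, integral_finsetSum _ fun v _ => (hint v).const_mul _]
          congr 1
          refine Finset.sum_congr rfl fun v _ => ?_
          rw [integral_const_mul]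
      _ ≤ (∑ v ∈ win δ, |a v|) * ((∑ v ∈ win δ, |a v|) * C) := by
          refine mul_le_mul_of_nonneg_left ?_ hsum0
          rw [Finset.sum_mul]
          exact Finset.sum_le_sum fun v _ => mul_le_mul_of_nonneg_left (hC v) (abs_nonneg _)
      _ ≤ A * (A * C) := by
          refine mul_le_mul hsum (mul_le_mul_of_nonneg_right hsum hC0) (mul_nonneg hsum0 hC0) hA0.le
  obtain ⟨r, hr, hr1, hM⟩ := exists_plog_gt (A * (A * C) / kap c)
  have hlim := hP.var (fr r) (fr_test hr) (fr_integral hr hr1)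
  have h3 : kap c * plog (fr r) (fr r) ≤ A * (A * C) := by
    refine le_of_tendsto hlim ?_
    have : ∀ᶠ δ : ℝ in 𝓝[>] 0, δ ∈ Ioc (0 : ℝ) r := Ioc_mem_nhdsGT hr
    filter_upwards [this] with δ hδ
    exact key r hr hr1 δ hδ.1 hδ.2
  rw [div_lt_iff₀ hk] at hM
  linarith

end Crest.Agent.R161.Dnv132
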