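import Crest.Agent.R161.Ht_132
import Crest.Agent.R161.Hts_375
import Crest.Agent.R161.LC_760

/-!
# Row 161: log-concavity in the base height, on `Defs372` (helper991)

* `geo F` : the height system of the face set `F` in the sense of `Hts375` (no boundary condition)
* `Zp c F I π b` : partition function of the valid pairs with `p x = π x + 2 b` on the finite set `I`
* `Zp_lc` : `Zp a * Zp b ≤ Zp (a+1) * Zp (b-1)` for `a < b`
* `slc_site` : the law of `ω.1 x / 2` is symmetric log-concave; `pr_site_le`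
-/

set_option autoImplicit false

noncomputable section

namespace Crest.Agent.R161.LcD991

open Finset Crest.Agent.R161.Geo729 Crest.Agent.R161.Defs372 Crest.Agent.R161.Ht132
open Crest.Agent.R161.Hts375 Crest.Agent.R161.Lsm375 Crest.Agent.R161.LC760

/-- sites: vertices (`inl`) and faces (`inr`) -/
abbrev Site : Type := P2 ⊕ P2

/-- the height system of the face set `F`, no boundary condition -/
def geo (F : Finset P2) : Geo P2 P2 (intEdges F) where
  inc v f := f ∈ F ∧ Geo729.IsCorner v f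
  v₁ e := src e.1
  v₂ e := tgt e.1
  f₁ e := fA e.1
  f₂ e := fB e.1
  inc₁₁ e := ⟨(mem_intEdges.1 e.2).1, isCorner_src_fA e.1⟩
  inc₁₂ e := ⟨(mem_intEdges.1 e.2).2, isCorner_src_fB e.1⟩
  inc₂₁ e := ⟨(mem_intEdges.1 e.2).1, isCorner_tgt_fA e.1⟩
  inc₂₂ e := ⟨(mem_intEdges.1 e.2).2, isCorner_tgt_fB e.1⟩

/-- pair of height functions as one function on the sites -/
def toH (p : Pr2) : Site → ℤ := Sum.elim p.1 p.2

@[simp] theorem toH_inl (p : Pr2) (v : P2) : toH p (.inl v) = p.1 v := rfl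
@[simp] theorem toH_inr (p : Pr2) (f : P2) : toH p (.inr f) = p.2 f := rfl

theorem toH_inj : Function.Injective toH := by
  rintro ⟨k, h⟩ ⟨k', h'⟩ e
  refine Prod.ext (funext fun v => ?_) (funext fun f => ?_)
  · exact congrFun e (.inl v)
  · exact congrFun e (.inr f)

/-- inverse of `toH` -/
def ofH (a : Site → ℤ) : Pr2 := (fun v => a (.inl v), fun f => a (.inr f))

@[simp] theorem toH_ofH (a : Site → ℤ) : toH (ofH a) = a := by
  funext x; cases x <;> rfl

@[simp] theorem ofH_toH (p : Pr2) : ofH (toH p) = p := rfl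

/-- boundary condition on the sites -/
structure BdH (F : Finset P2) (a : Site → ℤ) : Prop where
  zero : ∀ v, v ∉ intVerts F → a (.inl v) = 0
  off : ∀ f, f ∉ F → a (.inr f) = 1

theorem odd_of_abs_sub {x y : ℤ} (hx : Even x) (h : |x - y| = 1) : Odd y := by
  obtain ⟨r, hr⟩ := hx
  rcases abs_eq (by norm_num : (0 : ℤ) ≤ 1) |>.1 h with h | h
  · exact ⟨r - 1 + (r - r), by omega⟩
  · exact ⟨r, by omega⟩

theorem valid_toH {F : Finset P2} {p : Pr2} :
    Valid2 F p ↔ (geo F).Valid (toH p) ∧ BdH F (toH p) := by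
  constructor
  · intro h
    refine ⟨⟨fun v => h.even v, fun f => ?_, fun v f hvf => h.corner f hvf.1 v hvf.2⟩,
      ⟨h.zero, h.off⟩⟩
    by_cases hf : f ∈ F
    · exact odd_of_abs_sub (h.even f) (h.corner f hf f (Or.inl rfl))
    · rw [toH_inr, h.off f hf]; exact odd_one
  · rintro ⟨⟨h1, h2, h3⟩, h4⟩
    exact ⟨h4.zero, h1, h4.off, fun f hf v hv => h3 v f ⟨hf, hv⟩⟩

/-- the weight on the sites -/
def WH (c : ℝ) (F : Finset P2) : (Site → ℤ) → ℝ := (geo F).W (fun _ => c)

theorem WH_toH {c : ℝ} {F : Finset P2} {p : Pr2} (h : Valid2 F p) : WH c F (toH p) = wt6 c F p := by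
  classical
  unfold WH Geo.W
  rw [if_pos (valid_toH.1 h).1]
  unfold wt6
  rw [← Finset.prod_attach (intEdges F)]
  rw [Finset.univ_eq_attach]
  refine Finset.prod_congr rfl fun e _ => ?_
  unfold Geo.wp w6 Geo.Flat
  by_cases h1 : p.1 (src e.1) = p.1 (tgt e.1) ∧ p.2 (fA e.1) = p.2 (fB e.1)
  · rw [if_pos h1]; exact if_pos h1
  · rw [if_neg h1]; exact if_neg h1

/-- finite set of valid height functions on the sites -/
def confH (F : Finset P2) : Finset (Site → ℤ) := (conf2 F).map ⟨toH, toH_inj⟩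

theorem mem_confH {F : Finset P2} {a : Site → ℤ} :
    a ∈ confH F ↔ (geo F).Valid a ∧ BdH F a := by
  unfold confH
  rw [Finset.mem_map]
  constructor
  · rintro ⟨p, hp, rfl⟩
    exact valid_toH.1 (mem_conf2.1 hp)
  · intro h
    refine ⟨ofH a, mem_conf2.2 (valid_toH.2 (by rwa [toH_ofH])), ?_⟩
    exact toH_ofH a

/-- Partition function of the configurations equal to `π + 2 b` on `I`. -/
def Zp (c : ℝ) (F : Finset P2) (I : Finset Site) (π : Site → ℤ) (b : ℤ) : ℝ :=
  ∑ a ∈ (confH F).filter (fun a => ∀ x ∈ I, a x = π x + 2 * b), WH c F a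

theorem WH_nonneg {c : ℝ} (hc : 1 ≤ c) (F : Finset P2) (a : Site → ℤ) : 0 ≤ WH c F a :=
  (geo F).W_nonneg (fun _ => hc) a

theorem Zp_nonneg {c : ℝ} (hc : 1 ≤ c) (F : Finset P2) (I : Finset Site) (π : Site → ℤ) (b : ℤ) :
    0 ≤ Zp c F I π b := Finset.sum_nonneg fun a _ => WH_nonneg hc F a

theorem Zp_eq (c : ℝ) (F : Finset P2) (I : Finset Site) (π : Site → ℤ) (b : ℤ) :
    Zp c F I π b = ∑ p ∈ (conf2 F).filter (fun p => ∀ x ∈ I, toH p x = π x + 2 * b), wt6 c F p := by
  unfold Zp confH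
  rw [Finset.filter_map, Finset.sum_map]
  refine Finset.sum_congr rfl fun p hp => ?_
  rw [Finset.mem_filter, mem_conf2] at hp
  exact WH_toH hp.1

/-- **Log-concavity in the base height** for every finite pattern. -/
theorem Zp_lc {c : ℝ} (hc : 1 ≤ c) (F : Finset P2) (I : Finset Site) (π : Site → ℤ) {a b : ℤ}
    (hab : a < b) : Zp c F I π a * Zp c F I π b ≤ Zp c F I π (a + 1) * Zp c F I π (b - 1) := by
  classical
  unfold Zp
  have h2 : Even (2 : ℤ) := ⟨1, rfl⟩
  refine ((geo F).lsm_W (c := fun _ => c) (fun _ => hc)).shift (shiftIso 2)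
    (fun x => (geo F).W_shift _ h2 x) _ _ _ _ ?_ ?_
  · intro x hx y hy
    simp only [Finset.mem_filter, mem_confH] at hx hy ⊢
    obtain ⟨⟨hx1, hx2⟩, hx3⟩ := hx
    obtain ⟨⟨hy1, hy2⟩, hy3⟩ := hy
    refine ⟨⟨((geo F).valid_inf_sup (((geo F).valid_shift h2 x).2 hx1) hy1).1, ?_, ?_⟩, ?_⟩
    · intro v hv
      simp only [Pi.inf_apply, shiftIso_apply, hx2.zero v hv, hy2.zero v hv]
      norm_num
    · intro f hf
      simp only [Pi.inf_apply, shiftIso_apply, hx2.off f hf, hy2.off f hf]
      norm_num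
    · intro s hs
      simp only [Pi.inf_apply, shiftIso_apply, hx3 s hs, hy3 s hs]
      rw [min_eq_left (by linarith)]
      ring
  · intro x hx y hy
    simp only [Finset.mem_filter, mem_confH] at hx hy ⊢
    obtain ⟨⟨hx1, hx2⟩, hx3⟩ := hx
    obtain ⟨⟨hy1, hy2⟩, hy3⟩ := hy
    have hy1' : (geo F).Valid ((shiftIso 2).symm y) := by
      rw [← (geo F).valid_shift h2, OrderIso.apply_symm_apply]
      exact hy1
    refine ⟨⟨((geo F).valid_inf_sup hx1 hy1').2, ?_, ?_⟩, ?_⟩
    · intro v hv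
      simp only [Pi.sup_apply, shiftIso_symm_apply, hx2.zero v hv, hy2.zero v hv]
      norm_num
    · intro f hf
      simp only [Pi.sup_apply, shiftIso_symm_apply, hx2.off f hf, hy2.off f hf]
      norm_num
    · intro s hs
      simp only [Pi.sup_apply, shiftIso_symm_apply, hx3 s hs, hy3 s hs]
      rw [max_eq_right (by linarith)]
      ring

/-! ### the global flip -/

/-- global flip of the pairs in `F` -/
def flip2 (F : Finset P2) (p : Pr2) : Pr2 :=
  (fun v => -p.1 v, fun f => if f ∈ F then -p.2 f else p.2 f)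

theorem flip2_flip2 (F : Finset P2) (p : Pr2) : flip2 F (flip2 F p) = p := by
  refine Prod.ext (funext fun v => ?_) (funext fun f => ?_)
  · simp [flip2]
  · by_cases hf : f ∈ F <;> simp [flip2, hf]

theorem valid_flip2 {F : Finset P2} {p : Pr2} (h : Valid2 F p) : Valid2 F (flip2 F p) where
  zero := fun v hv => by simp [flip2, h.zero v hv]
  even := fun v => by simpa [flip2] using h.even v
  off := fun f hf => by simp [flip2, hf, h.off f hf]
  corner := fun f hf v hv => by
    have := h.corner f hf v hv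
    simp only [flip2, hf, if_true]
    rw [← this, ← abs_neg]
    congr 1
    ring

theorem wt6_flip2 (c : ℝ) (F : Finset P2) (p : Pr2) : wt6 c F (flip2 F p) = wt6 c F p := by
  unfold wt6
  refine Finset.prod_congr rfl fun e he => ?_
  have he' := mem_intEdges.1 he
  unfold w6
  simp only [flip2, he'.1, he'.2, if_true, neg_inj]

theorem sum_flip2 {M : Type*} [AddCommMonoid M] (F : Finset P2) (g : Pr2 → M) :
    ∑ p ∈ conf2 F, g (flip2 F p) = ∑ p ∈ conf2 F, g p := by
  refine Finset.sum_nbij' (flip2 F) (flip2 F) ?_ ?_ ?_ ?_ ?_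
  · intro p hp; exact mem_conf2.2 (valid_flip2 (mem_conf2.1 hp))
  · intro p hp; exact mem_conf2.2 (valid_flip2 (mem_conf2.1 hp))
  · intro p _; exact flip2_flip2 F p
  · intro p _; exact flip2_flip2 F p
  · intro p _; rfl

/-! ### one-site law -/

theorem Z6_pos {c : ℝ} (hc : 1 ≤ c) (F : Finset P2) : 0 < Z6 c F := by
  rw [← Z_eq]; exact Z_pos hc F

open Classical in
theorem Pr_site (c : ℝ) (F : Finset P2) (x : P2) (m : ℤ) :
    Pr c F {ω | ω.1 x = m} =
      (∑ p ∈ (conf2 F).filter (fun p => p.1 x = m), wt6 c F p) / Z6 c F := by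
  unfold Pr
  have h := E_eq6 c F (fun p => if p.1 x = m then (1 : ℝ) else 0)
  refine (Eq.trans (E_congr fun ω _ => ?_) h).trans ?_
  · by_cases h1 : ω.1 x = m
    · rw [if_pos h1]; exact if_pos h1
    · rw [if_neg h1]; exact if_neg h1
  rw [Finset.sum_filter]
  congr 1
  refine Finset.sum_congr rfl fun p _ => ?_
  split_ifs <;> simp

theorem Pr_site_eq_Zp (c : ℝ) (F : Finset P2) (x : P2) (b : ℤ) :
    Pr c F {ω | ω.1 x = 2 * b} = Zp c F {Sum.inl x} (fun _ => 0) b / Z6 c F := by
  classical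
  rw [Pr_site, Zp_eq]
  congr 1
  refine Finset.sum_congr ?_ fun _ _ => rfl
  ext p
  simp

theorem slc_site {c : ℝ} (hc : 1 ≤ c) (F : Finset P2) (x : P2) :
    SLC (fun b : ℤ => Pr c F {ω | ω.1 x = 2 * b}) where
  nonneg := fun b => by
    rw [Pr_site_eq_Zp]
    exact div_nonneg (Zp_nonneg hc _ _ _ _) (Z6_pos hc F).le
  symm := fun b => by
    classical
    rw [Pr_site, Pr_site]
    congr 1
    rw [Finset.sum_filter, Finset.sum_filter]
    rw [← sum_flip2 F (fun p => if p.1 x = 2 * b then wt6 c F p else 0)]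
    refine Finset.sum_congr rfl fun p _ => ?_
    rw [wt6_flip2]
    have : (p.1 x = 2 * -b) ↔ ((flip2 F p).1 x = 2 * b) := by
      simp only [flip2]
      omega
    by_cases h : p.1 x = 2 * -b
    · rw [if_pos h, if_pos (this.1 h)]
    · rw [if_neg h, if_neg (fun h' => h (this.2 h'))]
  lc := fun a b hab => by
    simp only [Pr_site_eq_Zp]
    rw [div_mul_div_comm, div_mul_div_comm]
    refine div_le_div_of_nonneg_right ?_ (mul_nonneg (Z6_pos hc F).le (Z6_pos hc F).le)
    have := Zp_lc hc F {Sum.inl x} (fun _ => 0) (a := a - 1) (b := b + 1) (by linarith)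
    simpa using this
  sum := by
    classical
    have h1 : ∀ b ∉ Finset.Icc (-(hb F)) (hb F), Pr c F {ω | ω.1 x = 2 * b} = 0 := by
      intro b hb'
      rw [Pr_site, Finset.filter_false_of_mem, Finset.sum_empty, zero_div]
      intro p hp hpx
      apply hb'
      rw [Finset.mem_Icc, ← abs_le]
      have h2 := (valid_mk (mem_conf2.1 hp) (Finset.empty_subset _)).abs_vert x
      simp only at h2
      rw [hpx, abs_mul] at h2
      have h3 : |(2 : ℤ)| = 2 := rfl
      rw [h3] at h2
      have := abs_nonneg b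
      linarith
    have h2 : HasSum (fun b : ℤ => Pr c F {ω | ω.1 x = 2 * b})
      (∑ b ∈ Finset.Icc (-(hb F)) (hb F), Pr c F {ω | ω.1 x = 2 * b}) :=
      hasSum_sum_of_ne_finset_zero h1
    have h0 : ∑ b ∈ Finset.Icc (-(hb F)) (hb F), Pr c F {ω | ω.1 x = 2 * b} = 1 := ?_
    · rwa [h0] at h2
    simp only [Pr_site]
    rw [← Finset.sum_div, div_eq_one_iff_eq (Z6_pos hc F).ne']
    unfold Z6
    simp only [Finset.sum_filter]
    rw [Finset.sum_comm]
    refine Finset.sum_congr rfl fun p hp => ?_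
    have hp' := mem_conf2.1 hp
    obtain ⟨r, hr⟩ := hp'.even x
    have h3 := (valid_mk hp' (Finset.empty_subset _)).abs_vert x
    simp only at h3
    rw [Finset.sum_eq_single r]
    · rw [if_pos (by omega)]
    · intro b _ hbr
      rw [if_neg]
      intro h4
      apply hbr
      omega
    · intro h4
      exfalso
      apply h4
      rw [Finset.mem_Icc]
      rw [abs_le] at h3
      have h5 : (0 : ℤ) ≤ hb F := by unfold hb; positivity
      constructor <;> omega

/-- the one-site law is maximal at height `0` -/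
theorem pr_site_le {c : ℝ} (hc : 1 ≤ c) (F : Finset P2) (x : P2) (b : ℤ) :
    Pr c F {ω | ω.1 x = 2 * b} ≤ Pr c F {ω | ω.1 x = 0} := by
  have := (slc_site hc F x).le_zero b
  simpa using this

/-- every pattern containing the vertex `x` at relative height `0` -/
theorem Zp_le {c : ℝ} (hc : 1 ≤ c) (F : Finset P2) (x : P2) {I : Finset Site} {π : Site → ℤ}
    (hx : Sum.inl x ∈ I) (hπ : π (Sum.inl x) = 0) (b : ℤ) :
    Zp c F I π b ≤ Z6 c F * Pr c F {ω | ω.1 x = 0} := by
  have h1 : Zp c F I π b ≤ Zp c F {Sum.inl x} (fun _ => 0) b := by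
    unfold Zp
    refine Finset.sum_le_sum_of_subset_of_nonneg ?_ fun a _ _ => WH_nonneg hc F a
    intro a ha
    simp only [Finset.mem_filter, Finset.mem_singleton, forall_eq] at ha ⊢
    refine ⟨ha.1, ?_⟩
    rw [ha.2 _ hx, hπ]
  have h2 := pr_site_le hc F x b
  rw [Pr_site_eq_Zp, div_le_iff₀ (Z6_pos hc F)] at h2
  linarith

end Crest.Agent.R161.LcD991
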