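import Crest.Agent.R161.Slc_132
import Crest.Agent.R161.Dnv_132
import Crest.Agent.R161.Aut_373
import Crest.Agent.R161.Asm_695
import Crest.Agent.R161.LcD_991

/-!
Row 161 (helper132), leaf L2: **delocalisation**.

If the plane state exists and is asymptotically Gaussian, then `P_F (k x = b) → 0` uniformly in `b`
along all domains `F ⊇ ball x n`.
-/

set_option autoImplicit false

noncomputable section

namespace Crest.Agent.R161.Dloc132

open Filter Topology MeasureTheory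
open Crest.Agent.R161.Geo729 Crest.Agent.R161.Defs372 Crest.Agent.R161.Ifc372
open Crest.Agent.R161.Aut373 Crest.Agent.R161.Asm695

/-- `ball x n` as a rectangle -/
theorem ball_eq_rect (x : P2) (n : ℕ) :
    Ifc372.ball x n = Aut373.rect (x.1 - n) (x.1 + n - 1) (x.2 - n) (x.2 + n - 1) := rfl

theorem exists_ball (S : Finset P2) (x : P2) : ∃ n : ℕ, ∀ m : ℕ, n ≤ m → S ⊆ Ifc372.ball x m := by
  obtain ⟨n, hn⟩ := exists_box S
  refine ⟨n + x.1.natAbs + x.2.natAbs, fun m hm f hf => ?_⟩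
  have h := hn n le_rfl hf
  simp only [Defs372.box, Ifc372.ball, Finset.mem_product, Finset.mem_Icc] at h ⊢
  omega

/-- If the second moment at one vertex is bounded along some exhausting sequence, then all second
moments are bounded. -/
theorem second_moment_le {c : ℝ} (hM : Mono2 c) (x : P2) {C : ℝ}
    (h : ∀ n : ℕ, ∃ F : Finset P2, Dom F ∧ Ifc372.ball x n ⊆ F ∧
      E c F (fun ω => (ω.1 x : ℝ) ^ 2) ≤ C) {D : Finset P2} (hD : Dom D) (v : P2) :
    E c D (fun ω => (ω.1 v : ℝ) ^ 2) ≤ C := by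
  set σ : Aut := Aut.tr (v - x) with hσ
  -- `E D (k v)^2 = E (σ.symm.img D) (k x)^2`
  have h1 : E c (σ.symm.img D) (fun ω => (ω.1 x : ℝ) ^ 2) = E c D (fun ω => (ω.1 v : ℝ) ^ 2) := by
    rw [σ.E_aut]
    have h2 : σ.img (σ.symm.img D) = D := by
      ext f
      rw [Aut.mem_img', Aut.mem_img']
      simp [Aut.symm]
    rw [h2]
    have h3 : ∀ ω : Cfg, (σ.cfg ω).1 x = ω.1 v := fun ω => by
      rw [Aut.cfg_k]
      show ω.1 (x + (v - x)) = ω.1 v
      rw [add_sub_cancel]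
    simp only [h3]
  obtain ⟨n, hn⟩ := exists_ball (σ.symm.img D) x
  obtain ⟨F, hF, hnF, hC⟩ := h n
  have h4 := hM _ F (σ.symm.dom_img hD) hF ((hn n le_rfl).trans hnF) x x
  simp only [← sq] at h4
  rw [← h1]
  exact h4.trans hC

/-- bounded second moments along the domains give bounded second moments of the plane state -/
theorem plane_le {c : ℝ} (hc : 1 ≤ c) {P : Measure Cfg} (hP : IsState c P) {C : ℝ}
    (h : ∀ D : Finset P2, Dom D → ∀ v : P2, E c D (fun ω => (ω.1 v : ℝ) ^ 2) ≤ C) (v : P2) :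
    ∫ ω : Cfg, (ω.1 v : ℝ) ^ 2 ∂P ≤ 4 * C := by
  refine le_of_forall_pos_le_add fun ε hε => ?_
  have hloc : Loc ((({v} : Finset P2)) : Set P2) (fun ω : Cfg => (ω.1 v : ℝ) ^ 2) := by
    intro ω ω' hω
    have := (hω v (by simp)).1
    simp only [this]
  obtain ⟨n, hn⟩ := hP.lim {v} _ hloc ε hε
  have h1 := hn (Defs372.box n) (dom_box n) subset_rfl
  have h2 : E c (Defs372.box n) (fun ω => ((norm0 ω).1 v : ℝ) ^ 2) ≤
      2 * E c (Defs372.box n) (fun ω => (ω.1 v : ℝ) ^ 2) +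
      2 * E c (Defs372.box n) (fun ω => (ω.1 (0, 0) : ℝ) ^ 2) := by
    rw [← E_smul, ← E_smul, ← E_add]
    refine E_mono hc fun ω _ => ?_
    simp only [norm0, addH]
    push_cast
    nlinarith [sq_nonneg ((ω.1 v : ℝ) + ω.1 (0, 0))]
  have h3 := h _ (dom_box n) v
  have h4 := h _ (dom_box n) (0, 0)
  have h5 := abs_lt.1 h1
  linarith [h5.1]

theorem plane_integrable {c : ℝ} {P : Measure Cfg} (hP : IsState c P) (v : P2) :
    Integrable (fun ω : Cfg => (ω.1 v : ℝ) ^ 2) P := by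
  refine loc_integrable hP (S := {v}) ?_
  intro ω ω' hω
  have := (hω v (by simp)).1
  simp only [this]

/-- **Divergence of the variance**: for every `C` all large domains have `E (k x)^2 > C`. -/
theorem variance_diverges {c : ℝ} (hc : 1 ≤ c) {P : Measure Cfg} (hP : IsState c P)
    (hG : PlaneGauss c P) (hM : Mono2 c) (x : P2) (C : ℝ) :
    ∃ n : ℕ, ∀ F : Finset P2, Dom F → Ifc372.ball x n ⊆ F →
      C < E c F (fun ω => (ω.1 x : ℝ) ^ 2) := by
  by_contra hcon
  push Not at hcon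
  have h1 : ∀ D : Finset P2, Dom D → ∀ v : P2, E c D (fun ω => (ω.1 v : ℝ) ^ 2) ≤ C :=
    fun D hD v => second_moment_le hM x hcon hD v
  exact Dnv132.unbounded_of_planeGauss (by linarith) hG (fun v => plane_integrable hP v)
    (fun v => plane_le hc hP h1 v)

/-- **Delocalisation.** -/
theorem deloc_zero {c : ℝ} (hc : 1 ≤ c) {P : Measure Cfg} (hP : IsState c P)
    (hG : PlaneGauss c P) (hM : Mono2 c) (x : P2) {ε : ℝ} (hε : 0 < ε) :
    ∃ n : ℕ, ∀ F : Finset P2, Dom F → Ifc372.ball x n ⊆ F →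
      Pr c F {ω | ω.1 x = 0} < ε := by
  obtain ⟨n, hn⟩ := variance_diverges hc hP hG hM x (2592 / ε ^ 2)
  refine ⟨n, fun F hF hnF => ?_⟩
  by_contra h
  rw [not_lt] at h
  have h1 := hn F hF hnF
  have h2 := Slc132.second_moment F hc x
  have h3 : 2592 / (Pr c F {ω : Cfg | ω.1 x = 0}) ^ 2 ≤ 2592 / ε ^ 2 := by
    gcongr
  linarith

/-- **Delocalisation**, all values. -/
theorem deloc {c : ℝ} (hc : 1 ≤ c) {P : Measure Cfg} (hP : IsState c P)
    (hG : PlaneGauss c P) (hM : Mono2 c) (x : P2) {ε : ℝ} (hε : 0 < ε) :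
    ∃ n : ℕ, ∀ F : Finset P2, Dom F → Ifc372.ball x n ⊆ F → ∀ b : ℤ,
      Pr c F {ω | ω.1 x = b} < ε := by
  obtain ⟨n, hn⟩ := deloc_zero hc hP hG hM x hε
  refine ⟨n, fun F hF hnF b => ?_⟩
  by_cases hb : Even b
  · obtain ⟨m, hm⟩ := hb
    have h1 := LcD991.pr_site_le hc F x m
    rw [← two_mul] at hm
    rw [hm]
    exact h1.trans_lt (hn F hF hnF)
  · have h1 : Pr c F {ω | ω.1 x = b} = 0 := by
      unfold Pr
      rw [E_congr (g := fun _ => 0), E_const hc]
      intro ω hω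
      rw [if_neg]
      intro h
      exact hb (h ▸ hω.even x)
    rw [h1]
    exact hε

/-- **Delocalisation along boxes containing `box n`** (centre `(0,0)`). -/
theorem deloc_box {c : ℝ} (hc : 1 ≤ c) {P : Measure Cfg} (hP : IsState c P)
    (hG : PlaneGauss c P) (hM : Mono2 c) {ε : ℝ} (hε : 0 < ε) :
    ∃ n : ℕ, ∀ F : Finset P2, Dom F → Defs372.box n ⊆ F → ∀ b : ℤ,
      Pr c F {ω | ω.1 (0, 0) = b} < ε := by
  obtain ⟨n, hn⟩ := deloc hc hP hG hM (0, 0) hε
  exact ⟨n, fun F hF hnF => hn F hF (by rwa [ball_zero])⟩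

end Crest.Agent.R161.Dloc132
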