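import Crest.Agent.R161.Dmp2_341
import Crest.Agent.R161.Aut_373
import Crest.Agent.R161.Asm_695

/-!
# Row 161: mixtures of zero boundary condition laws (helper341)

Let `W` be a random hull and `g ≥ 0` a weight (indicator of `ring ∧ CLOSED`) under the gradient state `P`.
If for the admissible hulls `D` the functional `1_{W = D} g` is local, neutral and depends only on the
outside of `D`, and if `g ≠ 0` implies `W ∈ 𝒟` and that the boundary of `W` is cut, then
`∫ g Φ dP = Σ_D (∫ 1_{W = D} g dP) E_D (f D)` whenever `Φ = f W (insL W ·)` where `g ≠ 0`.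
-/

set_option autoImplicit false

noncomputable section

namespace Crest.Agent.R161.Dmp341

open Finset hiding box
open Crest.Agent.R161.Geo729 Crest.Agent.R161.Defs372 Crest.Agent.R161.Aut373 MeasureTheory

/-- Two local neutral observables with the same expectation in all large domains. -/
theorem congr_neut {c : ℝ} {P : Measure Cfg} (hP : IsState c P) {S : Finset P2} {f g : Cfg → ℝ}
    (hf : Loc (S : Set P2) f) (hg : Loc (S : Set P2) g) (nf : Neut f) (ng : Neut g) {n₀ : ℕ}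
    (h : ∀ F : Finset P2, Dom F → Defs372.box n₀ ⊆ F → Defs372.E c F f = Defs372.E c F g) :
    ∫ ω, f ω ∂P = ∫ ω, g ω ∂P := by
  refine IsState.congr hP hf hg (n₀ := n₀) fun F hF hn => ?_
  rw [E_congr (g := f) fun ω hω => nf.norm0 (valid_par hω),
    E_congr (g := g) fun ω hω => ng.norm0 (valid_par hω)]
  exact h F hF hn

theorem sites_inl {S T : Finset P2} {ω ω' : Cfg} (h : AgreeOn ((S ∪ T : Finset P2) : Set P2) ω ω') :
    AgreeOn (S : Set P2) ω ω' := fun v hv => h v (by simp [Finset.mem_coe.1 hv])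

theorem sites_inr {S T : Finset P2} {ω ω' : Cfg} (h : AgreeOn ((S ∪ T : Finset P2) : Set P2) ω ω') :
    AgreeOn (T : Set P2) ω ω' := fun v hv => h v (by simp [Finset.mem_coe.1 hv])

open Classical in
/-- **Domain Markov property of the gradient state**, neutral observables. -/
theorem state_cut_neut {c : ℝ} (hc : 1 ≤ c) {P : Measure Cfg} (hP : IsState c P) {D : Finset P2}
    (hD : Dom D) {S : Finset P2} {G : Cfg → Cfg → ℝ} (hG : ∀ β, OutLoc D (fun ω => G ω β))
    (hloc : ∀ β, Loc (S : Set P2) (fun ω => G ω β)) (hneut : ∀ β, Neut (fun ω => G ω β)) :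
    ∫ ω, (if CutE D ω then G ω (insL D ω) else 0) ∂P =
      ∫ ω, (if CutE D ω then Defs372.E c D (G ω) else 0) ∂P := by
  obtain ⟨n₀, hn₀⟩ := exists_box D
  have hGe : ∀ ω ω', (∀ β, G ω β = G ω' β) → G ω = G ω' := fun ω ω' h => funext h
  refine congr_neut hP (S := S ∪ hullSites D) (n₀ := n₀) ?_ ?_ ?_ ?_ ?_
  · intro ω ω' h
    have e1 := loc_cutE D ω ω' (sites_inr h)
    have e2 := loc_insL D ω ω' (sites_inr h)
    have e3 := hGe ω ω' fun β => hloc β ω ω' (sites_inl h)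
    simp only [e1, e2, e3]
  · intro ω ω' h
    have e1 := loc_cutE D ω ω' (sites_inr h)
    have e3 := hGe ω ω' fun β => hloc β ω ω' (sites_inl h)
    simp only [e1, e3]
  · intro ω hω a ha
    have e3 : G (addH a ω) = G ω := hGe _ _ fun β => hneut β ω hω a ha
    have e4 : CutE D (addH a ω) ↔ CutE D ω := Iff.rfl
    have e5 : insL D (addH a ω) = insL D ω := insL_addH D _ ω
    simp only [e3, e4, e5]
  · intro ω hω a ha
    have e3 : G (addH a ω) = G ω := hGe _ _ fun β => hneut β ω hω a ha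
    have e4 : CutE D (addH a ω) ↔ CutE D ω := Iff.rfl
    simp only [e3, e4]
  · intro F _ hFn
    exact E_cut2 hc (hn₀.trans hFn) hD hG

open Classical in
/-- Product form. -/
theorem state_cutE_neut {c : ℝ} (hc : 1 ≤ c) {P : Measure Cfg} (hP : IsState c P) {D : Finset P2}
    (hD : Dom D) {S : Finset P2} {g f : Cfg → ℝ} (hg : OutLoc D g)
    (hloc : Loc (S : Set P2) g) (hneut : Neut g) :
    ∫ ω, (if CutE D ω then g ω * f (insL D ω) else 0) ∂P =
      (∫ ω, (if CutE D ω then g ω else 0) ∂P) * Defs372.E c D f := by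
  rw [state_cut_neut hc hP hD (S := S) (G := fun ω β => g ω * f β)
    (fun β ω ω' h1 h2 h3 => by simp only [hg ω ω' h1 h2 h3])
    (fun β ω ω' h => by simp only [hloc ω ω' h])
    (fun β ω hω a ha => by simp only [hneut ω hω a ha]),
    ← integral_mul_const]
  congr 1
  funext ω
  split_ifs
  · rw [E_smul]
  · simp

open Classical in
/-- **Mixture decomposition** of the gradient state along a random hull. -/
theorem state_mixture {c : ℝ} (hc : 1 ≤ c) {P : Measure Cfg} (hP : IsState c P)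
    (W : Cfg → Finset P2) (𝒟 : Finset (Finset P2)) (S : Finset P2) (g : Cfg → ℝ)
    (hdom : ∀ D ∈ 𝒟, Dom D)
    (hout : ∀ D ∈ 𝒟, OutLoc D (fun ω => if W ω = D then g ω else 0))
    (hloc : ∀ D ∈ 𝒟, Loc (S : Set P2) (fun ω => if W ω = D then g ω else 0))
    (hneut : ∀ D ∈ 𝒟, Neut (fun ω => if W ω = D then g ω else 0))
    (hcut : ∀ ω, GValid ω → g ω ≠ 0 → W ω ∈ 𝒟 ∧ CutE (W ω) ω)
    (Φ : Cfg → ℝ) (f : Finset P2 → Cfg → ℝ)
    (hΦ : ∀ ω, GValid ω → g ω ≠ 0 → Φ ω = f (W ω) (insL (W ω) ω)) :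
    ∫ ω, g ω * Φ ω ∂P =
      ∑ D ∈ 𝒟, (∫ ω, (if W ω = D then g ω else 0) ∂P) * Defs372.E c D (f D) := by
  have h1 : ∀ᵐ ω ∂P, g ω * Φ ω =
      ∑ D ∈ 𝒟, (if CutE D ω then (if W ω = D then g ω else 0) * f D (insL D ω) else 0) := by
    filter_upwards [hP.valid] with ω hω
    by_cases hg : g ω = 0
    · rw [hg, zero_mul]
      symm
      refine Finset.sum_eq_zero fun D _ => ?_
      simp
    · obtain ⟨hW, hcutW⟩ := hcut ω hω hg
      rw [Finset.sum_eq_single (W ω)]
      · rw [if_pos hcutW, if_pos rfl, hΦ ω hω hg]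
      · intro D _ hD
        rw [if_neg (Ne.symm hD)]
        simp
      · intro h; exact absurd hW h
  have h2 : ∀ D ∈ 𝒟, ∀ᵐ ω ∂P, (if CutE D ω then (if W ω = D then g ω else 0) else 0) =
      (if W ω = D then g ω else 0) := by
    intro D _
    filter_upwards [hP.valid] with ω hω
    by_cases hWD : W ω = D
    · by_cases hg : g ω = 0
      · simp [hg]
      · have := (hcut ω hω hg).2
        rw [hWD] at this
        rw [if_pos this]
    · simp [hWD]
  rw [integral_congr_ae h1, integral_finsetSum]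
  · refine Finset.sum_congr rfl fun D hD => ?_
    rw [state_cutE_neut hc hP (hdom D hD) (S := S) (hout D hD) (hloc D hD) (hneut D hD),
      integral_congr_ae (h2 D hD)]
  · intro D hD
    refine loc_integrable hP (S := S ∪ hullSites D) ?_
    intro ω ω' h
    have e1 := loc_cutE D ω ω' (sites_inr h)
    have e2 := loc_insL D ω ω' (sites_inr h)
    have e3 := hloc D hD ω ω' (sites_inl h)
    simp only [e1, e2]
    simp only at e3
    rw [e3]

open Classical in
/-- The weights of the mixture. -/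
def mixW (P : Measure Cfg) (W : Cfg → Finset P2) (g : Cfg → ℝ) (D : Finset P2) : ℝ :=
  (∫ ω, (if W ω = D then g ω else 0) ∂P) / ∫ ω, g ω ∂P

open Classical in
/-- Normalised mixture: `w_D = P(W = D | g)` is a probability vector on the admissible hulls and
`∫ g Φ = (∫ g) Σ_D w_D E_D (f D)`. -/
theorem state_mixture_prob {c : ℝ} (hc : 1 ≤ c) {P : Measure Cfg} (hP : IsState c P)
    (W : Cfg → Finset P2) (𝒟 : Finset (Finset P2)) (S : Finset P2) (g : Cfg → ℝ)
    (hg0 : ∀ ω, 0 ≤ g ω) (hpos : 0 < ∫ ω, g ω ∂P)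
    (hdom : ∀ D ∈ 𝒟, Dom D)
    (hout : ∀ D ∈ 𝒟, OutLoc D (fun ω => if W ω = D then g ω else 0))
    (hloc : ∀ D ∈ 𝒟, Loc (S : Set P2) (fun ω => if W ω = D then g ω else 0))
    (hneut : ∀ D ∈ 𝒟, Neut (fun ω => if W ω = D then g ω else 0))
    (hcut : ∀ ω, GValid ω → g ω ≠ 0 → W ω ∈ 𝒟 ∧ CutE (W ω) ω) :
    (∀ D ∈ 𝒟, 0 ≤ mixW P W g D) ∧ ∑ D ∈ 𝒟, mixW P W g D = 1 ∧
    ∀ (Φ : Cfg → ℝ) (f : Finset P2 → Cfg → ℝ),
      (∀ ω, GValid ω → g ω ≠ 0 → Φ ω = f (W ω) (insL (W ω) ω)) →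
      ∫ ω, g ω * Φ ω ∂P = (∫ ω, g ω ∂P) * ∑ D ∈ 𝒟, mixW P W g D * Defs372.E c D (f D) := by
  have key : ∀ (Φ : Cfg → ℝ) (f : Finset P2 → Cfg → ℝ),
      (∀ ω, GValid ω → g ω ≠ 0 → Φ ω = f (W ω) (insL (W ω) ω)) →
      ∫ ω, g ω * Φ ω ∂P = (∫ ω, g ω ∂P) * ∑ D ∈ 𝒟, mixW P W g D * Defs372.E c D (f D) := by
    intro Φ f hΦ
    rw [state_mixture hc hP W 𝒟 S g hdom hout hloc hneut hcut Φ f hΦ, Finset.mul_sum]
    refine Finset.sum_congr rfl fun D _ => ?_
    unfold mixW
    field_simp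
  refine ⟨fun D _ => div_nonneg (integral_nonneg fun ω => ?_) hpos.le, ?_, key⟩
  · simp only [Pi.zero_apply]
    split_ifs
    · exact hg0 ω
    · exact le_rfl
  · have h := key (fun _ => 1) (fun _ _ => 1) (fun _ _ _ => rfl)
    simp only [mul_one, E_const hc] at h
    have h2 := mul_left_cancel₀ hpos.ne' (h.symm.trans (mul_one (∫ ω, g ω ∂P)).symm)
    exact h2

/-! ### linear functionals -/

theorem lin_insL {D S : Finset P2} {a : P2 → ℝ} (ha : ∀ v ∈ S, a v ≠ 0 → v ∈ intVerts D) (ω : Cfg) :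
    Asm695.Lin S a (insL D ω) = Asm695.Lin S a ω - level D ω * ∑ v ∈ S, a v := by
  unfold Asm695.Lin
  rw [Finset.mul_sum, ← Finset.sum_sub_distrib]
  refine Finset.sum_congr rfl fun v hv => ?_
  by_cases h : a v = 0
  · simp [h]
  · rw [insL_K (ha v hv h)]
    push_cast
    ring

theorem lin_insL_neutral {D S : Finset P2} {a : P2 → ℝ} (ha : ∀ v ∈ S, a v ≠ 0 → v ∈ intVerts D)
    (hsum : ∑ v ∈ S, a v = 0) (ω : Cfg) :
    Asm695.Lin S a (insL D ω) = Asm695.Lin S a ω := by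
  rw [lin_insL ha, hsum, mul_zero, sub_zero]

/-- Neutral linear functionals are gradient observables. -/
theorem lin_gradInv {S : Finset P2} {a : P2 → ℝ} (hsum : ∑ v ∈ S, a v = 0) :
    GradInv (Asm695.Lin S a) := by
  intro ω b
  unfold Asm695.Lin
  have : ∀ v ∈ S, (((addH b ω).1 v : ℤ) : ℝ) * a v = (ω.1 v : ℝ) * a v + b * a v := by
    intro v _
    simp only [addH]
    push_cast
    ring
  rw [Finset.sum_congr rfl this, Finset.sum_add_distrib, ← Finset.mul_sum, hsum, mul_zero, add_zero]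

open Classical in
/-- **Interface with Proposition L** (step (3) of doc 973): a `1_ring`-type weight `g` with values in
`[0,1]`, a sub-weight on which the contour is closed, and the approximate Gaussianity on the ring give
a mixture of zero boundary condition laws with approximately Gaussian characteristic function. -/
theorem mixture_cos {c : ℝ} (hc : 1 ≤ c) {P : Measure Cfg} (hP : IsState c P)
    (W : Cfg → Finset P2) (𝒟 : Finset (Finset P2)) (S₀ : Finset P2) (r g : Cfg → ℝ)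
    (hg0 : ∀ ω, 0 ≤ g ω) (hgr : ∀ ω, g ω ≤ r ω)
    (hrl : Loc (S₀ : Set P2) r) (hgl : Loc (S₀ : Set P2) g)
    (hdom : ∀ D ∈ 𝒟, Dom D)
    (hout : ∀ D ∈ 𝒟, OutLoc D (fun ω => if W ω = D then g ω else 0))
    (hloc : ∀ D ∈ 𝒟, Loc (S₀ : Set P2) (fun ω => if W ω = D then g ω else 0))
    (hneut : ∀ D ∈ 𝒟, Neut (fun ω => if W ω = D then g ω else 0))
    (hcut : ∀ ω, GValid ω → g ω ≠ 0 → W ω ∈ 𝒟 ∧ CutE (W ω) ω)
    {q η ε : ℝ} (hq : 0 < q) (hring : q ≤ ∫ ω, r ω ∂P) (hη1 : η < 1)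
    (hclosed : (1 - η) * ∫ ω, r ω ∂P ≤ ∫ ω, g ω ∂P)
    {S : Finset P2} {a : P2 → ℝ} (ha : ∀ D ∈ 𝒟, ∀ v ∈ S, a v ≠ 0 → v ∈ intVerts D)
    (hsum : ∑ v ∈ S, a v = 0) {γ : ℝ} (hγ : |γ| ≤ 1)
    (hgauss : |∫ ω, r ω * (Real.cos (Asm695.Lin S a ω) - γ) ∂P| ≤ ε) :
    ∃ w : Finset P2 → ℝ, (∀ D ∈ 𝒟, 0 ≤ w D) ∧ ∑ D ∈ 𝒟, w D = 1 ∧
      |∑ D ∈ 𝒟, w D * Defs372.E c D (fun ω => Real.cos (Asm695.Lin S a ω)) - γ| ≤
        (ε / q + 2 * η) / (1 - η) := by
  have hprob := hP.prob
  have hri : Integrable r P := loc_integrable hP hrl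
  have hgi : Integrable g P := loc_integrable hP hgl
  have hr0 : ∀ ω, 0 ≤ r ω := fun ω => (hg0 ω).trans (hgr ω)
  have h1η : 0 < 1 - η := by linarith
  set R := ∫ ω, r ω ∂P with hR
  set G := ∫ ω, g ω ∂P with hG
  have hRpos : 0 < R := hq.trans_le hring
  have hGpos : 0 < G := lt_of_lt_of_le (mul_pos h1η hRpos) hclosed
  have hGR : G ≤ R := integral_mono hgi hri hgr
  have hη0 : 0 ≤ η := by
    by_contra hcon
    push Not at hcon
    nlinarith
  obtain ⟨h0, h1, h2⟩ := state_mixture_prob hc hP W 𝒟 S₀ g hg0 hGpos hdom hout hloc hneut hcut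
  refine ⟨mixW P W g, h0, h1, ?_⟩
  have hcosloc : Loc (S : Set P2) (fun ω => Real.cos (Asm695.Lin S a ω)) := by
    intro ω ω' h
    have : Asm695.Lin S a ω = Asm695.Lin S a ω' := by
      unfold Asm695.Lin
      exact Finset.sum_congr rfl fun v hv => by rw [(h v (Finset.mem_coe.2 hv)).1]
    simp only [this]
  have hcosi : Integrable (fun ω => r ω * (Real.cos (Asm695.Lin S a ω) - γ)) P := by
    refine loc_integrable hP (S := S₀ ∪ S) ?_
    intro ω ω' h
    have e1 := hrl ω ω' (sites_inl h)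
    have e2 := hcosloc ω ω' (sites_inr h)
    simp only at e2
    simp only [e1, e2]
  have hcosgi : Integrable (fun ω => g ω * (Real.cos (Asm695.Lin S a ω) - γ)) P := by
    refine loc_integrable hP (S := S₀ ∪ S) ?_
    intro ω ω' h
    have e1 := hgl ω ω' (sites_inl h)
    have e2 := hcosloc ω ω' (sites_inr h)
    simp only at e2
    simp only [e1, e2]
  -- the mixture
  have h3 := h2 (fun ω => Real.cos (Asm695.Lin S a ω) - γ)
    (fun D ω => Real.cos (Asm695.Lin S a ω) - γ) (fun ω hω hgω => by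
      have := (hcut ω hω hgω).1
      rw [lin_insL_neutral (ha _ this) hsum])
  have h4 : ∑ D ∈ 𝒟, mixW P W g D *
      Defs372.E c D (fun ω => Real.cos (Asm695.Lin S a ω) - γ) =
      ∑ D ∈ 𝒟, mixW P W g D * Defs372.E c D (fun ω => Real.cos (Asm695.Lin S a ω)) - γ := by
    have : ∀ D ∈ 𝒟, mixW P W g D * Defs372.E c D (fun ω => Real.cos (Asm695.Lin S a ω) - γ) =
        mixW P W g D * Defs372.E c D (fun ω => Real.cos (Asm695.Lin S a ω)) -
          mixW P W g D * γ := by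
      intro D _
      rw [E_sub c D (fun ω => Real.cos (Asm695.Lin S a ω)) (fun _ => γ), E_const hc]
      ring
    rw [Finset.sum_congr rfl this, Finset.sum_sub_distrib, ← Finset.sum_mul, h1, one_mul]
  rw [h4] at h3
  set M := ∑ D ∈ 𝒟, mixW P W g D * Defs372.E c D (fun ω => Real.cos (Asm695.Lin S a ω)) - γ
  -- difference between ring and closed ring
  have hdiff : |∫ ω, g ω * (Real.cos (Asm695.Lin S a ω) - γ) ∂P| ≤ ε + 2 * η * R := by
    have e1 : ∫ ω, g ω * (Real.cos (Asm695.Lin S a ω) - γ) ∂P =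
        ∫ ω, r ω * (Real.cos (Asm695.Lin S a ω) - γ) ∂P -
          ∫ ω, (r ω - g ω) * (Real.cos (Asm695.Lin S a ω) - γ) ∂P := by
      rw [← integral_sub hcosi]
      · congr 1; funext ω; ring
      · have := hcosi.sub hcosgi
        refine this.congr (Filter.Eventually.of_forall fun ω => ?_)
        simp only [Pi.sub_apply]
        ring
    have e2 : |∫ ω, (r ω - g ω) * (Real.cos (Asm695.Lin S a ω) - γ) ∂P| ≤ 2 * (R - G) := by
      have : ∀ ω, ‖(r ω - g ω) * (Real.cos (Asm695.Lin S a ω) - γ)‖ ≤ 2 * (r ω - g ω) := by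
        intro ω
        rw [norm_mul, Real.norm_eq_abs, Real.norm_eq_abs, abs_of_nonneg (sub_nonneg.2 (hgr ω)),
          mul_comm]
        refine mul_le_mul_of_nonneg_right ?_ (sub_nonneg.2 (hgr ω))
        calc |Real.cos (Asm695.Lin S a ω) - γ| ≤ |Real.cos (Asm695.Lin S a ω)| + |γ| := abs_sub _ _
          _ ≤ 1 + 1 := add_le_add (Real.abs_cos_le_one _) hγ
          _ = 2 := by norm_num
      calc |∫ ω, (r ω - g ω) * (Real.cos (Asm695.Lin S a ω) - γ) ∂P|
          ≤ ∫ ω, 2 * (r ω - g ω) ∂P := norm_integral_le_of_norm_le ((hri.sub hgi).const_mul 2)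
              (Filter.Eventually.of_forall this)
        _ = 2 * (R - G) := by rw [integral_const_mul, integral_sub hri hgi]
    have e3 : 2 * (R - G) ≤ 2 * η * R := by nlinarith
    rw [e1]
    calc _ ≤ |∫ ω, r ω * (Real.cos (Asm695.Lin S a ω) - γ) ∂P| +
        |∫ ω, (r ω - g ω) * (Real.cos (Asm695.Lin S a ω) - γ) ∂P| := abs_sub _ _
      _ ≤ ε + 2 * η * R := by linarith
  rw [h3, abs_mul, abs_of_pos hGpos] at hdiff
  have hM : |M| ≤ (ε + 2 * η * R) / G := by
    rw [le_div_iff₀ hGpos, mul_comm]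
    exact hdiff
  refine hM.trans ?_
  have hε0 : 0 ≤ ε := (abs_nonneg _).trans hgauss
  calc (ε + 2 * η * R) / G ≤ (ε + 2 * η * R) / ((1 - η) * R) := by
        refine div_le_div_of_nonneg_left ?_ (mul_pos h1η hRpos) hclosed
        positivity
    _ = (ε / R + 2 * η) / (1 - η) := by field_simp
    _ ≤ (ε / q + 2 * η) / (1 - η) := by
        refine div_le_div_of_nonneg_right ?_ h1η.le
        have : ε / R ≤ ε / q := div_le_div_of_nonneg_left hε0 hq hring
        linarith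

end Crest.Agent.R161.Dmp341
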