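import Crest.Agent.R161.Dual_729

/-!
Row 161: Kramers–Wannier duality on a simply connected face set, with arbitrary real edge weights.

Configurations of signs are encoded by finite sets: face signs by `S ⊆ F`, vertex signs (`+` on all
non-interior vertices) by `T ⊆ IV F`, edge sets by `H ⊆ IE F`.
-/

set_option autoImplicit false

namespace Crest.Agent.R161.DualB729

open Finset Crest.Agent.R161.Geo729 Crest.Agent.R161.Dual729

/-- Interior edges of a finite face set. -/
def IE (F : Finset P2) : Finset Edge :=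
  (F ×ˢ (Finset.univ : Finset Bool)).filter (fun e => fB e ∈ F)

/-- Interior vertices of a finite face set. -/
def IV (F : Finset P2) : Finset P2 :=
  F.filter (fun v => (v.1 - 1, v.2) ∈ F ∧ (v.1, v.2 - 1) ∈ F ∧ (v.1 - 1, v.2 - 1) ∈ F)

theorem mem_IE {F : Finset P2} {e : Edge} : e ∈ IE F ↔ fA e ∈ F ∧ fB e ∈ F := by
  simp [IE, fA]

theorem mem_IE' {F : Finset P2} {e : Edge} : e ∈ IE F ↔ IntE (F : Set P2) e := by
  simp [mem_IE, IntE]

theorem mem_IV {F : Finset P2} {v : P2} : v ∈ IV F ↔ IntV (F : Set P2) v := by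
  simp [IV, IntV]

/-- Sign of membership: `-1` if the proposition holds, `1` otherwise. -/
noncomputable def sg (p : Prop) [Decidable p] : ℝ := if p then -1 else 1

theorem sg_mul_self (p : Prop) [Decidable p] : sg p * sg p = 1 := by
  unfold sg; split_ifs <;> norm_num

theorem sg_cases (p : Prop) [Decidable p] : sg p = 1 ∨ sg p = -1 := by
  unfold sg; split_ifs <;> simp

/-- Coboundary of a set of faces (restricted to interior edges). -/
def dF (F S : Finset P2) : Finset Edge := (IE F).filter (fun e => ¬ (fA e ∈ S ↔ fB e ∈ S))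

theorem mem_dF {F S : Finset P2} {e : Edge} :
    e ∈ dF F S ↔ e ∈ IE F ∧ ¬ (fA e ∈ S ↔ fB e ∈ S) := by simp [dF]

/-- Degree sign of the edge set `H` at `v`. -/
noncomputable def dsg (H : Finset Edge) (v : P2) : ℝ :=
  ∏ e ∈ H, ((if src e = v then -1 else 1) * (if tgt e = v then -1 else 1) : ℝ)

theorem prod_src (H : Finset Edge) (v : P2) :
    ∏ e ∈ H, (if src e = v then -1 else 1 : ℝ) =
      sg ((v, false) ∈ H) * sg ((v, true) ∈ H) := by
  classical
  induction H using Finset.induction_on with
  | empty => simp [sg]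
  | insert e H he ih =>
    rw [Finset.prod_insert he, ih]
    obtain ⟨u, b⟩ := e
    simp only [src_mk, sg, Finset.mem_insert, Prod.mk.injEq]
    by_cases hu : u = v
    · subst hu
      cases b
      · simp [he]
      · simp [he]
        split_ifs <;> norm_num
    · have hu' : ¬ v = u := fun h => hu h.symm
      simp [hu, hu']

theorem prod_tgt (H : Finset Edge) (v : P2) :
    ∏ e ∈ H, (if tgt e = v then -1 else 1 : ℝ) =
      sg (((v.1 - 1, v.2), false) ∈ H) * sg (((v.1, v.2 - 1), true) ∈ H) := by
  classical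
  induction H using Finset.induction_on with
  | empty => simp [sg]
  | insert e H he ih =>
    rw [Finset.prod_insert he, ih]
    obtain ⟨⟨x, y⟩, b⟩ := e
    obtain ⟨p, q⟩ := v
    cases b
    · simp only [tgt_h, sg, Finset.mem_insert, Prod.mk.injEq]
      by_cases hu : x + 1 = p ∧ y = q
      · obtain ⟨rfl, rfl⟩ := hu
        have : x + 1 - 1 = x := by omega
        simp [this, he]
      · have hu' : ¬ (p - 1 = x ∧ q = y) := by omega
        simp [hu, hu']
    · simp only [tgt_v, sg, Finset.mem_insert, Prod.mk.injEq]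
      by_cases hu : x = p ∧ y + 1 = q
      · obtain ⟨rfl, rfl⟩ := hu
        have : y + 1 - 1 = y := by omega
        simp [this, he]
        split_ifs <;> norm_num
      · have hu' : ¬ (p = x ∧ q - 1 = y) := by omega
        simp [hu, hu']

theorem dsg_eq (H : Finset Edge) (v : P2) :
    dsg H v = sg ((v, false) ∈ H) * sg ((v, true) ∈ H) *
      (sg (((v.1 - 1, v.2), false) ∈ H) * sg (((v.1, v.2 - 1), true) ∈ H)) := by
  unfold dsg
  rw [Finset.prod_mul_distrib, prod_src, prod_tgt]

theorem dsg_cases (H : Finset Edge) (v : P2) : dsg H v = 1 ∨ dsg H v = -1 := by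
  rw [dsg_eq]
  rcases sg_cases ((v, false) ∈ H) with h1 | h1 <;>
  rcases sg_cases ((v, true) ∈ H) with h2 | h2 <;>
  rcases sg_cases (((v.1 - 1, v.2), false) ∈ H) with h3 | h3 <;>
  rcases sg_cases (((v.1, v.2 - 1), true) ∈ H) with h4 | h4 <;>
  simp [h1, h2, h3, h4]

/-- Even at all interior vertices. -/
def Ev (F : Finset P2) (H : Finset Edge) : Prop := ∀ v ∈ IV F, dsg H v = 1

/-- Characters of the coboundary. -/
theorem prod_dsg (H : Finset Edge) (T : Finset P2) :
    ∏ v ∈ T, dsg H v = ∏ e ∈ H, (sg (src e ∈ T) * sg (tgt e ∈ T)) := by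
  unfold dsg
  rw [Finset.prod_comm]
  apply Finset.prod_congr rfl
  intro e _
  rw [Finset.prod_mul_distrib]
  simp [Finset.prod_ite_eq, sg]

theorem sum_chars (F : Finset P2) (H : Finset Edge) [Decidable (Ev F H)] :
    ∑ T ∈ (IV F).powerset, ∏ e ∈ H, (sg (src e ∈ T) * sg (tgt e ∈ T)) =
      if Ev F H then (2 : ℝ) ^ (IV F).card else 0 := by
  have h1 : ∑ T ∈ (IV F).powerset, ∏ e ∈ H, (sg (src e ∈ T) * sg (tgt e ∈ T)) =
      ∏ v ∈ IV F, (1 + dsg H v) := by
    rw [Finset.prod_one_add]
    exact Finset.sum_congr rfl fun T _ => (prod_dsg H T).symm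
  rw [h1]
  split_ifs with h
  · rw [Finset.prod_congr rfl (fun v hv => by rw [h v hv])]
    simp only [Finset.prod_const]
    norm_num
  · unfold Ev at h
    push Not at h
    obtain ⟨v, hv, hne⟩ := h
    apply Finset.prod_eq_zero hv
    rcases dsg_cases H v with h' | h'
    · exact absurd h' hne
    · rw [h']; norm_num

/-- Number of face sets with zero coboundary. -/
noncomputable def N0 (F : Finset P2) : ℕ := (F.powerset.filter (fun S => dF F S = ∅)).card

theorem N0_pos (F : Finset P2) : 0 < N0 F := by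
  unfold N0
  apply Finset.card_pos.mpr
  refine ⟨∅, ?_⟩
  rw [Finset.mem_filter]
  refine ⟨Finset.empty_mem_powerset F, ?_⟩
  ext e
  simp [mem_dF]

theorem dF_symmDiff (F S T : Finset P2) : dF F (symmDiff S T) = symmDiff (dF F S) (dF F T) := by
  ext e
  simp only [mem_dF, Finset.mem_symmDiff]
  by_cases h : e ∈ IE F <;> by_cases h1 : fA e ∈ S <;> by_cases h2 : fB e ∈ S <;>
    by_cases h3 : fA e ∈ T <;> by_cases h4 : fB e ∈ T <;> simp [h, h1, h2, h3, h4]

/-- The coboundary of a face set is even at interior vertices. -/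
theorem ev_dF (F S : Finset P2) : Ev F (dF F S) := by
  intro v hv
  rw [mem_IV] at hv
  obtain ⟨h1, h2, h3, h4⟩ := hv
  have h1' : v ∈ F := h1
  have h2' : (v.1 - 1, v.2) ∈ F := h2
  have h3' : (v.1, v.2 - 1) ∈ F := h3
  have h4' : (v.1 - 1, v.2 - 1) ∈ F := h4
  rw [dsg_eq]
  simp only [sg, mem_dF, mem_IE, fA_mk, fB_h, fB_v]
  simp only [h1', h2', h3', h4', true_and]
  by_cases a1 : v ∈ S <;> by_cases a2 : (v.1 - 1, v.2) ∈ S <;>
    by_cases a3 : (v.1, v.2 - 1) ∈ S <;> by_cases a4 : (v.1 - 1, v.2 - 1) ∈ S <;>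
    simp [a1, a2, a3, a4]

/-- On a simply connected face set every even edge set is a coboundary. -/
theorem exists_dF_eq {F : Finset P2} (hF : SC (F : Set P2)) {H : Finset Edge} (hH : H ⊆ IE F)
    (hE : Ev F H) : ∃ S ∈ F.powerset, dF F S = H := by
  classical
  obtain ⟨s, hs⟩ := exists_potential hF (fun e => if e ∈ H then 1 else 0) (by
    intro v hv
    have h := hE v (mem_IV.mpr hv)
    rw [dsg_eq] at h
    simp only [sg] at h
    by_cases b1 : (v, false) ∈ H <;> by_cases b2 : (v, true) ∈ H <;>
      by_cases b3 : ((v.1 - 1, v.2), false) ∈ H <;> by_cases b4 : ((v.1, v.2 - 1), true) ∈ H <;>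
      simp only [b1, b2, b3, b4, if_true, if_false] at h ⊢ <;> first
        | (exfalso; norm_num at h; done)
        | decide)
  refine ⟨F.filter (fun f => s f = 1), by simp, ?_⟩
  ext e
  rw [mem_dF]
  have key : e ∈ IE F → (¬ (fA e ∈ F.filter (fun f => s f = 1) ↔
      fB e ∈ F.filter (fun f => s f = 1)) ↔ e ∈ H) := by
    intro he
    have h1 := hs e (mem_IE'.mp he)
    obtain ⟨h2, h3⟩ := mem_IE.mp he
    simp only [Finset.mem_filter, h2, h3, true_and]
    by_cases hh : e ∈ H
    · simp only [hh, if_true, iff_true] at h1 ⊢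
      generalize s (fA e) = x at *
      generalize s (fB e) = y at *
      revert x y
      decide
    · simp only [hh, if_false, iff_false, not_not] at h1 ⊢
      generalize s (fA e) = x at *
      generalize s (fB e) = y at *
      revert x y
      decide
  constructor
  · rintro ⟨he, h⟩
    exact (key he).mp h
  · intro h
    exact ⟨hH h, (key (hH h)).mpr h⟩

/-- Number of face sets with given coboundary. -/
theorem card_dF_eq {F : Finset P2} (hF : SC (F : Set P2)) {H : Finset Edge} (hH : H ⊆ IE F)
    [Decidable (Ev F H)] :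
    ((F.powerset.filter (fun S => dF F S = H)).card : ℝ) = if Ev F H then (N0 F : ℝ) else 0 := by
  classical
  split_ifs with hE
  · obtain ⟨S0, hS0, hd⟩ := exists_dF_eq hF hH hE
    unfold N0
    norm_cast
    apply Finset.card_bij' (fun S _ => symmDiff S S0) (fun S _ => symmDiff S S0)
    · intro S hS
      rw [Finset.mem_filter, Finset.mem_powerset] at hS ⊢
      refine ⟨?_, ?_⟩
      · intro x hx
        rw [Finset.mem_symmDiff] at hx
        rcases hx with h | h
        · exact hS.1 h.1
        · exact Finset.mem_powerset.mp hS0 h.1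
      · rw [dF_symmDiff, hS.2, hd, symmDiff_self]; rfl
    · intro S hS
      rw [Finset.mem_filter, Finset.mem_powerset] at hS ⊢
      refine ⟨?_, ?_⟩
      · intro x hx
        rw [Finset.mem_symmDiff] at hx
        rcases hx with h | h
        · exact hS.1 h.1
        · exact Finset.mem_powerset.mp hS0 h.1
      · rw [dF_symmDiff, hS.2, hd]
        exact bot_symmDiff H
    · intro S _
      exact symmDiff_symmDiff_cancel_right S0 S
    · intro S _
      exact symmDiff_symmDiff_cancel_right S0 S
  · rw [Nat.cast_eq_zero, Finset.card_eq_zero, Finset.filter_eq_empty_iff]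
    intro S _ h
    exact hE (h ▸ ev_dF F S)

/-- **Kramers–Wannier duality** on a simply connected face set (free faces / wired vertices), for
arbitrary real edge weights. -/
theorem kramers_wannier {F : Finset P2} (hF : SC (F : Set P2)) (a b : Edge → ℝ) :
    ∑ S ∈ F.powerset, ∏ e ∈ IE F, (if (fA e ∈ S ↔ fB e ∈ S) then a e else b e) =
      (N0 F : ℝ) / 2 ^ (IV F).card *
        ∑ T ∈ (IV F).powerset, ∏ e ∈ IE F,
          (if (src e ∈ T ↔ tgt e ∈ T) then a e + b e else a e - b e) := by
  classical
  -- Step A: group by the coboundary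
  have hA : ∑ S ∈ F.powerset, ∏ e ∈ IE F, (if (fA e ∈ S ↔ fB e ∈ S) then a e else b e) =
      ∑ H ∈ (IE F).powerset, ((F.powerset.filter (fun S => dF F S = H)).card : ℝ) *
        ((∏ e ∈ H, b e) * ∏ e ∈ IE F \ H, a e) := by
    rw [← Finset.sum_fiberwise_of_maps_to (s := F.powerset) (t := (IE F).powerset)
      (g := fun S => dF F S) (by
        intro S _
        rw [Finset.mem_powerset]
        exact Finset.filter_subset _ _)]
    apply Finset.sum_congr rfl
    intro H hH
    rw [← nsmul_eq_mul, ← Finset.sum_const]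
    apply Finset.sum_congr rfl
    intro S hS
    rw [Finset.mem_filter] at hS
    rw [← hS.2]
    have hsub : dF F S ⊆ IE F := Finset.filter_subset _ _
    rw [← Finset.prod_sdiff hsub, mul_comm]
    congr 1
    · apply Finset.prod_congr rfl
      intro e he
      rw [if_neg (mem_dF.mp he).2]
    · apply Finset.prod_congr rfl
      intro e he
      rw [Finset.mem_sdiff, mem_dF] at he
      rw [if_pos]
      by_contra h
      exact he.2 ⟨he.1, h⟩
  rw [hA]
  -- Step B/C: counting and characters
  have hB : ∀ H ∈ (IE F).powerset,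
      ((F.powerset.filter (fun S => dF F S = H)).card : ℝ) *
        ((∏ e ∈ H, b e) * ∏ e ∈ IE F \ H, a e) =
      (N0 F : ℝ) / 2 ^ (IV F).card * ∑ T ∈ (IV F).powerset,
        ((∏ e ∈ H, (b e * (sg (src e ∈ T) * sg (tgt e ∈ T)))) * ∏ e ∈ IE F \ H, a e) := by
    intro H hH
    rw [card_dF_eq hF (Finset.mem_powerset.mp hH), ← Finset.sum_mul]
    have h1 : ∑ T ∈ (IV F).powerset, ∏ e ∈ H, (b e * (sg (src e ∈ T) * sg (tgt e ∈ T))) =
        (∏ e ∈ H, b e) * (if Ev F H then (2 : ℝ) ^ (IV F).card else 0) := by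
      rw [← sum_chars, Finset.mul_sum]
      apply Finset.sum_congr rfl
      intro T _
      rw [Finset.prod_mul_distrib]
    rw [h1]
    have h2 : ((2 : ℝ) ^ (IV F).card) ≠ 0 := by positivity
    split_ifs with h
    · field_simp
    · simp
  rw [Finset.sum_congr rfl hB, ← Finset.mul_sum, Finset.sum_comm]
  congr 1
  apply Finset.sum_congr rfl
  intro T _
  rw [← Finset.prod_add]
  apply Finset.prod_congr rfl
  intro e _
  by_cases h1 : src e ∈ T <;> by_cases h2 : tgt e ∈ T <;> simp [sg, h1, h2] <;> ring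

end Crest.Agent.R161.DualB729
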