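import Crest.Agent.R161.Geo_729

/-!
Row 161: cocycle lemmas on simply connected face sets and Kramers–Wannier duality.
-/

set_option autoImplicit false

namespace Crest.Agent.R161.Dual729

open Finset Crest.Agent.R161.Geo729

/-! ### Mod-2 chains -/

/-- Mod-2 boundary of a finite chain of edges. -/
noncomputable def bd : (Edge →₀ ZMod 2) →+ (P2 →₀ ZMod 2) :=
  Finsupp.liftAddHom (fun e => Finsupp.singleAddHom (src e) + Finsupp.singleAddHom (tgt e))

theorem bd_single (e : Edge) (a : ZMod 2) :
    bd (Finsupp.single e a) = Finsupp.single (src e) a + Finsupp.single (tgt e) a := by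
  simp [bd]

/-- Degree formula. -/
theorem bd_apply (η : Edge →₀ ZMod 2) (v : P2) :
    bd η v = η (v, false) + η (v, true) + η ((v.1 - 1, v.2), false) + η ((v.1, v.2 - 1), true) := by
  induction η using Finsupp.induction_linear with
  | zero => simp
  | add f g hf hg =>
    rw [map_add, Finsupp.add_apply, hf, hg]
    simp only [Finsupp.add_apply]
    ring
  | single e a =>
    rw [bd_single]
    obtain ⟨⟨x, y⟩, b⟩ := e
    obtain ⟨p, q⟩ := v
    cases b
    · simp only [src_mk, tgt_h, Finsupp.add_apply, Finsupp.single_apply, Prod.mk.injEq,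
        and_true, reduceCtorEq, and_false, if_false, add_zero]
      congr 1
      by_cases h : x + 1 = p ∧ y = q
      · rw [if_pos h, if_pos ⟨by omega, h.2⟩]
      · rw [if_neg h, if_neg (by rintro ⟨h1, h2⟩; exact h ⟨by omega, h2⟩)]
    · simp only [src_mk, tgt_v, Finsupp.add_apply, Finsupp.single_apply, Prod.mk.injEq,
        and_true, reduceCtorEq, and_false, if_false, add_zero, zero_add]
      congr 1
      by_cases h : x = p ∧ y + 1 = q
      · rw [if_pos h, if_pos ⟨h.1, by omega⟩]
      · rw [if_neg h, if_neg (by rintro ⟨h1, h2⟩; exact h ⟨h1, by omega⟩)]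

/-- Augmentation. -/
noncomputable def aug : (P2 →₀ ZMod 2) →+ ZMod 2 :=
  Finsupp.liftAddHom (fun _ => AddMonoidHom.id _)

theorem aug_single (v : P2) (a : ZMod 2) : aug (Finsupp.single v a) = a := by
  simp [aug]

theorem zmod2_add_self (a : ZMod 2) : a + a = 0 := by
  revert a; decide

theorem aug_bd (η : Edge →₀ ZMod 2) : aug (bd η) = 0 := by
  induction η using Finsupp.induction_linear with
  | zero => simp
  | add f g hf hg => rw [map_add, map_add, hf, hg, add_zero]
  | single e a => rw [bd_single, map_add, aug_single, aug_single, zmod2_add_self]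

theorem fs_add_self {α : Type*} (w : α →₀ ZMod 2) : w + w = 0 := by
  ext x
  rw [Finsupp.add_apply, zmod2_add_self]; rfl

/-- `v` and `w` are joined by a chain of non-interior edges. -/
def Joined (F : Set P2) (v w : P2) : Prop :=
  ∃ κ : Edge →₀ ZMod 2, (∀ e, IntE F e → κ e = 0) ∧
    bd κ = Finsupp.single v 1 + Finsupp.single w 1

theorem Joined.refl (F : Set P2) (v : P2) : Joined F v v :=
  ⟨0, fun _ _ => rfl, by rw [map_zero, fs_add_self]⟩

theorem Joined.symm {F : Set P2} {v w : P2} (h : Joined F v w) : Joined F w v := by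
  obtain ⟨κ, h1, h2⟩ := h
  exact ⟨κ, h1, by rw [h2, add_comm]⟩

theorem Joined.trans {F : Set P2} {u v w : P2} (h : Joined F u v) (h' : Joined F v w) :
    Joined F u w := by
  obtain ⟨κ, h1, h2⟩ := h
  obtain ⟨κ', h1', h2'⟩ := h'
  refine ⟨κ + κ', fun e he => by rw [Finsupp.add_apply, h1 e he, h1' e he, add_zero], ?_⟩
  rw [map_add, h2, h2']
  have := fs_add_self (Finsupp.single v (1 : ZMod 2))
  rw [show (Finsupp.single u (1 : ZMod 2) + Finsupp.single v 1) +
      (Finsupp.single v 1 + Finsupp.single w 1) =
      Finsupp.single u 1 + (Finsupp.single v 1 + Finsupp.single v 1) + Finsupp.single w 1 by abel,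
    this, add_zero]

theorem Joined.edge {F : Set P2} {e : Edge} (h : ¬ IntE F e) : Joined F (src e) (tgt e) := by
  refine ⟨Finsupp.single e 1, fun e' he' => ?_, bd_single e 1⟩
  rw [Finsupp.single_apply, if_neg]
  rintro rfl
  exact h he'

theorem Joined.corner {F : Set P2} {v g : P2} (hg : g ∉ F) (hv : IsCorner v g) :
    Joined F g v := by
  have hb : Joined F g (g.1 + 1, g.2) := Joined.edge (e := (g, false)) (fun h => hg h.1)
  have hl : Joined F g (g.1, g.2 + 1) := Joined.edge (e := (g, true)) (fun h => hg h.1)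
  have ht : Joined F (g.1, g.2 + 1) (g.1 + 1, g.2 + 1) :=
    Joined.edge (e := ((g.1, g.2 + 1), false)) (fun h => hg (by
      have := h.2
      simpa using this))
  rcases hv with rfl | rfl | rfl | rfl
  · exact Joined.refl F g
  · exact hb
  · exact hl
  · exact hl.trans ht

theorem Joined.adj {F : Set P2} {f g : P2} (h : AdjIn Fᶜ f g) : Joined F f g := by
  obtain ⟨hf, hg, hadj⟩ := h
  rcases hadj with rfl | rfl | rfl | rfl
  · exact Joined.corner hf (Or.inr (Or.inl rfl))
  · refine (Joined.corner hg ?_).symm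
    right; left; ext <;> simp
  · exact Joined.corner hf (Or.inr (Or.inr (Or.inl rfl)))
  · refine (Joined.corner hg ?_).symm
    right; right; left; ext <;> simp

theorem Joined.of_conn {F : Set P2} {f g : P2} (h : Conn Fᶜ f g) : Joined F f g := by
  induction h with
  | refl => exact Joined.refl F f
  | tail _ h2 ih => exact ih.trans (Joined.adj h2)

/-- Vertices that are not interior are all joined to each other when `F` is simply connected. -/
theorem Joined.of_sc {F : Set P2} (hF : SC F) {v w : P2} (hv : ¬ IntV F v) (hw : ¬ IntV F w) :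
    Joined F v w := by
  rw [intV_iff] at hv hw
  push Not at hv hw
  obtain ⟨f, hf, hfF⟩ := hv
  obtain ⟨g, hg, hgF⟩ := hw
  exact (Joined.corner hfF hf).symm.trans
    ((Joined.of_conn (hF f hfF g hgF)).trans (Joined.corner hgF hg))

/-- A mod-2 0-chain carried by non-interior vertices, with zero augmentation, bounds a chain of
non-interior edges. -/
theorem exists_chain {F : Set P2} (hF : SC F) (w : P2 →₀ ZMod 2) (hw : ∀ v, IntV F v → w v = 0)
    (ha : aug w = 0) :
    ∃ κ : Edge →₀ ZMod 2, (∀ e, IntE F e → κ e = 0) ∧ bd κ = w := by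
  by_cases h0 : w = 0
  · exact ⟨0, fun _ _ => rfl, by rw [map_zero, h0]⟩
  obtain ⟨b, hb⟩ := Finsupp.ne_iff.mp h0
  have hbF : ¬ IntV F b := fun h => hb (by rw [hw b h]; rfl)
  -- with the base point `b`
  have key : ∀ S : Finset P2, (∀ v ∈ S, ¬ IntV F v) → ∃ κ : Edge →₀ ZMod 2,
      (∀ e, IntE F e → κ e = 0) ∧
      bd κ = (∑ v ∈ S, Finsupp.single v (w v)) + Finsupp.single b (∑ v ∈ S, w v) := by
    intro S
    induction S using Finset.induction_on with
    | empty => intro _; exact ⟨0, fun _ _ => rfl, by simp⟩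
    | insert v S hvS ih =>
      intro hS
      obtain ⟨κ, h1, h2⟩ := ih (fun u hu => hS u (Finset.mem_insert_of_mem hu))
      obtain ⟨κ', h1', h2'⟩ := Joined.of_sc hF (hS v (Finset.mem_insert_self _ _)) hbF
      have hcases : w v = 0 ∨ w v = 1 := by
        generalize w v = a
        revert a; decide
      rcases hcases with hv | hv
      · refine ⟨κ, h1, ?_⟩
        rw [Finset.sum_insert hvS, Finset.sum_insert hvS, hv, h2]
        simp
      · refine ⟨κ' + κ, fun e he => by rw [Finsupp.add_apply, h1 e he, h1' e he, add_zero], ?_⟩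
        rw [map_add, h2, h2', Finset.sum_insert hvS, Finset.sum_insert hvS, hv,
          Finsupp.single_add]
        abel
  obtain ⟨κ, h1, h2⟩ := key w.support (fun v hv h => by
    rw [Finsupp.mem_support_iff] at hv
    exact hv (hw v h))
  refine ⟨κ, h1, ?_⟩
  rw [h2]
  have e1 : ∑ v ∈ w.support, Finsupp.single v (w v) = w := Finsupp.sum_single w
  have e2 : ∑ v ∈ w.support, w v = aug w := by
    simp [aug, Finsupp.sum]
  rw [e1, e2, ha]
  simp

/-- **Cocycle lemma (D1)**: on a simply connected finite face set a mod-2 function of the interior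
edges that is even at every interior vertex is the coboundary of a function of the faces. -/
theorem exists_potential {F : Finset P2} (hF : SC (F : Set P2)) (η : Edge → ZMod 2)
    (hη : ∀ v, IntV (F : Set P2) v →
      η (v, false) + η (v, true) + η ((v.1 - 1, v.2), false) + η ((v.1, v.2 - 1), true) = 0) :
    ∃ s : P2 → ZMod 2, ∀ e, IntE (F : Set P2) e → s (fA e) + s (fB e) = η e := by
  classical
  -- restrict to interior edges
  let IE : Finset Edge := (F ×ˢ (Finset.univ : Finset Bool)).filter (fun e => fB e ∈ F)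
  have hIE : ∀ e, e ∈ IE ↔ IntE (F : Set P2) e := by
    intro e
    simp [IE, IntE, fA]
  let η0 : Edge →₀ ZMod 2 := Finsupp.onFinset IE (fun e => if e ∈ IE then η e else 0)
    (fun e he => by
      by_contra h
      rw [if_neg h] at he
      exact he rfl)
  have hη0 : ∀ e, η0 e = if e ∈ IE then η e else 0 := fun e => rfl
  have hbd : ∀ v, IntV (F : Set P2) v → bd η0 v = 0 := by
    intro v hv
    have hv' := hv
    obtain ⟨h1, h2, h3, h4⟩ := hv'
    rw [bd_apply, hη0, hη0, hη0, hη0, if_pos, if_pos, if_pos, if_pos]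
    · exact hη v hv
    · rw [hIE]; exact ⟨h3, h4⟩
    · rw [hIE]; exact ⟨h2, h4⟩
    · rw [hIE]; exact ⟨h1, h2⟩
    · rw [hIE]; exact ⟨h1, h3⟩
  obtain ⟨κ, hκ1, hκ2⟩ := exists_chain hF (bd η0) hbd (aug_bd η0)
  let θ := η0 + κ
  have hθ : bd θ = 0 := by
    show bd (η0 + κ) = 0
    rw [map_add, hκ2, fs_add_self]
  -- a vertical line to the left of the support
  obtain ⟨N, hN⟩ : ∃ N : ℤ, ∀ e ∈ θ.support, N + 1 < e.1.1 := by
    have : ∃ N : ℤ, ∀ x ∈ θ.support.image (fun e => e.1.1), N < x := by
      rcases (θ.support.image (fun e : Edge => e.1.1)).eq_empty_or_nonempty with h | h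
      · exact ⟨0, by simp [h]⟩
      · exact ⟨Finset.min' _ h - 1, fun x hx => by
          have := Finset.min'_le _ x hx
          omega⟩
    obtain ⟨N, hN⟩ := this
    exact ⟨N - 1, fun e he => by
      have := hN e.1.1 (Finset.mem_image_of_mem _ he)
      omega⟩
  have hzero : ∀ e : Edge, e.1.1 ≤ N + 1 → θ e = 0 := by
    intro e he
    by_contra h
    have := hN e (Finsupp.mem_support_iff.mpr h)
    omega
  obtain ⟨g, hg1, hg2, _⟩ := poincare (fun p : P2 => θ ((p.1 + 1, p.2), true))
    (fun p : P2 => θ ((p.1, p.2 + 1), false)) N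
    (fun i j h => hzero _ (by simp only; omega))
    (fun i j h => hzero _ (by simp only; omega))
    (fun i j => by
      have h := congrArg (fun w : P2 →₀ ZMod 2 => w (i + 1, j + 1)) hθ
      simp only [bd_apply, Finsupp.coe_zero, Pi.zero_apply, add_sub_cancel_right] at h
      simp only
      generalize θ ((i + 1, j), true) = x1 at *
      generalize θ ((i + 1, j + 1), false) = x2 at *
      generalize θ ((i, j + 1), false) = x3 at *
      generalize θ ((i + 1, j + 1), true) = x4 at *
      revert x1 x2 x3 x4
      decide)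
  refine ⟨g, fun e he => ?_⟩
  have hval : θ e = η e := by
    show (η0 + κ) e = η e
    rw [Finsupp.add_apply, hκ1 e he, add_zero, hη0, if_pos ((hIE e).mpr he)]
  rw [← hval]
  obtain ⟨⟨x, y⟩, b⟩ := e
  cases b
  · have h := hg2 x (y - 1)
    simp only [sub_add_cancel] at h
    simp only [fA_mk, fB_h]
    rw [h]
    generalize g (x, y - 1) = u
    generalize θ ((x, y), false) = w
    revert u w
    decide
  · have h := hg1 (x - 1) y
    simp only [sub_add_cancel] at h
    simp only [fA_mk, fB_v]
    rw [h]
    generalize g (x - 1, y) = u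
    generalize θ ((x, y), true) = w
    revert u w
    decide

end Crest.Agent.R161.Dual729
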