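import Crest.Agent.R161.ExInv_792
import Crest.Agent.R161.Csq2_472

/-!
# Row 161: `SwapInv` for the concrete plane state (helper792)

`swapInv_of` : a measure on `Cfg` whose `(k, h)`-marginal is the law of the heights of the plane
state of row 150 satisfies helper472's `SwapInv`.
-/

set_option autoImplicit false

noncomputable section

namespace Crest.Agent.R161.ExInv792

open MeasureTheory
open Crest.Agent.R161.Geo729 Crest.Agent.R161.Defs372
open Crest.Agent.R150.Hgt989 Crest.Agent.R150.Pls989

theorem swapInv_of_exch {Q : Measure Cfg} (hE : (Q.map hts).map exch = Q.map hts) :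
    Csq472.SwapInv Q := by
  unfold Csq472.SwapInv
  rw [Measure.map_map measurable_exch measurable_hts] at hE
  exact hE

/-- **`SwapInv`** of the plane state -/
theorem swapInv_of {c : ℝ} {P : Measure Conf} (hP : IsPlane c P) {Q : Measure Cfg}
    (hQ : Q.map hts = P.map khmap) : Csq472.SwapInv Q :=
  swapInv_of_exch (map_exch_of hP hQ)

end Crest.Agent.R161.ExInv792
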