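import Crest.Agent.R161.Defs_372
import Crest.Agent.R150.Pls_989

/-!
# Row 161: even/odd exchange invariance of the plane state (helper792)

* `khmap w` : heights at Ashkin–Teller vertices and faces of a six-vertex configuration (dictionary
  of helper159)
* `exch (k, h)` : exchange of vertices and faces (translation by half a lattice unit, heights
  renormalised)
* `khmap_shift` : `khmap (shift (1,0) w) = exch (khmap w)` for ice configurations
* `map_exch` : the law of the heights under the plane state is invariant under `exch`
* `map_exch_of` : the same for a measure on `Cfg` whose `(k, h)`-marginal is that law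
* `integral_exch` : `∫ f (k, h) = ∫ f (exch (k, h))`
-/

set_option autoImplicit false

noncomputable section

namespace Crest.Agent.R161.ExInv792

open MeasureTheory
open Crest.Agent.R161.Geo729 Crest.Agent.R161.Defs372
open Crest.Agent.R150.Hgt989 Crest.Agent.R150.Pls989

/-- pairs (vertex heights, face heights) -/
abbrev KH : Type := (P2 → ℤ) × (P2 → ℤ)

/-- heights at Ashkin–Teller vertices and faces -/
def khmap (w : Conf) : KH :=
  (fun v => relH w (v.1 + v.2) (v.2 - v.1), fun f => relH w (f.1 + f.2 + 1) (f.2 - f.1))

/-- heights of a configuration -/
def hts (ω : Cfg) : KH := (ω.1, ω.2.1)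

/-- exchange of vertices and faces -/
def exch (p : KH) : KH :=
  (fun v => p.2 v - p.2 (0, 0), fun f => p.1 (f.1 + 1, f.2 + 1) - p.2 (0, 0))

theorem khmap_shift {w : Conf} (h : Ice w) :
    khmap (Crest.Agent.R150.Hgt989.shift (1, 0) w) = exch (khmap w) := by
  refine Prod.ext ?_ ?_
  · funext v
    simp only [khmap, exch]
    rw [relH_shift h]
    simp
  · funext f
    simp only [khmap, exch]
    rw [relH_shift h]
    simp only [add_zero, zero_add, sub_self]
    congr 2 <;> ring

theorem measurable_relH (p q : ℤ) : Measurable fun w : Conf => relH w p q := by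
  have hdx : ∀ v : ℤ × ℤ, Measurable fun w : Conf => dx w v := by
    intro v
    exact (measurable_of_countable (fun b : Bool × Bool => if b.2 then (-1 : ℤ) else 1)).comp
      (measurable_pi_apply v)
  have hdy : ∀ v : ℤ × ℤ, Measurable fun w : Conf => dy w v := by
    intro v
    exact (measurable_of_countable (fun b : Bool × Bool => if b.1 then (1 : ℤ) else -1)).comp
      (measurable_pi_apply v)
  unfold relH Crest.ProbabilityR.SixVertex.signedSum
  refine Measurable.add (Measurable.sub ?_ ?_) (Measurable.sub ?_ ?_) <;>
  · refine Finset.measurable_sum _ fun i _ => ?_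
    first | exact hdx _ | exact hdy _

theorem measurable_khmap : Measurable khmap :=
  (measurable_pi_lambda _ fun _ => measurable_relH _ _).prodMk
    (measurable_pi_lambda _ fun _ => measurable_relH _ _)

theorem measurable_hts : Measurable hts :=
  measurable_fst.prodMk (measurable_fst.comp measurable_snd)

theorem measurable_exch : Measurable exch := by
  have h1 : ∀ v : P2, Measurable fun p : KH => p.1 v := fun v =>
    (measurable_pi_apply v).comp measurable_fst
  have h2 : ∀ v : P2, Measurable fun p : KH => p.2 v := fun v =>
    (measurable_pi_apply v).comp measurable_snd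
  exact (measurable_pi_lambda _ fun v => (h2 v).sub (h2 _)).prodMk
    (measurable_pi_lambda _ fun v => (h1 _).sub (h2 _))

/-- **Even/odd exchange invariance** of the plane state. -/
theorem map_exch {c : ℝ} {P : Measure Conf} (hP : IsPlane c P) :
    (P.map khmap).map exch = P.map khmap := by
  rw [Measure.map_map measurable_exch measurable_khmap]
  have h1 : P.map (exch ∘ khmap) = P.map (khmap ∘ Crest.Agent.R150.Hgt989.shift (1, 0)) := by
    refine Measure.map_congr ?_
    filter_upwards [hP.ice] with w hw
    exact (khmap_shift hw).symm
  rw [h1, ← Measure.map_map measurable_khmap (measurable_shift _), hP.shift]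

/-- The same for every measure on `Cfg` whose height marginal is that of the plane state. -/
theorem map_exch_of {c : ℝ} {P : Measure Conf} (hP : IsPlane c P) {Q : Measure Cfg}
    (hQ : Q.map hts = P.map khmap) : (Q.map hts).map exch = Q.map hts := by
  rw [hQ]
  exact map_exch hP

theorem integral_exch {Q : Measure Cfg} (hE : (Q.map hts).map exch = Q.map hts) {f : KH → ℝ}
    (hf : Measurable f) : ∫ ω, f (exch (hts ω)) ∂Q = ∫ ω, f (hts ω) ∂Q := by
  calc ∫ ω, f (exch (hts ω)) ∂Q = ∫ p, f (exch p) ∂(Q.map hts) := by
        exact (integral_map (f := fun p => f (exch p)) measurable_hts.aemeasurable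
          (hf.comp measurable_exch).aestronglyMeasurable).symm
    _ = ∫ p, f p ∂((Q.map hts).map exch) := by
        exact (integral_map measurable_exch.aemeasurable hf.aestronglyMeasurable).symm
    _ = ∫ ω, f (hts ω) ∂Q := by
        rw [hE]
        exact integral_map measurable_hts.aemeasurable hf.aestronglyMeasurable

end Crest.Agent.R161.ExInv792
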