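import Crest.Agent.R161.Cap8_863
import Crest.Agent.R161.Qb_760
import Crest.Agent.R161.BKm_123

/-!
# R161: insertion tolerance of the cut variables of the plane state (helper863)

* `ev` : six-vertex vertex of an Ashkin–Teller edge
* `kz_ev` : the conditional law `kz` of `Cap6_863` is the conditional law `pz` of `Qb_760`
* `law_fin` : law of finitely many cut variables
* `ins_of` : `Ins` (`BKm_123`) for the law of the cut variables
-/

set_option autoImplicit false
set_option linter.unusedSectionVars false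

noncomputable section

open Filter Topology MeasureTheory
open Crest.Agent.R161.Geo729 Crest.Agent.R161.Defs372
open Crest.Agent.R150.Hgt989 (Conf relH Ice dx dy abs_relH_sub)
open Crest.Agent.R150.Pls989 (IsPlane)
open Crest.Agent.R161.ExInv792 (KH khmap hts measurable_khmap measurable_hts)
open Crest.Agent.R161.Csq472 (pcut)
open Crest.Agent.R161.Qb760 (pz)
open Crest.Agent.R161.Cap863

namespace Crest.Agent.R161.InsQ863

/-- the six-vertex vertex of an edge -/
def ev (e : Edge) : ℤ × ℤ := (e.1.1 + e.1.2 + 1, e.1.2 - e.1.1 + if e.2 then 1 else 0)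

lemma ev_inj : Function.Injective ev := by
  rintro ⟨⟨a, b⟩, s⟩ ⟨⟨a', b'⟩, s'⟩ h
  unfold ev at h
  simp only [Prod.mk.injEq] at h
  obtain ⟨h1, h2⟩ := h
  cases s <;> cases s' <;> simp at h2 ⊢ <;> omega

lemma sp_beq {x y : ℤ} (h : x - y = 0 ∨ x - y = 2 ∨ x - y = -2) : (sp x == sp y) = decide (x = y) := by
  unfold sp
  rcases h with h | h | h
  · have : x = y := by omega
    subst this
    simp
  · have h1 : ¬ x = y := by omega
    have h2 : (x % 4 = 0 ∨ x % 4 = 1) ↔ ¬ (y % 4 = 0 ∨ y % 4 = 1) := by omega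
    by_cases h3 : y % 4 = 0 ∨ y % 4 = 1
    · have h4 : ¬ (x % 4 = 0 ∨ x % 4 = 1) := fun h => (h2.1 h) h3
      rw [decide_eq_true h3, decide_eq_false h4, decide_eq_false h1]; rfl
    · have h4 : (x % 4 = 0 ∨ x % 4 = 1) := h2.2 h3
      rw [decide_eq_false h3, decide_eq_true h4, decide_eq_false h1]; rfl
  · have h1 : ¬ x = y := by omega
    have h2 : (x % 4 = 0 ∨ x % 4 = 1) ↔ ¬ (y % 4 = 0 ∨ y % 4 = 1) := by omega
    by_cases h3 : y % 4 = 0 ∨ y % 4 = 1
    · have h4 : ¬ (x % 4 = 0 ∨ x % 4 = 1) := fun h => (h2.1 h) h3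
      rw [decide_eq_true h3, decide_eq_false h4, decide_eq_false h1]; rfl
    · have h4 : (x % 4 = 0 ∨ x % 4 = 1) := h2.2 h3
      rw [decide_eq_false h3, decide_eq_true h4, decide_eq_false h1]; rfl

/-- heights around a six-vertex vertex -/
lemma quad {ω : Conf} (h : Ice ω) (a b : ℤ) :
    |relH ω a (b - 1) - relH ω (a - 1) (b - 1)| = 1 ∧ |relH ω a b - relH ω a (b - 1)| = 1 ∧
    |relH ω a b - relH ω (a - 1) b| = 1 ∧ |relH ω (a - 1) b - relH ω (a - 1) (b - 1)| = 1 := by
  have h1 := Qb760.abs_relH_fst h (a - 1) (b - 1)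
  have h2 := Qb760.abs_relH_snd ω a (b - 1)
  have h3 := Qb760.abs_relH_fst h (a - 1) b
  have h4 := Qb760.abs_relH_snd ω (a - 1) (b - 1)
  rw [sub_add_cancel] at h1 h2 h3 h4
  exact ⟨h1, h2, h3, h4⟩

lemma spinOf_beq (ω : Conf) (t : Bool) {f g : ℤ × ℤ}
    (h : relH ω f.1 f.2 - relH ω g.1 g.2 = 0 ∨ relH ω f.1 f.2 - relH ω g.1 g.2 = 2 ∨
      relH ω f.1 f.2 - relH ω g.1 g.2 = -2) :
    (spinOf ω t f == spinOf ω t g) = decide (relH ω f.1 f.2 = relH ω g.1 g.2) := by
  unfold spinOf
  rw [sp_beq (by rw [add_sub_add_right_eq_sub]; exact h)]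
  congr 1
  rw [add_left_inj]

lemma beqs {ω : Conf} (h : Ice ω) (t : Bool) (a b : ℤ) :
    (spinOf ω t (a - 1, b - 1) == spinOf ω t (a, b)) =
      decide (relH ω (a - 1) (b - 1) = relH ω a b) ∧
    (spinOf ω t (a, b - 1) == spinOf ω t (a - 1, b)) =
      decide (relH ω a (b - 1) = relH ω (a - 1) b) ∧
    (relH ω (a - 1) (b - 1) = relH ω a b ∨ relH ω a (b - 1) = relH ω (a - 1) b) := by
  obtain ⟨q1, q2, q3, q4⟩ := quad h a b
  have key : ∀ x y z w : ℤ, |y - x| = 1 → |w - y| = 1 → |w - z| = 1 → |z - x| = 1 →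
      (x - w = 0 ∨ x - w = 2 ∨ x - w = -2) ∧ (y - z = 0 ∨ y - z = 2 ∨ y - z = -2) ∧
      (x = w ∨ y = z) := by
    intro x y z w h1 h2 h3 h4
    rw [abs_eq (by norm_num)] at h1 h2 h3 h4
    omega
  obtain ⟨r1, r2, r3⟩ := key _ _ _ _ q1 q2 q3 q4
  exact ⟨spinOf_beq ω t r1, spinOf_beq ω t r2, r3⟩

lemma ev_f (v1 v2 : ℤ) : ev ((v1, v2), false) = (v1 + v2 + 1, v2 - v1) := by simp [ev]
lemma ev_t (v1 v2 : ℤ) : ev ((v1, v2), true) = (v1 + v2 + 1, v2 - v1 + 1) := by simp [ev]

/-- agreements at the six-vertex vertex of an edge -/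
lemma pd_ev {ω : Conf} (h : Ice ω) (t : Bool) (e : Edge) :
    pa (spinOf ω t) (ev e) = decide ((khmap ω).1 (src e) = (khmap ω).1 (tgt e)) ∧
    da (spinOf ω t) (ev e) = decide ((khmap ω).2 (fA e) = (khmap ω).2 (fB e)) ∧
    ((khmap ω).1 (src e) = (khmap ω).1 (tgt e) ∨ (khmap ω).2 (fA e) = (khmap ω).2 (fB e)) := by
  obtain ⟨⟨v1, v2⟩, s⟩ := e
  cases s
  · rw [ev_f]
    obtain ⟨r1, r2, r3⟩ := beqs h t (v1 + v2 + 1) (v2 - v1)
    unfold pa da
    have e0 : (decide ((v1 + v2 + 1 + (v2 - v1)) % 2 = 0)) = false := by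
      rw [decide_eq_false]; omega
    simp only [e0, paB, daB, Bool.false_eq_true, if_false]
    rw [r1, r2]
    have k1 : (khmap ω).1 (src ((v1, v2), false)) = relH ω (v1 + v2 + 1 - 1) (v2 - v1) := by
      simp only [khmap, src_mk]
      rw [add_sub_cancel_right]
    have k2 : (khmap ω).1 (tgt ((v1, v2), false)) = relH ω (v1 + v2 + 1) (v2 - v1 - 1) := by
      simp only [khmap, tgt_h]
      rw [show v1 + 1 + v2 = v1 + v2 + 1 by ring, show v2 - (v1 + 1) = v2 - v1 - 1 by ring]
    have k3 : (khmap ω).2 (fA ((v1, v2), false)) = relH ω (v1 + v2 + 1) (v2 - v1) := by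
      simp only [khmap, fA_mk]
    have k4 : (khmap ω).2 (fB ((v1, v2), false)) = relH ω (v1 + v2 + 1 - 1) (v2 - v1 - 1) := by
      simp only [khmap, fB_h]
      rw [show v1 + (v2 - 1) + 1 = v1 + v2 + 1 - 1 by ring, show v2 - 1 - v1 = v2 - v1 - 1 by ring]
    rw [k1, k2, k3, k4]
    refine ⟨?_, ?_, ?_⟩
    · rw [decide_eq_decide]; exact eq_comm
    · rw [decide_eq_decide]; exact eq_comm
    · rcases r3 with r3 | r3
      · exact Or.inr r3.symm
      · exact Or.inl r3.symm
  · rw [ev_t]
    obtain ⟨r1, r2, r3⟩ := beqs h t (v1 + v2 + 1) (v2 - v1 + 1)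
    unfold pa da
    have e0 : (decide ((v1 + v2 + 1 + (v2 - v1 + 1)) % 2 = 0)) = true := by
      rw [decide_eq_true]; omega
    simp only [e0, paB, daB, if_true]
    rw [r1, r2]
    have k1 : (khmap ω).1 (src ((v1, v2), true)) = relH ω (v1 + v2 + 1 - 1) (v2 - v1 + 1 - 1) := by
      simp only [khmap, src_mk]
      rw [add_sub_cancel_right, add_sub_cancel_right]
    have k2 : (khmap ω).1 (tgt ((v1, v2), true)) = relH ω (v1 + v2 + 1) (v2 - v1 + 1) := by
      simp only [khmap, tgt_v]
      rw [show v1 + (v2 + 1) = v1 + v2 + 1 by ring, show v2 + 1 - v1 = v2 - v1 + 1 by ring]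
    have k3 : (khmap ω).2 (fA ((v1, v2), true)) = relH ω (v1 + v2 + 1) (v2 - v1 + 1 - 1) := by
      simp only [khmap, fA_mk]
      rw [add_sub_cancel_right]
    have k4 : (khmap ω).2 (fB ((v1, v2), true)) = relH ω (v1 + v2 + 1 - 1) (v2 - v1 + 1) := by
      simp only [khmap, fB_v]
      rw [show v1 - 1 + v2 + 1 = v1 + v2 + 1 - 1 by ring, show v2 - (v1 - 1) = v2 - v1 + 1 by ring]
    rw [k1, k2, k3, k4]
    exact ⟨rfl, rfl, r3⟩

lemma kz_ev {c : ℝ} (hc : 1 ≤ c) {ω : Conf} (h : Ice ω) (t : Bool) (e : Edge) (y : Bool) :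
    kz c (spinOf ω t) (ev e) y = pz c (khmap ω) e y := by
  obtain ⟨h1, h2, h3⟩ := pd_ev h t e
  have hc0 : c ≠ 0 := by linarith
  unfold kz wz ez
  rw [h1, h2]
  unfold pz pcut ezB
  by_cases g1 : (khmap ω).1 (src e) = (khmap ω).1 (tgt e) <;>
  by_cases g2 : (khmap ω).2 (fA e) = (khmap ω).2 (fB e)
  · cases y
    · simp [g1, g2]
      field_simp
    · simp [g1, g2]
  · cases y <;> simp [g1, g2]
  · cases y <;> simp [g1, g2]
  · exact absurd h3 (by simp [g1, g2])

/-! ### the law of finitely many cut variables -/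

lemma measurable_pz (c : ℝ) (e : Edge) (y : Bool) : Measurable fun p : KH => pz c p e y := by
  unfold pz
  by_cases h : y = true
  · simp only [h, if_true]; exact Csq472.measurable_pcut c e
  · simp only [h]; exact measurable_const.sub (Csq472.measurable_pcut c e)

/-- six-vertex vertices of a set of edges -/
def evS (S : Finset Edge) : Finset (ℤ × ℤ) := S.map ⟨ev, ev_inj⟩

lemma ev_mem (S : Finset Edge) (e : S) : ev e.1 ∈ evS S :=
  Finset.mem_map_of_mem ⟨ev, ev_inj⟩ e.2

/-- the edges of `S` and their six-vertex vertices -/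
def evE (S : Finset Edge) : S ≃ evS S :=
  Equiv.ofBijective (fun e => ⟨ev e.1, ev_mem S e⟩) (by
    constructor
    · intro a b h
      exact Subtype.ext (ev_inj (congrArg Subtype.val h))
    · rintro ⟨w, hw⟩
      obtain ⟨e, he, rfl⟩ := Finset.mem_map.1 hw
      exact ⟨⟨e, he⟩, rfl⟩)

/-- extension of a pattern -/
def extp {S : Finset Edge} (ζ : S → Bool) (e : Edge) : Bool := if h : e ∈ S then ζ ⟨e, h⟩ else false

lemma extp_coe {S : Finset Edge} (ζ : S → Bool) (e : S) : extp ζ e.1 = ζ e := by
  unfold extp; rw [dif_pos e.2]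

lemma extp_iff {S : Finset Edge} (ζ : S → Bool) (z : Edge → Bool) :
    (∀ e ∈ S, z e = extp ζ e) ↔ (fun e : S => z e) = ζ := by
  constructor
  · intro h
    funext e
    rw [h e.1 e.2, extp_coe]
  · rintro h e he
    rw [← h]
    unfold extp
    rw [dif_pos he]

lemma zF_ev {c : ℝ} (hc : 1 ≤ c) {ω : Conf} (h : Ice ω) (t : Bool) (S : Finset Edge)
    (f : (S → Bool) → ℝ) :
    zF c (evS S) (fun _ ζ => f fun e => ζ (evE S e)) (spinOf ω t) =
      ∑ ζ : S → Bool, f ζ * ∏ e : S, pz c (khmap ω) e.1 (ζ e) := by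
  unfold zF
  rw [← (Equiv.arrowCongr (evE S) (Equiv.refl Bool)).sum_comp]
  refine Finset.sum_congr rfl fun ζ _ => ?_
  rw [← (evE S).prod_comp, mul_comm]
  congr 1
  · show f (fun e => (((evE S).arrowCongr (Equiv.refl Bool)) ζ) (evE S e)) = f ζ
    congr 1
    funext e
    simp [Equiv.arrowCongr]
  · refine Finset.prod_congr rfl fun e _ => ?_
    have h1 : ((evE S e : evS S) : ℤ × ℤ) = ev e.1 := rfl
    rw [h1, kz_ev hc h]
    simp [Equiv.arrowCongr]

lemma avgF_ev {c : ℝ} (hc : 1 ≤ c) {ω : Conf} (h : Ice ω) (S : Finset Edge)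
    (f : (S → Bool) → ℝ) :
    avgF (zF c (evS S) (fun _ ζ => f fun e => ζ (evE S e))) ω =
      ∑ ζ : S → Bool, f ζ * ∏ e : S, pz c (khmap ω) e.1 (ζ e) := by
  unfold avgF
  rw [zF_ev hc h, zF_ev hc h]
  ring

variable {c : ℝ} {P : Measure Conf} {Q : Measure Cfg} [IsProbabilityMeasure Q]

lemma measurable_z : Measurable fun ω : Cfg => ω.2.2 := measurable_snd.comp measurable_snd

lemma measurable_rs (S : Finset Edge) : Measurable fun (z : Edge → Bool) (e : S) => z e :=
  measurable_pi_lambda _ fun _ => measurable_pi_apply _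

/-- the probability of a pattern -/
lemma pattern (hP : IsPlane c P) (hQ : Q.map hts = P.map khmap)
    (hCI : Csq472.CondIndep c Q) (S : Finset Edge) (ζ : S → Bool) :
    (Q.map fun ω => ω.2.2).real {z | (fun e : S => z e) = ζ} =
      ∫ ω, ∏ e : S, pz c (khmap ω) e.1 (ζ e) ∂P := by
  have hPp := hP.prob
  have hm : MeasurableSet {z : Edge → Bool | (fun e : S => z e) = ζ} :=
    measurable_rs S (measurableSet_singleton ζ)
  rw [measureReal_def, Measure.map_apply measurable_z hm]
  have h1 : (fun ω : Cfg => ω.2.2) ⁻¹' {z | (fun e : S => z e) = ζ} =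
      {ω | ∀ e ∈ S, ω.2.2 e = extp ζ e} := by
    ext ω
    exact (extp_iff ζ ω.2.2).symm
  rw [h1, hCI S (extp ζ)]
  have h2 : ∀ p : KH, ∏ e ∈ S, pz c p e (extp ζ e) = ∏ e : S, pz c p e.1 (ζ e) := by
    intro p
    rw [← Finset.prod_coe_sort]
    refine Finset.prod_congr rfl fun e _ => ?_
    rw [extp_coe]
  have h3 : (fun ω : Cfg => ∏ e ∈ S, (if extp ζ e = true then pcut c (Csq472.hts ω) e
      else 1 - pcut c (Csq472.hts ω) e)) = fun ω => (fun p : KH => ∏ e : S, pz c p e.1 (ζ e)) (hts ω) := by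
    funext ω
    simp only
    rw [← h2]
    rfl
  rw [h3]
  have hmeas : Measurable fun p : KH => ∏ e : S, pz c p e.1 (ζ e) :=
    Finset.measurable_prod _ fun e _ => measurable_pz c e.1 (ζ e)
  rw [← integral_map (f := fun p : KH => ∏ e : S, pz c p e.1 (ζ e)) measurable_hts.aemeasurable
    hmeas.aestronglyMeasurable, hQ, integral_map measurable_khmap.aemeasurable
    hmeas.aestronglyMeasurable]

theorem law_fin (hc : 1 ≤ c) (hP : IsPlane c P) (hQ : Q.map hts = P.map khmap)
    (hCI : Csq472.CondIndep c Q) (S : Finset Edge) (f : (S → Bool) → ℝ) :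
    ∫ z, f (fun e => z e) ∂(Q.map fun ω => ω.2.2) =
      ∫ ω, avgF (zF c (evS S) (fun _ ζ => f fun e => ζ (evE S e))) ω ∂P := by
  classical
  have hPp := hP.prob
  have hmp : IsProbabilityMeasure (Q.map fun ω : Cfg => ω.2.2) :=
    Measure.isProbabilityMeasure_map measurable_z.aemeasurable
  have h1 : (fun z : Edge → Bool => f fun e : S => z e) =
      fun z => ∑ ζ : S → Bool, {z : Edge → Bool | (fun e : S => z e) = ζ}.indicator (fun _ => f ζ) z := by
    funext z
    rw [Finset.sum_eq_single (fun e : S => z e)]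
    · rw [Set.indicator_of_mem]
      rfl
    · intro ζ _ hζ
      rw [Set.indicator_of_notMem]
      exact fun h => hζ (Eq.symm h)
    · intro h
      exact absurd (Finset.mem_univ _) h
  have hms : ∀ ζ : S → Bool, MeasurableSet {z : Edge → Bool | (fun e : S => z e) = ζ} :=
    fun ζ => measurable_rs S (measurableSet_singleton ζ)
  rw [h1, integral_finsetSum _ fun ζ _ => (integrable_const _).indicator (hms ζ)]
  have h2 : ∫ ω, avgF (zF c (evS S) (fun _ ζ => f fun e => ζ (evE S e))) ω ∂P =
      ∫ ω, ∑ ζ : S → Bool, f ζ * ∏ e : S, pz c (khmap ω) e.1 (ζ e) ∂P := by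
    refine integral_congr_ae ?_
    filter_upwards [hP.ice] with ω hω
    exact avgF_ev hc hω S f
  rw [h2, integral_finsetSum]
  · refine Finset.sum_congr rfl fun ζ _ => ?_
    rw [integral_indicator_const _ (hms ζ), pattern hP hQ hCI, integral_const_mul, smul_eq_mul,
      mul_comm]
  · intro ζ _
    refine Integrable.const_mul ?_ _
    have hmeas : Measurable fun ω : Conf => ∏ e : S, pz c (khmap ω) e.1 (ζ e) :=
      Finset.measurable_prod _ fun e _ => (measurable_pz c e.1 (ζ e)).comp measurable_khmap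
    refine Integrable.of_bound hmeas.aestronglyMeasurable 1 (Eventually.of_forall fun ω => ?_)
    rw [Real.norm_of_nonneg (Finset.prod_nonneg fun e _ => Qb760.pz_nonneg hc _ _ _)]
    exact Finset.prod_le_one (fun e _ => Qb760.pz_nonneg hc _ _ _)
      fun e _ => Qb760.pz_le_one hc _ _ _

/-! ### insertion tolerance -/

lemma exists_box (S : Finset Edge) : ∃ R : ℕ, ∀ w ∈ evS S, InBox R w := by
  classical
  refine ⟨(evS S).sup (fun w => w.1.natAbs + w.2.natAbs + 1), fun w hw => ?_⟩
  have h := Finset.le_sup (f := fun w : ℤ × ℤ => w.1.natAbs + w.2.natAbs + 1) hw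
  unfold InBox
  omega

/-- insertion tolerance for events of finitely many cut variables -/
theorem ins_fin (hc : 1 ≤ c) (hP : IsPlane c P) (hQ : Q.map hts = P.map khmap)
    (hCI : Csq472.CondIndep c Q) (S : Finset Edge) {e0 : Edge} (he0 : e0 ∈ S)
    {A : Set (Edge → Bool)} (hA : BK123.DepOn S A) :
    (c - 1) * (Q.map fun ω => ω.2.2).real {z | Function.update z e0 false ∈ A} ≤
      (c + 1) * (Q.map fun ω => ω.2.2).real A := by
  classical
  have hmp : IsProbabilityMeasure (Q.map fun ω : Cfg => ω.2.2) :=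
    Measure.isProbabilityMeasure_map measurable_z.aemeasurable
  set μ : Measure (Edge → Bool) := Q.map fun ω => ω.2.2 with hμ
  set f : (S → Bool) → ℝ := fun ζ =>
    if Function.update (extp ζ) e0 false ∈ A then 1 else 0 with hf
  obtain ⟨R, hR⟩ := exists_box S
  set e0' : evS S := evE S ⟨e0, he0⟩ with he0'
  have hupd : ∀ (ζ' : evS S → Bool) (b : Bool), f (fun e => Function.update ζ' e0' b (evE S e)) =
      f (fun e => ζ' (evE S e)) := by
    intro ζ' b
    simp only [hf]
    congr 1
    refine propext ?_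
    have : Function.update (extp fun e : S => Function.update ζ' e0' b (evE S e)) e0 false =
        Function.update (extp fun e : S => ζ' (evE S e)) e0 false := by
      funext e
      by_cases h : e = e0
      · subst h; simp
      · rw [Function.update_of_ne h, Function.update_of_ne h]
        unfold extp
        by_cases he : e ∈ S
        · rw [dif_pos he, dif_pos he]
          show Function.update ζ' e0' b (evE S ⟨e, he⟩) = ζ' (evE S ⟨e, he⟩)
          rw [Function.update_of_ne]
          intro h'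
          exact h (congrArg Subtype.val ((evE S).injective h'))
        · rw [dif_neg he, dif_neg he]
    rw [this]
  have hf0 : ∀ ζ, 0 ≤ f ζ := fun ζ => by simp only [hf]; split_ifs <;> norm_num
  have hins := ins_plane hc hP (evS S) hR (fun _ ζ => f fun e => ζ (evE S e))
    (fun _ _ => hf0 _) (fun _ _ _ _ => rfl) e0' (fun _ ζ b => hupd ζ b)
  have e2 : (fun (_ : ℤ × ℤ → Bool) (ζ : evS S → Bool) =>
      if ζ e0' then 0 else f fun e => ζ (evE S e)) =
      fun _ ζ => (fun ζ0 : S → Bool => if ζ0 ⟨e0, he0⟩ then 0 else f ζ0) fun e => ζ (evE S e) := by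
    rfl
  rw [e2, ← law_fin hc hP hQ hCI S f,
    ← law_fin hc hP hQ hCI S (fun ζ0 : S → Bool => if ζ0 ⟨e0, he0⟩ then 0 else f ζ0)] at hins
  have hupA : ∀ z : Edge → Bool,
      (Function.update (extp fun e : S => z e) e0 false ∈ A) ↔ Function.update z e0 false ∈ A := by
    intro z
    refine hA _ _ fun e he => ?_
    by_cases h : e = e0
    · subst h; simp
    · rw [Function.update_of_ne h, Function.update_of_ne h]
      unfold extp
      rw [dif_pos he]
  have hmA : MeasurableSet A := hA.measurableSet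
  have hmU : MeasurableSet {z : Edge → Bool | Function.update z e0 false ∈ A} :=
    BK123.measurable_upd e0 hmA
  have i1 : ∫ z, f (fun e => z e) ∂μ = μ.real {z | Function.update z e0 false ∈ A} := by
    rw [← integral_indicator_one hmU]
    refine integral_congr_ae (Eventually.of_forall fun z => ?_)
    simp only [hf]
    by_cases h : Function.update z e0 false ∈ A
    · rw [if_pos ((hupA z).2 h), Set.indicator_of_mem (by exact h)]; rfl
    · rw [if_neg (fun h' => h ((hupA z).1 h')), Set.indicator_of_notMem (by exact h)]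
  have i2 : ∫ z, (fun ζ0 : S → Bool => if ζ0 ⟨e0, he0⟩ then 0 else f ζ0) (fun e => z e) ∂μ ≤
      μ.real A := by
    rw [← integral_indicator_one hmA]
    have hmf : Measurable fun z : Edge → Bool =>
        (fun ζ0 : S → Bool => if ζ0 ⟨e0, he0⟩ then 0 else f ζ0) (fun e => z e) :=
      Measurable.comp (g := fun ζ0 : S → Bool => if ζ0 ⟨e0, he0⟩ then 0 else f ζ0)
        (measurable_of_countable _) (measurable_rs S)
    refine integral_mono ?_ ((integrable_const (1 : ℝ)).indicator hmA) fun z => ?_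
    · refine Integrable.of_bound hmf.aestronglyMeasurable 1 (Eventually.of_forall fun z => ?_)
      simp only [hf]
      split_ifs <;> simp
    · simp only [hf]
      by_cases hz : z e0 = true
      · rw [if_pos hz]
        exact Set.indicator_nonneg (fun _ _ => zero_le_one) z
      · rw [if_neg hz]
        have hz' : z e0 = false := by simpa using hz
        have : Function.update z e0 false = z := by
          funext e
          by_cases h : e = e0
          · subst h; simp [hz']
          · rw [Function.update_of_ne h]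
        by_cases h : Function.update z e0 false ∈ A
        · rw [if_pos ((hupA z).2 h), Set.indicator_of_mem (by rw [← this]; exact h)]
          exact le_rfl
        · rw [if_neg (fun h' => h ((hupA z).1 h'))]
          exact Set.indicator_nonneg (fun _ _ => zero_le_one) z
  rw [i1] at hins
  refine hins.trans (mul_le_mul_of_nonneg_left i2 (by linarith))

/-! ### from finitely many cut variables to all events -/

open scoped ENNReal

/-- an open set is the union of the events of finitely many variables that it contains -/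
lemma le_of_fin {μ ν : Measure (Edge → Bool)} [IsFiniteMeasure μ] [IsFiniteMeasure ν]
    (h : ∀ (S : Finset Edge) (A : Set (Edge → Bool)), BK123.DepOn S A → μ A ≤ ν A)
    (A : Set (Edge → Bool)) : μ A ≤ ν A := by
  classical
  have hopen : ∀ U : Set (Edge → Bool), IsOpen U → μ U ≤ ν U := by
    intro U hU
    set C : Finset Edge → Set (Edge → Bool) := fun S =>
      {z | ∀ z' : Edge → Bool, (∀ e ∈ S, z e = z' e) → z' ∈ U} with hC
    have hU2 : U = ⋃ S : Finset Edge, C S := by
      ext z
      simp only [Set.mem_iUnion]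
      constructor
      · intro hz
        rw [isOpen_pi_iff] at hU
        obtain ⟨I, u, hu, hsub⟩ := hU z hz
        refine ⟨I, fun z' hz' => hsub ?_⟩
        intro e he
        rw [← hz' e he]
        exact (hu e he).2
      · rintro ⟨S, hS⟩
        exact hS z fun _ _ => rfl
    have hdir : Directed (· ⊆ ·) C := by
      intro S T
      exact ⟨S ∪ T, fun z hz z' hz' => hz z' fun e he => hz' e (Finset.mem_union_left _ he),
        fun z hz z' hz' => hz z' fun e he => hz' e (Finset.mem_union_right _ he)⟩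
    have hdep : ∀ S, BK123.DepOn S (C S) := by
      intro S z z' hz
      constructor
      · intro h1 w hw
        exact h1 w fun e he => (hz e he).trans (hw e he)
      · intro h1 w hw
        exact h1 w fun e he => (hz e he).symm.trans (hw e he)
    rw [hU2, hdir.measure_iUnion, hdir.measure_iUnion]
    exact iSup_mono fun S => h S _ (hdep S)
  rw [Set.measure_eq_iInf_isOpen A ν]
  refine le_iInf fun U => le_iInf fun hAU => le_iInf fun hU => ?_
  exact (measure_mono hAU).trans (hopen U hU)

/-- **insertion tolerance of the cut variables of the plane state** -/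
theorem ins_of (hc : 1 < c) (hP : IsPlane c P) (hQ : Q.map hts = P.map khmap)
    (hCI : Csq472.CondIndep c Q) : BK123.Ins (Q.map fun ω => ω.2.2) := by
  classical
  have hmp : IsProbabilityMeasure (Q.map fun ω : Cfg => ω.2.2) :=
    Measure.isProbabilityMeasure_map measurable_z.aemeasurable
  set μ : Measure (Edge → Bool) := Q.map fun ω => ω.2.2 with hμ
  intro e0
  set C : ℝ≥0∞ := ENNReal.ofReal ((c + 1) / (c - 1)) with hC
  have hc1 : 0 < c - 1 := by linarith
  refine ⟨C, ENNReal.ofReal_ne_top, fun A hA => ?_⟩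
  have hfin : IsFiniteMeasure (C • μ) := by
    refine ⟨?_⟩
    rw [Measure.smul_apply, smul_eq_mul]
    exact ENNReal.mul_lt_top ENNReal.ofReal_lt_top (measure_lt_top _ _)
  have hfin2 : IsFiniteMeasure (μ.map fun z : Edge → Bool => Function.update z e0 false) :=
    Measure.isFiniteMeasure_map _ _
  have key := le_of_fin (μ := μ.map fun z : Edge → Bool => Function.update z e0 false) (ν := C • μ)
    (fun S A' hA' => ?_) A
  · rw [Measure.map_apply (BK123.measurable_upd e0) hA, Measure.smul_apply, smul_eq_mul] at key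
    exact key
  · have hd : BK123.DepOn (insert e0 S) A' := hA'.mono (Finset.subset_insert _ _)
    have h1 := ins_fin hc.le hP hQ hCI (insert e0 S) (Finset.mem_insert_self _ _) hd
    rw [Measure.map_apply (BK123.measurable_upd e0) hd.measurableSet, Measure.smul_apply,
      smul_eq_mul]
    have h2 : μ.real {z | Function.update z e0 false ∈ A'} ≤ (c + 1) / (c - 1) * μ.real A' := by
      rw [div_mul_eq_mul_div, le_div_iff₀ hc1, mul_comm]
      exact h1
    have h3 := ENNReal.ofReal_le_ofReal h2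
    rw [ENNReal.ofReal_mul (by positivity), ofReal_measureReal, ofReal_measureReal] at h3
    exact h3

/-- insertion tolerance for `Qb` -/
theorem ins_Qb (hc : 1 < c) (hP : IsPlane c P) :
    BK123.Ins ((Qb760.Qb c P).map fun ω => ω.2.2) := by
  have hPp := hP.prob
  exact ins_of hc hP (Qb760.map_hts_Qb c P) (Qb760.condIndep_Qb hc.le P)

end Crest.Agent.R161.InsQ863
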