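import Crest.Agent.R161.Qb_760
import Crest.Agent.R161.BKm_123

/-!
# Row 161: translation invariance of the plane state on `Cfg` (helper760)

* `map_trans_Qb : (Qb c P).map (norm0 ∘ trans a) = Qb c P`
* `tinv_Qb : TInv ((Qb c P).map zc)`
-/

set_option autoImplicit false

noncomputable section

namespace Crest.Agent.R161.Qb760

open MeasureTheory
open Crest.Agent.R161.Geo729 Crest.Agent.R161.Defs372
open Crest.Agent.R150.Hgt989 (Conf relH Ice dx dy)
open Crest.Agent.R150.Pls989 (IsPlane)
open Crest.Agent.R161.ExInv792 (KH khmap hts measurable_khmap measurable_hts)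
open Crest.Agent.R161.Csq472 (pcut)

/-- translation of the edges -/
def eShift (a : P2) : Edge ≃ Edge where
  toFun e := (e.1 - a, e.2)
  invFun e := (e.1 + a, e.2)
  left_inv e := by simp
  right_inv e := by simp

lemma noise_shift (c : ℝ) (a : P2) :
    (noise c).map (fun b : Edge → Bool => fun e => b (e.1 + a, e.2)) = noise c := by
  have h := Measure.infinitePi_map_piCongrLeft (X := fun _ : Edge => Bool)
    (μ := fun _ : Edge => bern (pp c)) (eShift a)
  have h2 : (fun b : Edge → Bool => fun e => b (e.1 + a, e.2)) =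
      (MeasurableEquiv.piCongrLeft (fun _ : Edge => Bool) (eShift a)) := by
    funext b e
    have h3 := Equiv.piCongrLeft_apply_apply (P := fun _ : Edge => Bool) (eShift a) b
      ((eShift a).symm e)
    rw [Equiv.apply_symm_apply] at h3
    exact h3.symm
  unfold noise
  rw [h2]
  exact h

/-- six-vertex translation vector -/
def sv (a : P2) : ℤ × ℤ := (a.1 + a.2, a.2 - a.1)

lemma khmap_sv {w : Conf} (h : Ice w) (a : P2) :
    khmap (Crest.Agent.R150.Hgt989.shift (sv a) w) =
      (fun v => (khmap w).1 (v + a) - (khmap w).1 a, fun f => (khmap w).2 (f + a) - (khmap w).1 a) := by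
  refine Prod.ext ?_ ?_
  · funext v
    simp only [khmap, sv]
    rw [Crest.Agent.R150.Hgt989.relH_shift h]
    simp only [Prod.fst_add, Prod.snd_add]
    rw [show v.1 + v.2 + (a.1 + a.2) = v.1 + a.1 + (v.2 + a.2) by ring,
      show v.2 - v.1 + (a.2 - a.1) = v.2 + a.2 - (v.1 + a.1) by ring]
  · funext f
    simp only [khmap, sv]
    rw [Crest.Agent.R150.Hgt989.relH_shift h]
    simp only [Prod.fst_add, Prod.snd_add]
    rw [show f.1 + f.2 + 1 + (a.1 + a.2) = f.1 + a.1 + (f.2 + a.2) + 1 by ring,
      show f.2 - f.1 + (a.2 - a.1) = f.2 + a.2 - (f.1 + a.1) by ring]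

lemma src_add (v : P2) (b : Bool) (a : P2) : src (v + a, b) = src (v, b) + a := rfl
lemma fA_add (v : P2) (b : Bool) (a : P2) : fA (v + a, b) = fA (v, b) + a := rfl
lemma tgt_add (v : P2) (b : Bool) (a : P2) : tgt (v + a, b) = tgt (v, b) + a := by
  cases b
  · ext <;> simp; ring
  · ext <;> simp; ring
lemma fB_add (v : P2) (b : Bool) (a : P2) : fB (v + a, b) = fB (v, b) + a := by
  cases b
  · ext <;> simp; ring
  · ext <;> simp; ring

lemma norm0_trans_Phi {x : Conf × (Edge → Bool)} (h : Ice x.1) (a : P2) :
    norm0 (Defs372.trans a (Phi x)) =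
      Phi (Crest.Agent.R150.Hgt989.shift (sv a) x.1, fun e => x.2 (e.1 + a, e.2)) := by
  have hk := khmap_sv h a
  refine Prod.ext ?_ (Prod.ext ?_ ?_)
  · funext v
    simp only [norm0, addH, Defs372.trans, Phi]
    rw [hk]
    have : ((0, 0) : P2) + a = a := by ext <;> simp
    simp only [this]
    ring
  · funext v
    simp only [norm0, addH, Defs372.trans, Phi]
    rw [hk]
    have : ((0, 0) : P2) + a = a := by ext <;> simp
    simp only [this]
    ring
  · funext e
    obtain ⟨v, b⟩ := e
    simp only [norm0, addH, Defs372.trans, Phi]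
    rw [hk]
    simp only [zr, src_add, tgt_add, fA_add, fB_add, sub_left_inj]

lemma measurable_norm0 : Measurable norm0 := by
  unfold norm0 addH
  fun_prop

lemma measurable_trans (a : P2) : Measurable (Defs372.trans a) := by
  unfold Defs372.trans
  fun_prop

theorem map_trans_Qb {c : ℝ} {P : Measure Conf} (hP : IsPlane c P) (a : P2) :
    (Qb c P).map (fun ω => norm0 (Defs372.trans a ω)) = Qb c P := by
  have := hP.prob
  have hnt : Measurable fun ω : Cfg => norm0 (Defs372.trans a ω) :=
    measurable_norm0.comp (measurable_trans a)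
  unfold Qb
  rw [Measure.map_map hnt measurable_Phi]
  have h1 : (P.prod (noise c)).map ((fun ω => norm0 (Defs372.trans a ω)) ∘ Phi) =
      (P.prod (noise c)).map (Phi ∘ Prod.map (Crest.Agent.R150.Hgt989.shift (sv a))
        (fun b : Edge → Bool => fun e => b (e.1 + a, e.2))) := by
    refine Measure.map_congr ?_
    have h2 : ∀ᵐ x ∂(P.prod (noise c)), Ice x.1 :=
      Measure.quasiMeasurePreserving_fst.ae hP.ice
    filter_upwards [h2] with x hx
    exact norm0_trans_Phi hx a
  have hm : Measurable (fun b : Edge → Bool => fun e : Edge => b (e.1 + a, e.2)) :=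
    measurable_pi_lambda _ fun _ => measurable_pi_apply _
  have hs := Crest.Agent.R150.Pls989.measurable_shift (sv a)
  rw [h1, ← Measure.map_map measurable_Phi (hs.prodMap hm), ← Measure.map_prod_map _ _ hs hm,
    hP.shift, noise_shift]

/-- the law of the cut variables is translation invariant -/
theorem tinv_Qb {c : ℝ} {P : Measure Conf} (hP : IsPlane c P) :
    BK123.TInv ((Qb c P).map fun ω : Cfg => ω.2.2) := by
  intro a
  have hz : Measurable fun ω : Cfg => ω.2.2 := measurable_snd.comp measurable_snd
  rw [Measure.map_map (BK123.measurable_shiftZ a) hz]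
  have hnt : Measurable fun ω : Cfg => norm0 (Defs372.trans a ω) :=
    measurable_norm0.comp (measurable_trans a)
  conv_rhs => rw [← map_trans_Qb hP a]
  rw [Measure.map_map hz hnt]
  rfl

end Crest.Agent.R161.Qb760
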