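import Crest.Agent.R161.NoInf_123
import Crest.Agent.R161.InsQ_863
import Crest.Agent.R161.QbT_760

/-!
Row 161 (helper123): no infinite dual cluster for `Qb c P`.
-/

set_option autoImplicit false

namespace Crest.Agent.R161.Flat123

open Filter Topology MeasureTheory
open Crest.Agent.R150.Hgt989 Crest.Agent.R161.Defs372

theorem no_inf_Qb {c : ℝ} (hc : 1 < c) {P : Measure Conf} (h : Lk159.PlaneIn c P) (r : ℕ) :
    Tendsto (fun n => BK123.th ((Qb760.Qb c P).map fun ω : Cfg => ω.2.2) 1 r n) atTop (𝓝 0) := by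
  have := h.plane.prob
  exact no_inf hc.le h (Qb760.map_hts_Qb c P) (Qb760.gvalid_Qb c h.plane.ice)
    (Qb760.tinv_Qb h.plane) (InsQ863.ins_Qb hc h.plane) r

end Crest.Agent.R161.Flat123
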