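import Crest.Agent.R161.Fin_760
import Crest.Agent.R161.NoInfQ_123
import Crest.Agent.R161.AtA1_375

/-!
# Row 161: the plane state is a state (helper760)

`isState_planeIn` : for `1 < c` and `PlaneIn c P`, the law `Qb c P` is the state of parameter `c`.
-/

set_option autoImplicit false

namespace Crest.Agent.R161.Fin760

open MeasureTheory
open Crest.Agent.R161.Defs372
open Crest.Agent.R150.Hgt989 (Conf)

theorem isState_planeIn {c : ℝ} (hc : 1 < c) {P : Measure Conf} (h : Lk159.PlaneIn c P) :
    IsState c (Qb760.Qb c P) :=
  isState_Qb hc.le h.plane (AtA1375.domMono hc.le) (Flat123.no_inf_Qb hc h)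

end Crest.Agent.R161.Fin760
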