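import Crest.Agent.R161.Mkv2_760
import Crest.Agent.R161.QbT_760
import Crest.Agent.R161.ZCv_760
import Crest.Agent.R161.BK2_123

/-!
# Row 161: the plane state is the limit of the zero boundary condition laws (helper760)

* `qsur_of_th` : no infinite cluster of non-cut edges implies `QSur`
* `isState_Qb` : `1 ≤ c → IsPlane c P → DomMono c → (no infinite cluster) → IsState c (Qb c P)`
-/

set_option autoImplicit false

noncomputable section

namespace Crest.Agent.R161.Fin760

open MeasureTheory Filter Topology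
open Crest.Agent.R161.Geo729 Crest.Agent.R161.Defs372 Crest.Agent.R161.Dual374
open Crest.Agent.R161.Hull374 Crest.Agent.R161.Exp760 Crest.Agent.R161.Iso760
open Crest.Agent.R161.BK123 Crest.Agent.R161.Qb760 Crest.Agent.R161.ZCv760
open Crest.Agent.R150.Pls989 (IsPlane)
open Crest.Agent.R150.Hgt989 (Conf)

lemma box_sub_Bx {m : ℕ} {f : P2} (h : f ∈ Defs372.box m) : f ∈ Bx 0 m := by
  rw [Box760.mem_box] at h
  simp only [mem_Bx, abs_le, Prod.fst_zero, Prod.snd_zero, sub_zero]
  omega

lemma not_Bx_of {n : ℕ} {f : P2} (h : f ∉ Defs372.box (n + 1)) : f ∉ Bx 0 n := by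
  intro h1
  apply h
  rw [Box760.mem_box]
  simp only [mem_Bx, abs_le, Prod.fst_zero, Prod.snd_zero, sub_zero] at h1
  push_cast
  omega

/-- a reached face of the box is joined to the boundary of the larger box -/
lemma kc_of_reach {m n : ℕ} (hmn : m ≤ n) {ω : Cfg} {f : P2} (hf : f ∈ Defs372.box m)
    (hR : f ∈ RR (Defs372.box (n + 1)) ω) : Kc 1 ω.2.2 (Bx 0 n) (Bx 0 m) (Bd 0 n) := by
  obtain ⟨a, ha, hp⟩ := hR
  have ha' : a ∉ Defs372.box (n + 1) := by simpa using ha
  have hcn : Cn ω.2.2 Set.univ a f := by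
    refine ⟨trivial, ?_⟩
    clear hf
    induction hp with
    | refl => exact .refl
    | @tail b1 c1 _ h2 ih =>
      refine ih.tail ⟨trivial, trivial, ?_⟩
      obtain ⟨e, he, hor⟩ := h2
      refine ⟨e, ?_, ?_⟩
      · unfold Zp at he
        simpa using he
      · rcases hor with ⟨h3, h4⟩ | ⟨h3, h4⟩
        · exact Or.inl ⟨h3.symm, h4.symm⟩
        · exact Or.inr ⟨h4.symm, h3.symm⟩
  have hfm := box_sub_Bx hf
  obtain ⟨s, hs, hc⟩ := exit_bd (x := 0) (m := n) hcn.symm (Bx_mono hmn hfm)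
    (Or.inl (not_Bx_of ha'))
  rw [Kc_one]
  exact ⟨f, hfm, s, hs, hc.mono Set.inter_subset_right⟩

theorem qsur_of_th {Q : Measure Cfg} [IsProbabilityMeasure Q]
    (h : ∀ r, Tendsto (fun n => th (Q.map fun ω : Cfg => ω.2.2) 1 r n) atTop (𝓝 0)) : QSur Q := by
  intro m ε hε
  have hz : Measurable fun ω : Cfg => ω.2.2 := measurable_snd.comp measurable_snd
  obtain ⟨n, hn⟩ := ((h m).eventually (gt_mem_nhds hε)).exists_forall_of_atTop
  refine ⟨max m n + 1, (le_max_left _ _).trans (Nat.le_succ _), ?_⟩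
  refine lt_of_le_of_lt ?_ (hn (max m n) (le_max_right _ _))
  unfold th
  have hmeas : MeasurableSet {z : ZC | Kc 1 z (Bx 0 (max m n)) (Bx 0 m) (Bd 0 (max m n))} :=
    (Kc_dep 1 (x := 0) (n := max m n) (Bx 0 m) (Bd 0 (max m n))).measurableSet
  unfold Measure.real
  rw [Measure.map_apply hz hmeas]
  refine ENNReal.toReal_mono (measure_ne_top _ _) (measure_mono ?_)
  rintro ω ⟨f, hf, hR⟩
  exact kc_of_reach (le_max_left _ _) hf hR

/-- **The plane state is the limit of the zero boundary condition laws.** -/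
theorem isState_Qb {c : ℝ} (hc : 1 ≤ c) {P : Measure Conf} (hP : IsPlane c P) (hM : DomMono c)
    (h : ∀ r, Tendsto (fun n => th ((Qb c P).map fun ω : Cfg => ω.2.2) 1 r n) atTop (𝓝 0)) :
    IsState c (Qb c P) := by
  have := hP.prob
  exact isState_of hc (zconv_of_domMono hc hM) (gvalid_Qb c hP.ice) (Mkv760.qmarkov_Qb hc hP)
    (qsur_of_th h)

end Crest.Agent.R161.Fin760
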