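import Crest.Agent.R161.Flat_123
import Crest.Agent.R161.Hts_375

/-!
Row 161 (helper123): log-concavity of height differences on flat-ended cylinders.

* `geo` : the cylinder as a height system (`Hts375.Geo`)
* `Zd e c x y d` : weight of the configurations with `hh x - hh y = d`
* `Zd_eq` : `Zd` as a pinned partition function
* `Zd_lc` : `Zd (d₁) Zd (d₂) ≤ Zd (d₁ + 2) Zd (d₂ - 2)` for `2 ≤ d₂ - d₁`
-/

set_option autoImplicit false

noncomputable section

open Crest.Agent.R150.Base357
open Crest.Agent.R161.Hts375 Crest.Agent.R161.Lsm375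

namespace Crest.Agent.R161.Flat123

/-- faces of the cylinder -/
abbrev Fc (M N : ℕ) : Type := Fin (M + 1) × ZMod N

/-- parity of a face: `true` for even heights -/
def ef {M N : ℕ} (e : ZMod N → Bool) (f : Fc M N) : Bool := xor (e f.2) (decide (f.1.val % 2 = 1))

/-- faces with even heights -/
abbrev VE (M N : ℕ) (e : ZMod N → Bool) : Type := {f : Fc M N // ef e f = true}

/-- faces with odd heights -/
abbrev FO (M N : ℕ) (e : ZMod N → Bool) : Type := {f : Fc M N // ¬ ef e f = true}

/-- parity of a vertex: `true` if the faces with even heights are NW and SE -/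
def pv {M N : ℕ} (e : ZMod N → Bool) (v : Fin M × ZMod N) : Bool :=
  xor (e v.2) (decide (v.1.val % 2 = 1))

def fNW {M N : ℕ} (v : Fin M × ZMod N) : Fc M N := (v.1.castSucc, v.2)
def fSW {M N : ℕ} (v : Fin M × ZMod N) : Fc M N := (v.1.castSucc, v.2 - 1)
def fNE {M N : ℕ} (v : Fin M × ZMod N) : Fc M N := (v.1.succ, v.2)
def fSE {M N : ℕ} (v : Fin M × ZMod N) : Fc M N := (v.1.succ, v.2 - 1)

section
variable {M N : ℕ} {e : ZMod N → Bool}

lemma e_pred (he : ∀ j, e (j + 1) = !(e j)) (j : ZMod N) : e (j - 1) = !(e j) := by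
  have := he (j - 1)
  rw [sub_add_cancel] at this
  rw [this]; simp

lemma par_succ (n : ℕ) : decide ((n + 1) % 2 = 1) = !(decide (n % 2 = 1)) := by
  rcases Nat.mod_two_eq_zero_or_one n with h | h
  · have : (n + 1) % 2 = 1 := by omega
    simp [h, this]
  · have : (n + 1) % 2 = 0 := by omega
    simp [h, this]

lemma ef_NW (v : Fin M × ZMod N) : ef e (fNW v) = pv e v := rfl

lemma ef_SW (he : ∀ j, e (j + 1) = !(e j)) (v : Fin M × ZMod N) : ef e (fSW v) = !(pv e v) := by
  unfold ef pv fSW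
  simp only [Fin.val_castSucc]
  rw [e_pred he]
  simp

lemma ef_NE (v : Fin M × ZMod N) : ef e (fNE v) = !(pv e v) := by
  unfold ef pv fNE
  simp only [Fin.val_succ, par_succ]
  simp

lemma ef_SE (he : ∀ j, e (j + 1) = !(e j)) (v : Fin M × ZMod N) : ef e (fSE v) = pv e v := by
  unfold ef pv fSE
  simp only [Fin.val_succ, par_succ]
  rw [e_pred he]
  simp

/-- adjacency of faces -/
def AdjC (f g : Fc M N) : Prop :=
  (f.1 = g.1 ∧ (f.2 = g.2 + 1 ∨ g.2 = f.2 + 1)) ∨
    (f.2 = g.2 ∧ (f.1.val = g.1.val + 1 ∨ g.1.val = f.1.val + 1))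

lemma adj_SW_NW (v : Fin M × ZMod N) : AdjC (fSW v) (fNW v) :=
  Or.inl ⟨rfl, Or.inr (by simp [fSW, fNW])⟩
lemma adj_SE_NE (v : Fin M × ZMod N) : AdjC (fSE v) (fNE v) :=
  Or.inl ⟨rfl, Or.inr (by simp [fSE, fNE])⟩
lemma adj_SW_SE (v : Fin M × ZMod N) : AdjC (fSW v) (fSE v) :=
  Or.inr ⟨rfl, Or.inr (by simp [fSE, fSW])⟩
lemma adj_NW_NE (v : Fin M × ZMod N) : AdjC (fNW v) (fNE v) :=
  Or.inr ⟨rfl, Or.inr (by simp [fNE, fNW])⟩

lemma AdjC.symm {f g : Fc M N} (h : AdjC f g) : AdjC g f := by
  rcases h with ⟨h1, h2⟩ | ⟨h1, h2⟩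
  · exact Or.inl ⟨h1.symm, h2.symm⟩
  · exact Or.inr ⟨h1.symm, h2.symm⟩

/-- the cylinder as a height system -/
def geo (M N : ℕ) (e : ZMod N → Bool) (he : ∀ j, e (j + 1) = !(e j)) :
    Geo (VE M N e) (FO M N e) (Fin M × ZMod N) where
  inc v f := AdjC v.1 f.1
  v₁ v := if h : pv e v = true then ⟨fNW v, by rw [ef_NW]; exact h⟩
    else ⟨fSW v, by rw [ef_SW he]; simpa using h⟩
  v₂ v := if h : pv e v = true then ⟨fSE v, by rw [ef_SE he]; exact h⟩
    else ⟨fNE v, by rw [ef_NE]; simpa using h⟩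
  f₁ v := if h : pv e v = true then ⟨fSW v, by rw [ef_SW he, h]; simp⟩
    else ⟨fNW v, by rw [ef_NW]; exact h⟩
  f₂ v := if h : pv e v = true then ⟨fNE v, by rw [ef_NE, h]; simp⟩
    else ⟨fSE v, by rw [ef_SE he]; exact h⟩
  inc₁₁ v := by
    by_cases h : pv e v = true
    · simp only [h, dif_pos]; exact (adj_SW_NW v).symm
    · simp only [h, dif_neg, not_false_eq_true, Bool.false_eq_true]; exact adj_SW_NW v
  inc₁₂ v := by
    by_cases h : pv e v = true
    · simp only [h, dif_pos]; exact adj_NW_NE v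
    · simp only [h, dif_neg, not_false_eq_true, Bool.false_eq_true]; exact adj_SW_SE v
  inc₂₁ v := by
    by_cases h : pv e v = true
    · simp only [h, dif_pos]; exact (adj_SW_SE v).symm
    · simp only [h, dif_neg, not_false_eq_true, Bool.false_eq_true]; exact (adj_NW_NE v).symm
  inc₂₂ v := by
    by_cases h : pv e v = true
    · simp only [h, dif_pos]; exact adj_SE_NE v
    · simp only [h, dif_neg, not_false_eq_true, Bool.false_eq_true]; exact (adj_SE_NE v).symm

/-- heights on the two kinds of faces from heights on all faces -/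
def toS (e : ZMod N → Bool) (H : Fc M N → ℤ) : VE M N e ⊕ FO M N e → ℤ :=
  fun s => H (Equiv.sumCompl (fun f : Fc M N => ef e f = true) s)

/-- heights on all faces -/
def ofS (e : ZMod N → Bool) (h : VE M N e ⊕ FO M N e → ℤ) : Fc M N → ℤ :=
  fun f => h ((Equiv.sumCompl (fun f : Fc M N => ef e f = true)).symm f)

@[simp] lemma toS_inl (H : Fc M N → ℤ) (v : VE M N e) : toS e H (.inl v) = H v.1 := by
  simp [toS]

@[simp] lemma toS_inr (H : Fc M N → ℤ) (v : FO M N e) : toS e H (.inr v) = H v.1 := by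
  simp [toS]

@[simp] lemma toS_ofS (h : VE M N e ⊕ FO M N e → ℤ) : toS e (ofS e h) = h := by
  funext s; simp [toS, ofS]

@[simp] lemma ofS_toS (H : Fc M N → ℤ) : ofS e (toS e H) = H := by
  funext s; simp [toS, ofS]

/-- validity in terms of all faces -/
structure ValidC (e : ZMod N → Bool) (H : Fc M N → ℤ) : Prop where
  par : ∀ f, (ef e f = true ↔ Even (H f))
  adj : ∀ f g, AdjC f g → |H f - H g| = 1

lemma ef_adj (he : ∀ j, e (j + 1) = !(e j)) {f g : Fc M N} (h : AdjC f g) :
    ef e g = !(ef e f) := by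
  obtain ⟨p, q⟩ := f
  obtain ⟨p', q'⟩ := g
  unfold ef
  rcases h with ⟨h1, h2 | h2⟩ | ⟨h1, h2 | h2⟩
  · simp only at h1 h2 ⊢
    rw [h1, h2, he]; simp
  · simp only at h1 h2 ⊢
    rw [h1, h2, he]; simp
  · simp only at h1 h2 ⊢
    rw [h1, h2, par_succ]; simp
  · simp only at h1 h2 ⊢
    rw [h1, h2, par_succ]; simp

lemma valid_iff (he : ∀ j, e (j + 1) = !(e j)) (H : Fc M N → ℤ) :
    (geo M N e he).Valid (toS e H) ↔ ValidC e H := by
  constructor
  · rintro ⟨h1, h2, h3⟩
    have hp : ∀ f, (ef e f = true ↔ Even (H f)) := by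
      intro f
      constructor
      · intro hf
        have := h1 ⟨f, hf⟩
        simpa using this
      · intro hf
        by_contra hne
        have := h2 ⟨f, hne⟩
        simp only [toS_inr] at this
        exact (Int.not_even_iff_odd.2 this) hf
    refine ⟨hp, fun f g hfg => ?_⟩
    have hopp := ef_adj he hfg
    by_cases hf : ef e f = true
    · have hg : ¬ ef e g = true := by rw [hopp, hf]; simp
      have := h3 ⟨f, hf⟩ ⟨g, hg⟩ hfg
      simpa using this
    · have hg : ef e g = true := by rw [hopp]; simpa using hf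
      have := h3 ⟨g, hg⟩ ⟨f, hf⟩ hfg.symm
      simp only [toS_inl, toS_inr] at this
      rw [abs_sub_comm]
      exact this
  · rintro ⟨h1, h2⟩
    refine ⟨fun v => ?_, fun f => ?_, fun v f hvf => ?_⟩
    · rw [toS_inl]; exact (h1 v.1).1 v.2
    · rw [toS_inr, ← Int.not_even_iff_odd]
      exact fun h => f.2 ((h1 f.1).2 h)
    · rw [toS_inl, toS_inr]; exact h2 _ _ hvf

/-- both diagonals agree -/
lemma flat_iff (he : ∀ j, e (j + 1) = !(e j)) (H : Fc M N → ℤ) (v : Fin M × ZMod N) :
    (geo M N e he).Flat (toS e H) v ↔ (H (fNW v) = H (fSE v) ∧ H (fSW v) = H (fNE v)) := by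
  unfold Geo.Flat geo
  by_cases h : pv e v = true
  · simp only [h, dif_pos, toS_inl, toS_inr]
  · simp only [h, dif_neg, not_false_eq_true, toS_inl, toS_inr, Bool.false_eq_true]
    exact and_comm

/-- flat ends -/
def Ends (e : ZMod N → Bool) (H : Fc M N → ℤ) : Prop :=
  ∀ j, e j = true → H (0, j) = H (0, j - 1 - 1) ∧
    H (Fin.last M, j) = H (Fin.last M, j - 1 - 1)

end

/-! ### arrows of a height function -/

section
variable {M N : ℕ} [NeZero N] {e : ZMod N → Bool} {c : ℝ}

/-- arrows of a height function -/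
def arr (H : Fc M N → ℤ) : CC M N :=
  (fun p q => decide (H (p, q) - H (p, q - 1) = 1),
    fun i q => decide (H (i.succ, q) - H (i.castSucc, q) = -1))

omit [NeZero N] in
lemma sg_decide {x : ℤ} (h : |x| = 1) : sg (decide (x = 1)) = x := by
  rcases (abs_eq (by norm_num)).1 h with h1 | h1 <;> simp [h1, sg]

omit [NeZero N] in
lemma sg_decide' {x : ℤ} (h : |x| = 1) : sg (decide (x = -1)) = - x := by
  rcases (abs_eq (by norm_num)).1 h with h1 | h1 <;> simp [h1, sg]

omit [NeZero N] in
lemma arr_up {H : Fc M N → ℤ} (h : ValidC e H) (p : Fin (M + 1)) (q : ZMod N) :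
    H (p, q) = H (p, q - 1) + sg ((arr H).1 p q) := by
  have h1 : |H (p, q) - H (p, q - 1)| = 1 := h.adj _ _ (Or.inl ⟨rfl, Or.inl (by simp)⟩)
  simp only [arr]
  rw [sg_decide h1]; ring

omit [NeZero N] in
lemma arr_right {H : Fc M N → ℤ} (h : ValidC e H) (i : Fin M) (q : ZMod N) :
    H (i.succ, q) = H (i.castSucc, q) - sg ((arr H).2 i q) := by
  have h1 : |H (i.succ, q) - H (i.castSucc, q)| = 1 := h.adj _ _ (Or.inr ⟨rfl, Or.inl (by simp)⟩)
  simp only [arr]
  rw [sg_decide' h1]; ring

omit [NeZero N] in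
lemma sg_cases (b : Bool) : sg b = 1 ∨ sg b = -1 := by cases b <;> simp

omit [NeZero N] in
lemma ne_of_sg {a b : Bool} (h : sg a + sg b = 0) : a ≠ b := by
  rintro rfl
  cases a <;> simp at h

omit [NeZero N] in
/-- a valid height function with flat ends gives a good configuration (`M` even) -/
lemma good_arr {H : Fc M N → ℤ} (h : ValidC e H) (hE : Ends e H) : Good e (arr H) := by
  have key : ∀ p : Fin (M + 1), (∀ j, e j = true → H (p, j) = H (p, j - 1 - 1)) →
      chi e ((arr H).1 p) := by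
    intro p hp j hj
    have h1 := arr_up h p j
    have h2 := arr_up h p (j - 1)
    have h3 := hp j hj
    exact ne_of_sg (by linarith)
  refine ⟨key _ fun j hj => (hE j hj).1, key _ fun j hj => (hE j hj).2, fun i j => ?_⟩
  apply iceL_of_sum
  have h1 := arr_up h i.succ j
  have h2 := arr_up h i.castSucc j
  have h3 := arr_right h i j
  have h4 := arr_right h i (j - 1)
  linarith

/-- heights of a good configuration, normalised at `y` -/
def hy (σ : CC M N) (y : Fc M N) (y0 : ℤ) : Fc M N → ℤ :=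
  fun f => hh σ f.1 f.2 - hh σ y.1 y.2 + y0

lemma hy_up (he : ∀ j, e (j + 1) = !(e j)) {σ : CC M N} (h : Good e σ) (y : Fc M N) (y0 : ℤ)
    (p : Fin (M + 1)) (q : ZMod N) :
    hy σ y y0 (p, q) = hy σ y y0 (p, q - 1) + sg (σ.1 p q) := by
  have := hh_up (h.bal0 he p) q
  simp only [hy]
  linarith

lemma hy_right (he : ∀ j, e (j + 1) = !(e j)) {σ : CC M N} (h : Good e σ) (y : Fc M N) (y0 : ℤ)
    (i : Fin M) (q : ZMod N) :
    hy σ y y0 (i.succ, q) = hy σ y y0 (i.castSucc, q) - sg (σ.2 i q) := by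
  have := hh_right he h i q
  simp only [hy]
  linarith

lemma hy_adj (he : ∀ j, e (j + 1) = !(e j)) {σ : CC M N} (h : Good e σ) (y : Fc M N) (y0 : ℤ)
    {f g : Fc M N} (hfg : AdjC f g) : |hy σ y y0 f - hy σ y y0 g| = 1 := by
  obtain ⟨p, q⟩ := f
  obtain ⟨p', q'⟩ := g
  have a1 : ∀ b : Bool, |sg b| = 1 := fun b => by cases b <;> simp
  rcases hfg with ⟨h1, h2 | h2⟩ | ⟨h1, h2 | h2⟩
  · simp only at h1 h2
    subst h1
    have := hy_up he h y y0 p q
    rw [h2, add_sub_cancel_right] at this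
    rw [h2, this]
    simp [a1]
  · simp only at h1 h2
    subst h1
    have := hy_up he h y y0 p q'
    rw [h2, add_sub_cancel_right] at this
    rw [h2, this]
    simp [a1]
  · simp only at h1 h2
    subst h1
    obtain ⟨i, rfl⟩ : ∃ i : Fin M, p' = i.castSucc :=
      ⟨⟨p'.val, by have := p.2; omega⟩, rfl⟩
    obtain rfl : p = i.succ := Fin.ext h2
    rw [hy_right he h y y0 i q]
    simp [a1]
  · simp only at h1 h2
    subst h1
    obtain ⟨i, rfl⟩ : ∃ i : Fin M, p = i.castSucc :=
      ⟨⟨p.val, by have := p'.2; omega⟩, rfl⟩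
    obtain rfl : p' = i.succ := Fin.ext h2
    rw [hy_right he h y y0 i q]
    simp [a1]

lemma even_iff_of_abs {a b : ℤ} (h : |a - b| = 1) : Even a ↔ ¬ Even b := by
  rcases (abs_eq (by norm_num)).1 h with h1 | h1
  · have : a = b + 1 := by linarith
    rw [this, Int.even_add_one]
  · have : b = a + 1 := by linarith
    rw [this, Int.even_add_one]; simp

lemma hy_valid (he : ∀ j, e (j + 1) = !(e j)) {σ : CC M N} (h : Good e σ) (y : Fc M N) {y0 : ℤ}
    (hy0 : ef e y = true ↔ Even y0) : ValidC e (hy σ y y0) := by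
  refine ⟨?_, fun f g hfg => hy_adj he h y y0 hfg⟩
  -- parity propagates
  have hq : ∀ p q q', (ef e ((p, q) : Fc M N) = true ↔ Even (hy σ y y0 (p, q))) →
      (ef e ((p, q') : Fc M N) = true ↔ Even (hy σ y y0 (p, q'))) := by
    intro p q q' hpq
    have hstep : ∀ q : ZMod N, (ef e ((p, q) : Fc M N) = true ↔ Even (hy σ y y0 (p, q))) →
        (ef e ((p, q + 1) : Fc M N) = true ↔ Even (hy σ y y0 (p, q + 1))) := by
      intro q h1
      have ha : AdjC ((p, q) : Fc M N) (p, q + 1) := Or.inl ⟨rfl, Or.inr rfl⟩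
      rw [ef_adj he ha, even_iff_of_abs (hy_adj he h y y0 ha.symm), ← h1]
      cases ef e ((p, q) : Fc M N) <;> simp
    have hn : ∀ n : ℕ, (ef e ((p, q + n) : Fc M N) = true ↔ Even (hy σ y y0 (p, q + n))) := by
      intro n
      induction n with
      | zero => simpa using hpq
      | succ n ih =>
        have := hstep _ ih
        rw [add_assoc] at this
        push_cast
        exact this
    have := hn (q' - q).val
    rwa [ZMod.natCast_zmod_val, add_sub_cancel] at this
  have hp : ∀ i : Fin M, (ef e ((i.castSucc, 0) : Fc M N) = true ↔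
      Even (hy σ y y0 (i.castSucc, 0))) ↔
      (ef e ((i.succ, 0) : Fc M N) = true ↔ Even (hy σ y y0 (i.succ, 0))) := by
    intro i
    have ha : AdjC ((i.castSucc, 0) : Fc M N) (i.succ, 0) := Or.inr ⟨rfl, Or.inr (by simp)⟩
    rw [ef_adj he ha, even_iff_of_abs (hy_adj he h y y0 ha.symm)]
    cases ef e ((i.castSucc, 0) : Fc M N) <;> simp
  have h0 : ∀ p : Fin (M + 1), (ef e ((p, 0) : Fc M N) = true ↔ Even (hy σ y y0 (p, 0))) ↔
      (ef e ((0, 0) : Fc M N) = true ↔ Even (hy σ y y0 (0, 0))) := by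
    intro p
    induction p using Fin.induction with
    | zero => rfl
    | succ i ih => rw [← hp i, ih]
  have hyy : (ef e ((y.1, y.2) : Fc M N) = true ↔ Even (hy σ y y0 (y.1, y.2))) := by
    simp only [hy, sub_self, zero_add]
    exact hy0
  have h00 := (h0 y.1).1 (hq y.1 y.2 0 hyy)
  rintro ⟨p, q⟩
  exact hq p 0 q ((h0 p).2 h00)

lemma hy_ends (he : ∀ j, e (j + 1) = !(e j)) {σ : CC M N} (h : Good e σ) (y : Fc M N) (y0 : ℤ) :
    Ends e (hy σ y y0) := by
  have key : ∀ p : Fin (M + 1), chi e (σ.1 p) → ∀ j, e j = true →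
      hy σ y y0 (p, j) = hy σ y y0 (p, j - 1 - 1) := by
    intro p hp j hj
    have h1 := hy_up he h y y0 p j
    have h2 := hy_up he h y y0 p (j - 1)
    have h3 : sg (σ.1 p (j - 1)) + sg (σ.1 p j) = 0 := by
      have := hp j hj
      revert this
      cases σ.1 p (j - 1) <;> cases σ.1 p j <;> simp
    linarith
  exact fun j hj => ⟨key 0 h.left j hj, key _ h.right j hj⟩

lemma arr_hy (he : ∀ j, e (j + 1) = !(e j)) {σ : CC M N} (h : Good e σ) (y : Fc M N) (y0 : ℤ) :
    arr (hy σ y y0) = σ := by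
  have hb : ∀ b : Bool, decide (sg b = 1) = b := fun b => by cases b <;> simp
  have hb' : ∀ b : Bool, decide (- sg b = -1) = b := fun b => by cases b <;> simp
  refine Prod.ext ?_ ?_
  · funext p q
    simp only [arr]
    rw [hy_up he h y y0 p q, add_sub_cancel_left, hb]
  · funext i q
    simp only [arr]
    rw [hy_right he h y y0 i q, sub_sub_cancel_left, hb']

lemma hy_arr (he : ∀ j, e (j + 1) = !(e j)) {H : Fc M N → ℤ} (h : ValidC e H) (hE : Ends e H)
    (y : Fc M N) : hy (arr H) y (H y) = H := by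
  have hg := good_arr h hE
  funext f
  have key := fun p q => hh_unique (σ := arr H) (H := fun p q => H (p, q))
    (K := fun p q => hh (arr H) p q) (fun p q => arr_up h p q) (fun i q => arr_right h i q)
    (fun p q => hh_up (hg.bal0 he p) q) (fun i q => hh_right he hg i q) p q
  have k1 := key f.1 f.2
  have k2 := key y.1 y.2
  have : H f - H y = hh (arr H) f.1 f.2 - hh (arr H) y.1 y.2 := by
    have e1 : H (f.1, f.2) = H f := rfl
    have e2 : H (y.1, y.2) = H y := rfl
    rw [← e1, ← e2]; linarith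
  simp only [hy]
  linarith

/-- the weight in terms of heights -/
lemma wf_eq (he : ∀ j, e (j + 1) = !(e j)) {H : Fc M N → ℤ} (h : ValidC e H) (hE : Ends e H) :
    wf c (arr H) = (geo M N e he).W (fun _ => c) (toS e H) := by
  classical
  unfold Geo.W
  rw [if_pos ((valid_iff he H).2 h), Fintype.prod_prod_type]
  unfold wf colW
  refine Finset.prod_congr rfl fun i _ => Finset.prod_congr rfl fun j _ => ?_
  have hg := (good_arr h hE).ice i j
  have h1 := arr_up h i.succ j
  have h2 := arr_up h i.castSucc j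
  have h3 := arr_right h i j
  have h4 := arr_right h i (j - 1)
  have hfl := flat_iff he H (i, j)
  simp only [fNW, fSW, fNE, fSE] at hfl
  have key : ∀ l r d t : Bool, IceL l r d t → wt 1 1 c l r d t =
      if (sg l + sg d = 0 ∧ sg r - sg d = 0) then c else 1 := by
    intro l r d t
    cases l <;> cases r <;> cases d <;> cases t <;> simp [IceL, wt]
  rw [key _ _ _ _ hg]
  unfold Geo.wp
  have hiff : (sg ((arr H).1 i.castSucc j) + sg ((arr H).2 i (j - 1)) = 0 ∧
      sg ((arr H).1 i.succ j) - sg ((arr H).2 i (j - 1)) = 0) ↔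
      (geo M N e he).Flat (toS e H) (i, j) := by
    rw [hfl]
    constructor
    · rintro ⟨a1, a2⟩
      exact ⟨by linarith, by linarith⟩
    · rintro ⟨a1, a2⟩
      exact ⟨by linarith, by linarith⟩
  by_cases hF : (geo M N e he).Flat (toS e H) (i, j)
  · rw [if_pos hF, if_pos (hiff.2 hF)]
  · rw [if_neg hF, if_neg (fun h => hF (hiff.1 h))]

/-! ### bounds -/

lemma abs_sum_sg_le {ι : Type*} (s : Finset ι) (f : ι → ℤ) (hf : ∀ i ∈ s, |f i| ≤ 1) :
    |∑ i ∈ s, f i| ≤ s.card := by
  refine (Finset.abs_sum_le_sum_abs _ _).trans ?_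
  have := Finset.sum_le_card_nsmul s (fun i => |f i|) 1 hf
  simpa using this

lemma abs_hh_le (σ : CC M N) (p : Fin (M + 1)) (q : ZMod N) : |hh σ p q| ≤ M + N := by
  unfold hh
  refine (abs_add_le _ _).trans (add_le_add ?_ ?_)
  · have := abs_sum_sg_le Finset.univ
      (fun i : Fin M => if i.val < p.val then - sg (σ.2 i 0) else 0) (fun i _ => by
        split_ifs
        · cases σ.2 i 0 <;> simp
        · simp)
    simpa using this
  · have := abs_sum_sg_le (Finset.range q.val) (fun k => sg (σ.1 p ((k : ZMod N) + 1)))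
      (fun k _ => by cases σ.1 p ((k : ZMod N) + 1) <;> simp)
    rw [Finset.card_range] at this
    refine this.trans ?_
    exact_mod_cast (ZMod.val_lt q).le

/-! ### the pinned partition function -/

open Classical in
/-- weight of the configurations with height difference `d` between `x` and `y` -/
def Zd (e : ZMod N → Bool) (c : ℝ) (x y : Fc M N) (d : ℤ) : ℝ :=
  ∑ σ : CC M N, wg e c σ * if hh σ x.1 x.2 - hh σ y.1 y.2 = d then 1 else 0

open Classical in
/-- indicator of flat ends -/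
def endI (e : ZMod N → Bool) (h : VE M N e ⊕ FO M N e → ℤ) : ℝ :=
  if Ends e (ofS e h) then 1 else 0

/-- the weight of a height function with flat ends -/
def mu (M N : ℕ) [NeZero N] (e : ZMod N → Bool) (he : ∀ j, e (j + 1) = !(e j)) (c : ℝ)
    (h : VE M N e ⊕ FO M N e → ℤ) : ℝ := (geo M N e he).W (fun _ => c) h * endI e h

omit [NeZero N] in
lemma ofS_inf (a b : VE M N e ⊕ FO M N e → ℤ) (f : Fc M N) :
    ofS e (a ⊓ b) f = min (ofS e a f) (ofS e b f) := rfl

omit [NeZero N] in
lemma ofS_sup (a b : VE M N e ⊕ FO M N e → ℤ) (f : Fc M N) :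
    ofS e (a ⊔ b) f = max (ofS e a f) (ofS e b f) := rfl

omit [NeZero N] in
lemma lsm_endI (e : ZMod N → Bool) : LSM (endI (M := M) e) := by
  classical
  refine (LSM.ind (fun h : VE M N e ⊕ FO M N e → ℤ => Ends e (ofS e h)) ?_).congr fun h => ?_
  · intro a b ha hb
    refine ⟨fun j hj => ?_, fun j hj => ?_⟩
    · simp only [ofS_inf]
      rw [(ha j hj).1, (hb j hj).1, (ha j hj).2, (hb j hj).2]
      exact ⟨rfl, rfl⟩
    · simp only [ofS_sup]
      rw [(ha j hj).1, (hb j hj).1, (ha j hj).2, (hb j hj).2]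
      exact ⟨rfl, rfl⟩
  · unfold endI
    by_cases hE : Ends e (ofS e h)
    · rw [if_pos hE]
    · rw [if_neg hE]

lemma lsm_mu (he : ∀ j, e (j + 1) = !(e j)) (hc : 1 ≤ c) : LSM (mu M N e he c) :=
  ((geo M N e he).lsm_W fun _ => hc).mul (lsm_endI e)

lemma mu_shift (he : ∀ j, e (j + 1) = !(e j)) (a : VE M N e ⊕ FO M N e → ℤ) :
    mu M N e he c (shiftIso 2 a) = mu M N e he c a := by
  unfold mu
  rw [(geo M N e he).W_shift _ (by decide)]
  congr 1
  unfold endI
  have : Ends e (ofS e (shiftIso 2 a)) ↔ Ends e (ofS e a) := by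
    unfold Ends ofS
    simp only [shiftIso_apply, add_left_inj]
  by_cases hE : Ends e (ofS e a)
  · rw [if_pos hE, if_pos (this.2 hE)]
  · rw [if_neg hE, if_neg (fun h => hE (this.1 h))]

/-- the site of a face -/
def site (e : ZMod N → Bool) (f : Fc M N) : VE M N e ⊕ FO M N e :=
  (Equiv.sumCompl (fun f : Fc M N => ef e f = true)).symm f

omit [NeZero N] in
lemma toS_site (H : Fc M N → ℤ) (f : Fc M N) : toS e H (site e f) = H f := by
  simp [toS, site]

/-- box -/
def Bb (M N : ℕ) : ℤ := 2 * (M + N) + 1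

open Classical in
/-- lower bounds -/
def lo (e : ZMod N → Bool) (y : Fc M N) (y0 : ℤ) : VE M N e ⊕ FO M N e → ℤ :=
  fun s => if s = site e y then y0 else - Bb M N

open Classical in
/-- upper bounds -/
def hi (e : ZMod N → Bool) (y : Fc M N) (y0 : ℤ) : VE M N e ⊕ FO M N e → ℤ :=
  fun s => if s = site e y then y0 else Bb M N

/-- `Zd` is a pinned partition function -/
theorem Zd_eq (he : ∀ j, e (j + 1) = !(e j)) (x y : Fc M N) {y0 : ℤ}
    (hy0 : ef e y = true ↔ Even y0) (hy1 : |y0| ≤ 1) (d : ℤ) :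
    Zd e c x y d = pinZ (mu M N e he c) (lo e y y0) (hi e y y0) {site e x} (y0 + d) := by
  classical
  have hL : Zd e c x y d = ∑ σ ∈ (Finset.univ : Finset (CC M N)).filter
      (fun σ => Good e σ ∧ hh σ x.1 x.2 - hh σ y.1 y.2 = d), wf c σ := by
    unfold Zd
    rw [Finset.sum_filter]
    refine Finset.sum_congr rfl fun σ _ => ?_
    by_cases hg : Good e σ
    · rw [wg_eq_wf hg]
      by_cases hd : hh σ x.1 x.2 - hh σ y.1 y.2 = d
      · simp [hg, hd]
      · simp [hd]
    · have : wg e c σ = 0 := by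
        by_contra h0
        exact hg (good_of_wg h0)
      simp [this, hg]
  have hR : pinZ (mu M N e he c) (lo e y y0) (hi e y y0) {site e x} (y0 + d) =
      ∑ h ∈ (Finset.Icc (lo e y y0) (hi e y y0)).filter
        (fun h => h (site e x) = y0 + d ∧ ValidC e (ofS e h) ∧ Ends e (ofS e h)),
        (geo M N e he).W (fun _ => c) h := by
    unfold pinZ
    rw [Finset.sum_filter, Finset.sum_filter]
    refine Finset.sum_congr rfl fun h _ => ?_
    have hs : (∀ z ∈ ({site e x} : Finset _), h z = y0 + d) ↔ h (site e x) = y0 + d := by simp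
    by_cases h1 : h (site e x) = y0 + d
    · rw [if_pos (hs.2 h1)]
      by_cases h2 : ValidC e (ofS e h)
      · by_cases h3 : Ends e (ofS e h)
        · rw [if_pos ⟨h1, h2, h3⟩]
          unfold mu endI
          rw [if_pos h3, mul_one]
        · rw [if_neg (fun h => h3 h.2.2)]
          unfold mu endI
          rw [if_neg h3, mul_zero]
      · rw [if_neg (fun h => h2 h.2.1)]
        unfold mu
        have : (geo M N e he).W (fun _ => c) h = 0 := by
          unfold Geo.W
          rw [if_neg]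
          intro h4
          rw [← toS_ofS h] at h4
          exact h2 ((valid_iff he _).1 h4)
        rw [this, zero_mul]
    · rw [if_neg (fun h => h1 (hs.1 h)), if_neg (fun h => h1 h.1)]
  rw [hL, hR]
  refine Finset.sum_bij' (fun σ _ => toS e (hy σ y y0)) (fun h _ => arr (ofS e h)) ?_ ?_ ?_ ?_ ?_
  · intro σ hσ
    simp only [Finset.mem_filter, Finset.mem_univ, true_and] at hσ
    obtain ⟨hg, hd⟩ := hσ
    simp only [Finset.mem_filter, Finset.mem_Icc, ofS_toS, toS_site]
    have hb : ∀ f, |hy σ y y0 f| ≤ Bb M N := by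
      intro f
      have b1 := abs_hh_le σ f.1 f.2
      have b2 := abs_hh_le σ y.1 y.2
      rw [abs_le] at b1 b2 hy1 ⊢
      simp only [hy, Bb]
      constructor <;> linarith [b1.1, b1.2, b2.1, b2.2, hy1.1, hy1.2]
    refine ⟨⟨fun s => ?_, fun s => ?_⟩, ?_, hy_valid he hg y hy0, hy_ends he hg y y0⟩
    · unfold lo
      split_ifs with hs
      · rw [hs, toS_site]; simp [hy]
      · exact (abs_le.1 (hb _)).1
    · unfold hi
      split_ifs with hs
      · rw [hs, toS_site]; simp [hy]
      · exact (abs_le.1 (hb _)).2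
    · simp only [hy]; linarith
  · intro h hh'
    simp only [Finset.mem_filter, Finset.mem_Icc] at hh'
    obtain ⟨⟨hlo, hhi⟩, hx, hV, hE⟩ := hh'
    have hyv : ofS e h y = y0 := by
      have a1 := hlo (site e y)
      have a2 := hhi (site e y)
      simp only [lo, hi, if_true] at a1 a2
      exact le_antisymm a2 a1
    have hxv : ofS e h x = y0 + d := hx
    have hg := good_arr hV hE
    simp only [Finset.mem_filter, Finset.mem_univ, true_and]
    refine ⟨hg, ?_⟩
    have hk := hy_arr he hV hE y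
    have k1 := congrFun hk x
    simp only [hy, hyv, hxv] at k1
    linarith
  · intro σ hσ
    simp only [Finset.mem_filter, Finset.mem_univ, true_and] at hσ
    rw [ofS_toS]
    exact arr_hy he hσ.1 y y0
  · intro h hh'
    simp only [Finset.mem_filter, Finset.mem_Icc] at hh'
    obtain ⟨⟨hlo, hhi⟩, hx, hV, hE⟩ := hh'
    have hyv : ofS e h y = y0 := by
      have a1 := hlo (site e y)
      have a2 := hhi (site e y)
      simp only [lo, hi, if_true] at a1 a2
      exact le_antisymm a2 a1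
    have hk := hy_arr he hV hE y
    rw [hyv] at hk
    rw [hk, toS_ofS]
  · intro σ hσ
    simp only [Finset.mem_filter, Finset.mem_univ, true_and] at hσ
    have hg := hσ.1
    have h1 := wf_eq (c := c) he (hy_valid he hg y hy0) (hy_ends he hg y y0)
    rw [arr_hy he hg y y0] at h1
    exact h1

/-- **Log-concavity of height differences on flat-ended cylinders.** -/
theorem Zd_lc (he : ∀ j, e (j + 1) = !(e j)) (hc : 1 ≤ c) (x y : Fc M N) {d₁ d₂ : ℤ}
    (hd : 2 ≤ d₂ - d₁) :
    Zd e c x y d₁ * Zd e c x y d₂ ≤ Zd e c x y (d₁ + 2) * Zd e c x y (d₂ - 2) := by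
  obtain ⟨y0, hy0, hy1⟩ : ∃ y0 : ℤ, (ef e y = true ↔ Even y0) ∧ |y0| ≤ 1 := by
    by_cases h : ef e y = true
    · exact ⟨0, by simp [h], by simp⟩
    · exact ⟨1, by simp [h], by simp⟩
  simp only [Zd_eq (c := c) he x y hy0 hy1]
  have := pinZ_logConcave (lsm_mu (M := M) (N := N) he hc) (s := 2) (by norm_num)
    (mu_shift he) (lo e y y0) (hi e y y0) {site e x} (q₁ := y0 + d₁) (q₂ := y0 + d₂)
    (by linarith)
  rw [show y0 + d₁ + 2 = y0 + (d₁ + 2) by ring, show y0 + d₂ - 2 = y0 + (d₂ - 2) by ring] at this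
  exact this

end

end Crest.Agent.R161.Flat123
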