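import Crest.Agent.R150.Path_357

/-!
Row 161 (helper123): long cylinders with end vectors have the same limit `ES` as long tori.

* `NE W b₀ b₁ m K n g` : sum over paths of `m + (K + n)` columns, end vectors `b₀`, `b₁`, function
  `g` of the columns `m, ..., m + K - 1`
* `ends_tendsto` : the ratio tends to `ES W lam w K g` when both sides grow.
-/

set_option autoImplicit false

noncomputable section

open Matrix Filter Topology
open Crest.Agent.R150.Base357

namespace Crest.Agent.R161.FlatPF123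

variable {S V : Type*} [Fintype S] [DecidableEq S] [Fintype V]

/-- path sum with end vectors and an observable of `K` columns after the first `m` -/
def NE (W : S → S → V → ℝ) (b₀ b₁ : S → ℝ) (m K n : ℕ) (g : (Fin K → S × V) → ℝ) : ℝ :=
  ∑ s, ∑ p : Fin (m + (K + n)) → S × V,
    b₀ s * (pw W s p * g (fun i => p (Fin.natAdd m (Fin.castAdd n i)))) * b₁ (ls s p)

lemma NE_eq (W : S → S → V → ℝ) (b₀ b₁ : S → ℝ) (m K n : ℕ) (g : (Fin K → S × V) → ℝ) :
    NE W b₀ b₁ m K n g = ∑ s, ∑ t, ∑ u, ∑ q : Fin K → S × V,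
      b₀ s * (TW W ^ m) s t * (pw W t q * g q * (TW W ^ n) (ls t q) u) * b₁ u := by
  unfold NE
  refine Finset.sum_congr rfl fun s _ => ?_
  rw [← (appEquiv (S × V) m (K + n)).sum_comp, Fintype.sum_prod_type]
  simp only [appEquiv, Equiv.coe_fn_mk, ls_append, pw_append, Fin.append_right]
  -- insert the intermediate state
  have h1 : ∀ p : Fin m → S × V, (∑ q : Fin (K + n) → S × V,
      b₀ s * (pw W s p * pw W (ls s p) q * g (fun i => q (Fin.castAdd n i))) *
        b₁ (ls (ls s p) q)) =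
      ∑ t, (if ls s p = t then pw W s p else 0) * (b₀ s * ∑ q : Fin (K + n) → S × V,
        (pw W t q * g (fun i => q (Fin.castAdd n i))) * b₁ (ls t q)) := by
    intro p
    simp only [ite_mul, zero_mul, Finset.sum_ite_eq, Finset.mem_univ, if_true]
    rw [Finset.mul_sum, Finset.mul_sum]
    exact Finset.sum_congr rfl fun q _ => by ring
  rw [Finset.sum_congr rfl fun p _ => h1 p, Finset.sum_comm]
  refine Finset.sum_congr rfl fun t _ => ?_
  rw [← Finset.sum_mul, pw_sum]
  have h2 : (∑ q : Fin (K + n) → S × V,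
      (pw W t q * g (fun i => q (Fin.castAdd n i))) * b₁ (ls t q)) =
      ∑ u, (∑ q : Fin (K + n) → S × V,
        (if ls t q = u then pw W t q * g (fun i => q (Fin.castAdd n i)) else 0)) * b₁ u := by
    simp only [Finset.sum_mul]
    rw [Finset.sum_comm]
    refine Finset.sum_congr rfl fun q _ => ?_
    simp only [ite_mul, zero_mul, Finset.sum_ite_eq, Finset.mem_univ, if_true]
  rw [h2, Finset.mul_sum, Finset.mul_sum]
  refine Finset.sum_congr rfl fun u _ => ?_
  rw [sum_window, Finset.sum_mul, Finset.mul_sum, Finset.mul_sum]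
  exact Finset.sum_congr rfl fun q _ => by ring

/-- normalised numerators converge -/
lemma NE_tendsto (W : S → S → V → ℝ) {lam : ℝ} {w : S → ℝ} (h : PFData (TW W) lam w)
    (b₀ b₁ : S → ℝ) (K : ℕ) (g : (Fin K → S × V) → ℝ) {a b : ℕ → ℕ} (ha : Tendsto a atTop atTop)
    (hb : Tendsto b atTop atTop) :
    Tendsto (fun k => NE W b₀ b₁ (a k) K (b k) g / lam ^ (a k + (K + b k))) atTop
      (𝓝 ((∑ s, b₀ s * w s) * (∑ u, b₁ u * w u) * ES W lam w K g)) := by
  have e : ∀ k, NE W b₀ b₁ (a k) K (b k) g / lam ^ (a k + (K + b k)) =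
      ∑ s, ∑ t, ∑ u, ∑ q : Fin K → S × V,
        b₀ s * ((TW W ^ a k) s t / lam ^ a k) * (pw W t q * g q / lam ^ K *
          ((TW W ^ b k) (ls t q) u / lam ^ b k)) * b₁ u := by
    intro k
    rw [NE_eq]
    simp only [Finset.sum_div]
    refine Finset.sum_congr rfl fun s _ => Finset.sum_congr rfl fun t _ =>
      Finset.sum_congr rfl fun u _ => Finset.sum_congr rfl fun q _ => ?_
    have hl := h.lam_pos.ne'
    rw [pow_add, pow_add]
    field_simp
  simp only [e]
  have hlim : Tendsto (fun k => ∑ s, ∑ t, ∑ u, ∑ q : Fin K → S × V,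
        b₀ s * ((TW W ^ a k) s t / lam ^ a k) * (pw W t q * g q / lam ^ K *
          ((TW W ^ b k) (ls t q) u / lam ^ b k)) * b₁ u) atTop
      (𝓝 (∑ s, ∑ t, ∑ u, ∑ q : Fin K → S × V,
        b₀ s * (w s * w t) * (pw W t q * g q / lam ^ K *
          (w (ls t q) * w u)) * b₁ u)) := by
    refine tendsto_finsetSum _ fun s _ => tendsto_finsetSum _ fun t _ =>
      tendsto_finsetSum _ fun u _ => tendsto_finsetSum _ fun q _ => ?_
    exact (((h.tends s t).comp ha).const_mul (b₀ s)).mul
      (((h.tends (ls t q) u).comp hb).const_mul _) |>.mul_const _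
  have key : (∑ s, ∑ t, ∑ u, ∑ q : Fin K → S × V,
        b₀ s * (w s * w t) * (pw W t q * g q / lam ^ K *
          (w (ls t q) * w u)) * b₁ u) =
      (∑ s, b₀ s * w s) * (∑ u, b₁ u * w u) * ES W lam w K g := by
    unfold ES
    have h1 : ∀ s t u, (∑ q : Fin K → S × V,
        b₀ s * (w s * w t) * (pw W t q * g q / lam ^ K * (w (ls t q) * w u)) * b₁ u) =
        (b₀ s * w s) * ((b₁ u * w u) *
          ((∑ p : Fin K → S × V, w t * pw W t p * g p * w (ls t p)) / lam ^ K)) := by
      intro s t u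
      rw [Finset.sum_div, Finset.mul_sum, Finset.mul_sum]
      exact Finset.sum_congr rfl fun q _ => by ring
    simp only [h1]
    rw [Finset.sum_mul, Finset.sum_mul]
    refine Finset.sum_congr rfl fun s _ => ?_
    have h2 : ∀ t, (∑ u, (b₀ s * w s) * ((b₁ u * w u) *
          ((∑ p : Fin K → S × V, w t * pw W t p * g p * w (ls t p)) / lam ^ K))) =
        (b₀ s * w s) * (∑ u, b₁ u * w u) *
          ((∑ p : Fin K → S × V, w t * pw W t p * g p * w (ls t p)) / lam ^ K) := by
      intro t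
      rw [← Finset.mul_sum, ← Finset.sum_mul]
      ring
    simp only [h2]
    rw [← Finset.mul_sum, ← Finset.sum_div]
  rwa [key] at hlim

/-- **Long cylinders with end vectors** have the same limit as long tori. -/
theorem ends_tendsto (W : S → S → V → ℝ) {lam : ℝ} {w : S → ℝ} (h : PFData (TW W) lam w)
    (b₀ b₁ : S → ℝ) (h₀ : ∑ s, b₀ s * w s ≠ 0) (h₁ : ∑ s, b₁ s * w s ≠ 0) (K : ℕ)
    (g : (Fin K → S × V) → ℝ) {a b : ℕ → ℕ} (ha : Tendsto a atTop atTop)
    (hb : Tendsto b atTop atTop) :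
    Tendsto (fun k => NE W b₀ b₁ (a k) K (b k) g / NE W b₀ b₁ (a k) K (b k) fun _ => 1) atTop
      (𝓝 (ES W lam w K g)) := by
  have hn := NE_tendsto W h b₀ b₁ K g ha hb
  have hd := NE_tendsto W h b₀ b₁ K (fun _ => 1) ha hb
  rw [ES_one W h K, mul_one] at hd
  have h2 : (∑ s, b₀ s * w s) * (∑ u, b₁ u * w u) ≠ 0 := mul_ne_zero h₀ h₁
  have := hn.div hd h2
  rw [mul_div_cancel_left₀ _ h2] at this
  refine this.congr fun k => ?_
  have hl : lam ^ (a k + (K + b k)) ≠ 0 := (pow_pos h.lam_pos _).ne'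
  simp only [Pi.div_apply]
  rw [div_div_div_cancel_right₀ hl]

/-- positivity of the overlap -/
lemma overlap_ne {A : Matrix S S ℝ} {lam : ℝ} {w : S → ℝ} (h : PFData A lam w) {b : S → ℝ}
    (hb : ∀ s, 0 ≤ b s) {s₀ : S} (hs : 0 < b s₀) : ∑ s, b s * w s ≠ 0 := by
  refine (Finset.sum_pos' (fun s _ => mul_nonneg (hb s) (h.w_pos s).le)
    ⟨s₀, Finset.mem_univ _, mul_pos hs (h.w_pos s₀)⟩).ne'

end Crest.Agent.R161.FlatPF123
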