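import Crest.Agent.R161.Flat_123
import Crest.Agent.R161.FlatPF_123
import Crest.Agent.R150.Pls_989

/-!
Row 161 (helper123): flat-ended cylinders converge to the plane state.

* `lf A σ : Conf` : planar reading of a cylinder configuration, `relH_lf` : heights
* `EF e c A F` : expectation of `F ∘ lf A` for the flat-ended cylinder
* `flat_tendsto` : `M → ∞` limit of `EF`
* `iter_flat` : the plane state is the iterated limit of `EF`
-/

set_option autoImplicit false

noncomputable section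

open Matrix Filter Topology MeasureTheory
open Crest.ProbabilityR.SixVertex
open Crest.Agent.R150.Base357 Crest.Agent.R150.Hgt989 Crest.Agent.R150.Pln989
open Crest.Agent.R150.Pls989
open Crest.Agent.R161.FlatPF123

namespace Crest.Agent.R161.Flat123

/-- planar reading of a cylinder configuration; vertex column `i` of the plane is column
`i + A - 1` of the cylinder -/
def lf {M N : ℕ} (A : ℕ) (σ : CC M N) : Conf := fun v =>
  (σ.1 (Fin.ofNat (M + 1) (v.1 + A).toNat) (v.2 : ZMod N),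
    if h : (v.1 + A - 1).toNat < M then σ.2 ⟨(v.1 + A - 1).toNat, h⟩ (v.2 : ZMod N) else true)

lemma dy_sg (ω : Conf) (v : ℤ × ℤ) : dy ω v = sg (ω v).1 := rfl

lemma dx_sg (ω : Conf) (v : ℤ × ℤ) : dx ω v = - sg (ω v).2 := by
  unfold dx
  cases (ω v).2 <;> simp

section heights
variable {M N : ℕ} [NeZero N] {e : ZMod N → Bool} {A : ℕ}

/-- the face column of the cylinder -/
def col (M A : ℕ) (p : ℤ) : Fin (M + 1) := Fin.ofNat (M + 1) (p + A).toNat

lemma col_val {p : ℤ} (h1 : 0 ≤ p + A) (h2 : p + A ≤ M) : ((col M A p : Fin (M + 1)) : ℤ) = p + A := by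
  unfold col
  rw [Fin.val_ofNat, Nat.mod_eq_of_lt (by omega)]
  omega

lemma relH_lf_step {σ : CC M N} (he : ∀ j, e (j + 1) = !(e j)) (hg : Good e σ) {p : ℤ}
    (h1 : 0 ≤ p + A) (h2 : p + A < M) :
    dx (lf A σ) (p + 1, 0) = hh σ (col M A (p + 1)) 0 - hh σ (col M A p) 0 := by
  rw [dx_sg]
  have hlt : (p + 1 + A - 1).toNat < M := by omega
  have e1 : (lf A σ (p + 1, 0)).2 = σ.2 ⟨(p + 1 + A - 1).toNat, hlt⟩ 0 := by
    simp only [lf]
    rw [dif_pos hlt]
    simp
  rw [e1]
  set i : Fin M := ⟨(p + 1 + A - 1).toNat, hlt⟩ with hi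
  have c1 : col M A (p + 1) = i.succ := by
    apply Fin.ext
    have := col_val (M := M) (A := A) (p := p + 1) (by omega) (by omega)
    simp only [Fin.val_succ, hi]
    omega
  have c2 : col M A p = i.castSucc := by
    apply Fin.ext
    have := col_val (M := M) (A := A) (p := p) (by omega) (by omega)
    simp only [Fin.val_castSucc, hi]
    omega
  rw [c1, c2, hh_right he hg i 0]
  ring

/-- heights of the planar reading -/
lemma relH_lf {σ : CC M N} (he : ∀ j, e (j + 1) = !(e j)) (hg : Good e σ) (hA : A ≤ M) {p : ℤ}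
    (h1 : 0 ≤ p + A) (h2 : p + A ≤ M) (q : ℤ) :
    relH (lf A σ) p q = hh σ (col M A p) (q : ZMod N) - hh σ (col M A 0) 0 := by
  -- vertical part
  have hv : ∀ q : ℤ, relH (lf A σ) p q - relH (lf A σ) p 0 =
      hh σ (col M A p) (q : ZMod N) - hh σ (col M A p) 0 := by
    have hstep : ∀ q : ℤ, relH (lf A σ) p (q + 1) - relH (lf A σ) p q =
        hh σ (col M A p) ((q + 1 : ℤ) : ZMod N) - hh σ (col M A p) (q : ZMod N) := by
      intro q
      rw [relH_succ_snd, dy_sg]
      have e1 := hh_up (hg.bal0 he (col M A p)) ((q + 1 : ℤ) : ZMod N)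
      have e2 : (((q + 1 : ℤ) : ZMod N)) - 1 = (q : ZMod N) := by push_cast; ring
      rw [e2] at e1
      rw [e1]
      have e3 : (lf A σ (p, q + 1)).1 = σ.1 (col M A p) ((q + 1 : ℤ) : ZMod N) := rfl
      rw [e3]
      ring
    intro q
    induction q using Int.induction_on with
    | zero => simp
    | succ q ih =>
      have := hstep q
      linarith
    | pred q ih =>
      have := hstep (-(q:ℤ) - 1)
      rw [sub_add_cancel] at this
      linarith
  -- horizontal part
  have hz : ∀ p : ℤ, 0 ≤ p + A → p + A < M → relH (lf A σ) (p + 1) 0 - relH (lf A σ) p 0 =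
      hh σ (col M A (p + 1)) 0 - hh σ (col M A p) 0 := by
    intro p h1 h2
    rw [← relH_lf_step he hg h1 h2]
    unfold relH
    rw [signedSum_succ (fun i => dx (lf A σ) (i, 0)) 1 (p + 1)]
    simp [signedSum_self]
  have hh0 : ∀ p : ℤ, 0 ≤ p + A → p + A ≤ M →
      relH (lf A σ) p 0 = hh σ (col M A p) 0 - hh σ (col M A 0) 0 := by
    intro p
    induction p using Int.induction_on with
    | zero => intro _ _; simp
    | succ p ih =>
      intro h1 h2
      have a1 := hz p (by omega) (by omega)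
      have a2 := ih (by omega) (by omega)
      linarith
    | pred p ih =>
      intro h1 h2
      have a1 := hz (-(p:ℤ) - 1) (by omega) (by omega)
      have a2 := ih (by omega) (by omega)
      rw [sub_add_cancel] at a1
      linarith
  have := hv q
  rw [hh0 p h1 h2] at this
  linarith

end heights

/-- expectation for the flat-ended cylinder -/
def EF {M N : ℕ} [NeZero N] (e : ZMod N → Bool) (c : ℝ) (A : ℕ) (F : Conf → ℝ) : ℝ :=
  (∑ σ : CC M N, wg e c σ * F (lf A σ)) / ∑ σ : CC M N, wg e c σ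

/-- paths of balanced columns as configurations -/
def emb {M N : ℕ} [NeZero N] (x : BS N × (Fin M → BS N × CS N)) : CC M N :=
  (Fin.cons x.1.1 (fun i => (x.2 i).1.1), fun i => (x.2 i).2)

section embedding
variable {M N : ℕ} [NeZero N] {e : ZMod N → Bool} {c : ℝ}

lemma emb_injective : Function.Injective (emb (M := M) (N := N)) := by
  rintro ⟨s, p⟩ ⟨s', p'⟩ h
  simp only [emb, Prod.mk.injEq] at h
  obtain ⟨h1, h2⟩ := h
  have h3 : s.1 = s'.1 := by
    have := congrFun h1 0
    simpa using this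
  have h4 : ∀ i, (p i).1.1 = (p' i).1.1 := by
    intro i
    have := congrFun h1 i.succ
    simpa using this
  refine Prod.ext (Subtype.ext h3) ?_
  funext i
  exact Prod.ext (Subtype.ext (h4 i)) (congrFun h2 i)

lemma mem_range_emb {σ : CC M N} (h : ∀ p, Bal (σ.1 p)) : σ ∈ Set.range (emb (M := M) (N := N)) := by
  refine ⟨(⟨σ.1 0, h 0⟩, fun i => (⟨σ.1 i.succ, h i.succ⟩, σ.2 i)), ?_⟩
  refine Prod.ext ?_ rfl
  funext p
  simp only [emb]
  refine Fin.cases ?_ (fun i => ?_) p
  · simp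
  · simp

lemma cons_val (s : BS N) (p : Fin M → BS N × CS N) (j : Fin (M + 1)) :
    (Fin.cons s.1 (fun i => (p i).1.1) : Fin (M + 1) → CS N) j =
      ((Fin.cons s (fun i => (p i).1) : Fin (M + 1) → BS N) j).1 := by
  refine Fin.cases ?_ (fun i => ?_) j
  · simp
  · simp

lemma cons_last : ∀ {M : ℕ} (s : BS N) (p : Fin M → BS N × CS N),
    (Fin.cons s (fun i => (p i).1) : Fin (M + 1) → BS N) (Fin.last M) = ls s p
  | 0, s, p => by simp
  | M + 1, s, p => by
    rw [ls_eq_last, ← Fin.succ_last, Fin.cons_succ]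

lemma wf_emb (s : BS N) (p : Fin M → BS N × CS N) : wf c (emb (s, p)) = pw (WB c) s p := by
  rw [pw_eq_prod]
  unfold wf
  refine Finset.prod_congr rfl fun i _ => ?_
  unfold WB
  rw [← cons_val]
  simp [emb]

open Classical in
/-- indicator of flat columns -/
def chv (e : ZMod N → Bool) (s : BS N) : ℝ := if chi e s.1 then 1 else 0

lemma wg_emb (s : BS N) (p : Fin M → BS N × CS N) :
    wg e c (emb (s, p)) = chv e s * pw (WB c) s p * chv e (ls s p) := by
  unfold wg chv
  rw [wf_emb]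
  have h1 : (emb (s, p)).1 0 = s.1 := by simp [emb]
  have h2 : (emb (s, p)).1 (Fin.last M) = (ls s p).1 := by
    simp only [emb]
    rw [cons_val, cons_last]
  rw [h1, h2]

lemma sum_wg (he : ∀ j, e (j + 1) = !(e j)) (G : CC M N → ℝ) :
    ∑ σ : CC M N, wg e c σ * G σ =
      ∑ s, ∑ p : Fin M → BS N × CS N,
        chv e s * (pw (WB c) s p * G (emb (s, p))) * chv e (ls s p) := by
  rw [← Fintype.sum_prod_type']
  refine (Fintype.sum_of_injective (emb (M := M) (N := N)) emb_injective _ _ ?_ ?_).symm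
  · intro σ hσ
    by_cases h0 : wg e c σ = 0
    · rw [h0, zero_mul]
    · exact absurd (mem_range_emb fun p => (good_of_wg h0).bal he p) hσ
  · rintro ⟨s, p⟩
    simp only
    rw [wg_emb]
    ring

end embedding

/-! ### the limit of long flat-ended cylinders -/

/-- parity of the rows -/
def ev (N : ℕ) (j : ZMod N) : Bool := decide (j.val % 2 = 0)

lemma ev_succ {L : ℕ} [NeZero (2 * L)] (j : ZMod (2 * L)) : ev (2 * L) (j + 1) = !(ev (2 * L) j) := by
  unfold ev
  have hL : 0 < L := by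
    have := NeZero.ne (2 * L)
    omega
  haveI : Fact (1 < 2 * L) := ⟨by omega⟩
  have h1 : (j + 1).val = (j.val + 1) % (2 * L) := by
    rw [ZMod.val_add, ZMod.val_one]
  rw [h1]
  have h2 : (j.val + 1) % (2 * L) % 2 = (j.val + 1) % 2 :=
    Nat.mod_mod_of_dvd _ (Dvd.intro L rfl)
  rw [h2]
  by_cases h : j.val % 2 = 0
  · have h3 : ¬ (j.val + 1) % 2 = 0 := by omega
    simp [h, h3]
  · have h3 : (j.val + 1) % 2 = 0 := by omega
    simp [h, h3]

/-- an alternating column is flat -/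
lemma exists_flat (L : ℕ) [NeZero (2 * L)] : ∃ s : BS (2 * L), chi (ev (2 * L)) s.1 := by
  refine ⟨⟨ev (2 * L), ?_⟩, fun j _ => ?_⟩
  · rw [bal_iff]
    refine sum_eq_zero_of_chi (e := ev (2 * L)) ev_succ fun j hj => ?_
    have := ev_succ (j - 1)
    rw [sub_add_cancel] at this
    rw [this]
    cases ev (2 * L) (j - 1) <;> simp
  · show ev (2 * L) (j - 1) ≠ ev (2 * L) j
    have := ev_succ (j - 1)
    rw [sub_add_cancel] at this
    rw [this]
    cases ev (2 * L) (j - 1) <;> simp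

lemma chv_nonneg {N : ℕ} [NeZero N] (e : ZMod N → Bool) (s : BS N) : 0 ≤ chv e s := by
  unfold chv; split_ifs <;> norm_num

lemma overlap (L : ℕ) [NeZero (2 * L)] {c lam : ℝ} {w : BS (2 * L) → ℝ}
    (h : PFData (TB (2 * L) c) lam w) : ∑ s, chv (ev (2 * L)) s * w s ≠ 0 := by
  obtain ⟨s, hs⟩ := exists_flat L
  refine overlap_ne h (chv_nonneg _) (s₀ := s) ?_
  unfold chv
  rw [if_pos hs]
  exact one_pos

/-- the number of columns used for windows of radius `R`, `m` more columns on each side -/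
def mm (R m : ℕ) : ℕ := m + ((2 * R + 1) + (m + 1))

lemma mm_eq (R m : ℕ) : mm R m = 2 * (m + R + 1) := by unfold mm; ring

lemma num_eq (L : ℕ) [NeZero (2 * L)] (c : ℝ) (W : Finset (ℤ × ℤ)) (R m : ℕ)
    (hR : ∀ x ∈ W, |x.1| ≤ (R : ℤ)) (f : (W → Bool × Bool) → ℝ) :
    ∑ σ : CC (mm R m) (2 * L), wg (ev (2 * L)) c σ * f (fun w => lf (m + R + 1) σ w) =
      NE (WB c) (chv (ev (2 * L))) (chv (ev (2 * L))) m (2 * R + 1) (m + 1)
        (fun p => f (winCol W R fun i => fb (p i))) := by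
  rw [sum_wg ev_succ]
  unfold NE
  refine Finset.sum_congr rfl fun s _ => Finset.sum_congr rfl fun p _ => ?_
  congr 3
  congr 1
  funext x
  have h2 := abs_le.1 (hR x.1 x.2)
  have hlt : ((x : ℤ × ℤ).1 + ((m + R + 1 : ℕ) : ℤ) - 1).toNat < mm R m := by
    rw [mm_eq]; push_cast; omega
  set k : Fin (mm R m) := ⟨((x : ℤ × ℤ).1 + ((m + R + 1 : ℕ) : ℤ) - 1).toNat, hlt⟩ with hk
  have hk1 : Fin.ofNat (mm R m + 1) ((x : ℤ × ℤ).1 + ((m + R + 1 : ℕ) : ℤ)).toNat = k.succ := by
    apply Fin.ext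
    rw [Fin.val_ofNat, Nat.mod_eq_of_lt (by rw [mm_eq]; push_cast; omega), Fin.val_succ, hk]
    simp only
    push_cast
    omega
  have hi : ((Fin.ofNat (2 * R + 1) ((x : ℤ × ℤ).1 + R).toNat : Fin (2 * R + 1)) : ℕ) =
      ((x : ℤ × ℤ).1 + R).toNat := by
    rw [Fin.val_ofNat, Nat.mod_eq_of_lt]
    omega
  have hk2 : (Fin.natAdd m (Fin.castAdd (m + 1)
      (Fin.ofNat (2 * R + 1) ((x : ℤ × ℤ).1 + R).toNat)) : Fin (m + ((2 * R + 1) + (m + 1)))) = k := by
    apply Fin.ext
    simp only [Fin.val_natAdd, Fin.val_castAdd, hi, hk]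
    push_cast
    omega
  unfold lf winCol fb
  simp only
  rw [dif_pos hlt, hk2, hk1]
  simp only [emb, Fin.cons_succ]
  rfl

lemma den_eq (L : ℕ) [NeZero (2 * L)] (c : ℝ) (R m : ℕ) :
    ∑ σ : CC (mm R m) (2 * L), wg (ev (2 * L)) c σ =
      NE (WB c) (chv (ev (2 * L))) (chv (ev (2 * L))) m (2 * R + 1) (m + 1) (fun _ => 1) := by
  have := num_eq L c ∅ R m (by simp) (fun _ => 1)
  simpa using this

/-- **long flat-ended cylinders** -/
theorem flat_tendsto (L : ℕ) [NeZero (2 * L)] {c lam : ℝ} {w : BS (2 * L) → ℝ}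
    (h : PFData (TB (2 * L) c) lam w) (W : Finset (ℤ × ℤ)) (R : ℕ)
    (hR : ∀ x ∈ W, |x.1| ≤ (R : ℤ)) (f : (W → Bool × Bool) → ℝ) {m : ℕ → ℕ}
    (hm : Tendsto m atTop atTop) :
    Tendsto (fun k : ℕ => EF (M := mm R (m k)) (ev (2 * L)) c (m k + R + 1)
      fun ω => f fun w => ω w) atTop
      (𝓝 (CylE c lam w (2 * R + 1) fun p => f (winCol W R p))) := by
  unfold EF
  simp only [num_eq L c W R _ hR f, den_eq]
  exact ends_tendsto (WB c) h _ _ (overlap L h) (overlap L h) (2 * R + 1) _ hm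
    ((tendsto_add_atTop_nat 1).comp hm)

/-- positions of the ends with the right parity -/
def mk (R k : ℕ) : ℕ := 2 * k + R + 1

lemma mk_tendsto (R : ℕ) : Tendsto (mk R) atTop atTop := by
  refine tendsto_atTop_mono (fun k => ?_) tendsto_id
  unfold mk
  simp only [id]
  omega

/-- the expectation used in the iterated limit -/
def EFk (R k L : ℕ) [NeZero (2 * L)] (c : ℝ) (F : Conf → ℝ) : ℝ :=
  EF (M := mm R (mk R k)) (ev (2 * L)) c (mk R k + R + 1) F

/-- **The plane state as iterated limit of flat-ended cylinders.** -/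
theorem iter_flat {c : ℝ} (hc : 0 < c) {P : Measure Conf} (hP : IsPlane c P) {R : ℕ}
    {F : Conf → ℝ} (hF : ∀ ω ω' : Conf, (∀ v ∈ box R, ω v = ω' v) → F ω = F ω') :
    ∃ B : ℕ → ℝ, (∀ L : ℕ, 2 ≤ L → ∀ [NeZero (2 * L)],
      Tendsto (fun k : ℕ => EFk R k L c F) atTop (𝓝 (B L))) ∧
      Tendsto B atTop (𝓝 (∫ ω, F ω ∂P)) := by
  classical
  set f : (box R → Bool × Bool) → ℝ := fun η =>
    F fun v => if h : v ∈ box R then η ⟨v, h⟩ else (true, true) with hf
  have hFf : F = fun ω => f fun w => ω w := by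
    funext ω
    refine hF _ _ fun v hv => ?_
    simp [hv]
  have hloc : Loc F := ⟨R, hF⟩
  obtain ⟨B, h1, h2⟩ := hP.iter F hloc
  refine ⟨B, fun L hL _ => ?_, h2⟩
  obtain ⟨lam, w, h⟩ := exists_pf L hc
  have hR : ∀ x ∈ box R, |x.1| ≤ (R : ℤ) := fun x hx => (mem_box.1 hx).1
  have h3 := localObservable_tendsto L h (box R) R hR f
  have h4 := flat_tendsto L h (box R) R hR f (mk_tendsto R)
  have h5 : Tendsto (fun M : ℕ => tm M (2 * L) c F) atTop
      (𝓝 (CylE c lam w (2 * R + 1) fun p => f (winCol (box R) R p))) := by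
    refine h3.congr fun M => ?_
    rw [localObservableMean_eq, ← hFf]
  rw [tendsto_nhds_unique (h1 L hL) h5]
  unfold EFk
  rw [hFf]
  exact h4

end Crest.Agent.R161.Flat123
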