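import Crest.Agent.R150.Torus_357

/-!
Row 161 (helper123): flat-ended cylinders in arrow language.

* `CC M N` : horizontal arrows of the `M + 1` face columns, vertical arrows of the `M` vertex columns
* `chi e s` : the faces `(·, j)` with `e j = true` of the column have the same height
* `wf c σ` : six-vertex weight; `Good e σ` : ice rule and flat ends
* `hh σ p q` : heights; `hh_up`, `hh_right`, `hh_unique`
-/

set_option autoImplicit false

noncomputable section

open Crest.Agent.R150.Base357

namespace Crest.Agent.R161.Flat123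

/-- arrows of a cylinder -/
abbrev CC (M N : ℕ) : Type := (Fin (M + 1) → CS N) × (Fin M → CS N)

/-- sign of an arrow -/
def sg (b : Bool) : ℤ := if b then 1 else -1

@[simp] lemma sg_true : sg true = 1 := rfl
@[simp] lemma sg_false : sg false = -1 := rfl

lemma sg_inj {a b : Bool} (h : sg a = sg b) : a = b := by
  cases a <;> cases b <;> simp [sg] at h ⊢

/-- local ice rule -/
def IceL (l r d t : Bool) : Prop := (l = r ∧ d = t) ∨ (l = t ∧ d = r)

instance (l r d t : Bool) : Decidable (IceL l r d t) := by unfold IceL; infer_instance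

lemma IceL.sum {l r d t : Bool} (h : IceL l r d t) : sg r + sg t = sg l + sg d := by
  revert h
  cases l <;> cases r <;> cases d <;> cases t <;> simp [IceL, sg]

lemma iceL_of_sum {l r d t : Bool} (h : sg r + sg t = sg l + sg d) : IceL l r d t := by
  revert h
  cases l <;> cases r <;> cases d <;> cases t <;> simp [IceL, sg]

lemma wt_eq_zero {c : ℝ} {l r d t : Bool} (h : ¬ IceL l r d t) : wt 1 1 c l r d t = 0 := by
  revert h
  cases l <;> cases r <;> cases d <;> cases t <;> simp [IceL, wt]

lemma wt_pos {c : ℝ} (hc : 0 < c) {l r d t : Bool} (h : IceL l r d t) : 0 < wt 1 1 c l r d t := by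
  revert h
  cases l <;> cases r <;> cases d <;> cases t <;> simp [IceL, wt, hc]

/-- flat column: the faces `(·, j)`, `e j = true`, have the same height -/
def chi {N : ℕ} (e : ZMod N → Bool) (s : CS N) : Prop := ∀ j, e j = true → s (j - 1) ≠ s j

/-- six-vertex weight of the cylinder -/
def wf {M N : ℕ} [NeZero N] (c : ℝ) (σ : CC M N) : ℝ :=
  ∏ i : Fin M, colW c (σ.1 i.castSucc) (σ.1 i.succ) (σ.2 i)

/-- ice rule and flat ends -/
structure Good {M N : ℕ} (e : ZMod N → Bool) (σ : CC M N) : Prop where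
  left : chi e (σ.1 0)
  right : chi e (σ.1 (Fin.last M))
  ice : ∀ i j, IceL (σ.1 (Fin.castSucc i) j) (σ.1 (Fin.succ i) j) (σ.2 i (j - 1)) (σ.2 i j)

open Classical in
/-- weight of the flat-ended cylinder -/
def wg {M N : ℕ} [NeZero N] (e : ZMod N → Bool) (c : ℝ) (σ : CC M N) : ℝ :=
  (if chi e (σ.1 0) then 1 else 0) * wf c σ * (if chi e (σ.1 (Fin.last M)) then 1 else 0)

section
variable {M N : ℕ} [NeZero N] {e : ZMod N → Bool} {c : ℝ}

lemma wf_nonneg (hc : 0 ≤ c) (σ : CC M N) : 0 ≤ wf c σ :=
  Finset.prod_nonneg fun _ _ => colW_nonneg hc _ _ _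

lemma wg_nonneg (hc : 0 ≤ c) (σ : CC M N) : 0 ≤ wg e c σ := by
  unfold wg
  have := wf_nonneg (M := M) (N := N) hc σ
  split_ifs <;> simp [this]

lemma good_of_wg {σ : CC M N} (h : wg e c σ ≠ 0) : Good e σ := by
  unfold wg at h
  have h1 : chi e (σ.1 0) := by
    by_contra h1; simp [h1] at h
  have h2 : chi e (σ.1 (Fin.last M)) := by
    by_contra h2; simp [h2] at h
  refine ⟨h1, h2, fun i j => ?_⟩
  by_contra h3
  apply h
  have : wf c σ = 0 := by
    unfold wf
    refine Finset.prod_eq_zero (Finset.mem_univ i) ?_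
    unfold colW
    exact Finset.prod_eq_zero (Finset.mem_univ j) (wt_eq_zero h3)
  rw [this]; ring

lemma Good.wg_pos (hc : 0 < c) {σ : CC M N} (h : Good e σ) : 0 < wg e c σ := by
  unfold wg
  rw [if_pos h.left, if_pos h.right, one_mul, mul_one]
  exact Finset.prod_pos fun i _ => Finset.prod_pos fun j _ => wt_pos hc (h.ice i j)

lemma wg_eq_wf {σ : CC M N} (h : Good e σ) : wg e c σ = wf c σ := by
  unfold wg
  rw [if_pos h.left, if_pos h.right, one_mul, mul_one]

/-! ### balance -/

lemma sum_eq_zero_of_chi (he : ∀ j, e (j + 1) = !(e j)) {s : CS N} (h : chi e s) :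
    ∑ j, sg (s j) = 0 := by
  have h1 : ∑ j, (if e j = true then sg (s (j - 1)) else 0) =
      ∑ j, (if e j = true then 0 else sg (s j)) := by
    rw [← Equiv.sum_comp (Equiv.addRight (1 : ZMod N))
      (fun j => if e j = true then sg (s (j - 1)) else 0)]
    refine Finset.sum_congr rfl fun j _ => ?_
    simp only [Equiv.coe_addRight, he, add_sub_cancel_right]
    cases e j <;> simp
  have h2 : ∑ j, sg (s j) = ∑ j, (if e j = true then sg (s j) + sg (s (j - 1)) else 0) := by
    have h3 : ∀ j, (if e j = true then sg (s j) + sg (s (j - 1)) else 0) =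
        (if e j = true then sg (s j) else 0) + (if e j = true then sg (s (j - 1)) else 0) := by
      intro j
      split_ifs <;> simp
    simp only [h3]
    rw [Finset.sum_add_distrib, h1, ← Finset.sum_add_distrib]
    refine Finset.sum_congr rfl fun j _ => ?_
    split_ifs <;> simp
  rw [h2]
  refine Finset.sum_eq_zero fun j _ => ?_
  split_ifs with h3
  · have := h j h3
    revert this
    cases s j <;> cases s (j - 1) <;> simp [sg]
  · rfl

lemma sum_step {σ : CC M N} (h : Good e σ) (i : Fin M) :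
    ∑ j, sg (σ.1 i.succ j) = ∑ j, sg (σ.1 i.castSucc j) := by
  have h1 : ∑ j, (sg (σ.1 i.succ j) + sg (σ.2 i j)) =
      ∑ j, (sg (σ.1 i.castSucc j) + sg (σ.2 i (j - 1))) :=
    Finset.sum_congr rfl fun j _ => (h.ice i j).sum
  rw [Finset.sum_add_distrib, Finset.sum_add_distrib] at h1
  have h2 : ∑ j, sg (σ.2 i (j - 1)) = ∑ j, sg (σ.2 i j) :=
    Equiv.sum_comp (Equiv.subRight (1 : ZMod N)) (fun j => sg (σ.2 i j))
  rw [h2] at h1
  exact add_right_cancel h1

lemma Good.bal0 (he : ∀ j, e (j + 1) = !(e j)) {σ : CC M N} (h : Good e σ) (p : Fin (M + 1)) :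
    ∑ j, sg (σ.1 p j) = 0 := by
  induction p using Fin.induction with
  | zero => exact sum_eq_zero_of_chi he h.left
  | succ i ih => rw [sum_step h i, ih]

lemma bal_iff (s : CS N) : Bal s ↔ ∑ j, sg (s j) = 0 := by
  have h1 : ∑ j, sg (s j) = 2 * ((Finset.univ.filter fun j : ZMod N => s j = true).card : ℤ) - N := by
    have h2 : ∀ j, sg (s j) = 2 * (if s j = true then 1 else 0) - 1 := by
      intro j; cases s j <;> simp [sg]
    simp only [h2]
    rw [Finset.sum_sub_distrib, ← Finset.mul_sum, Finset.sum_boole]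
    simp [ZMod.card]
  unfold Bal
  rw [h1]
  constructor
  · intro h; rw [sub_eq_zero]; exact_mod_cast h
  · intro h; rw [sub_eq_zero] at h; exact_mod_cast h

lemma Good.bal (he : ∀ j, e (j + 1) = !(e j)) {σ : CC M N} (h : Good e σ) (p : Fin (M + 1)) :
    Bal (σ.1 p) := (bal_iff _).2 (h.bal0 he p)

/-! ### heights -/

/-- height of the face `(p, q)` -/
def hh (σ : CC M N) (p : Fin (M + 1)) (q : ZMod N) : ℤ :=
  (∑ i : Fin M, if i.val < p.val then - sg (σ.2 i 0) else 0) +
    ∑ k ∈ Finset.range q.val, sg (σ.1 p ((k : ZMod N) + 1))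

lemma val_pred {q : ZMod N} (hq : q ≠ 0) : (q - 1).val + 1 = q.val := by
  have h1 : 1 ≤ q.val := Nat.one_le_iff_ne_zero.2 fun h => hq ((ZMod.val_eq_zero q).1 h)
  rw [sub_one_val q hq]
  omega

lemma sum_range_val (f : ZMod N → ℤ) :
    ∑ k ∈ Finset.range N, f ((k : ZMod N) + 1) = ∑ j, f j := by
  rw [← Equiv.sum_comp (Equiv.addRight (1 : ZMod N)) f]
  simp only [Equiv.coe_addRight]
  refine Finset.sum_bij' (fun (k : ℕ) _ => (k : ZMod N)) (fun j _ => j.val) ?_ ?_ ?_ ?_ ?_
  · intro k _; exact Finset.mem_univ _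
  · intro j _; exact Finset.mem_range.2 (ZMod.val_lt j)
  · intro k hk
    exact ZMod.val_cast_of_lt (Finset.mem_range.1 hk)
  · intro j _; exact ZMod.natCast_zmod_val j
  · intro k _; rfl

/-- vertical increments -/
lemma hh_up {σ : CC M N} {p : Fin (M + 1)} (hb : ∑ j, sg (σ.1 p j) = 0) (q : ZMod N) :
    hh σ p q = hh σ p (q - 1) + sg (σ.1 p q) := by
  unfold hh
  rw [add_assoc]
  congr 1
  by_cases hq : q = 0
  · subst hq
    have h1 : ((0 : ZMod N) - 1).val = N - 1 := neg_one_val
    have h2 := sum_range_val (fun j => sg (σ.1 p j))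
    obtain ⟨n, hn⟩ : ∃ n, N = n + 1 := ⟨N - 1, by have := NeZero.ne N; omega⟩
    rw [h1, ZMod.val_zero, Finset.range_zero, Finset.sum_empty]
    have h3 : Finset.range N = Finset.range (N - 1 + 1) := by congr 1; omega
    rw [h3, Finset.sum_range_succ, hb] at h2
    have h4 : (((N - 1 : ℕ) : ZMod N)) + 1 = 0 := by
      have : ((N - 1 : ℕ) : ZMod N) + 1 = ((N - 1 + 1 : ℕ) : ZMod N) := by push_cast; ring
      rw [this, show N - 1 + 1 = N by omega, ZMod.natCast_self]
    rw [h4] at h2
    exact h2.symm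
  · have h1 := val_pred hq
    rw [← h1, Finset.sum_range_succ]
    rw [ZMod.natCast_zmod_val, sub_add_cancel]

lemma nat_induct_zmod {P : ZMod N → Prop} (h0 : P 0) (h1 : ∀ q, P q → P (q + 1)) (q : ZMod N) :
    P q := by
  have : ∀ n : ℕ, P (n : ZMod N) := by
    intro n
    induction n with
    | zero => simpa using h0
    | succ n ih => push_cast; exact h1 _ ih
  rw [← ZMod.natCast_zmod_val q]
  exact this _

/-- horizontal increments -/
lemma hh_right (he : ∀ j, e (j + 1) = !(e j)) {σ : CC M N} (h : Good e σ) (i : Fin M)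
    (q : ZMod N) : hh σ i.succ q = hh σ i.castSucc q - sg (σ.2 i q) := by
  induction q using nat_induct_zmod with
  | h0 =>
    unfold hh
    simp only [ZMod.val_zero, Finset.range_zero, Finset.sum_empty, add_zero, Fin.val_succ,
      Fin.val_castSucc]
    have h1 : ∀ k : Fin M, (if k.val < i.val + 1 then - sg (σ.2 k 0) else 0) =
        (if k.val < i.val then - sg (σ.2 k 0) else 0) + (if k = i then - sg (σ.2 k 0) else 0) := by
      intro k
      rcases lt_trichotomy k i with h2 | h2 | h2
      · have h3 : k.val < i.val := h2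
        rw [if_pos (by omega), if_pos h3, if_neg h2.ne]; simp
      · subst h2; simp
      · have h3 : i.val < k.val := h2
        rw [if_neg (by omega), if_neg (by omega), if_neg h2.ne']; simp
    simp only [h1]
    rw [Finset.sum_add_distrib, Finset.sum_ite_eq' Finset.univ i, if_pos (Finset.mem_univ _)]
    ring
  | h1 q ih =>
    have e1 := hh_up (h.bal0 he i.succ) (q + 1)
    have e2 := hh_up (h.bal0 he i.castSucc) (q + 1)
    have e3 := (h.ice i (q + 1)).sum
    rw [add_sub_cancel_right] at e1 e2 e3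
    linarith

/-- a function with the increments of `σ` is `hh σ` up to a constant -/
lemma hh_unique {σ : CC M N} {H : Fin (M + 1) → ZMod N → ℤ}
    (h1 : ∀ p q, H p q = H p (q - 1) + sg (σ.1 p q))
    (h2 : ∀ i q, H (Fin.succ i) q = H (Fin.castSucc i) q - sg (σ.2 i q))
    {K : Fin (M + 1) → ZMod N → ℤ}
    (k1 : ∀ p q, K p q = K p (q - 1) + sg (σ.1 p q))
    (k2 : ∀ i q, K (Fin.succ i) q = K (Fin.castSucc i) q - sg (σ.2 i q))
    (p : Fin (M + 1)) (q : ZMod N) : H p q - K p q = H 0 0 - K 0 0 := by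
  have e1 : ∀ p q, H p q - K p q = H p 0 - K p 0 := by
    intro p q
    induction q using nat_induct_zmod with
    | h0 => rfl
    | h1 q ih =>
      have a1 := h1 p (q + 1)
      have a2 := k1 p (q + 1)
      rw [add_sub_cancel_right] at a1 a2
      linarith
  rw [e1]
  induction p using Fin.induction with
  | zero => rfl
  | succ i ih =>
    have a1 := h2 i 0
    have a2 := k2 i 0
    linarith

end

end Crest.Agent.R161.Flat123
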