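import Crest.Agent.R161.Pol_375

/-!
# Correlation inequalities for signed heights (helper375, R161 STEP 1)

* `MPos Φ` : `Φ (σ a) = ∑_T g_T(a) χ_T(σ)` with `g_T ≥ 0` nondecreasing in `a ≥ 0`
  (products of heights, nondecreasing functions of `|h|`, `e^{t h_x}`, ...).
* `IncAv G Φ` : the average of `Φ` given `(|h|, η)` is nondecreasing.
* `IncAv.of_mpos`, `IncAv.convex` (convex even function of `∑ f_x h_x`, `f ≥ 0`).
* `mono_heights` : domain / coupling monotonicity.  `fkg_heights` : positive association.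
-/

set_option autoImplicit false
set_option linter.unusedSectionVars false
set_option linter.unnecessarySeqFocus false
set_option linter.unusedVariables false

open Finset
open Crest.Agent.R161.Lsm375 Crest.Agent.R161.Gks375 Crest.Agent.R161.Hts375
open Crest.Agent.R161.Abs375 Crest.Agent.R161.Pol375

namespace Crest.Agent.R161.Mono375

section mpos
variable {S : Type*} [Fintype S] [DecidableEq S]

/-- increasing-positive functions of heights -/
def MPos (Φ : (S → ℤ) → ℝ) : Prop :=
  ∃ g : Finset S → (S → ℤ) → ℝ, (∀ T a, 0 ≤ a → 0 ≤ g T a) ∧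
    (∀ T a b, 0 ≤ a → a ≤ b → g T a ≤ g T b) ∧
    ∀ a σ, 0 ≤ a → Φ (sm σ a) = ∑ T, g T a * chi T σ

lemma MPos.congr {Φ Ψ : (S → ℤ) → ℝ} (h : MPos Φ) (e : ∀ a, Ψ a = Φ a) : MPos Ψ := by
  obtain ⟨g, h1, h2, h3⟩ := h
  exact ⟨g, h1, h2, fun a σ ha => by rw [e]; exact h3 a σ ha⟩

lemma MPos.zero : MPos (fun _ : S → ℤ => (0 : ℝ)) :=
  ⟨fun _ _ => 0, fun _ _ _ => le_rfl, fun _ _ _ _ _ => le_rfl, fun a σ _ => by simp⟩

lemma MPos.add {Φ Ψ : (S → ℤ) → ℝ} (h : MPos Φ) (k : MPos Ψ) : MPos (fun a => Φ a + Ψ a) := by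
  obtain ⟨g, h1, h2, h3⟩ := h
  obtain ⟨g', k1, k2, k3⟩ := k
  refine ⟨fun T a => g T a + g' T a, fun T a ha => add_nonneg (h1 T a ha) (k1 T a ha),
    fun T a b ha hab => add_le_add (h2 T a b ha hab) (k2 T a b ha hab), fun a σ ha => ?_⟩
  show Φ (sm σ a) + Ψ (sm σ a) = _
  rw [h3 a σ ha, k3 a σ ha, ← Finset.sum_add_distrib]
  exact Finset.sum_congr rfl fun T _ => by ring

lemma MPos.sum {κ : Type*} (s : Finset κ) {f : κ → (S → ℤ) → ℝ} (hf : ∀ k ∈ s, MPos (f k)) :
    MPos (fun a => ∑ k ∈ s, f k a) := by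
  classical
  induction s using Finset.induction_on with
  | empty => exact MPos.zero.congr (by simp)
  | insert k s hk ih =>
    refine ((hf k (Finset.mem_insert_self k s)).add
      (ih fun j hj => hf j (Finset.mem_insert_of_mem hj))).congr fun σ => ?_
    rw [Finset.sum_insert hk]

/-- a nonnegative nondecreasing function of `|h|` times a character of the signs -/
lemma MPos.abs_chi {g : (S → ℤ) → ℝ} (h0 : ∀ a, 0 ≤ a → 0 ≤ g a)
    (h1 : ∀ a b, 0 ≤ a → a ≤ b → g a ≤ g b) (T : Finset S) {Φ : (S → ℤ) → ℝ}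
    (e : ∀ a σ, 0 ≤ a → Φ (sm σ a) = g a * chi T σ) : MPos Φ := by
  refine ⟨fun T' a => if T' = T then g a else 0, fun T' a ha => ?_, fun T' a b ha hab => ?_,
    fun a σ ha => ?_⟩
  · dsimp only; split_ifs
    · exact h0 a ha
    · exact le_rfl
  · dsimp only; split_ifs
    · exact h1 a b ha hab
    · exact le_rfl
  · rw [e a σ ha]
    simp [ite_mul]

/-- a nonnegative nondecreasing function of `|h|` -/
lemma MPos.abs {g : (S → ℤ) → ℝ} (h0 : ∀ a, 0 ≤ a → 0 ≤ g a)
    (h1 : ∀ a b, 0 ≤ a → a ≤ b → g a ≤ g b) : MPos (fun h => g (ab h)) :=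
  MPos.abs_chi h0 h1 ∅ fun a σ ha => by rw [ab_sm σ ha, chi_empty, mul_one]

lemma MPos.const {r : ℝ} (hr : 0 ≤ r) : MPos (fun _ : S → ℤ => r) :=
  MPos.abs (g := fun _ => r) (fun _ _ => hr) (fun _ _ _ _ => le_rfl)

lemma MPos.one : MPos (fun _ : S → ℤ => (1 : ℝ)) := MPos.const zero_le_one

lemma MPos.mul {Φ Ψ : (S → ℤ) → ℝ} (h : MPos Φ) (k : MPos Ψ) : MPos (fun a => Φ a * Ψ a) := by
  obtain ⟨g, h1, h2, h3⟩ := h
  obtain ⟨g', k1, k2, k3⟩ := k
  refine ⟨fun U a => ∑ T : Finset S, g T a * g' (symmDiff T U) a,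
    fun U a ha => Finset.sum_nonneg fun T _ => mul_nonneg (h1 T a ha) (k1 _ a ha),
    fun U a b ha hab => Finset.sum_le_sum fun T _ => mul_le_mul (h2 T a b ha hab)
      (k2 _ a b ha hab) (k1 _ a ha) (h1 T b (ha.trans hab)), fun a σ ha => ?_⟩
  show Φ (sm σ a) * Ψ (sm σ a) = _
  rw [h3 a σ ha, k3 a σ ha, Finset.sum_mul_sum]
  simp only [Finset.sum_mul]
  rw [Finset.sum_comm (s := (Finset.univ : Finset (Finset S)))
    (f := fun U T => g T a * g' (symmDiff T U) a * chi U σ)]
  refine Finset.sum_congr rfl fun T _ => ?_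
  refine Fintype.sum_equiv ((symmDiff_right_involutive T).toPerm _) _ _ fun U => ?_
  simp only [Function.Involutive.coe_toPerm, symmDiff_symmDiff_cancel_left]
  rw [← chi_mul_chi]; ring

lemma MPos.prod {κ : Type*} (s : Finset κ) {f : κ → (S → ℤ) → ℝ} (hf : ∀ k ∈ s, MPos (f k)) :
    MPos (fun a => ∏ k ∈ s, f k a) := by
  classical
  induction s using Finset.induction_on with
  | empty => exact MPos.one.congr (by simp)
  | insert k s hk ih =>
    refine ((hf k (Finset.mem_insert_self k s)).mul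
      (ih fun j hj => hf j (Finset.mem_insert_of_mem hj))).congr fun σ => ?_
    rw [Finset.prod_insert hk]

lemma MPos.pow {Φ : (S → ℤ) → ℝ} (h : MPos Φ) (n : ℕ) : MPos (fun a => Φ a ^ n) := by
  induction n with
  | zero => exact MPos.one.congr (by simp)
  | succ n ih => exact (ih.mul h).congr fun σ => by rw [pow_succ]

lemma MPos.smul {Φ : (S → ℤ) → ℝ} (h : MPos Φ) {r : ℝ} (hr : 0 ≤ r) : MPos (fun a => r * Φ a) :=
  (MPos.const hr).mul h

/-- the height at a site -/
lemma MPos.site (x : S) : MPos (fun h : S → ℤ => (h x : ℝ)) :=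
  MPos.abs_chi (g := fun a => (a x : ℝ)) (fun a ha => by exact_mod_cast ha x)
    (fun a b _ hab => by exact_mod_cast hab x) {x} fun a σ ha => by
      simp only [sm, chi, Finset.prod_singleton]; push_cast; ring

/-- the sign at a site -/
lemma MPos.sign (x : S) : MPos (fun h : S → ℤ => ((h x).sign : ℝ)) :=
  MPos.abs_chi (g := fun a => ((a x).sign : ℝ))
    (fun a ha => by
      have : 0 ≤ (a x).sign := Int.sign_nonneg_iff.mpr (ha x)
      exact_mod_cast this)
    (fun a b ha hab => by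
      have h1 : 0 ≤ a x := ha x
      have h2 : a x ≤ b x := hab x
      have : (a x).sign ≤ (b x).sign := by
        rcases h1.lt_or_eq with h | h
        · rw [Int.sign_eq_one_of_pos h, Int.sign_eq_one_of_pos (lt_of_lt_of_le h h2)]
        · rw [← h, Int.sign_zero]
          exact Int.sign_nonneg_iff.mpr (h1.trans h2)
      exact_mod_cast this) {x} fun a σ ha => by
      simp only [sm, chi, Finset.prod_singleton]
      rcases Int.units_eq_one_or (σ x) with h | h
      · simp [h]
      · simp [h, Int.sign_neg]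

/-- products of heights -/
lemma MPos.monomial {κ : Type*} (s : Finset κ) (x : κ → S) :
    MPos (fun h : S → ℤ => ∏ k ∈ s, (h (x k) : ℝ)) :=
  MPos.prod s fun k _ => MPos.site (x k)

/-- nonnegative linear forms -/
lemma MPos.linear {f : S → ℝ} (hf : ∀ x, 0 ≤ f x) : MPos (fun h : S → ℤ => ∑ x, f x * (h x : ℝ)) :=
  MPos.sum _ fun x _ => (MPos.site x).smul (hf x)

end mpos

section fl
variable {S : Type*} [Fintype S] [DecidableEq S]

/-- change the sign of `u` on `A` -/
def flip (A : Finset S) (u : S → ℤ) : S → ℤ := fun x => if x ∈ A then -u x else u x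

/-- flip-monotone functions -/
structure Fl (Θ : (S → ℤ) → ℝ) : Prop where
  merge : ∀ (u : S → ℤ) (A B : Finset S), Disjoint A B → (∀ x ∈ A, 0 ≤ u x) → (∀ x ∈ B, 0 ≤ u x) →
    Θ (flip A u) + Θ (flip B u) ≤ Θ u + Θ (flip (A ∪ B) u)
  grow : ∀ (u v : S → ℤ) (A : Finset S) (x : S), x ∈ A → (∀ y ∈ A, 0 ≤ u y) → u x ≤ v x →
    (∀ y, y ≠ x → v y = u y) → Θ u + Θ (flip A u) ≤ Θ v + Θ (flip A v)

lemma Fl.add {Θ Ξ : (S → ℤ) → ℝ} (h : Fl Θ) (k : Fl Ξ) : Fl (fun u => Θ u + Ξ u) :=
  ⟨fun u A B h1 h2 h3 => by have := h.merge u A B h1 h2 h3; have := k.merge u A B h1 h2 h3; linarith,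
   fun u v A x h1 h2 h3 h4 => by
    have := h.grow u v A x h1 h2 h3 h4; have := k.grow u v A x h1 h2 h3 h4; linarith⟩

lemma Fl.smul {Θ : (S → ℤ) → ℝ} (h : Fl Θ) {r : ℝ} (hr : 0 ≤ r) : Fl (fun u => r * Θ u) :=
  ⟨fun u A B h1 h2 h3 => by
    have := mul_le_mul_of_nonneg_left (h.merge u A B h1 h2 h3) hr; linarith,
   fun u v A x h1 h2 h3 h4 => by
    have := mul_le_mul_of_nonneg_left (h.grow u v A x h1 h2 h3 h4) hr; linarith⟩

lemma convex_pair {φ : ℝ → ℝ} (hφ : ConvexOn ℝ Set.univ φ) (r : ℝ) {s t : ℝ} (h : |s| ≤ t) :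
    φ (r + s) + φ (r - s) ≤ φ (r + t) + φ (r - t) := by
  have ht : 0 ≤ t := (abs_nonneg s).trans h
  rcases ht.eq_or_lt with h0 | h0
  · rw [← h0] at h
    have : s = 0 := abs_nonpos_iff.mp h
    rw [this, ← h0]
  · obtain ⟨h1, h2⟩ := abs_le.mp h
    have key : ∀ s' : ℝ, -t ≤ s' → s' ≤ t →
        φ (r + s') ≤ ((t + s') / (2 * t)) * φ (r + t) + ((t - s') / (2 * t)) * φ (r - t) := by
      intro s' g1 g2
      have hA : 0 ≤ (t + s') / (2 * t) := div_nonneg (by linarith) (by linarith)
      have hB : 0 ≤ (t - s') / (2 * t) := div_nonneg (by linarith) (by linarith)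
      have hAB : (t + s') / (2 * t) + (t - s') / (2 * t) = 1 := by field_simp; ring
      have := hφ.2 (Set.mem_univ (r + t)) (Set.mem_univ (r - t)) hA hB hAB
      simp only [smul_eq_mul] at this
      have e : (t + s') / (2 * t) * (r + t) + (t - s') / (2 * t) * (r - t) = r + s' := by
        field_simp; ring
      rwa [e] at this
    have k1 := key s h1 h2
    have k2 := key (-s) (by linarith) (by linarith)
    have e : r + -s = r - s := by ring
    rw [e] at k2
    have e2 : (t + s) / (2 * t) * φ (r + t) + (t - s) / (2 * t) * φ (r - t) +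
        ((t + -s) / (2 * t) * φ (r + t) + (t - -s) / (2 * t) * φ (r - t)) = φ (r + t) + φ (r - t) := by
      field_simp; ring
    linarith

lemma cosid (r α β : ℝ) : Real.cos (r + (α + β)) + Real.cos (r - (α + β)) -
    Real.cos (r + (β - α)) - Real.cos (r - (β - α)) =
    2 * Real.cos r * (-2 * (Real.sin α * Real.sin β)) := by
  simp only [Real.cos_add, Real.cos_sub]
  ring

lemma cosid2 (r α α' : ℝ) : Real.cos (r + α') + Real.cos (r - α') - Real.cos (r + α) -
    Real.cos (r - α) = 2 * Real.cos r * (Real.cos α' - Real.cos α) := by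
  simp only [Real.cos_add, Real.cos_sub]
  ring

/-- splitting a linear form -/
lemma lin_flip (f : S → ℝ) (A : Finset S) (u : S → ℤ) :
    ∑ x, f x * ((flip A u x : ℤ) : ℝ) = ∑ x, f x * (u x : ℝ) - 2 * ∑ x ∈ A, f x * (u x : ℝ) := by
  have h1 : ∑ x ∈ A, f x * (u x : ℝ) = ∑ x, if x ∈ A then f x * (u x : ℝ) else 0 := by
    rw [Finset.sum_ite_mem, Finset.univ_inter]
  rw [h1, Finset.mul_sum, ← Finset.sum_sub_distrib]
  refine Finset.sum_congr rfl fun x _ => ?_
  unfold flip
  split_ifs <;> push_cast <;> ring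

/-- convex functions of nonnegative linear forms are flip-monotone -/
lemma Fl.convex {φ : ℝ → ℝ} (hφ : ConvexOn ℝ Set.univ φ) {f : S → ℝ} (hf : ∀ x, 0 ≤ f x) :
    Fl (fun h : S → ℤ => φ (∑ x, f x * (h x : ℝ))) := by
  refine ⟨fun u A B hAB hA hB => ?_, fun u v A x hx hA hxv hyv => ?_⟩
  · simp only [lin_flip, Finset.sum_union hAB]
    set α := ∑ x ∈ A, f x * (u x : ℝ) with hα
    set β := ∑ x ∈ B, f x * (u x : ℝ) with hβ
    set L := ∑ x, f x * (u x : ℝ) with hL
    have a0 : 0 ≤ α := Finset.sum_nonneg fun x hx => mul_nonneg (hf x) (by exact_mod_cast hA x hx)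
    have b0 : 0 ≤ β := Finset.sum_nonneg fun x hx => mul_nonneg (hf x) (by exact_mod_cast hB x hx)
    have := convex_pair hφ (L - (α + β)) (s := β - α) (t := α + β)
      (by rw [abs_le]; constructor <;> linarith)
    have e1 : L - (α + β) + (β - α) = L - 2 * α := by ring
    have e2 : L - (α + β) - (β - α) = L - 2 * β := by ring
    have e3 : L - (α + β) + (α + β) = L := by ring
    have e4 : L - (α + β) - (α + β) = L - 2 * (α + β) := by ring
    rw [e1, e2, e3, e4] at this
    exact this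
  · simp only [lin_flip]
    set α := ∑ y ∈ A, f y * (u y : ℝ) with hα
    set α' := ∑ y ∈ A, f y * (v y : ℝ) with hα'
    set L := ∑ y, f y * (u y : ℝ) with hL
    set L' := ∑ y, f y * (v y : ℝ) with hL'
    have a0 : 0 ≤ α := Finset.sum_nonneg fun x hx => mul_nonneg (hf x) (by exact_mod_cast hA x hx)
    have hLd : L' - L = f x * ((v x : ℝ) - u x) := by
      rw [hL, hL', ← Finset.sum_sub_distrib, Finset.sum_eq_single x]
      · ring
      · intro y _ hy; rw [hyv y hy]; ring
      · intro h; exact absurd (Finset.mem_univ x) h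
    have hαd : α' - α = f x * ((v x : ℝ) - u x) := by
      rw [hα, hα', ← Finset.sum_sub_distrib, Finset.sum_eq_single x]
      · ring
      · intro y _ hy; rw [hyv y hy]; ring
      · intro h; exact absurd hx h
    have hd : 0 ≤ f x * ((v x : ℝ) - u x) := by
      have : (u x : ℝ) ≤ v x := by exact_mod_cast hxv
      exact mul_nonneg (hf x) (by linarith)
    have := convex_pair hφ (L - α) (s := α) (t := α') (by rw [abs_of_nonneg a0]; linarith)
    have e1 : L - α + α = L := by ring
    have e2 : L - α - α = L - 2 * α := by ring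
    have e3 : L - α + α' = L' := by linarith
    have e4 : L - α - α' = L' - 2 * α' := by linarith
    rw [e1, e2, e3, e4] at this
    exact this

/-- `½ (∑ |f_x| h_x)² + ε cos (∑ f_x h_x)` is flip-monotone for `|ε| ≤ 1` -/
lemma Fl.cos (f : S → ℝ) {ε : ℝ} (hε : |ε| ≤ 1) :
    Fl (fun h : S → ℤ => (1 / 2) * (∑ x, |f x| * (h x : ℝ)) ^ 2 +
      ε * Real.cos (∑ x, f x * (h x : ℝ))) := by
  have hcos : ∀ r s : ℝ, |ε * (2 * Real.cos r * s)| ≤ 2 * |s| := by
    intro r s
    rw [abs_mul, abs_mul, abs_mul]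
    have h1 := Real.abs_cos_le_one r
    have h2 : |(2:ℝ)| = 2 := by norm_num
    rw [h2]
    have h3 := abs_nonneg s
    have h4 := abs_nonneg ε
    have h5 := abs_nonneg (Real.cos r)
    calc |ε| * (2 * |Real.cos r| * |s|) ≤ 1 * (2 * 1 * |s|) := by gcongr
      _ = 2 * |s| := by ring
  refine ⟨fun u A B hAB hA hB => ?_, fun u v A x hx hA hxv hyv => ?_⟩
  · simp only [lin_flip, Finset.sum_union hAB]
    set α := ∑ x ∈ A, f x * (u x : ℝ) with hα
    set β := ∑ x ∈ B, f x * (u x : ℝ) with hβ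
    set L := ∑ x, f x * (u x : ℝ) with hL
    set A1 := ∑ x ∈ A, |f x| * (u x : ℝ) with hA1
    set B1 := ∑ x ∈ B, |f x| * (u x : ℝ) with hB1
    set L1 := ∑ x, |f x| * (u x : ℝ) with hL1
    have a1 : |α| ≤ A1 := by
      rw [hα, hA1]
      refine (Finset.abs_sum_le_sum_abs _ _).trans (Finset.sum_le_sum fun x hx => ?_)
      rw [abs_mul]
      have : (0:ℝ) ≤ u x := by exact_mod_cast hA x hx
      rw [abs_of_nonneg this]
    have b1 : |β| ≤ B1 := by
      rw [hβ, hB1]
      refine (Finset.abs_sum_le_sum_abs _ _).trans (Finset.sum_le_sum fun x hx => ?_)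
      rw [abs_mul]
      have : (0:ℝ) ≤ u x := by exact_mod_cast hB x hx
      rw [abs_of_nonneg this]
    have id1 : Real.cos L + Real.cos (L - 2 * (α + β)) - Real.cos (L - 2 * α) -
        Real.cos (L - 2 * β) = 2 * Real.cos (L - (α + β)) * (-2 * (Real.sin α * Real.sin β)) := by
      have e1 : L = (L - (α + β)) + (α + β) := by ring
      have e2 : L - 2 * (α + β) = (L - (α + β)) - (α + β) := by ring
      have e3 : L - 2 * α = (L - (α + β)) + (β - α) := by ring
      have e4 : L - 2 * β = (L - (α + β)) - (β - α) := by ring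
      have := cosid (L - (α + β)) α β
      rw [← e1, ← e2, ← e3, ← e4] at this
      exact this
    have hb := hcos (L - (α + β)) (-2 * (Real.sin α * Real.sin β))
    rw [← id1] at hb
    have hs : |(-2 * (Real.sin α * Real.sin β))| ≤ 2 * (A1 * B1) := by
      rw [abs_mul, abs_mul, abs_neg]
      have h2 : |(2:ℝ)| = 2 := by norm_num
      rw [h2]
      have s1 : |Real.sin α| ≤ |α| := Real.abs_sin_le_abs
      have s2 : |Real.sin β| ≤ |β| := Real.abs_sin_le_abs
      have := mul_le_mul (s1.trans a1) (s2.trans b1) (abs_nonneg _) ((abs_nonneg α).trans a1)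
      linarith
    have hb' := (neg_le_of_abs_le hb)
    nlinarith [hb', hs]
  · simp only [lin_flip]
    set α := ∑ y ∈ A, f y * (u y : ℝ) with hα
    set α' := ∑ y ∈ A, f y * (v y : ℝ) with hα'
    set L := ∑ y, f y * (u y : ℝ) with hL
    set L' := ∑ y, f y * (v y : ℝ) with hL'
    set A1 := ∑ y ∈ A, |f y| * (u y : ℝ) with hA1
    set A1' := ∑ y ∈ A, |f y| * (v y : ℝ) with hA1'
    set L1 := ∑ y, |f y| * (u y : ℝ) with hL1
    set L1' := ∑ y, |f y| * (v y : ℝ) with hL1'
    have diff : ∀ g : S → ℝ, ∑ y, g y * (v y : ℝ) - ∑ y, g y * (u y : ℝ) = g x * ((v x : ℝ) - u x) := by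
      intro g
      rw [← Finset.sum_sub_distrib, Finset.sum_eq_single x]
      · ring
      · intro y _ hy; rw [hyv y hy]; ring
      · intro h; exact absurd (Finset.mem_univ x) h
    have diffA : ∀ g : S → ℝ, ∑ y ∈ A, g y * (v y : ℝ) - ∑ y ∈ A, g y * (u y : ℝ) =
        g x * ((v x : ℝ) - u x) := by
      intro g
      rw [← Finset.sum_sub_distrib, Finset.sum_eq_single x]
      · ring
      · intro y _ hy; rw [hyv y hy]; ring
      · intro h; exact absurd hx h
    have hd : (0:ℝ) ≤ (v x : ℝ) - u x := by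
      have : (u x : ℝ) ≤ v x := by exact_mod_cast hxv
      linarith
    have d1 := diff f
    have d2 := diffA f
    have d3 := diff (fun y => |f y|)
    have d4 := diffA (fun y => |f y|)
    have a1 : |α| ≤ A1 := by
      rw [hα, hA1]
      refine (Finset.abs_sum_le_sum_abs _ _).trans (Finset.sum_le_sum fun x hx => ?_)
      rw [abs_mul]
      have : (0:ℝ) ≤ u x := by exact_mod_cast hA x hx
      rw [abs_of_nonneg this]
    have a1' : |α'| ≤ A1' := by
      rw [hα', hA1']
      refine (Finset.abs_sum_le_sum_abs _ _).trans (Finset.sum_le_sum fun y hy => ?_)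
      rw [abs_mul]
      have h0 : (0:ℝ) ≤ u y := by exact_mod_cast hA y hy
      have : (0:ℝ) ≤ v y := by
        by_cases hyx : y = x
        · rw [hyx] at h0 ⊢; linarith
        · rw [hyv y hyx]; exact h0
      rw [abs_of_nonneg this]
    have e1 : L' = (L - α) + α' := by linarith
    have e2 : L' - 2 * α' = (L - α) - α' := by linarith
    have e3 : L = (L - α) + α := by ring
    have e4 : L - 2 * α = (L - α) - α := by ring
    have f1 : L1' = (L1 - A1) + A1' := by linarith
    have id1 : Real.cos L' + Real.cos (L' - 2 * α') - Real.cos L - Real.cos (L - 2 * α) =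
        2 * Real.cos (L - α) * (Real.cos α' - Real.cos α) := by
      have := cosid2 (L - α) α α'
      rw [← e1, ← e2, ← e3, ← e4] at this
      exact this
    have hb := hcos (L - α) (Real.cos α' - Real.cos α)
    rw [← id1] at hb
    have hs : |Real.cos α' - Real.cos α| ≤ (1 / 2) * (A1' ^ 2 - A1 ^ 2) := by
      rw [Real.cos_sub_cos]
      rw [abs_mul, abs_mul, abs_neg]
      have h2 : |(2:ℝ)| = 2 := by norm_num
      rw [h2]
      have s1 : |Real.sin ((α' + α) / 2)| ≤ |(α' + α) / 2| := Real.abs_sin_le_abs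
      have s2 : |Real.sin ((α' - α) / 2)| ≤ |(α' - α) / 2| := Real.abs_sin_le_abs
      have g1 : |(α' + α) / 2| ≤ (A1' + A1) / 2 := by
        rw [abs_div, abs_of_pos (by norm_num : (0:ℝ) < 2)]
        have := abs_add_le α' α
        gcongr
        linarith
      have g2 : |(α' - α) / 2| ≤ (A1' - A1) / 2 := by
        have e5 : A1' - A1 = |α' - α| := by
          rw [d2, d4, abs_mul, abs_of_nonneg hd]
        rw [abs_div, abs_of_pos (by norm_num : (0:ℝ) < 2), e5]
      have := mul_le_mul (s1.trans g1) (s2.trans g2) (abs_nonneg _)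
        ((abs_nonneg _).trans g1)
      nlinarith [this]
    have hb' := (neg_le_of_abs_le hb)
    have sq1 : (1 / 2) * L1' ^ 2 + (1 / 2) * (L1' - 2 * A1') ^ 2 - (1 / 2) * L1 ^ 2 -
        (1 / 2) * (L1 - 2 * A1) ^ 2 = A1' ^ 2 - A1 ^ 2 := by
      rw [f1]; ring
    nlinarith [hb', hs, sq1]

end fl

section avfl
variable {S κ : Type*} [Fintype S] [DecidableEq S] [DecidableEq κ]

/-- the sign flip on `A` -/
def rho (A : Finset S) : S → ℤˣ := fun x => if x ∈ A then -1 else 1

lemma sm_rho (A : Finset S) (σ : S → ℤˣ) (a : S → ℤ) : sm (rho A * σ) a = flip A (sm σ a) := by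
  funext x
  simp only [sm, flip, rho, Pi.mul_apply]
  split_ifs <;> simp

lemma rho_rho (A : Finset S) (σ : S → ℤˣ) : rho A * (rho A * σ) = σ := by
  funext x
  simp only [rho, Pi.mul_apply]
  split_ifs <;> simp

open Classical in
/-- sites whose sign is tied to that of `x` by the constraints of `C` -/
noncomputable def cl (i j : κ → S) (C : Finset κ) (x : S) : Finset S :=
  Finset.univ.filter fun z => ∀ σ : S → ℤˣ, (∀ k ∈ C, σ (i k) = σ (j k)) → σ z = σ x

lemma mem_cl {i j : κ → S} {C : Finset κ} {x z : S} :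
    z ∈ cl i j C x ↔ ∀ σ : S → ℤˣ, (∀ k ∈ C, σ (i k) = σ (j k)) → σ z = σ x := by
  unfold cl; simp

lemma self_mem_cl (i j : κ → S) (C : Finset κ) (x : S) : x ∈ cl i j C x := by
  rw [mem_cl]; intro σ _; rfl

lemma cl_closed (i j : κ → S) (C : Finset κ) (x : S) {k : κ} (hk : k ∈ C) :
    i k ∈ cl i j C x ↔ j k ∈ cl i j C x := by
  rw [mem_cl, mem_cl]
  constructor
  · intro h σ hσ; rw [← hσ k hk]; exact h σ hσ
  · intro h σ hσ; rw [hσ k hk]; exact h σ hσ

lemma ic_rho (i j : κ → S) (C : Finset κ) (A : Finset S) (hA : ∀ k ∈ C, i k ∈ A ↔ j k ∈ A)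
    (σ : S → ℤˣ) : ic i j C (rho A * σ) = ic i j C σ := by
  unfold ic
  refine Finset.prod_congr rfl fun k hk => ?_
  have : (rho A * σ) (i k) = (rho A * σ) (j k) ↔ σ (i k) = σ (j k) := by
    simp only [Pi.mul_apply, rho, hA k hk]
    split_ifs <;> simp
  by_cases h : σ (i k) = σ (j k)
  · rw [if_pos h, if_pos (this.2 h)]
  · rw [if_neg h, if_neg (fun h' => h (this.1 h'))]

lemma sum_rho (A : Finset S) (g : (S → ℤˣ) → ℝ) : ∑ σ, g (rho A * σ) = ∑ σ, g σ :=
  Fintype.sum_equiv (Equiv.mulLeft (rho A)) _ _ fun _ => rfl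

/-- growth of the average under increasing absolute heights -/
lemma av_grow (i j : κ → S) (C : Finset κ) {Θ : (S → ℤ) → ℝ} (hΘ : Fl Θ) {a b : S → ℤ}
    (ha : 0 ≤ a) (hab : a ≤ b) :
    av i j C (fun σ => Θ (sm σ a)) ≤ av i j C (fun σ => Θ (sm σ b)) := by
  classical
  -- one coordinate at a time
  have step : ∀ (u v : S → ℤ) (x : S), 0 ≤ u → u x ≤ v x → (∀ y, y ≠ x → v y = u y) →
      av i j C (fun σ => Θ (sm σ u)) ≤ av i j C (fun σ => Θ (sm σ v)) := by
    intro u v x hu hxv hyv
    set A := cl i j C x with hA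
    have hAC : ∀ k ∈ C, i k ∈ A ↔ j k ∈ A := fun k hk => cl_closed i j C x hk
    unfold av
    refine div_le_div_of_nonneg_right ?_ (nC_pos i j C).le
    -- symmetrise over the flip of `A`
    have sym : ∀ w : S → ℤ, 2 * aC i j C (fun σ => Θ (sm σ w)) =
        ∑ σ, ic i j C σ * (Θ (sm σ w) + Θ (flip A (sm σ w))) := by
      intro w
      have e1 : ∑ σ, ic i j C σ * Θ (flip A (sm σ w)) = aC i j C (fun σ => Θ (sm σ w)) := by
        unfold aC
        rw [← sum_rho A (fun σ => ic i j C σ * Θ (sm σ w))]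
        refine Finset.sum_congr rfl fun σ _ => ?_
        rw [ic_rho i j C A hAC, sm_rho]
      have e2 : ∑ σ, ic i j C σ * (Θ (sm σ w) + Θ (flip A (sm σ w))) =
          aC i j C (fun σ => Θ (sm σ w)) + ∑ σ, ic i j C σ * Θ (flip A (sm σ w)) := by
        unfold aC
        rw [← Finset.sum_add_distrib]
        exact Finset.sum_congr rfl fun σ _ => by ring
      rw [e2, e1]; ring
    have hkey : ∑ σ, ic i j C σ * (Θ (sm σ u) + Θ (flip A (sm σ u))) ≤
        ∑ σ, ic i j C σ * (Θ (sm σ v) + Θ (flip A (sm σ v))) := by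
      refine Finset.sum_le_sum fun σ _ => ?_
      by_cases hσ : ∀ k ∈ C, σ (i k) = σ (j k)
      swap
      · have : ic i j C σ = 0 := by rw [ic_eq, if_neg hσ]
        rw [this, zero_mul, zero_mul]
      refine mul_le_mul_of_nonneg_left ?_ (ic_nonneg i j C σ)
      have hcst : ∀ y ∈ A, σ y = σ x := fun y hy => (mem_cl.1 hy) σ hσ
      have hx : x ∈ A := self_mem_cl i j C x
      rcases Int.units_eq_one_or (σ x) with hs | hs
      · refine hΘ.grow (sm σ u) (sm σ v) A x hx ?_ ?_ ?_
        · intro y hy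
          have := hu y
          simp only [sm, hcst y hy, hs]
          simpa using this
        · simpa [sm, hs] using hxv
        · intro y hy; simp [sm, hyv y hy]
      · have ff : ∀ w : S → ℤ, flip A (flip A w) = w := by
          intro w; funext y; unfold flip; split_ifs <;> simp
        have := hΘ.grow (flip A (sm σ u)) (flip A (sm σ v)) A x hx ?_ ?_ ?_
        · rw [ff, ff] at this; linarith
        · intro y hy
          have := hu y
          simp only [flip, if_pos hy, sm, hcst y hy, hs]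
          simpa using this
        · simp only [flip, if_pos hx, sm, hs]
          simpa using hxv
        · intro y hy
          simp only [flip, sm, hyv y hy]
    have s1 := sym u
    have s2 := sym v
    linarith
  -- induction over a set of updated coordinates
  have main : ∀ s : Finset S,
      av i j C (fun σ => Θ (sm σ a)) ≤
        av i j C (fun σ => Θ (sm σ (fun x => if x ∈ s then b x else a x))) := by
    intro s
    induction s using Finset.induction_on with
    | empty => simp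
    | insert x s hx ih =>
      refine ih.trans (step _ _ x ?_ ?_ ?_)
      · intro y
        dsimp only
        split_ifs
        · exact (ha y).trans (hab y)
        · exact ha y
      · simp [hx, hab x]
      · intro y hy
        simp [Finset.mem_insert, hy]
  have := main Finset.univ
  simpa using this

/-- growth of the average under additional constraints -/
lemma av_merge (i j : κ → S) {C D : Finset κ} (hCD : C ⊆ D) {Θ : (S → ℤ) → ℝ} (hΘ : Fl Θ)
    {a : S → ℤ} (ha : 0 ≤ a) :
    av i j C (fun σ => Θ (sm σ a)) ≤ av i j D (fun σ => Θ (sm σ a)) := by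
  classical
  have step : ∀ (C : Finset κ) (k : κ),
      av i j C (fun σ => Θ (sm σ a)) ≤ av i j (insert k C) (fun σ => Θ (sm σ a)) := by
    intro C k
    by_cases hkC : k ∈ C
    · rw [Finset.insert_eq_of_mem hkC]
    have hins : ∀ σ, ic i j (insert k C) σ = (if σ (i k) = σ (j k) then 1 else 0) * ic i j C σ := by
      intro σ; unfold ic; rw [Finset.prod_insert hkC]
    by_cases hall : ∀ σ : S → ℤˣ, (∀ k ∈ C, σ (i k) = σ (j k)) → σ (i k) = σ (j k)
    · have e : ∀ σ, ic i j (insert k C) σ = ic i j C σ := by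
        intro σ
        rw [hins]
        by_cases h : ∀ k ∈ C, σ (i k) = σ (j k)
        · rw [if_pos (hall σ h), one_mul]
        · have : ic i j C σ = 0 := by rw [ic_eq, if_neg h]
          rw [this, mul_zero]
      unfold av aC nC
      simp only [e]
      exact le_rfl
    -- genuinely new constraint
    set x := i k with hx
    set y := j k with hy
    set A := cl i j C x with hA
    set B := cl i j C y with hB
    have hAC : ∀ k ∈ C, i k ∈ A ↔ j k ∈ A := fun k hk => cl_closed i j C x hk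
    have hBC : ∀ k ∈ C, i k ∈ B ↔ j k ∈ B := fun k hk => cl_closed i j C y hk
    push Not at hall
    obtain ⟨σ0, h0, hne⟩ := hall
    have hAB : Disjoint A B := by
      rw [Finset.disjoint_left]
      intro z hz hz'
      exact hne (((mem_cl.1 hz) σ0 h0).symm.trans ((mem_cl.1 hz') σ0 h0))
    have hxA : x ∈ A := self_mem_cl i j C x
    have hyB : y ∈ B := self_mem_cl i j C y
    have hyA : y ∉ A := fun h => Finset.disjoint_left.1 hAB h hyB
    have hxB : x ∉ B := fun h => Finset.disjoint_left.1 hAB hxA h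
    have hABC : ∀ k ∈ C, i k ∈ A ∪ B ↔ j k ∈ A ∪ B := fun k hk => by
      rw [Finset.mem_union, Finset.mem_union, hAC k hk, hBC k hk]
    -- indicator of x, y equal
    set e : (S → ℤˣ) → ℝ := fun σ => if σ x = σ y then 1 else 0 with he
    have eA : ∀ σ, e (rho A * σ) = 1 - e σ := by
      intro σ
      simp only [he, Pi.mul_apply, rho, if_pos hxA, if_neg hyA, one_mul]
      rcases Int.units_eq_one_or (σ x) with h1 | h1 <;> rcases Int.units_eq_one_or (σ y) with h2 | h2 <;>
        simp [h1, h2]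
    have eAB : ∀ σ, e (rho (A ∪ B) * σ) = e σ := by
      intro σ
      have m1 : x ∈ A ∪ B := Finset.mem_union_left _ hxA
      have m2 : y ∈ A ∪ B := Finset.mem_union_right _ hyB
      simp only [he, Pi.mul_apply, rho, if_pos m1, if_pos m2]
      rcases Int.units_eq_one_or (σ x) with h1 | h1 <;> rcases Int.units_eq_one_or (σ y) with h2 | h2 <;>
        simp [h1, h2]
    -- sums
    set Ψ : (S → ℤˣ) → ℝ := fun σ => Θ (sm σ a) with hΨ
    have hn : nC i j C = 2 * nC i j (insert k C) := by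
      have h1 : nC i j (insert k C) = ∑ σ, e σ * ic i j C σ :=
        Finset.sum_congr rfl fun σ _ => hins σ
      have h2 : ∑ σ, e σ * ic i j C σ = ∑ σ, (1 - e σ) * ic i j C σ := by
        rw [← sum_rho A (fun σ => e σ * ic i j C σ)]
        exact Finset.sum_congr rfl fun σ _ => by rw [eA, ic_rho i j C A hAC]
      have h3 : nC i j C = ∑ σ, e σ * ic i j C σ + ∑ σ, (1 - e σ) * ic i j C σ := by
        unfold nC
        rw [← Finset.sum_add_distrib]
        exact Finset.sum_congr rfl fun σ _ => by ring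
      rw [h3, ← h2, h1]; ring
    have ha1 : aC i j (insert k C) Ψ = ∑ σ, e σ * (ic i j C σ * Ψ σ) :=
      Finset.sum_congr rfl fun σ _ => by rw [hins]; ring
    have ha2 : aC i j C Ψ = ∑ σ, e σ * (ic i j C σ * Ψ σ) +
        ∑ σ, e σ * (ic i j C σ * Ψ (rho A * σ)) := by
      have h2 : ∑ σ, e σ * (ic i j C σ * Ψ (rho A * σ)) = ∑ σ, (1 - e σ) * (ic i j C σ * Ψ σ) := by
        rw [← sum_rho A (fun σ => (1 - e σ) * (ic i j C σ * Ψ σ))]
        refine Finset.sum_congr rfl fun σ _ => ?_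
        rw [eA, ic_rho i j C A hAC]
        ring
      rw [h2]
      unfold aC
      rw [← Finset.sum_add_distrib]
      exact Finset.sum_congr rfl fun σ _ => by ring
    have hB' : ∑ σ, e σ * (ic i j C σ * Ψ (rho A * σ)) =
        ∑ σ, e σ * (ic i j C σ * Ψ (rho B * σ)) := by
      rw [← sum_rho (A ∪ B) (fun σ => e σ * (ic i j C σ * Ψ (rho A * σ)))]
      refine Finset.sum_congr rfl fun σ _ => ?_
      rw [eAB, ic_rho i j C (A ∪ B) hABC]
      have : rho A * (rho (A ∪ B) * σ) = rho B * σ := by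
        funext z
        simp only [rho, Pi.mul_apply, Finset.mem_union]
        by_cases h1 : z ∈ A
        · have h2 : z ∉ B := fun h => Finset.disjoint_left.1 hAB h1 h
          simp [h1, h2]
        · by_cases h2 : z ∈ B <;> simp [h1, h2]
      rw [this]
    have hAB' : ∑ σ, e σ * (ic i j C σ * Ψ (rho (A ∪ B) * σ)) =
        ∑ σ, e σ * (ic i j C σ * Ψ σ) := by
      rw [← sum_rho (A ∪ B) (fun σ => e σ * (ic i j C σ * Ψ σ))]
      refine Finset.sum_congr rfl fun σ _ => ?_
      rw [eAB, ic_rho i j C (A ∪ B) hABC]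
    have hmain : ∑ σ, e σ * (ic i j C σ * Ψ (rho A * σ)) + ∑ σ, e σ * (ic i j C σ * Ψ (rho B * σ)) ≤
        ∑ σ, e σ * (ic i j C σ * Ψ σ) + ∑ σ, e σ * (ic i j C σ * Ψ (rho (A ∪ B) * σ)) := by
      rw [← Finset.sum_add_distrib, ← Finset.sum_add_distrib]
      refine Finset.sum_le_sum fun σ _ => ?_
      by_cases hσ : ∀ k ∈ C, σ (i k) = σ (j k)
      swap
      · have : ic i j C σ = 0 := by rw [ic_eq, if_neg hσ]
        rw [this]; simp
      by_cases hxy : σ x = σ y
      swap
      · have : e σ = 0 := by simp only [he, if_neg hxy]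
        rw [this]; simp
      have e1 : e σ = 1 := by simp only [he, if_pos hxy]
      rw [e1, one_mul, one_mul, one_mul, one_mul, ← mul_add, ← mul_add]
      refine mul_le_mul_of_nonneg_left ?_ (ic_nonneg i j C σ)
      have cA : ∀ z ∈ A, σ z = σ x := fun z hz => (mem_cl.1 hz) σ hσ
      have cB : ∀ z ∈ B, σ z = σ x := fun z hz => by rw [hxy]; exact (mem_cl.1 hz) σ hσ
      simp only [hΨ, sm_rho]
      rcases Int.units_eq_one_or (σ x) with hs | hs
      · refine hΘ.merge (sm σ a) A B hAB ?_ ?_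
        · intro z hz
          have := ha z
          simp only [sm, cA z hz, hs]; simpa using this
        · intro z hz
          have := ha z
          simp only [sm, cB z hz, hs]; simpa using this
      · have := hΘ.merge (flip (A ∪ B) (sm σ a)) A B hAB ?_ ?_
        · have g1 : flip A (flip (A ∪ B) (sm σ a)) = flip B (sm σ a) := by
            funext z
            simp only [flip, Finset.mem_union]
            by_cases h1 : z ∈ A
            · have h2 : z ∉ B := fun h => Finset.disjoint_left.1 hAB h1 h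
              simp [h1, h2]
            · by_cases h2 : z ∈ B <;> simp [h1, h2]
          have g2 : flip B (flip (A ∪ B) (sm σ a)) = flip A (sm σ a) := by
            funext z
            simp only [flip, Finset.mem_union]
            by_cases h1 : z ∈ A
            · have h2 : z ∉ B := fun h => Finset.disjoint_left.1 hAB h1 h
              simp [h1, h2]
            · by_cases h2 : z ∈ B <;> simp [h1, h2]
          have g3 : flip (A ∪ B) (flip (A ∪ B) (sm σ a)) = sm σ a := by
            funext z; simp only [flip]; split_ifs <;> simp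
          rw [g1, g2, g3] at this
          linarith
        · intro z hz
          have := ha z
          simp only [flip, Finset.mem_union, hz, true_or, if_true, sm, cA z hz, hs]
          simpa using this
        · intro z hz
          have := ha z
          simp only [flip, Finset.mem_union, hz, or_true, if_true, sm, cB z hz, hs]
          simpa using this
    rw [← hB', hAB'] at hmain
    unfold av
    have npos := nC_pos i j (insert k C)
    rw [hn, div_le_div_iff₀ (by linarith) npos, ha2, ha1]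
    nlinarith [hmain, npos]
  -- induction
  have main : ∀ s : Finset κ,
      av i j C (fun σ => Θ (sm σ a)) ≤ av i j (s ∪ C) (fun σ => Θ (sm σ a)) := by
    intro s
    induction s using Finset.induction_on with
    | empty => simp
    | insert k s hk ih =>
      rw [Finset.insert_union]
      exact ih.trans (step _ k)
  have := main D
  rwa [Finset.union_eq_left.mpr hCD] at this

end avfl

section heights
variable {V F P : Type*} [Fintype V] [Fintype F] [Fintype P]
  [DecidableEq V] [DecidableEq F] [DecidableEq P]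

/-- conditional averages given `(|h|, η)` are nondecreasing -/
def IncAv (G : Geo V F P) (Φ : (V ⊕ F → ℤ) → ℝ) : Prop :=
  ∀ x y : (V ⊕ F → ℤ) × Finset P, 0 ≤ x.1 → x ≤ y →
    av (ii G) (jj G) (Cset G ∅ x) (fun σ => Φ (sm σ x.1)) ≤
      av (ii G) (jj G) (Cset G ∅ y) (fun σ => Φ (sm σ y.1))

lemma IncAv.of_fl (G : Geo V F P) {Θ : (V ⊕ F → ℤ) → ℝ} (h : Fl Θ) : IncAv G Θ := by
  intro x y hx hxy
  exact (av_merge _ _ (Cset_mono G ∅ hxy) h hx).trans (av_grow _ _ _ h hx hxy.1)

lemma IncAv.of_mpos (G : Geo V F P) {Φ : (V ⊕ F → ℤ) → ℝ} (h : MPos Φ) : IncAv G Φ := by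
  obtain ⟨g, h1, h2, h3⟩ := h
  intro x y hx hxy
  have hy : 0 ≤ y.1 := hx.trans hxy.1
  have e : ∀ a : V ⊕ F → ℤ, 0 ≤ a → ∀ C : Finset (Kap V F P),
      av (ii G) (jj G) C (fun σ => Φ (sm σ a)) = ∑ T, g T a * av (ii G) (jj G) C (chi T) := by
    intro a ha C
    unfold av aC
    simp only [h3 a _ ha, mul_div_assoc']
    rw [← Finset.sum_div]
    congr 1
    simp only [Finset.mul_sum]
    rw [Finset.sum_comm]
    exact Finset.sum_congr rfl fun T _ => Finset.sum_congr rfl fun σ _ => by ring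
  rw [e _ hx, e _ hy]
  exact Finset.sum_le_sum fun T _ => mul_le_mul (h2 T _ _ hx hxy.1)
    (av_mono _ _ (Cset_mono G ∅ hxy) (Pos.chi T)) (av_nonneg_of_pos _ _ _ (Pos.chi T)) (h1 T _ hy)

/-- Weighted sum of an observable over the box `|h| ≤ M`. -/
noncomputable def S (G : Geo V F P) (c : P → ℝ) (U : (V ⊕ F → ℤ) → ℝ) (M : V ⊕ F → ℤ)
    (Φ : (V ⊕ F → ℤ) → ℝ) : ℝ :=
  ∑ h ∈ Finset.Icc (-M) M, G.W c h * U (ab h) * Φ h

lemma box_closed (M : V ⊕ F → ℤ) :
    ∀ a ∈ (Finset.Icc (0 : V ⊕ F → ℤ) M) ×ˢ (Finset.univ : Finset (Finset P)),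
      ∀ b ∈ (Finset.Icc (0 : V ⊕ F → ℤ) M) ×ˢ (Finset.univ : Finset (Finset P)),
      a ⊓ b ∈ (Finset.Icc (0 : V ⊕ F → ℤ) M) ×ˢ (Finset.univ : Finset (Finset P)) ∧
      a ⊔ b ∈ (Finset.Icc (0 : V ⊕ F → ℤ) M) ×ˢ (Finset.univ : Finset (Finset P)) := by
  rintro ⟨a, η⟩ ha ⟨b, θ⟩ hb
  simp only [Finset.mem_product, Finset.mem_Icc, Finset.mem_univ, and_true] at ha hb
  simp only [Prod.mk_inf_mk, Prod.mk_sup_mk, Finset.mem_product, Finset.mem_Icc, Finset.mem_univ,
    and_true]
  exact ⟨⟨le_inf ha.1 hb.1, inf_le_of_left_le ha.2⟩, ⟨le_sup_of_le_left ha.1, sup_le ha.2 hb.2⟩⟩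

lemma prod_pos {c : P → ℝ} (hc : ∀ p, 1 ≤ c p) : 0 < ∏ p, c p :=
  Finset.prod_pos fun p _ => by linarith [hc p]

/-- **Domain / coupling monotonicity** (unnormalised form of `E' Φ ≤ E Φ`). -/
theorem mono_heights (G : Geo V F P) {c c' : P → ℝ} (hc' : ∀ p, 1 ≤ c' p) (hcc : ∀ p, c' p ≤ c p)
    {U' U : (V ⊕ F → ℤ) → ℝ} (hU : Dom U' U)
    (hpin : ∀ p, c' p ≠ c p → ∀ a, U' a ≠ 0 → a (.inl (G.v₁ p)) = 0 ∧ a (.inl (G.v₂ p)) = 0)
    (M : V ⊕ F → ℤ) (hM : 0 ≤ M) {Φ : (V ⊕ F → ℤ) → ℝ} (hΦ : IncAv G Φ) :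
    S G c' U' M Φ * S G c U M (fun _ => 1) ≤ S G c' U' M (fun _ => 1) * S G c U M Φ := by
  classical
  have hc : ∀ p, 1 ≤ c p := fun p => (hc' p).trans (hcc p)
  have hdom := dom_R G hc' hcc ∅ hU hpin
  have key := hdom.expect_le _ (box_closed (P := P) M)
    (f := fun x => av (ii G) (jj G) (Cset G ∅ x) (fun σ => Φ (sm σ x.1)))
    (fun a ha b hb hab => hΦ a b (by
      simp only [Finset.mem_product, Finset.mem_Icc] at ha
      exact ha.1.1) hab)
  have p1 := polar G hc' U' M hM Φ
  have p2 := polar G hc' U' M hM (fun _ => 1)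
  have p3 := polar G hc U M hM Φ
  have p4 := polar G hc U M hM (fun _ => 1)
  simp only [av_const, mul_one] at p2 p4
  rw [← p1, ← p2, ← p3, ← p4] at key
  have q1 := prod_pos hc'
  have q2 := prod_pos hc
  unfold S
  simp only [mul_one]
  have q3 : 0 < (∏ p, c' p) * (∏ p, c p) := mul_pos q1 q2
  refine le_of_mul_le_mul_left ?_ q3
  calc (∏ p, c' p) * (∏ p, c p) * ((∑ h ∈ Finset.Icc (-M) M, G.W c' h * U' (ab h) * Φ h) *
        (∑ h ∈ Finset.Icc (-M) M, G.W c h * U (ab h)))
      = _ := by ring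
    _ ≤ _ := key
    _ = _ := by ring

/-- **Positive association**: `E Φ · E Ψ ≤ E (Φ Ψ)` for increasing-positive `Φ, Ψ`. -/
theorem fkg_heights (G : Geo V F P) {c : P → ℝ} (hc : ∀ p, 1 ≤ c p)
    {U : (V ⊕ F → ℤ) → ℝ} (hU : LSM U) (M : V ⊕ F → ℤ) (hM : 0 ≤ M)
    {Φ Ψ : (V ⊕ F → ℤ) → ℝ} (hΦ : MPos Φ) (hΨ : MPos Ψ) :
    S G c U M Φ * S G c U M Ψ ≤ S G c U M (fun _ => 1) * S G c U M (fun h => Φ h * Ψ h) := by
  classical
  have hl := lsm_R G hc ∅ hU
  have i1 := IncAv.of_mpos G hΦ
  have i2 := IncAv.of_mpos G hΨ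
  have key := hl.fkg _ (box_closed (P := P) M)
    (f := fun x => av (ii G) (jj G) (Cset G ∅ x) (fun σ => Φ (sm σ x.1)))
    (g := fun x => av (ii G) (jj G) (Cset G ∅ x) (fun σ => Ψ (sm σ x.1)))
    (fun a ha b hb hab => i1 a b (by
      simp only [Finset.mem_product, Finset.mem_Icc] at ha
      exact ha.1.1) hab)
    (fun a ha b hb hab => i2 a b (by
      simp only [Finset.mem_product, Finset.mem_Icc] at ha
      exact ha.1.1) hab)
  have key2 : ∑ x ∈ (Finset.Icc (0 : V ⊕ F → ℤ) M) ×ˢ (Finset.univ : Finset (Finset P)),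
      R G c ∅ U x * (av (ii G) (jj G) (Cset G ∅ x) (fun σ => Φ (sm σ x.1)) *
        av (ii G) (jj G) (Cset G ∅ x) (fun σ => Ψ (sm σ x.1))) ≤
      ∑ x ∈ (Finset.Icc (0 : V ⊕ F → ℤ) M) ×ˢ (Finset.univ : Finset (Finset P)),
      R G c ∅ U x * av (ii G) (jj G) (Cset G ∅ x) (fun σ => Φ (sm σ x.1) * Ψ (sm σ x.1)) := by
    refine Finset.sum_le_sum fun x hx => mul_le_mul_of_nonneg_left ?_ (hl.1 x)
    simp only [Finset.mem_product, Finset.mem_Icc] at hx
    have hx0 : 0 ≤ x.1 := hx.1.1
    obtain ⟨g, h1, h2, h3⟩ := hΦ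
    obtain ⟨g', k1, k2, k3⟩ := hΨ
    have P1 : Pos (fun σ => Φ (sm σ x.1)) :=
      ⟨fun T => g T x.1, fun T => h1 T _ hx0, fun σ => h3 _ σ hx0⟩
    have P2 : Pos (fun σ => Ψ (sm σ x.1)) :=
      ⟨fun T => g' T x.1, fun T => k1 T _ hx0, fun σ => k3 _ σ hx0⟩
    have gk := gks2 (ic_ferro (ii G) (jj G) (Cset G ∅ x)) P1 P2
    unfold av aC
    have np := nC_pos (ii G) (jj G) (Cset G ∅ x)
    rw [div_mul_div_comm, div_le_div_iff₀ (mul_pos np np) np]
    have e : nC (ii G) (jj G) (Cset G ∅ x) = ∑ σ, ic (ii G) (jj G) (Cset G ∅ x) σ := rfl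
    rw [← e] at gk
    nlinarith [gk, np]
  have key3 := key.trans (mul_le_mul_of_nonneg_left key2 (Finset.sum_nonneg fun x _ => hl.1 x))
  have p1 := polar G hc U M hM Φ
  have p2 := polar G hc U M hM Ψ
  have p3 := polar G hc U M hM (fun h => Φ h * Ψ h)
  have p4 := polar G hc U M hM (fun _ => 1)
  simp only [av_const, mul_one] at p4
  rw [← p1, ← p2, ← p3, ← p4] at key3
  have q2 := prod_pos hc
  unfold S
  simp only [mul_one]
  have q3 : 0 < (∏ p, c p) * (∏ p, c p) := mul_pos q2 q2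
  refine le_of_mul_le_mul_left ?_ q3
  calc _ = _ := by ring
    _ ≤ _ := key3
    _ = _ := by ring

end heights

end Crest.Agent.R161.Mono375
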