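import Crest.Agent.R161.Ann2_770
import Crest.Agent.R161.Mono_375

/-!
# Sums with observables over configurations with boundary heights (helper702, R161 block H-a)

* `sum_confB_HB` : summation over the cut variables with an observable of the heights.
* `sum_confB_geo` : the same as a sum over abstract heights of `Ann770.geo F β`.
* `S_pin0`, `S_float` : the sums `Mono375.S` of the annulus geometry with both boundary classes at `0`,
  resp. the hole at `0` and the outer boundary floating.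
-/

set_option autoImplicit false

noncomputable section

namespace Crest.Agent.R161.Flt702

open Finset Crest.Agent.R161.Geo729 Crest.Agent.R161.Defs372 Crest.Agent.R161.Hts375
open Crest.Agent.R161.Ann770

theorem sum_confB_HB (c : ℝ) (F : Finset P2) (b : P2 → ℤ) (Φ : (P2 → ℤ) × (P2 → ℤ) → ℝ) :
    ∑ ω ∈ confB F b, wt c F ω * Φ (ω.1, ω.2.1) =
      ∑ w ∈ HB F b, (∏ e ∈ intEdges F, pw c w.1 w.2 e) * Φ w := by
  classical
  have key : ∀ w ∈ HB F b, (∏ e ∈ intEdges F, pw c w.1 w.2 e) * Φ w =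
      ∑ S ∈ (intEdges F).powerset, wt c F (w.1, w.2, fun e => decide (e ∉ S)) * Φ w := by
    intro w hw
    have hv := mem_HB.1 hw
    have : ∏ e ∈ intEdges F, pw c w.1 w.2 e = ∏ e ∈ intEdges F,
        (ew c (w.1, w.2, fun _ => false) e + ew c (w.1, w.2, fun _ => true) e) := by
      refine Finset.prod_congr rfl fun e he => ?_
      rw [add_comm, ew_add c (b := b) (F := F) hv he (fun _ => true) (fun _ => false) rfl rfl]
    rw [this, Finset.prod_add, Finset.sum_mul]
    refine Finset.sum_congr rfl fun S hS => ?_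
    rw [Finset.mem_powerset] at hS
    congr 1
    unfold wt
    rw [← Finset.prod_sdiff hS, mul_comm]
    congr 1
    · refine Finset.prod_congr rfl fun e he => ?_
      have : e ∉ S := (Finset.mem_sdiff.1 he).2
      unfold ew
      simp [this]
    · refine Finset.prod_congr rfl fun e he => ?_
      unfold ew
      simp [he]
  rw [Finset.sum_congr rfl key, ← Finset.sum_product']
  refine Finset.sum_bij' (fun ω _ => ((ω.1, ω.2.1), (intEdges F).filter fun e => ω.2.2 e = false))
    (fun p _ => (p.1.1, p.1.2, fun e => decide (e ∉ p.2))) ?_ ?_ ?_ ?_ ?_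
  · intro ω hω
    rw [Finset.mem_product]
    obtain ⟨h1, h2, h3, h4, _⟩ := mem_confB.1 hω
    exact ⟨mem_HB.2 ⟨h1, h2, h3, h4⟩, Finset.mem_powerset.2 (Finset.filter_subset _ _)⟩
  · rintro ⟨w, S⟩ hp
    rw [Finset.mem_product] at hp
    obtain ⟨h1, h2, h3, h4⟩ := mem_HB.1 hp.1
    refine mem_confB.2 ⟨h1, h2, h3, h4, fun e he => ?_⟩
    have : e ∉ S := fun h => he (Finset.mem_powerset.1 hp.2 h)
    simp [this]
  · intro ω hω
    have hc := (mem_confB.1 hω).cut
    refine Prod.ext rfl (Prod.ext rfl ?_)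
    funext e
    by_cases he : e ∈ intEdges F
    · cases hz : ω.2.2 e
      · simp [he, hz]
      · simp [he, hz]
    · simp [he, hc e he]
  · rintro ⟨w, S⟩ hp
    rw [Finset.mem_product] at hp
    refine Prod.ext rfl ?_
    ext e
    simp only [Finset.mem_filter, decide_eq_false_iff_not, not_not]
    exact ⟨fun h => h.2, fun h => ⟨Finset.mem_powerset.1 hp.2 h, h⟩⟩
  · intro ω hω
    have hc := (mem_confB.1 hω).cut
    congr 2
    refine Prod.ext rfl (Prod.ext rfl ?_)
    funext e
    by_cases he : e ∈ intEdges F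
    · cases hz : ω.2.2 e
      · simp [he, hz]
      · simp [he, hz]
    · simp [he, hc e he]

section geo

variable {B : Type} (F : Finset P2) (β : P2 → B) [Fintype B] [DecidableEq B]

open Classical in
theorem sum_confB_geo (c : ℝ) (q : B → ℤ) (hq : ∀ x, Even (q x)) (N : ℤ)
    (hN : hbB F (fun v => q (β v)) ≤ N) (Φ : ((↥(intVerts F) ⊕ B) ⊕ ↥F → ℤ) → ℝ) :
    ∑ ω ∈ confB F (fun v => q (β v)), wt c F ω * Φ (ofH F q (ω.1, ω.2.1)) =
    ∑ h ∈ (Finset.Icc (Sum.elim (Sum.elim (fun _ => -N) q) (fun _ => -N))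
        (Sum.elim (Sum.elim (fun _ => N) q) (fun _ => N)) :
          Finset ((↥(intVerts F) ⊕ B) ⊕ ↥F → ℤ)),
      (geo F β).W (fun _ => c) h * Φ h := by
  have e0 := sum_confB_HB c F (fun v => q (β v)) (fun w => Φ (ofH F q w))
  rw [e0]
  have h1 : ∀ h : (↥(intVerts F) ⊕ B) ⊕ ↥F → ℤ, (geo F β).W (fun _ => c) h * Φ h =
      if (geo F β).Valid h then (∏ p, (geo F β).wp (fun _ => c) h p) * Φ h else 0 := fun h => by
    unfold Geo.W
    split_ifs
    · congr
    · rw [zero_mul]
  simp only [h1]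
  rw [← Finset.sum_filter]
  refine Finset.sum_bij' (fun w _ => ofH F q w) (fun h _ => toH F β h) ?_ ?_ ?_ ?_ ?_
  · intro w hw
    have hv := mem_HB.1 hw
    have hω : ValidB F (fun v => q (β v)) (w.1, w.2, fun _ => true) :=
      ⟨hv.bdry, hv.even, hv.off, hv.corner, fun _ _ => rfl⟩
    have key : ∀ u, (ofH F q w) (Sum.inl (vm F β u)) = w.1 u := by
      intro u
      by_cases hu : u ∈ intVerts F
      · rw [vm_of_mem F β hu]; rfl
      · rw [vm_of_not_mem F β hu, hv.bdry u hu]; rfl
    rw [Finset.mem_filter, Finset.mem_Icc]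
    refine ⟨⟨fun x => ?_, fun x => ?_⟩, ?_, ?_, ?_⟩
    · rcases x with (x | x) | x
      · exact (abs_le.1 ((hω.abs_vert (mem_cornV_of_mem (Finset.mem_filter.1 x.2).1)).trans hN)).1
      · exact le_rfl
      · exact (abs_le.1 ((hω.abs_face x.1).trans hN)).1
    · rcases x with (x | x) | x
      · exact (abs_le.1 ((hω.abs_vert (mem_cornV_of_mem (Finset.mem_filter.1 x.2).1)).trans hN)).2
      · exact le_rfl
      · exact (abs_le.1 ((hω.abs_face x.1).trans hN)).2
    · rintro (x | x)
      · exact hv.even _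
      · exact hq x
    · intro f
      have h2 := hv.corner f.1 f.2 f.1 (by simp [Geo729.IsCorner])
      have h3 := hv.even f.1
      show Odd (w.2 f.1)
      rw [abs_eq (by norm_num)] at h2
      obtain ⟨r, hr⟩ := h3
      rcases h2 with h2 | h2
      · exact ⟨r - 1, by omega⟩
      · exact ⟨r, by omega⟩
    · rintro v f ⟨u, hu, rfl⟩
      rw [key]
      exact hv.corner f.1 f.2 u hu
  · intro h hh
    rw [Finset.mem_filter, Finset.mem_Icc] at hh
    obtain ⟨⟨g1, g2⟩, h3, h4, h5⟩ := hh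
    have h2 : ∀ x, h (Sum.inl (Sum.inr x)) = q x := fun x =>
      le_antisymm (g2 (Sum.inl (Sum.inr x))) (g1 (Sum.inl (Sum.inr x)))
    refine mem_HB.2 ⟨fun v hv => ?_, fun v => h3 _, fun f hf => ?_, fun f hf v hv => ?_⟩
    · show h (Sum.inl (vm F β v)) = q (β v)
      rw [vm_of_not_mem F β hv, h2]
    · show (if hf : f ∈ F then h (Sum.inr ⟨f, hf⟩) else 1) = 1
      rw [dif_neg hf]
    · show |h (Sum.inl (vm F β v)) - (if hf : f ∈ F then h (Sum.inr ⟨f, hf⟩) else 1)| = 1
      rw [dif_pos hf]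
      exact h5 _ _ ⟨v, hv, rfl⟩
  · intro w hw
    have hv := mem_HB.1 hw
    refine Prod.ext ?_ ?_
    · funext u
      show (ofH F q w) (Sum.inl (vm F β u)) = w.1 u
      by_cases hu : u ∈ intVerts F
      · rw [vm_of_mem F β hu]; rfl
      · rw [vm_of_not_mem F β hu, hv.bdry u hu]; rfl
    · funext f
      show (if hf : f ∈ F then ofH F q w (Sum.inr ⟨f, hf⟩) else 1) = w.2 f
      by_cases hf : f ∈ F
      · rw [dif_pos hf]; rfl
      · rw [dif_neg hf, hv.off f hf]
  · intro h hh
    rw [Finset.mem_filter, Finset.mem_Icc] at hh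
    obtain ⟨⟨g1, g2⟩, _⟩ := hh
    have h2 : ∀ x, h (Sum.inl (Sum.inr x)) = q x := fun x =>
      le_antisymm (g2 (Sum.inl (Sum.inr x))) (g1 (Sum.inl (Sum.inr x)))
    funext x
    rcases x with (x | x) | x
    · show h (Sum.inl (vm F β x.1)) = h (Sum.inl (Sum.inl x))
      rw [vm_of_mem F β x.2]
    · exact (h2 x).symm
    · show (if hf : x.1 ∈ F then h (Sum.inr ⟨x.1, hf⟩) else 1) = h (Sum.inr x)
      rw [dif_pos x.2]
  · intro w hw
    have hv := mem_HB.1 hw
    have key : ∀ u, (ofH F q w) (Sum.inl (vm F β u)) = w.1 u := by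
      intro u
      by_cases hu : u ∈ intVerts F
      · rw [vm_of_mem F β hu]; rfl
      · rw [vm_of_not_mem F β hu, hv.bdry u hu]; rfl
    rw [← Finset.prod_coe_sort]
    congr 1
    refine Finset.prod_congr rfl fun e _ => ?_
    unfold Geo.wp pw
    have : (geo F β).Flat (ofH F q w) e ↔ w.1 (src e.1) = w.1 (tgt e.1) ∧ w.2 (fA e.1) = w.2 (fB e.1) := by
      unfold Geo.Flat
      show (ofH F q w) (Sum.inl (vm F β (src e.1))) = (ofH F q w) (Sum.inl (vm F β (tgt e.1))) ∧ _ ↔ _
      rw [key, key]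
      rfl
    by_cases hfl : w.1 (src e.1) = w.1 (tgt e.1) ∧ w.2 (fA e.1) = w.2 (fB e.1)
    · rw [if_pos hfl, if_pos (this.2 hfl)]
    · rw [if_neg hfl, if_neg (fun h => hfl (this.1 h))]

end geo

end Crest.Agent.R161.Flt702
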