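import Crest.Agent.R161.Flt1_702
import Crest.Agent.R161.Fac_770
import Crest.Agent.R161.Dmp2_341
import Crest.Agent.R161.Flip_228

/-!
# Floating comparison (helper702, R161 block H-a)

`E_A φ(∑ a_v K v) * Pr_F (CutE D) ≤ E_F[1_{CutE D} φ(∑ a_v (K v - level D))]` for `A = F \ D`, no vertex
touching both `D` and the complement of `F`, `a ≥ 0` on `V ⊆ intVerts A`, `φ` convex.
-/

set_option autoImplicit false

noncomputable section

namespace Crest.Agent.R161.Flt702

open Finset Crest.Agent.R161.Geo729 Crest.Agent.R161.Defs372 Crest.Agent.R161.Hts375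
open Crest.Agent.R161.Ann770 Crest.Agent.R161.Mono375 Crest.Agent.R161.Lsm375
open Crest.Agent.R161.Pol375 Crest.Agent.R161.Dmp341 Crest.Agent.R161.Flip228

section fib

variable (A : Finset P2) (β : P2 → Bool)

/-- sites of the annulus geometry -/
abbrev St (A : Finset P2) : Type := (↥(intVerts A) ⊕ Bool) ⊕ ↥A

/-- box sizes: `R` for the boundary classes, `N` for the other sites -/
def Mx (R N : ℤ) : St A → ℤ := Sum.elim (Sum.elim (fun _ => N) (fun _ => R)) (fun _ => N)

theorem S_fib (c : ℝ) (R N : ℤ)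
    (hN : ∀ q : Bool → ℤ, (∀ x, |q x| ≤ R) → hbB A (fun v => q (β v)) ≤ N)
    (u : (Bool → ℤ) → ℝ) (Φ : (St A → ℤ) → ℝ) :
    S (geo A β) (fun _ => c) (fun a => u (fun x => a (Sum.inl (Sum.inr x)))) (Mx A R N) Φ =
      ∑ q ∈ (Finset.Icc (fun _ => -R) (fun _ => R) : Finset (Bool → ℤ)).filter
          (fun q => ∀ x, Even (q x)),
        u (fun x => |q x|) *
          ∑ ω ∈ confB A (fun v => q (β v)), wt c A ω * Φ (ofH A q (ω.1, ω.2.1)) := by
  classical
  unfold S
  rw [← Finset.sum_fiberwise_of_maps_to (s := Finset.Icc (-(Mx A R N)) (Mx A R N))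
    (t := (Finset.Icc (fun _ => -R) (fun _ => R) : Finset (Bool → ℤ)))
    (g := fun h x => h (Sum.inl (Sum.inr x)))]
  · rw [Finset.sum_filter]
    refine Finset.sum_congr rfl fun q hq => ?_
    rw [Finset.mem_Icc] at hq
    have hqR : ∀ x, |q x| ≤ R := fun x => abs_le.2 ⟨hq.1 x, hq.2 x⟩
    by_cases hev : ∀ x, Even (q x)
    · rw [if_pos hev, sum_confB_geo A β c q hev N (hN q hqR) Φ, Finset.mul_sum]
      have : (Finset.Icc (-(Mx A R N)) (Mx A R N)).filter
          (fun h => (fun x => h (Sum.inl (Sum.inr x))) = q) =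
          Finset.Icc (Sum.elim (Sum.elim (fun _ => -N) q) (fun _ => -N))
            (Sum.elim (Sum.elim (fun _ => N) q) (fun _ => N)) := by
        ext h
        rw [Finset.mem_filter, Finset.mem_Icc, Finset.mem_Icc]
        constructor
        · rintro ⟨⟨h1, h2⟩, h3⟩
          refine ⟨fun x => ?_, fun x => ?_⟩
          · rcases x with (x | x) | x
            · exact h1 (Sum.inl (Sum.inl x))
            · exact (congrFun h3 x).ge
            · exact h1 (Sum.inr x)
          · rcases x with (x | x) | x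
            · exact h2 (Sum.inl (Sum.inl x))
            · exact (congrFun h3 x).le
            · exact h2 (Sum.inr x)
        · rintro ⟨h1, h2⟩
          have h3 : ∀ x, h (Sum.inl (Sum.inr x)) = q x := fun x =>
            le_antisymm (h2 (Sum.inl (Sum.inr x))) (h1 (Sum.inl (Sum.inr x)))
          refine ⟨⟨fun x => ?_, fun x => ?_⟩, funext h3⟩
          · rcases x with (x | x) | x
            · exact h1 (Sum.inl (Sum.inl x))
            · rw [h3 x]; exact hq.1 x
            · exact h1 (Sum.inr x)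
          · rcases x with (x | x) | x
            · exact h2 (Sum.inl (Sum.inl x))
            · rw [h3 x]; exact hq.2 x
            · exact h2 (Sum.inr x)
      rw [this]
      refine Finset.sum_congr rfl fun h hh => ?_
      rw [Finset.mem_Icc] at hh
      have h2 : ∀ x, h (Sum.inl (Sum.inr x)) = q x := fun x =>
        le_antisymm (hh.2 (Sum.inl (Sum.inr x))) (hh.1 (Sum.inl (Sum.inr x)))
      have h3 : (fun x => ab h (Sum.inl (Sum.inr x))) = fun x => |q x| :=
        funext fun x => by simp [ab, h2 x]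
      show (geo A β).W (fun _ => c) h * u (fun x => ab h (Sum.inl (Sum.inr x))) * Φ h = _
      rw [h3]; ring
    · rw [if_neg hev]
      refine Finset.sum_eq_zero fun h hh => ?_
      rw [Finset.mem_filter] at hh
      have : (geo A β).W (fun _ => c) h = 0 := by
        unfold Geo.W
        rw [if_neg]
        rintro ⟨h1, _⟩
        exact hev fun x => by rw [← congrFun hh.2 x]; exact h1 _
      rw [this]; ring
  · intro h hh
    rw [Finset.mem_Icc] at hh ⊢
    exact ⟨fun x => hh.1 (Sum.inl (Sum.inr x)), fun x => hh.2 (Sum.inl (Sum.inr x))⟩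

/-- both classes pinned at `0` -/
def Upin (a : St A → ℤ) : ℝ :=
  if a (Sum.inl (Sum.inr true)) ≤ 0 ∧ a (Sum.inl (Sum.inr false)) ≤ 0 then 1 else 0

/-- the hole pinned at `0` -/
def Uflt (a : St A → ℤ) : ℝ := if a (Sum.inl (Sum.inr true)) ≤ 0 then 1 else 0

theorem dom_UU : Abs375.Dom (Upin A) (Uflt A) := by
  have n1 : ∀ a, 0 ≤ Upin A a := fun a => by unfold Upin; split_ifs <;> norm_num
  have n2 : ∀ a, 0 ≤ Uflt A a := fun a => by unfold Uflt; split_ifs <;> norm_num
  refine ⟨n1, n2, fun a b => ?_⟩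
  by_cases ha : a (Sum.inl (Sum.inr true)) ≤ 0 ∧ a (Sum.inl (Sum.inr false)) ≤ 0
  · by_cases hb : b (Sum.inl (Sum.inr true)) ≤ 0
    · have h1 : Upin A (a ⊓ b) = 1 := by
        unfold Upin
        refine if_pos ⟨?_, ?_⟩
        · exact inf_le_of_left_le ha.1
        · exact inf_le_of_left_le ha.2
      have h2 : Uflt A (a ⊔ b) = 1 := by
        unfold Uflt
        exact if_pos (sup_le ha.1 hb)
      have h3 : Upin A a = 1 := by unfold Upin; exact if_pos ha
      have h4 : Uflt A b = 1 := by unfold Uflt; exact if_pos hb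
      rw [h1, h2, h3, h4]
    · have : Uflt A b = 0 := by unfold Uflt; exact if_neg hb
      rw [this, mul_zero]
      exact mul_nonneg (n1 _) (n2 _)
  · have : Upin A a = 0 := by unfold Upin; exact if_neg ha
    rw [this, zero_mul]
    exact mul_nonneg (n1 _) (n2 _)

variable {A β}

theorem S_pin (c : ℝ) {R N : ℤ} (hR : 0 ≤ R)
    (hN : ∀ q : Bool → ℤ, (∀ x, |q x| ≤ R) → hbB A (fun v => q (β v)) ≤ N)
    (Φ : (St A → ℤ) → ℝ) :
    S (geo A β) (fun _ => c) (Upin A) (Mx A R N) Φ =
      ∑ ω ∈ conf A, wt c A ω * Φ (ofH A (fun _ => 0) (ω.1, ω.2.1)) := by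
  have h := S_fib A β c R N hN (fun q => if q true ≤ 0 ∧ q false ≤ 0 then 1 else 0) Φ
  have h0 : S (geo A β) (fun _ => c) (Upin A) (Mx A R N) Φ = _ := h
  rw [h0, Finset.sum_eq_single (fun _ => (0 : ℤ))]
  · rw [if_pos (by simp), one_mul, ← confB_zero]
  · intro q _ hq
    rw [if_neg, zero_mul]
    rintro ⟨h1, h2⟩
    apply hq
    funext x
    cases x
    · exact abs_nonpos_iff.1 h2
    · exact abs_nonpos_iff.1 h1
  · intro hn
    exfalso
    apply hn
    rw [Finset.mem_filter, Finset.mem_Icc]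
    exact ⟨⟨fun _ => by simpa using hR, fun _ => hR⟩, fun _ => Even.zero⟩

theorem S_flt (c : ℝ) {R N : ℤ} (hR : 0 ≤ R)
    (hN : ∀ q : Bool → ℤ, (∀ x, |q x| ≤ R) → hbB A (fun v => q (β v)) ≤ N)
    (Φ : (St A → ℤ) → ℝ) :
    S (geo A β) (fun _ => c) (Uflt A) (Mx A R N) Φ =
      ∑ r ∈ (Finset.Icc (-R) R).filter (fun r => Even r),
        ∑ ω ∈ confB A (fun v => if β v then 0 else r),
          wt c A ω * Φ (ofH A (fun x => if x then 0 else r) (ω.1, ω.2.1)) := by
  have h := S_fib A β c R N hN (fun q => if q true ≤ 0 then 1 else 0) Φ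
  have h0 : S (geo A β) (fun _ => c) (Uflt A) (Mx A R N) Φ = _ := h
  rw [h0]
  symm
  refine Finset.sum_of_injOn (fun r => fun x : Bool => if x then (0 : ℤ) else r) ?_ ?_ ?_ ?_
  · intro r _ r' _ hrr
    exact congrFun hrr false
  · intro r hr
    rw [Finset.mem_coe, Finset.mem_filter, Finset.mem_Icc] at hr ⊢
    refine ⟨⟨fun x => ?_, fun x => ?_⟩, fun x => ?_⟩
    · cases x
      · exact hr.1.1
      · simpa using hR
    · cases x
      · exact hr.1.2
      · exact hR
    · cases x
      · exact hr.2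
      · exact Even.zero
  · intro q hq hqn
    rw [if_neg, zero_mul]
    intro h1
    apply hqn
    rw [Finset.mem_filter, Finset.mem_Icc] at hq
    refine ⟨q false, ?_, ?_⟩
    · rw [Finset.mem_coe, Finset.mem_filter, Finset.mem_Icc]
      exact ⟨⟨hq.1.1 false, hq.1.2 false⟩, hq.2 false⟩
    · funext x
      cases x
      · rfl
      · exact (abs_nonpos_iff.1 h1).symm
  · intro r _
    simp

/-- coefficients on the interior sites -/
def cs (A V : Finset P2) (a : P2 → ℝ) : St A → ℝ :=
  Sum.elim (Sum.elim (fun v => if v.1 ∈ V then a v.1 else 0) (fun _ => 0)) (fun _ => 0)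

theorem sum_cs {V : Finset P2} (hV : V ⊆ intVerts A) (a : P2 → ℝ) (q : Bool → ℤ)
    (w : (P2 → ℤ) × (P2 → ℤ)) :
    ∑ x, cs A V a x * (ofH A q w x : ℝ) = ∑ v ∈ V, a v * (w.1 v : ℝ) := by
  classical
  rw [Fintype.sum_sum_type, Fintype.sum_sum_type]
  simp only [cs, Sum.elim_inl, Sum.elim_inr, zero_mul, Finset.sum_const_zero, add_zero, ofH]
  rw [Finset.sum_coe_sort (intVerts A) (fun v => (if v ∈ V then a v else 0) * (w.1 v : ℝ))]
  rw [← Finset.sum_subset hV]
  · exact Finset.sum_congr rfl fun v hv => by rw [if_pos hv]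
  · intro v _ hv
    rw [if_neg hv, zero_mul]

/-- **Floating comparison**, unnormalised form. -/
theorem float_sum_le {c : ℝ} (hc : 1 ≤ c) (A : Finset P2) (β : P2 → Bool) {R : ℤ} (hR : 0 ≤ R)
    {φ : ℝ → ℝ} (hφ : ConvexOn ℝ Set.univ φ) {V : Finset P2} (hV : V ⊆ intVerts A) {a : P2 → ℝ}
    (ha : ∀ v ∈ V, 0 ≤ a v) :
    E c A (fun ω => φ (Lin V a ω)) *
        (∑ r ∈ (Finset.Icc (-R) R).filter (fun r => Even r),
          ∑ ω ∈ confB A (fun v => if β v then 0 else r), wt c A ω) ≤
      ∑ r ∈ (Finset.Icc (-R) R).filter (fun r => Even r),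
        ∑ ω ∈ confB A (fun v => if β v then 0 else r), wt c A ω * φ (Lin V a ω) := by
  classical
  obtain ⟨N, hN0, hN⟩ : ∃ N : ℤ, 0 ≤ N ∧
      ∀ q : Bool → ℤ, (∀ x, |q x| ≤ R) → hbB A (fun v => q (β v)) ≤ N := by
    refine ⟨2 * (A.card + 1) + 2 + (cornV A).card * R, by positivity, fun q hq => ?_⟩
    unfold hbB bS
    have : ∑ v ∈ cornV A, |q (β v)| ≤ (cornV A).card * R := by
      rw [← nsmul_eq_mul]
      exact Finset.sum_le_card_nsmul _ _ _ fun v _ => hq _
    linarith
  have hcs : ∀ x, 0 ≤ cs A V a x := by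
    rintro ((x | x) | x)
    · show 0 ≤ (if x.1 ∈ V then a x.1 else 0)
      split_ifs with h
      · exact ha _ h
      · exact le_rfl
    · exact le_rfl
    · exact le_rfl
  have hM : 0 ≤ Mx A R N := by
    rintro ((x | x) | x)
    · exact hN0
    · exact hR
    · exact hN0
  have key := mono_heights (geo A β) (c := fun _ => c) (c' := fun _ => c) (fun _ => hc)
    (fun _ => le_rfl) (dom_UU A) (fun p hp => absurd rfl hp) (Mx A R N) hM
    (IncAv.of_fl (geo A β) (Fl.convex hφ hcs))
  rw [S_pin c hR hN, S_flt c hR hN, S_pin c hR hN, S_flt c hR hN] at key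
  simp only [sum_cs hV, mul_one] at key
  have hZ := Z_pos hc A
  rw [E_eq_div]
  rw [div_mul_eq_mul_div, div_le_iff₀ hZ, mul_comm _ (Z c A)]
  exact key

end fib

/-! ### the outer part of a cut configuration -/

open Classical in
theorem E_cutE_sum {c : ℝ} {F D : Finset P2} (hD : Dom D) (hne : (bdV D).Nonempty)
    (Φ : ℤ → Cfg → ℝ) :
    E c F (fun ω => if CutE D ω then Φ (level D ω) ω else 0) =
      ∑ q ∈ (Finset.Icc (-(hb F)) (hb F)).filter (fun q => Even q),
        E c F (fun ω => if CutAt D q ω then Φ q ω else 0) := by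
  rw [← E_sum]
  refine E_congr' fun ω hω hok => ?_
  by_cases hcut : CutE D ω
  · rw [if_pos hcut]
    have hA := cutAt_level hD hω.even hcut hok
    rw [Finset.sum_eq_single (level D ω)]
    · rw [if_pos hA]
    · intro q _ hq
      rw [if_neg]
      intro h
      exact hq (h.level_eq hne).symm
    · intro h
      exfalso
      apply h
      obtain ⟨w, _, h1⟩ := level_of_mem hne ω
      rw [h1, Finset.mem_filter, Finset.mem_Icc]
      exact ⟨abs_le.1 (hω.abs_vert w), hω.even w⟩
  · rw [if_neg hcut]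
    symm
    refine Finset.sum_eq_zero fun q _ => ?_
    rw [if_neg]
    intro h
    exact hcut h.cutE

open Classical in
theorem E_cutAt_out {c : ℝ} {F D : Finset P2} {q : ℤ} (hsep : Ann770.Sep D F) (hq : Even q)
    {V : Finset P2} (hV : V ⊆ intVerts (F \ D)) (a : P2 → ℝ) (φ : ℝ → ℝ) :
    E c F (fun ω => if CutAt D q ω then φ (∑ v ∈ V, a v * ((ω.1 v : ℝ) - q)) else 0) =
      Z c D / Z c F * ∑ ω ∈ confB (F \ D) (fun v => if tch D v then 0 else -q),
        wt c (F \ D) ω * φ (Lin V a ω) := by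
  have h1 := sum_cut_wt c hsep hq (fun ω => φ (∑ v ∈ V, a v * ((ω.1 v : ℝ) - q)))
  have h2 : ∑ ω ∈ conf F, wt c F ω *
      (if CutAt D q ω then φ (∑ v ∈ V, a v * ((ω.1 v : ℝ) - q)) else 0) =
      ∑ ω ∈ cutConf F D q, wt c F ω * φ (∑ v ∈ V, a v * ((ω.1 v : ℝ) - q)) := by
    unfold cutConf
    rw [Finset.sum_filter]
    refine Finset.sum_congr rfl fun ω _ => ?_
    split_ifs <;> simp
  rw [E_eq_div, h2, h1]
  have h3 : ∀ α ∈ confB (F \ D) (bD D q), ∀ β ∈ conf D,
      wt c (F \ D) α * wt c D β * φ (∑ v ∈ V, a v * (((glue D q α β).1 v : ℝ) - q)) =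
      wt c D β * (wt c (F \ D) α * φ (∑ v ∈ V, a v * ((α.1 v : ℝ) - q))) := by
    intro α _ β _
    have : ∑ v ∈ V, a v * (((glue D q α β).1 v : ℝ) - q) = ∑ v ∈ V, a v * ((α.1 v : ℝ) - q) := by
      refine Finset.sum_congr rfl fun v hv => ?_
      have hv' : v ∉ intVerts D := fun h =>
        not_tch_of_intVerts_sdiff (hV hv) (tch_of_intVerts h)
      simp only [glue, hv', if_false]
    rw [this]; ring
  rw [Finset.sum_congr rfl fun α hα => Finset.sum_congr rfl fun β hβ => h3 α hα β hβ]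
  simp only [← Finset.sum_mul]
  rw [← Finset.mul_sum]
  -- shift
  have h4 : ∑ α ∈ confB (F \ D) (bD D q), wt c (F \ D) α * φ (∑ v ∈ V, a v * ((α.1 v : ℝ) - q)) =
      ∑ ω ∈ confB (F \ D) (fun v => if tch D v then 0 else -q),
        wt c (F \ D) ω * φ (Lin V a ω) := by
    have hb1 : (fun v => bD D q v + -q) = (fun v => if tch D v then (0 : ℤ) else -q) := by
      funext v
      unfold bD
      split_ifs <;> ring
    have hb2 : (fun v => (if tch D v then (0 : ℤ) else -q) + q) = bD D q := by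
      funext v
      unfold bD
      split_ifs <;> ring
    refine Finset.sum_bij' (fun ω _ => shB (F \ D) (-q) ω) (fun ω _ => shB (F \ D) q ω)
      ?_ ?_ ?_ ?_ ?_
    · intro ω hω
      have := (mem_confB.1 hω).shift (a := -q) hq.neg
      rw [hb1] at this
      exact mem_confB.2 this
    · intro ω hω
      have := (mem_confB.1 hω).shift (a := q) hq
      rw [hb2] at this
      exact mem_confB.2 this
    · intro ω _
      rw [shB_shB, neg_add_cancel, shB_zero]
    · intro ω _
      rw [shB_shB, add_neg_cancel, shB_zero]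
    · intro ω _
      rw [wt_shB]
      congr 2
      unfold Lin
      refine Finset.sum_congr rfl fun v _ => ?_
      show a v * ((ω.1 v : ℝ) - q) = a v * ((ω.1 v + -q : ℤ) : ℝ)
      push_cast
      ring
  rw [h4]
  unfold Z
  ring

open Classical in
/-- **Floating comparison.** -/
theorem float_le {c : ℝ} (hc : 1 ≤ c) {F D : Finset P2} (hD : Dom D) (hne : D.Nonempty)
    (hsep : Ann770.Sep D F) {φ : ℝ → ℝ} (hφ : ConvexOn ℝ Set.univ φ)
    {V : Finset P2} (hV : V ⊆ intVerts (F \ D)) {a : P2 → ℝ} (ha : ∀ v ∈ V, 0 ≤ a v) :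
    E c (F \ D) (fun ω => φ (Lin V a ω)) * E c F (fun ω => if CutE D ω then 1 else 0) ≤
      E c F (fun ω => if CutE D ω then φ (∑ v ∈ V, a v * ((ω.1 v : ℝ) - level D ω)) else 0) := by
  have hbd : (bdV D).Nonempty := by
    by_contra h
    have := (bdV_nonempty_of_int (Finset.not_nonempty_iff_eq_empty.1 h)).2
    rw [this] at hne
    simp at hne
  have hR : 0 ≤ hb F := by unfold hb; positivity
  have key := float_sum_le hc (F \ D) (tch D) hR hφ hV ha
  have e1 := E_cutE_sum (c := c) (F := F) hD hbd (fun _ _ => 1)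
  have e2 := E_cutE_sum (c := c) (F := F) hD hbd
    (fun q ω => φ (∑ v ∈ V, a v * ((ω.1 v : ℝ) - q)))
  -- reindex `r = -q`
  have hneg : ∀ f : ℤ → ℝ, ∑ q ∈ (Finset.Icc (-(hb F)) (hb F)).filter (fun q => Even q), f (-q) =
      ∑ r ∈ (Finset.Icc (-(hb F)) (hb F)).filter (fun q => Even q), f r := by
    intro f
    refine Finset.sum_bij' (fun q _ => -q) (fun q _ => -q) ?_ ?_ ?_ ?_ ?_
    · intro q hq
      rw [Finset.mem_filter, Finset.mem_Icc] at hq ⊢
      exact ⟨⟨by linarith [hq.1.2], by linarith [hq.1.1]⟩, hq.2.neg⟩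
    · intro q hq
      rw [Finset.mem_filter, Finset.mem_Icc] at hq ⊢
      exact ⟨⟨by linarith [hq.1.2], by linarith [hq.1.1]⟩, hq.2.neg⟩
    · intro q _; ring
    · intro q _; ring
    · intro q _; rfl
  have hk : 0 ≤ Z c D / Z c F := div_nonneg (Z_pos hc D).le (Z_pos hc F).le
  have g1 : E c F (fun ω => if CutE D ω then 1 else 0) = Z c D / Z c F *
      ∑ r ∈ (Finset.Icc (-(hb F)) (hb F)).filter (fun q => Even q),
        ∑ ω ∈ confB (F \ D) (fun v => if tch D v then 0 else r), wt c (F \ D) ω := by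
    rw [e1, ← hneg (fun r => ∑ ω ∈ confB (F \ D) (fun v => if tch D v then 0 else r),
      wt c (F \ D) ω), Finset.mul_sum]
    refine Finset.sum_congr rfl fun q hq => ?_
    rw [Finset.mem_filter] at hq
    have := E_cutAt_out (c := c) hsep hq.2 (Finset.empty_subset (intVerts (F \ D)))
      a (fun _ => 1)
    simpa using this
  have g2 : E c F (fun ω => if CutE D ω then
      φ (∑ v ∈ V, a v * ((ω.1 v : ℝ) - level D ω)) else 0) = Z c D / Z c F *
      ∑ r ∈ (Finset.Icc (-(hb F)) (hb F)).filter (fun q => Even q),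
        ∑ ω ∈ confB (F \ D) (fun v => if tch D v then 0 else r),
          wt c (F \ D) ω * φ (Lin V a ω) := by
    rw [e2, ← hneg (fun r => ∑ ω ∈ confB (F \ D) (fun v => if tch D v then 0 else r),
      wt c (F \ D) ω * φ (Lin V a ω)), Finset.mul_sum]
    refine Finset.sum_congr rfl fun q hq => ?_
    rw [Finset.mem_filter] at hq
    exact E_cutAt_out hsep hq.2 hV a φ
  rw [g1, g2]
  calc _ = Z c D / Z c F * (E c (F \ D) (fun ω => φ (Lin V a ω)) *
        ∑ r ∈ (Finset.Icc (-(hb F)) (hb F)).filter (fun q => Even q),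
          ∑ ω ∈ confB (F \ D) (fun v => if tch D v then 0 else r), wt c (F \ D) ω) := by ring
    _ ≤ _ := mul_le_mul_of_nonneg_left key hk

end Crest.Agent.R161.Flt702
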