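import Crest.Agent.R161.Marg_729

/-!
# Row 161, GKS route, part 1 (helper341): dual spin representations of `P_F`

For a simply connected face set `F` the zero boundary condition law has, for product observables
`∏_e g_e(x_e, y_e, z_e)` (`x_e`: the vertex heights at the ends of `e` agree, `y_e`: the face heights
agree, `z_e`: cut variable),

* case A (dualise the face signs): `Σ_T Σ_R ∏_e (hatY u_e)(aV T e, aV R e)`, `T, R ⊆ IV F`;
* case B (dualise everything): `Σ_S Σ_R ∏_e (hatX (hatY u_e))(aF S e, aV R e)`, `S ⊆ F, R ⊆ IV F`,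
  where the sign `-1` of the entry `(false, false)` may be dropped.
-/

set_option autoImplicit false

noncomputable section

namespace Crest.Agent.R161.Gd341

open Finset Crest.Agent.R161.Geo729 Crest.Agent.R161.Dual729 Crest.Agent.R161.DualB729
  Crest.Agent.R161.DualC729 Crest.Agent.R161.Defs372 Crest.Agent.R161.Marg729

/-- agreement of the vertex signs at the ends of `e` -/
def aV (T : Finset P2) (e : Edge) : Bool := decide (src e ∈ T ↔ tgt e ∈ T)
/-- agreement of the face signs on the two sides of `e` -/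
def aF (S : Finset P2) (e : Edge) : Bool := decide (fA e ∈ S ↔ fB e ∈ S)

theorem aV_eq_true {T : Finset P2} {e : Edge} : aV T e = true ↔ (src e ∈ T ↔ tgt e ∈ T) := by
  simp [aV]
theorem aF_eq_true {S : Finset P2} {e : Edge} : aF S e = true ↔ (fA e ∈ S ↔ fB e ∈ S) := by
  simp [aF]

/-- Fourier transform on `{±1}` -/
def hat (u : Bool → ℝ) (b : Bool) : ℝ := if b then u true + u false else u true - u false

/-- transform in the second variable -/
def hatY (u : Bool → Bool → ℝ) (x y : Bool) : ℝ := hat (u x) y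
/-- transform in the first variable -/
def hatX (u : Bool → Bool → ℝ) (x y : Bool) : ℝ := hat (fun a => u a y) x

/-- six-vertex / Ashkin–Teller weight -/
def w6 (c : ℝ) : Bool → Bool → ℝ
  | true, true => c
  | true, false => 1
  | false, true => 1
  | false, false => 0

/-- weight with the cut variable -/
def w7 (c : ℝ) (x y z : Bool) : ℝ :=
  if z then (if x then 1 else 0) else (if y then (if x then c - 1 else 1) else 0)

theorem w7_sum (c : ℝ) (x y : Bool) : w7 c x y true + w7 c x y false = w6 c x y := by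
  cases x <;> cases y <;> simp [w7, w6]

/-- integrate the cut variable -/
def intz (c : ℝ) (g : Bool → Bool → Bool → ℝ) (x y : Bool) : ℝ :=
  w7 c x y true * g x y true + w7 c x y false * g x y false

theorem intz_one (c : ℝ) (x y : Bool) : intz c (fun _ _ _ => 1) x y = w6 c x y := by
  simp [intz, w7_sum]

/-! ### Kramers–Wannier in `Bool` form -/

theorem kw_faces {F : Finset P2} (hF : SC (F : Set P2)) (u : Edge → Bool → ℝ) :
    ∑ S ∈ F.powerset, ∏ e ∈ IE F, u e (aF S e) =
      (N0 F : ℝ) / 2 ^ (IV F).card *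
        ∑ R ∈ (IV F).powerset, ∏ e ∈ IE F, hat (u e) (aV R e) := by
  have h := kramers_wannier hF (fun e => u e true) (fun e => u e false)
  have e1 : ∀ S : Finset P2, ∏ e ∈ IE F, u e (aF S e) =
      ∏ e ∈ IE F, (if (fA e ∈ S ↔ fB e ∈ S) then u e true else u e false) := by
    intro S
    refine Finset.prod_congr rfl fun e _ => ?_
    unfold aF
    split_ifs with h1
    · rw [decide_eq_true h1]
    · rw [decide_eq_false h1]
  have e2 : ∀ R : Finset P2, ∏ e ∈ IE F, hat (u e) (aV R e) =
      ∏ e ∈ IE F, (if (src e ∈ R ↔ tgt e ∈ R) then u e true + u e false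
        else u e true - u e false) := by
    intro R
    refine Finset.prod_congr rfl fun e _ => ?_
    unfold aV hat
    split_ifs with h1 h2 h2
    · rfl
    · exact absurd (by simpa using h1) h2
    · exact absurd (by simpa using h2) h1
    · rfl
  rw [Finset.sum_congr rfl fun S _ => e1 S, h, Finset.sum_congr rfl fun R _ => e2 R]

theorem hat_hat (u : Bool → ℝ) (b : Bool) : hat (hat u) b = 2 * u b := by
  cases b <;> simp [hat] <;> ring

theorem kw_verts {F : Finset P2} (hF : SC (F : Set P2)) (u : Edge → Bool → ℝ) :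
    ∑ T ∈ (IV F).powerset, ∏ e ∈ IE F, u e (aV T e) =
      2 ^ (IV F).card / (N0 F : ℝ) *
        ∑ S ∈ F.powerset, ∏ e ∈ IE F, (hat (u e) (aF S e) / 2) := by
  have h := kw_faces hF (fun e b => hat (u e) b / 2)
  have e1 : ∀ (e : Edge) (b : Bool), hat (fun b => hat (u e) b / 2) b = u e b := by
    intro e b
    have h1 := hat_hat (u e) b
    cases b
    · simp only [hat] at h1 ⊢
      simp only [Bool.false_eq_true, if_false, if_true] at h1 ⊢
      linarith
    · simp only [hat] at h1 ⊢
      simp only [Bool.false_eq_true, if_false, if_true] at h1 ⊢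
      linarith
  simp only [e1] at h
  rw [h, ← mul_assoc]
  have hN : (N0 F : ℝ) ≠ 0 := by exact_mod_cast (N0_pos F).ne'
  have h2 : (2 : ℝ) ^ (IV F).card ≠ 0 := by positivity
  field_simp

/-! ### The sign sum -/

/-- agreement pattern of a configuration -/
def xV (ω : Cfg) (e : Edge) : Bool := decide (ω.1 (src e) = ω.1 (tgt e))
def yF (ω : Cfg) (e : Edge) : Bool := decide (ω.2.1 (fA e) = ω.2.1 (fB e))

theorem xV_eq {F : Finset P2} {ω : Cfg} (h : Valid F ω) {e : Edge} (he : e ∈ IE F) :
    xV ω e = aV (tm F ω) e := by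
  unfold xV aV
  rw [decide_eq_decide]
  exact agree_vert h (mem_IE.mp he).1

theorem yF_eq {F : Finset P2} {ω : Cfg} (h : Valid F ω) {e : Edge} (he : e ∈ IE F) :
    yF ω e = aF (sm F ω) e := by
  unfold yF aF
  rw [decide_eq_decide]
  exact agree_face h he

open Classical in
theorem sum_conf_prod {F : Finset P2} (hF : SC (F : Set P2)) (c : ℝ)
    (g : Edge → Bool → Bool → Bool → ℝ) :
    ∑ ω ∈ conf F, wt c F ω * ∏ e ∈ IE F, g e (xV ω e) (yF ω e) (ω.2.2 e) =
      ∑ T ∈ (IV F).powerset, ∑ S ∈ F.powerset,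
        ∏ e ∈ IE F, intz c (g e) (aV T e) (aF S e) := by
  have h1 : ∀ ω ∈ conf F, wt c F ω * ∏ e ∈ IE F, g e (xV ω e) (yF ω e) (ω.2.2 e) =
      wt c F ω * (fun T S Z => ∏ e ∈ IE F, g e (aV T e) (aF S e) (decide (e ∈ Z)))
        (tm F ω) (sm F ω) (zm F ω) := by
    intro ω hω
    have hv := mem_conf.mp hω
    congr 1
    refine Finset.prod_congr rfl fun e he => ?_
    rw [xV_eq hv he, yF_eq hv he]
    congr 1
    have : e ∈ zm F ω ↔ ω.2.2 e = true := by rw [mem_zm]; exact and_iff_right he
    rw [Bool.eq_iff_iff, decide_eq_true_iff, this]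
  rw [Finset.sum_congr rfl h1, sum_conf hF c
    (fun T S Z => ∏ e ∈ IE F, g e (aV T e) (aF S e) (decide (e ∈ Z)))]
  refine Finset.sum_congr rfl fun T _ => ?_
  rw [Finset.sum_comm]
  refine Finset.sum_congr rfl fun S _ => ?_
  have h2 : ∀ Z ∈ (IE F).powerset, (if Comp F T S Z then
      sw c F T Z * ∏ e ∈ IE F, g e (aV T e) (aF S e) (decide (e ∈ Z)) else 0) =
      (∏ e ∈ Z, (w7 c (aV T e) (aF S e) true * g e (aV T e) (aF S e) true)) *
        ∏ e ∈ IE F \ Z, (w7 c (aV T e) (aF S e) false * g e (aV T e) (aF S e) false) := by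
    intro Z hZ
    rw [Finset.mem_powerset] at hZ
    have hsplit : ∏ e ∈ IE F, (w7 c (aV T e) (aF S e) (decide (e ∈ Z)) *
        g e (aV T e) (aF S e) (decide (e ∈ Z))) =
      (∏ e ∈ Z, (w7 c (aV T e) (aF S e) true * g e (aV T e) (aF S e) true)) *
        ∏ e ∈ IE F \ Z, (w7 c (aV T e) (aF S e) false * g e (aV T e) (aF S e) false) := by
      rw [← Finset.prod_sdiff hZ, mul_comm]
      congr 1
      · exact Finset.prod_congr rfl fun e he => by rw [decide_eq_true he]
      · refine Finset.prod_congr rfl fun e he => ?_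
        rw [decide_eq_false (Finset.mem_sdiff.mp he).2]
    rw [← hsplit, Finset.prod_mul_distrib]
    by_cases hc : Comp F T S Z
    · rw [if_pos hc]
      congr 1
      unfold sw
      refine Finset.prod_congr rfl fun e he => ?_
      obtain ⟨h3, h4⟩ := hc e he
      by_cases hz : e ∈ Z
      · simp [w7, hz, aV_eq_true.2 (h3 hz)]
      · by_cases ht : (src e ∈ T ↔ tgt e ∈ T)
        · simp [w7, hz, aF_eq_true.2 (h4 hz), aV, ht]
        · simp [w7, hz, aF_eq_true.2 (h4 hz), aV, ht]
    · rw [if_neg hc]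
      unfold Comp at hc
      push Not at hc
      obtain ⟨e, he, hne⟩ := hc
      symm
      apply mul_eq_zero_of_left
      apply Finset.prod_eq_zero he
      by_cases hz : e ∈ Z
      · by_cases hx : (src e ∈ T ↔ tgt e ∈ T)
        · have := hne (fun _ => hx)
          exact absurd hz this.1
        · simp [w7, hz, aV, hx]
      · by_cases hy : (fA e ∈ S ↔ fB e ∈ S)
        · have := hne (fun h => absurd h hz)
          exfalso
          rcases this.2 with h | h
          · exact h.2 (hy.mp h.1)
          · exact h.1 (hy.mpr h.2)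
        · simp [w7, hz, aF, hy]
  rw [Finset.sum_congr rfl h2, ← Finset.prod_add]
  rfl

/-! ### Dual representations -/

/-- **Case A**: dualise the face signs. -/
theorem dualA {F : Finset P2} (hF : SC (F : Set P2)) (u : Edge → Bool → Bool → ℝ) :
    ∑ T ∈ (IV F).powerset, ∑ S ∈ F.powerset, ∏ e ∈ IE F, u e (aV T e) (aF S e) =
      (N0 F : ℝ) / 2 ^ (IV F).card * ∑ T ∈ (IV F).powerset, ∑ R ∈ (IV F).powerset,
        ∏ e ∈ IE F, hatY (u e) (aV T e) (aV R e) := by
  rw [Finset.mul_sum]
  refine Finset.sum_congr rfl fun T _ => ?_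
  exact kw_faces hF (fun e => u e (aV T e))

/-- **Case B**: dualise everything. -/
theorem dualB {F : Finset P2} (hF : SC (F : Set P2)) (u : Edge → Bool → Bool → ℝ) :
    ∑ T ∈ (IV F).powerset, ∑ S ∈ F.powerset, ∏ e ∈ IE F, u e (aV T e) (aF S e) =
      ∑ R ∈ (IV F).powerset, ∑ S ∈ F.powerset,
        ∏ e ∈ IE F, (hatX (hatY (u e)) (aF S e) (aV R e) / 2) := by
  rw [dualA hF, Finset.sum_comm, Finset.mul_sum]
  refine Finset.sum_congr rfl fun R _ => ?_
  rw [kw_verts hF (fun e b => hatY (u e) b (aV R e)), ← mul_assoc]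
  have hN : (N0 F : ℝ) ≠ 0 := by exact_mod_cast (N0_pos F).ne'
  have h2 : (2 : ℝ) ^ (IV F).card ≠ 0 := by positivity
  rw [show (N0 F : ℝ) / 2 ^ (IV F).card * (2 ^ (IV F).card / (N0 F : ℝ)) = 1 by field_simp, one_mul]
  rfl

/-- sign of the entry `(false, false)` -/
def sgn2 (x y : Bool) : ℝ := if x then 1 else if y then 1 else -1

theorem sgn2_mul_self (x y : Bool) : sgn2 x y * sgn2 x y = 1 := by
  cases x <;> cases y <;> simp [sgn2]

/-- The number of edges where both the face signs and the vertex signs disagree is even. -/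
theorem prod_sgn2 {F : Finset P2} (S R : Finset P2) (hR : R ⊆ IV F) :
    ∏ e ∈ IE F, sgn2 (aF S e) (aV R e) = 1 := by
  classical
  have h1 : ∏ e ∈ IE F, sgn2 (aF S e) (aV R e) = ∏ e ∈ dF F S, sgn2 (aF S e) (aV R e) := by
    symm
    refine Finset.prod_subset (Finset.filter_subset _ _) fun e he hne => ?_
    have : aF S e = true := by
      rw [aF_eq_true]
      by_contra h
      exact hne (mem_dF.mpr ⟨he, h⟩)
    simp [sgn2, this]
  have h2 : ∏ e ∈ dF F S, sgn2 (aF S e) (aV R e) =
      ∏ e ∈ dF F S, (sg (src e ∈ R) * sg (tgt e ∈ R)) := by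
    refine Finset.prod_congr rfl fun e he => ?_
    have : aF S e = false := by
      rw [← Bool.not_eq_true, aF_eq_true]
      exact (mem_dF.mp he).2
    rw [this]
    unfold sgn2 aV sg
    by_cases h1 : src e ∈ R <;> by_cases h2 : tgt e ∈ R <;> simp [h1, h2]
  rw [h1, h2, ← prod_dsg]
  refine Finset.prod_eq_one fun v hv => ?_
  exact ev_dF F S v (hR hv)

/-- Fully dual vertex function with the sign removed. -/
def VB (u : Bool → Bool → ℝ) (x y : Bool) : ℝ := sgn2 x y * hatX (hatY u) x y

/-- **Case B** with the signs removed. -/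
theorem dualB' {F : Finset P2} (hF : SC (F : Set P2)) (u : Edge → Bool → Bool → ℝ) :
    ∑ T ∈ (IV F).powerset, ∑ S ∈ F.powerset, ∏ e ∈ IE F, u e (aV T e) (aF S e) =
      ∑ R ∈ (IV F).powerset, ∑ S ∈ F.powerset,
        ∏ e ∈ IE F, (VB (u e) (aF S e) (aV R e) / 2) := by
  rw [dualB hF]
  refine Finset.sum_congr rfl fun R hR => Finset.sum_congr rfl fun S _ => ?_
  have h := prod_sgn2 (F := F) S R (Finset.mem_powerset.mp hR)
  calc _ = (∏ e ∈ IE F, sgn2 (aF S e) (aV R e)) *
        ∏ e ∈ IE F, (hatX (hatY (u e)) (aF S e) (aV R e) / 2) := by rw [h, one_mul]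
    _ = _ := by
        rw [← Finset.prod_mul_distrib]
        refine Finset.prod_congr rfl fun e _ => ?_
        unfold VB
        ring

/-- Case A weights. -/
theorem hatY_w6 (c : ℝ) (x y : Bool) : hatY (w6 c) x y =
    if x then (if y then c + 1 else c - 1) else 1 := by
  cases x <;> cases y <;> simp [hatY, hat, w6]

/-- Case B weights. -/
theorem VB_w6 (c : ℝ) (x y : Bool) : VB (w6 c) x y =
    if x then (if y then 2 + c else c) else (if y then c else 2 - c) := by
  cases x <;> cases y <;> simp [VB, hatX, hatY, hat, w6, sgn2] <;> ring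

end Crest.Agent.R161.Gd341
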