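import Crest.Agent.R161.Gd1_341
import Crest.Agent.R161.Dmp2_341

/-!
# Row 161, GKS route, part 2 (helper341): from product observables to `IsState`

A local gradient observable, symmetrised by the global flip `(k, h) ↦ (-k, -h)`, is on configurations
satisfying the corner condition a function of the finite pattern `(x_e, y_e, z_e)_{e ∈ A}`. Hence the
convergence of all product observables `∏_{e ∈ A} g_e(x_e, y_e, z_e)` along all simply connected domains
to those of `Q` gives `IsState c Q` (`isState_of_patterns`).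
-/

set_option autoImplicit false

noncomputable section

namespace Crest.Agent.R161.Gd341

open Finset hiding box
open Crest.Agent.R161.Geo729 Crest.Agent.R161.DualB729 Crest.Agent.R161.Defs372
  Crest.Agent.R161.Marg729 MeasureTheory

/-- global flip -/
def neg (ω : Cfg) : Cfg := (fun v => - ω.1 v, fun f => - ω.2.1 f, ω.2.2)

theorem neg_neg (ω : Cfg) : neg (neg ω) = ω := by
  refine Prod.ext ?_ (Prod.ext ?_ rfl)
  · funext v; simp [neg]
  · funext f; simp [neg]

@[simp] theorem xV_neg (ω : Cfg) (e : Edge) : xV (neg ω) e = xV ω e := by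
  simp [xV, neg]
@[simp] theorem yF_neg (ω : Cfg) (e : Edge) : yF (neg ω) e = yF ω e := by
  simp [yF, neg]

/-- pattern at an edge -/
def pat (ω : Cfg) (e : Edge) : Bool × Bool × Bool := (xV ω e, yF ω e, ω.2.2 e)

theorem pat_neg (ω : Cfg) (e : Edge) : pat (neg ω) e = pat ω e := by
  simp [pat, neg]
  exact ⟨xV_neg ω e, yF_neg ω e⟩

/-- corner condition in `box (n+1)` -/
def LV (n : ℕ) (ω : Cfg) : Prop :=
  ∀ f ∈ box (n + 1), ∀ v, Geo729.IsCorner v f → |ω.1 v - ω.2.1 f| = 1

theorem LV.neg {n : ℕ} {ω : Cfg} (h : LV n ω) : LV n (neg ω) := by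
  intro f hf v hv
  have := h f hf v hv
  simp only [Gd341.neg]
  rw [show -ω.1 v - -ω.2.1 f = -(ω.1 v - ω.2.1 f) by ring, abs_neg]
  exact this

theorem mem_box {n : ℕ} {f : P2} : f ∈ box n ↔ -(n : ℤ) ≤ f.1 ∧ f.1 < n ∧ -(n : ℤ) ≤ f.2 ∧ f.2 < n := by
  simp only [box, Finset.mem_product, Finset.mem_Icc]
  omega

/-- `h f` is good -/
def GH (ω ω' : Cfg) (f : P2) : Prop := ω.2.1 f - ω.1 (0, 0) = ω'.2.1 f - ω'.1 (0, 0)
/-- `k v` is good -/
def GK (ω ω' : Cfg) (v : P2) : Prop := ω.1 v - ω.1 (0, 0) = ω'.1 v - ω'.1 (0, 0)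

theorem xV_iff {ω ω' : Cfg} {e : Edge} (h : pat ω e = pat ω' e) :
    ω.1 (src e) = ω.1 (tgt e) ↔ ω'.1 (src e) = ω'.1 (tgt e) := by
  have h1 : xV ω e = xV ω' e := congrArg Prod.fst h
  unfold xV at h1
  rwa [decide_eq_decide] at h1

theorem yF_iff {ω ω' : Cfg} {e : Edge} (h : pat ω e = pat ω' e) :
    ω.2.1 (fA e) = ω.2.1 (fB e) ↔ ω'.2.1 (fA e) = ω'.2.1 (fB e) := by
  have h1 : yF ω e = yF ω' e := congrArg (fun p => p.2.1) h
  unfold yF at h1
  rwa [decide_eq_decide] at h1

theorem int_step {a b a' b' m m' o o' : ℤ} (h1 : |a - m| = 1) (h2 : |b - m| = 1)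
    (h1' : |a' - m'| = 1) (h2' : |b' - m'| = 1) (hm : m - o = m' - o')
    (hiff : a = b ↔ a' = b') : (a - o = a' - o') ↔ (b - o = b' - o') := by
  rcases abs_eq (by norm_num : (0 : ℤ) ≤ 1) |>.1 h1 with h1 | h1 <;>
  rcases abs_eq (by norm_num : (0 : ℤ) ≤ 1) |>.1 h2 with h2 | h2 <;>
  rcases abs_eq (by norm_num : (0 : ℤ) ≤ 1) |>.1 h1' with h1' | h1' <;>
  rcases abs_eq (by norm_num : (0 : ℤ) ≤ 1) |>.1 h2' with h2' | h2' <;>
  constructor <;> intro h3 <;> by_cases h4 : a = b
  all_goals first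
    | (have h5 := hiff.1 h4; omega)
    | (have h5 : ¬ a' = b' := fun h => h4 (hiff.2 h); omega)

/-- Along an edge of a face with good height, goodness of the vertex heights propagates. -/
theorem edge_step {n : ℕ} {ω ω' : Cfg} (hω : LV n ω) (hω' : LV n ω') {e : Edge}
    (hp : pat ω e = pat ω' e) {f : P2} (hf : f ∈ box (n + 1)) (hfe : f = fA e ∨ f = fB e)
    (hg : GH ω ω' f) : GK ω ω' (src e) ↔ GK ω ω' (tgt e) := by
  have hs : Geo729.IsCorner (src e) f := by
    rcases hfe with h | h <;> rw [h]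
    · exact corner_src_fA e
    · exact corner_src_fB e
  have ht : Geo729.IsCorner (tgt e) f := by
    rcases hfe with h | h <;> rw [h]
    · exact corner_tgt_fA e
    · exact corner_tgt_fB e
  exact int_step (hω f hf _ hs) (hω f hf _ ht) (hω' f hf _ hs) (hω' f hf _ ht) hg (xV_iff hp)

/-- Across an edge with one good end, goodness of the face heights propagates. -/
theorem face_step {n : ℕ} {ω ω' : Cfg} (hω : LV n ω) (hω' : LV n ω') {e : Edge}
    (hp : pat ω e = pat ω' e) (hA : fA e ∈ box (n + 1)) (hB : fB e ∈ box (n + 1))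
    (hg : GK ω ω' (src e)) : GH ω ω' (fA e) ↔ GH ω ω' (fB e) := by
  have h1 := hω _ hA _ (corner_src_fA e)
  have h2 := hω _ hB _ (corner_src_fB e)
  have h1' := hω' _ hA _ (corner_src_fA e)
  have h2' := hω' _ hB _ (corner_src_fB e)
  rw [abs_sub_comm] at h1 h2 h1' h2'
  exact int_step h1 h2 h1' h2' hg (yF_iff hp)

/-- All corners of a face with good height are good as soon as one is. -/
theorem face_all {n : ℕ} {ω ω' : Cfg} (hω : LV n ω) (hω' : LV n ω')
    (hp : ∀ e ∈ IE (box (n + 1)), pat ω e = pat ω' e) {f : P2} (hf : f ∈ box n)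
    (hg : GH ω ω' f) {v : P2} (hv : Geo729.IsCorner v f) (hgv : GK ω ω' v) :
    ∀ w, Geo729.IsCorner w f → GK ω ω' w := by
  obtain ⟨i, j⟩ := f
  have hf1 : ((i, j) : P2) ∈ box (n + 1) := by
    rw [mem_box] at hf ⊢; push_cast; simp only at hf ⊢; omega
  have hb : GK ω ω' (i, j) ↔ GK ω ω' (i + 1, j) := by
    have he : (((i, j), false) : Edge) ∈ IE (box (n + 1)) := by
      rw [mem_IE, mem_box, mem_box]; rw [mem_box] at hf
      simp only [fA_mk, fB_h]; push_cast; simp only at hf; omega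
    have := edge_step hω hω' (hp _ he) hf1 (Or.inl rfl) hg
    simpa using this
  have hl : GK ω ω' (i, j) ↔ GK ω ω' (i, j + 1) := by
    have he : (((i, j), true) : Edge) ∈ IE (box (n + 1)) := by
      rw [mem_IE, mem_box, mem_box]; rw [mem_box] at hf
      simp only [fA_mk, fB_v]; push_cast; simp only at hf; omega
    have := edge_step hω hω' (hp _ he) hf1 (Or.inl rfl) hg
    simpa using this
  have ht : GK ω ω' (i, j + 1) ↔ GK ω ω' (i + 1, j + 1) := by
    have he : (((i, j + 1), false) : Edge) ∈ IE (box (n + 1)) := by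
      rw [mem_IE, mem_box, mem_box]; rw [mem_box] at hf
      simp only [fA_mk, fB_h]; push_cast; simp only at hf; omega
    have := edge_step hω hω' (hp _ he) hf1 (Or.inr (by simp)) hg
    simpa using this
  have hr : GK ω ω' (i + 1, j) ↔ GK ω ω' (i + 1, j + 1) := by
    have he : (((i + 1, j), true) : Edge) ∈ IE (box (n + 1)) := by
      rw [mem_IE, mem_box, mem_box]; rw [mem_box] at hf
      simp only [fA_mk, fB_v]; push_cast; simp only at hf; omega
    have := edge_step hω hω' (hp _ he) hf1 (Or.inr (by simp)) hg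
    simpa using this
  have h00 : GK ω ω' (i, j) := by
    simp only [Geo729.IsCorner] at hv
    rcases hv with h | h | h | h
    · rwa [h] at hgv
    · rw [h] at hgv; exact hb.2 hgv
    · rw [h] at hgv; exact hl.2 hgv
    · rw [h] at hgv; exact hl.2 (ht.2 hgv)
  intro w hw
  simp only [Geo729.IsCorner] at hw
  rcases hw with h | h | h | h
  · rwa [h]
  · rw [h]; exact hb.1 h00
  · rw [h]; exact hl.1 h00
  · rw [h]; exact ht.1 (hl.1 h00)

theorem adj_edge' {f g : P2} (h : Adj f g) :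
    ∃ e : Edge, (f = fA e ∧ g = fB e) ∨ (f = fB e ∧ g = fA e) := Hull374.adj_edge h

/-- Reconstruction of the normalised heights from the pattern. -/
theorem recon {n : ℕ} (hn : 1 ≤ n) {ω ω' : Cfg} (hω : LV n ω) (hω' : LV n ω')
    (hp : ∀ e ∈ IE (box (n + 1)), pat ω e = pat ω' e)
    (h0 : ω.2.1 (0, 0) - ω.1 (0, 0) = ω'.2.1 (0, 0) - ω'.1 (0, 0)) {f : P2} (hf : f ∈ box n) :
    GH ω ω' f ∧ ∀ w, Geo729.IsCorner w f → GK ω ω' w := by
  have h00 : ((0, 0) : P2) ∈ box n := by
    rw [mem_box]; simp only; omega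
  have hconn := (Dmp341.dom_box n).conn (0, 0) (Finset.mem_coe.2 h00) f (Finset.mem_coe.2 hf)
  unfold Conn at hconn
  induction hconn with
  | refl =>
    refine ⟨h0, face_all hω hω' hp h00 h0 (v := (0, 0)) (by simp [Geo729.IsCorner]) ?_⟩
    unfold GK
    ring
  | @tail a b _ hstep ih =>
    obtain ⟨ha, hb, hadj⟩ := hstep
    have ha' : a ∈ box n := Finset.mem_coe.1 ha
    have hb' : b ∈ box n := Finset.mem_coe.1 hb
    obtain ⟨iha, ihc⟩ := ih ha'
    have ha1 : a ∈ box (n + 1) := Dmp341.box_mono (Nat.le_succ n) ha'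
    have hb1 : b ∈ box (n + 1) := Dmp341.box_mono (Nat.le_succ n) hb'
    obtain ⟨e, he | he⟩ := adj_edge' hadj
    · have heI : e ∈ IE (box (n + 1)) := mem_IE.2 ⟨he.1 ▸ ha1, he.2 ▸ hb1⟩
      have hsrc : GK ω ω' (src e) := ihc _ (by rw [he.1]; exact corner_src_fA e)
      have hgb : GH ω ω' b := by
        rw [he.2]
        exact (face_step hω hω' (hp e heI) (he.1 ▸ ha1) (he.2 ▸ hb1) hsrc).1 (he.1 ▸ iha)
      exact ⟨hgb, face_all hω hω' hp hb' hgb (v := src e) (by rw [he.2]; exact corner_src_fB e) hsrc⟩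
    · have heI : e ∈ IE (box (n + 1)) := mem_IE.2 ⟨he.2 ▸ hb1, he.1 ▸ ha1⟩
      have hsrc : GK ω ω' (src e) := ihc _ (by rw [he.1]; exact corner_src_fB e)
      have hgb : GH ω ω' b := by
        rw [he.2]
        exact (face_step hω hω' (hp e heI) (he.2 ▸ hb1) (he.1 ▸ ha1) hsrc).2 (he.1 ▸ iha)
      exact ⟨hgb, face_all hω hω' hp hb' hgb (v := src e) (by rw [he.2]; exact corner_src_fA e) hsrc⟩

theorem agree_norm0 {n : ℕ} (hn : 1 ≤ n) {ω ω' : Cfg} (hω : LV n ω) (hω' : LV n ω')
    (hp : ∀ e ∈ IE (box (n + 1)), pat ω e = pat ω' e)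
    (h0 : ω.2.1 (0, 0) - ω.1 (0, 0) = ω'.2.1 (0, 0) - ω'.1 (0, 0)) :
    AgreeOn (box n : Set P2) (norm0 ω) (norm0 ω') := by
  intro v hv
  have hv' : v ∈ box n := Finset.mem_coe.1 hv
  obtain ⟨h1, h2⟩ := recon hn hω hω' hp h0 hv'
  have h3 := h2 v (by simp [Geo729.IsCorner])
  unfold GH at h1
  unfold GK at h3
  refine ⟨?_, ?_, ?_⟩
  · simp only [norm0, addH]; linarith
  · simp only [norm0, addH]; linarith
  · intro b
    have he : ((v, b) : Edge) ∈ IE (box (n + 1)) := by
      obtain ⟨i, j⟩ := v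
      rw [mem_IE, mem_box, mem_box]
      rw [mem_box] at hv'
      cases b
      · simp only [fA_mk, fB_h]; push_cast; simp only at hv'; omega
      · simp only [fA_mk, fB_v]; push_cast; simp only at hv'; omega
    exact congrArg (fun p => p.2.2) (hp _ he)

/-- symmetrised observable -/
def symO (f : Cfg → ℝ) (ω : Cfg) : ℝ := (f (norm0 ω) + f (norm0 (neg ω))) / 2

/-- The symmetrised observable is a function of the pattern. -/
theorem symO_congr {n : ℕ} (hn : 1 ≤ n) {f : Cfg → ℝ} (hf : Loc (box n : Set P2) f) {ω ω' : Cfg}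
    (hω : LV n ω) (hω' : LV n ω') (hp : ∀ e ∈ IE (box (n + 1)), pat ω e = pat ω' e) :
    symO f ω = symO f ω' := by
  have h00 : ((0, 0) : P2) ∈ box (n + 1) := by
    rw [mem_box]; simp only; push_cast; omega
  have h1 := hω (0, 0) h00 (0, 0) (by simp [Geo729.IsCorner])
  have h1' := hω' (0, 0) h00 (0, 0) (by simp [Geo729.IsCorner])
  by_cases h0 : ω.2.1 (0, 0) - ω.1 (0, 0) = ω'.2.1 (0, 0) - ω'.1 (0, 0)
  · have e1 := hf _ _ (agree_norm0 hn hω hω' hp h0)
    have e2 := hf _ _ (agree_norm0 hn hω.neg hω'.neg (fun e he => by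
      rw [pat_neg, pat_neg]; exact hp e he) (by simp only [neg]; linarith))
    unfold symO
    rw [e1, e2]
  · have h2 : ω.2.1 (0, 0) - ω.1 (0, 0) = -(ω'.2.1 (0, 0) - ω'.1 (0, 0)) := by
      rcases abs_eq (by norm_num : (0 : ℤ) ≤ 1) |>.1 h1 with h1 | h1 <;>
      rcases abs_eq (by norm_num : (0 : ℤ) ≤ 1) |>.1 h1' with h1' | h1' <;> omega
    have e1 := hf _ _ (agree_norm0 hn hω hω'.neg (fun e he => by
      rw [pat_neg]; exact hp e he) (by simp only [neg]; linarith))
    have e2 := hf _ _ (agree_norm0 hn hω.neg hω' (fun e he => by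
      rw [pat_neg]; exact hp e he) (by simp only [neg]; linarith))
    unfold symO
    rw [e1, e2]
    ring

/-! ### Expansion over patterns -/

/-- product observable -/
def PO (A : Finset Edge) (g : Edge → Bool → Bool → Bool → ℝ) (ω : Cfg) : ℝ :=
  ∏ e ∈ A, g e (xV ω e) (yF ω e) (ω.2.2 e)

open Classical in
/-- value of the observable on a pattern -/
def pval (n : ℕ) (f : Cfg → ℝ) (π : ↥(IE (box (n + 1))) → Bool × Bool × Bool) : ℝ :=
  if h : ∃ ω : Cfg, LV n ω ∧ ∀ e : ↥(IE (box (n + 1))), pat ω e = π e then symO f h.choose else 0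

open Classical in
/-- indicator vertex functions of a pattern -/
def pind (n : ℕ) (π : ↥(IE (box (n + 1))) → Bool × Bool × Bool) (e : Edge) (x y z : Bool) : ℝ :=
  if h : e ∈ IE (box (n + 1)) then (if (x, y, z) = π ⟨e, h⟩ then 1 else 0) else 1

open Classical in
theorem symO_expand {n : ℕ} (hn : 1 ≤ n) {f : Cfg → ℝ} (hf : Loc (box n : Set P2) f) {ω : Cfg}
    (hω : LV n ω) : symO f ω = ∑ π, pval n f π * PO (IE (box (n + 1))) (pind n π) ω := by
  set π₀ : ↥(IE (box (n + 1))) → Bool × Bool × Bool := fun e => pat ω e with hπ₀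
  rw [Finset.sum_eq_single π₀]
  · have h1 : PO (IE (box (n + 1))) (pind n π₀) ω = 1 := by
      refine Finset.prod_eq_one fun e he => ?_
      unfold pind
      rw [dif_pos he, if_pos]
      rfl
    have hex : ∃ ω : Cfg, LV n ω ∧ ∀ e : ↥(IE (box (n + 1))), pat ω e = π₀ e :=
      ⟨ω, hω, fun e => rfl⟩
    have h2 : pval n f π₀ = symO f ω := by
      unfold pval
      rw [dif_pos hex]
      refine symO_congr hn hf hex.choose_spec.1 hω fun e he => ?_
      exact hex.choose_spec.2 ⟨e, he⟩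
    rw [h1, h2, mul_one]
  · intro π _ hπ
    have : ∃ e : ↥(IE (box (n + 1))), π e ≠ π₀ e := by
      by_contra hcon
      push Not at hcon
      exact hπ (funext hcon)
    obtain ⟨e, he⟩ := this
    have h0 : PO (IE (box (n + 1))) (pind n π) ω = 0 := by
      refine Finset.prod_eq_zero e.2 ?_
      unfold pind
      rw [dif_pos e.2, if_neg]
      intro h
      exact he h.symm
    rw [h0, mul_zero]
  · intro h
    exact absurd (Finset.mem_univ _) h

theorem lv_of_valid {n : ℕ} {F : Finset P2} (hF : box (n + 1) ⊆ F) {ω : Cfg} (h : Valid F ω) :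
    LV n ω := fun f hf v hv => h.corner f (hF hf) v hv

theorem lv_of_gvalid {n : ℕ} {ω : Cfg} (h : GValid ω) : LV n ω := fun f _ v hv => h.corner f v hv

/-- flip symmetry in finite volume -/
theorem E_neg_norm0 (c : ℝ) {n : ℕ} {F : Finset P2} (hF : box n ⊆ F) {f : Cfg → ℝ}
    (hf : Loc (box n : Set P2) f) :
    E c F (fun ω => f (norm0 (neg ω))) = E c F (fun ω => f (norm0 ω)) := by
  rw [← Dmp341.E_neg c F (fun ω => f (norm0 ω))]
  refine E_congr fun ω _ => hf _ _ fun v hv => ?_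
  have hv' : v ∈ F := hF (Finset.mem_coe.1 hv)
  refine ⟨?_, ?_, fun b => rfl⟩
  · simp [norm0, addH, neg, Dmp341.negC]
  · simp [norm0, addH, neg, Dmp341.negC, hv']

theorem E_symO (c : ℝ) {n : ℕ} {F : Finset P2} (hF : box n ⊆ F) {f : Cfg → ℝ}
    (hf : Loc (box n : Set P2) f) :
    E c F (symO f) = E c F (fun ω => f (norm0 ω)) := by
  have h : symO f = fun ω => (1 / 2 : ℝ) * (f (norm0 ω) + f (norm0 (neg ω))) := by
    funext ω; unfold symO; ring
  rw [h, E_smul, E_add, E_neg_norm0 c hF hf]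
  ring

open Classical in
/-- **Reduction of `IsState` to product observables.** -/
theorem isState_of_patterns {c : ℝ} {Q : Measure Cfg} (hprob : IsProbabilityMeasure Q)
    (hvalid : ∀ᵐ ω ∂Q, GValid ω)
    (hflip : ∀ (n : ℕ) (f : Cfg → ℝ), Loc (box n : Set P2) f →
      ∫ ω, symO f ω ∂Q = ∫ ω, f ω ∂Q)
    (hint : ∀ (A : Finset Edge) (g : Edge → Bool → Bool → Bool → ℝ), Integrable (PO A g) Q)
    (hlim : ∀ (A : Finset Edge) (g : Edge → Bool → Bool → Bool → ℝ) (ε : ℝ), 0 < ε → ∃ n : ℕ,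
      ∀ F : Finset P2, Dom F → box n ⊆ F → |E c F (PO A g) - ∫ ω, PO A g ω ∂Q| < ε) :
    IsState c Q where
  prob := hprob
  valid := hvalid
  lim := by
    intro S f hf ε hε
    obtain ⟨n0, hn0⟩ := Dmp341.exists_box S
    set n := n0 + 1 with hn
    have hSn : (S : Set P2) ⊆ (box n : Set P2) := by
      intro v hv
      exact Finset.mem_coe.2 (Dmp341.box_mono (Nat.le_succ n0) (hn0 (Finset.mem_coe.1 hv)))
    have hfn : Loc (box n : Set P2) f := fun ω ω' h => hf ω ω' fun v hv => h v (hSn hv)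
    have hn1 : 1 ≤ n := by omega
    set A := IE (box (n + 1)) with hA
    -- constants
    set C : ℝ := 1 + ∑ π : ↥(IE (box (n + 1))) → Bool × Bool × Bool, |pval n f π| with hC
    have hCpos : 0 < C := by
      have : 0 ≤ ∑ π : ↥(IE (box (n + 1))) → Bool × Bool × Bool, |pval n f π| :=
        Finset.sum_nonneg fun _ _ => abs_nonneg _
      linarith
    choose N hN using fun π : ↥(IE (box (n + 1))) → Bool × Bool × Bool =>
      hlim A (pind n π) (ε / C) (div_pos hε hCpos)
    refine ⟨max (n + 1) (Finset.univ.sup N), fun F hF hFn => ?_⟩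
    have hF1 : box (n + 1) ⊆ F := (Dmp341.box_mono (le_max_left _ _)).trans hFn
    have hF0 : box n ⊆ F := (Dmp341.box_mono (Nat.le_succ n)).trans hF1
    -- finite volume expansion
    have e1 : E c F (fun ω => f (norm0 ω)) = ∑ π, pval n f π * E c F (PO A (pind n π)) := by
      rw [← E_symO c hF0 hfn]
      rw [E_congr (g := fun ω => ∑ π, pval n f π * PO A (pind n π) ω)
        fun ω hω => symO_expand hn1 hfn (lv_of_valid hF1 hω), E_sum]
      exact Finset.sum_congr rfl fun π _ => E_smul c F _ _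
    have e2 : ∫ ω, f ω ∂Q = ∑ π, pval n f π * ∫ ω, PO A (pind n π) ω ∂Q := by
      rw [← hflip n f hfn]
      have : ∀ᵐ ω ∂Q, symO f ω = ∑ π, pval n f π * PO A (pind n π) ω := by
        filter_upwards [hvalid] with ω hω
        exact symO_expand hn1 hfn (lv_of_gvalid hω)
      rw [integral_congr_ae this, integral_finsetSum _ fun π _ => (hint _ _).const_mul _]
      exact Finset.sum_congr rfl fun π _ => integral_const_mul _ _
    rw [e1, e2, ← Finset.sum_sub_distrib]
    calc |∑ π, (pval n f π * E c F (PO A (pind n π)) - pval n f π * ∫ ω, PO A (pind n π) ω ∂Q)|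
        ≤ ∑ π, |pval n f π| * (ε / C) := by
          refine (Finset.abs_sum_le_sum_abs _ _).trans (Finset.sum_le_sum fun π _ => ?_)
          rw [← mul_sub, abs_mul]
          refine mul_le_mul_of_nonneg_left (hN π F hF ?_).le (abs_nonneg _)
          refine (Dmp341.box_mono ?_).trans hFn
          exact (Finset.le_sup (Finset.mem_univ π)).trans (le_max_right _ _)
      _ = (∑ π, |pval n f π|) * (ε / C) := by rw [Finset.sum_mul]
      _ < C * (ε / C) := by
          refine mul_lt_mul_of_pos_right ?_ (div_pos hε hCpos)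
          rw [hC]; linarith
      _ = ε := by field_simp

end Crest.Agent.R161.Gd341
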