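import Mathlib

/-!
# Griffiths inequalities on `(ι → ℤˣ)` for "ferromagnetic" weights (helper375, R161 STEP 1)

`Pos f`    : `f` is a nonnegative combination of characters `χ_S(σ) = ∏_{i∈S} σ_i`.
`Ferro w`  : `w` is `Pos` and for every `ρ`, `σ ↦ w σ * w (σ ρ)` is `Pos`.
`gks2`     : `(∑ w f) (∑ w g) ≤ (∑ w) (∑ w f g)`.
-/

set_option autoImplicit false
set_option linter.unusedSectionVars false
set_option linter.unnecessarySeqFocus false
set_option linter.unusedVariables false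

open Finset

namespace Crest.Agent.R161.Gks375

variable {ι : Type*} [Fintype ι] [DecidableEq ι]

/-- The character `χ_S`. -/
def chi (S : Finset ι) (σ : ι → ℤˣ) : ℝ := ∏ i ∈ S, ((σ i : ℤ) : ℝ)

lemma chi_empty (σ : ι → ℤˣ) : chi (∅ : Finset ι) σ = 1 := by simp [chi]

omit [Fintype ι] in
lemma unit_sq (u : ℤˣ) : ((u : ℤ) : ℝ) * ((u : ℤ) : ℝ) = 1 := by
  rcases Int.units_eq_one_or u with h | h <;> simp [h]

lemma chi_mul_arg (S : Finset ι) (σ ρ : ι → ℤˣ) : chi S (σ * ρ) = chi S σ * chi S ρ := by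
  simp [chi, Finset.prod_mul_distrib]

lemma chi_mul_self (S : Finset ι) (σ : ι → ℤˣ) : chi S σ * chi S σ = 1 := by
  unfold chi
  rw [← Finset.prod_mul_distrib]
  exact Finset.prod_eq_one fun i _ => unit_sq (σ i)

lemma chi_eq_one_or (S : Finset ι) (σ : ι → ℤˣ) : chi S σ = 1 ∨ chi S σ = -1 := by
  have h := chi_mul_self S σ
  exact mul_self_eq_one_iff.mp h

lemma chi_le_one (S : Finset ι) (σ : ι → ℤˣ) : chi S σ ≤ 1 := by
  rcases chi_eq_one_or S σ with h | h <;> rw [h] <;> norm_num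

lemma neg_one_le_chi (S : Finset ι) (σ : ι → ℤˣ) : -1 ≤ chi S σ := by
  rcases chi_eq_one_or S σ with h | h <;> rw [h] <;> norm_num

lemma chi_mul_chi (S T : Finset ι) (σ : ι → ℤˣ) : chi S σ * chi T σ = chi (symmDiff S T) σ := by
  have hS : chi S σ = chi (S \ T) σ * chi (S ∩ T) σ := by
    unfold chi
    rw [← Finset.prod_union (Finset.disjoint_sdiff_inter S T), Finset.sdiff_union_inter]
  have hT : chi T σ = chi (T \ S) σ * chi (S ∩ T) σ := by
    unfold chi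
    rw [Finset.inter_comm, ← Finset.prod_union (Finset.disjoint_sdiff_inter T S),
      Finset.sdiff_union_inter]
  have hd : chi (symmDiff S T) σ = chi (S \ T) σ * chi (T \ S) σ := by
    unfold chi
    rw [← Finset.prod_union]
    · rfl
    · exact disjoint_sdiff_sdiff
  rw [hS, hT, hd]
  have := chi_mul_self (S ∩ T) σ
  calc _ = chi (S \ T) σ * chi (T \ S) σ * (chi (S ∩ T) σ * chi (S ∩ T) σ) := by ring
    _ = _ := by rw [this, mul_one]

lemma sum_chi_of_nonempty (S : Finset ι) (hS : S.Nonempty) : ∑ σ : ι → ℤˣ, chi S σ = 0 := by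
  obtain ⟨i, hi⟩ := hS
  set ρ : ι → ℤˣ := Function.update 1 i (-1) with hρ
  have h1 : chi S ρ = -1 := by
    unfold chi
    rw [← Finset.mul_prod_erase S _ hi]
    have : ∏ x ∈ S.erase i, (((ρ x : ℤˣ) : ℤ) : ℝ) = 1 := by
      refine Finset.prod_eq_one fun x hx => ?_
      have : x ≠ i := Finset.ne_of_mem_erase hx
      simp [hρ, Function.update_of_ne this]
    rw [this]
    simp [hρ]
  have h2 : ∑ σ : ι → ℤˣ, chi S σ = ∑ σ : ι → ℤˣ, chi S (σ * ρ) :=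
    (Fintype.sum_equiv (Equiv.mulRight ρ) _ _ (fun σ => rfl)).symm
  have h3 : ∑ σ : ι → ℤˣ, chi S (σ * ρ) = -∑ σ : ι → ℤˣ, chi S σ := by
    simp_rw [chi_mul_arg, h1]
    rw [← Finset.sum_mul]; ring
  linarith

lemma sum_chi_nonneg (S : Finset ι) : 0 ≤ ∑ σ : ι → ℤˣ, chi S σ := by
  rcases S.eq_empty_or_nonempty with h | h
  · subst h
    simp only [chi_empty]
    exact Finset.sum_nonneg fun _ _ => zero_le_one
  · rw [sum_chi_of_nonempty S h]

/-- nonnegative combinations of characters -/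
def Pos (f : (ι → ℤˣ) → ℝ) : Prop :=
  ∃ a : Finset ι → ℝ, (∀ S, 0 ≤ a S) ∧ ∀ σ, f σ = ∑ S, a S * chi S σ

lemma Pos.congr {f g : (ι → ℤˣ) → ℝ} (hf : Pos f) (h : ∀ σ, g σ = f σ) : Pos g := by
  obtain ⟨a, ha, hfa⟩ := hf
  exact ⟨a, ha, fun σ => (h σ).trans (hfa σ)⟩

lemma Pos.zero : Pos (fun _ : ι → ℤˣ => (0 : ℝ)) := ⟨fun _ => 0, fun _ => le_rfl, by simp⟩

lemma Pos.add {f g : (ι → ℤˣ) → ℝ} (hf : Pos f) (hg : Pos g) : Pos (fun σ => f σ + g σ) := by
  obtain ⟨a, ha, hfa⟩ := hf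
  obtain ⟨b, hb, hgb⟩ := hg
  refine ⟨fun S => a S + b S, fun S => add_nonneg (ha S) (hb S), fun σ => ?_⟩
  simp [hfa, hgb, add_mul, Finset.sum_add_distrib]

lemma Pos.smul {f : (ι → ℤˣ) → ℝ} (hf : Pos f) {r : ℝ} (hr : 0 ≤ r) : Pos (fun σ => r * f σ) := by
  obtain ⟨a, ha, hfa⟩ := hf
  refine ⟨fun S => r * a S, fun S => mul_nonneg hr (ha S), fun σ => ?_⟩
  simp [hfa, Finset.mul_sum, mul_assoc]

lemma Pos.sum {κ : Type*} (s : Finset κ) {f : κ → (ι → ℤˣ) → ℝ} (hf : ∀ k ∈ s, Pos (f k)) :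
    Pos (fun σ => ∑ k ∈ s, f k σ) := by
  classical
  induction s using Finset.induction_on with
  | empty => exact Pos.zero.congr (by simp)
  | insert k s hk ih =>
    refine ((hf k (Finset.mem_insert_self k s)).add
      (ih fun j hj => hf j (Finset.mem_insert_of_mem hj))).congr fun σ => ?_
    rw [Finset.sum_insert hk]

lemma Pos.chi (S : Finset ι) : Pos (chi S) := by
  refine ⟨fun T => if T = S then 1 else 0, fun T => by dsimp only; split_ifs <;> norm_num, fun σ => ?_⟩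
  simp

lemma Pos.const {r : ℝ} (hr : 0 ≤ r) : Pos (fun _ : ι → ℤˣ => r) :=
  ((Pos.chi (∅ : Finset ι)).smul hr).congr fun σ => by simp [chi_empty]

lemma Pos.one : Pos (fun _ : ι → ℤˣ => (1 : ℝ)) := Pos.const zero_le_one

lemma Pos.mul {f g : (ι → ℤˣ) → ℝ} (hf : Pos f) (hg : Pos g) : Pos (fun σ => f σ * g σ) := by
  obtain ⟨a, ha, hfa⟩ := hf
  obtain ⟨b, hb, hgb⟩ := hg
  have h : Pos (fun σ => ∑ S : Finset ι, ∑ T : Finset ι, (a S * b T) * Gks375.chi (symmDiff S T) σ) :=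
    Pos.sum _ fun S _ => Pos.sum _ fun T _ => (Pos.chi _).smul (mul_nonneg (ha S) (hb T))
  refine h.congr fun σ => ?_
  rw [hfa, hgb, Finset.sum_mul_sum]
  refine Finset.sum_congr rfl fun S _ => Finset.sum_congr rfl fun T _ => ?_
  rw [← chi_mul_chi]; ring

lemma Pos.prod {κ : Type*} (s : Finset κ) {f : κ → (ι → ℤˣ) → ℝ} (hf : ∀ k ∈ s, Pos (f k)) :
    Pos (fun σ => ∏ k ∈ s, f k σ) := by
  classical
  induction s using Finset.induction_on with
  | empty => exact Pos.one.congr (by simp)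
  | insert k s hk ih =>
    refine ((hf k (Finset.mem_insert_self k s)).mul
      (ih fun j hj => hf j (Finset.mem_insert_of_mem hj))).congr fun σ => ?_
    rw [Finset.prod_insert hk]

lemma Pos.pow {f : (ι → ℤˣ) → ℝ} (hf : Pos f) (n : ℕ) : Pos (fun σ => f σ ^ n) := by
  induction n with
  | zero => exact Pos.one.congr (by simp)
  | succ n ih => exact (ih.mul hf).congr fun σ => by rw [pow_succ]

/-- Griffiths I. -/
lemma Pos.sum_nonneg {f : (ι → ℤˣ) → ℝ} (hf : Pos f) : 0 ≤ ∑ σ, f σ := by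
  obtain ⟨a, ha, hfa⟩ := hf
  simp_rw [hfa]
  rw [Finset.sum_comm]
  refine Finset.sum_nonneg fun S _ => ?_
  rw [← Finset.mul_sum]
  exact mul_nonneg (ha S) (sum_chi_nonneg S)

lemma Pos.apply_one_nonneg {f : (ι → ℤˣ) → ℝ} (hf : Pos f) : 0 ≤ f 1 := by
  obtain ⟨a, ha, hfa⟩ := hf
  rw [hfa]
  refine Finset.sum_nonneg fun S _ => mul_nonneg (ha S) ?_
  simp [Gks375.chi]

lemma Pos.le_apply_one {f : (ι → ℤˣ) → ℝ} (hf : Pos f) (σ : ι → ℤˣ) : f σ ≤ f 1 := by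
  obtain ⟨a, ha, hfa⟩ := hf
  rw [hfa, hfa]
  refine Finset.sum_le_sum fun S _ => mul_le_mul_of_nonneg_left ?_ (ha S)
  have : Gks375.chi S (1 : ι → ℤˣ) = 1 := by simp [Gks375.chi]
  rw [this]
  exact chi_le_one S σ

/-- ferromagnetic weights -/
def Ferro (w : (ι → ℤˣ) → ℝ) : Prop :=
  Pos w ∧ ∀ ρ : ι → ℤˣ, Pos (fun σ => w σ * w (σ * ρ))

lemma Ferro.pos {w : (ι → ℤˣ) → ℝ} (hw : Ferro w) : Pos w := hw.1

lemma Ferro.congr {w u : (ι → ℤˣ) → ℝ} (hw : Ferro w) (h : ∀ σ, u σ = w σ) : Ferro u :=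
  ⟨hw.1.congr h, fun ρ => (hw.2 ρ).congr fun σ => by rw [h, h]⟩

lemma Ferro.const {r : ℝ} (hr : 0 ≤ r) : Ferro (fun _ : ι → ℤˣ => r) :=
  ⟨Pos.const hr, fun _ => Pos.const (mul_nonneg hr hr)⟩

lemma Ferro.one : Ferro (fun _ : ι → ℤˣ => (1 : ℝ)) := Ferro.const zero_le_one

lemma Ferro.mul {w u : (ι → ℤˣ) → ℝ} (hw : Ferro w) (hu : Ferro u) :
    Ferro (fun σ => w σ * u σ) :=
  ⟨hw.1.mul hu.1, fun ρ => ((hw.2 ρ).mul (hu.2 ρ)).congr fun σ => by ring⟩

lemma Ferro.prod {κ : Type*} (s : Finset κ) {f : κ → (ι → ℤˣ) → ℝ} (hf : ∀ k ∈ s, Ferro (f k)) :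
    Ferro (fun σ => ∏ k ∈ s, f k σ) := by
  classical
  induction s using Finset.induction_on with
  | empty => exact Ferro.one.congr (by simp)
  | insert k s hk ih =>
    refine ((hf k (Finset.mem_insert_self k s)).mul
      (ih fun j hj => hf j (Finset.mem_insert_of_mem hj))).congr fun σ => ?_
    rw [Finset.prod_insert hk]

/-- `a + b χ_S` with `a ≥ b ≥ 0` is ferromagnetic -/
lemma Ferro.affine {a b : ℝ} (hb : 0 ≤ b) (hab : b ≤ a) (S : Finset ι) :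
    Ferro (fun σ => a + b * chi S σ) := by
  have ha : 0 ≤ a := hb.trans hab
  refine ⟨(Pos.const ha).add ((Pos.chi S).smul hb), fun ρ => ?_⟩
  have h1 : 0 ≤ a ^ 2 + b ^ 2 * chi S ρ := by
    have := neg_one_le_chi S ρ
    have hb2 : 0 ≤ b ^ 2 := sq_nonneg b
    nlinarith
  have h2 : 0 ≤ a * b * (1 + chi S ρ) :=
    mul_nonneg (mul_nonneg ha hb) (by linarith [neg_one_le_chi S ρ])
  refine ((Pos.const h1).add ((Pos.chi S).smul h2)).congr fun σ => ?_
  simp only [chi_mul_arg]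
  have := chi_mul_self S σ
  linear_combination (b ^ 2 * chi S ρ) * this

/-- the weight `c^{[σ_i = σ_j]}`, `c ≥ 1` (also `i = j` allowed) -/
lemma Ferro.pair {c : ℝ} (hc : 1 ≤ c) (i j : ι) :
    Ferro (fun σ : ι → ℤˣ => if σ i = σ j then c else 1) := by
  by_cases hij : i = j
  · subst hij
    exact (Ferro.const (by linarith : (0:ℝ) ≤ c)).congr fun σ => by simp
  · refine (Ferro.affine (a := (c + 1) / 2) (b := (c - 1) / 2) (by linarith) (by linarith)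
      {i, j}).congr fun σ => ?_
    have : chi {i, j} σ = ((σ i : ℤ) : ℝ) * ((σ j : ℤ) : ℝ) := by
      simp [chi, Finset.prod_pair hij]
    rw [this]
    rcases Int.units_eq_one_or (σ i) with h1 | h1 <;>
      rcases Int.units_eq_one_or (σ j) with h2 | h2 <;> simp [h1, h2] <;> ring

/-- the weight `1{σ_i = σ_j}` -/
lemma Ferro.eqInd (i j : ι) :
    Ferro (fun σ : ι → ℤˣ => if σ i = σ j then (1 : ℝ) else 0) := by
  by_cases hij : i = j
  · subst hij
    exact (Ferro.const (by norm_num : (0:ℝ) ≤ 1)).congr fun σ => by simp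
  · refine (Ferro.affine (a := 1 / 2) (b := 1 / 2) (by norm_num) (by norm_num)
      {i, j}).congr fun σ => ?_
    have : chi {i, j} σ = ((σ i : ℤ) : ℝ) * ((σ j : ℤ) : ℝ) := by
      simp [chi, Finset.prod_pair hij]
    rw [this]
    rcases Int.units_eq_one_or (σ i) with h1 | h1 <;>
      rcases Int.units_eq_one_or (σ j) with h2 | h2 <;> simp [h1, h2] <;> norm_num

/-- the weight `1{σ_i = +}` -/
lemma Ferro.plus (i : ι) :
    Ferro (fun σ : ι → ℤˣ => if σ i = 1 then (1 : ℝ) else 0) := by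
  refine (Ferro.affine (a := 1 / 2) (b := 1 / 2) (by norm_num) (by norm_num)
      {i}).congr fun σ => ?_
  rcases Int.units_eq_one_or (σ i) with h1 | h1 <;> simp [chi, h1] <;> norm_num

lemma Pos.spin (i : ι) : Pos (fun σ : ι → ℤˣ => ((σ i : ℤ) : ℝ)) :=
  (Pos.chi {i}).congr fun σ => by simp [Gks375.chi]

/-- Griffiths II. -/
theorem gks2 {w f g : (ι → ℤˣ) → ℝ} (hw : Ferro w) (hf : Pos f) (hg : Pos g) :
    (∑ σ, w σ * f σ) * (∑ σ, w σ * g σ) ≤ (∑ σ, w σ) * ∑ σ, w σ * (f σ * g σ) := by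
  have key : (∑ σ, w σ) * (∑ σ, w σ * (f σ * g σ)) - (∑ σ, w σ * f σ) * (∑ σ, w σ * g σ)
      = ∑ ρ : ι → ℤˣ, ∑ σ : ι → ℤˣ, (w σ * w (σ * ρ)) * ((f σ - f (σ * ρ)) * g σ) := by
    have e1 : ∑ ρ : ι → ℤˣ, ∑ σ : ι → ℤˣ, (w σ * w (σ * ρ)) * ((f σ - f (σ * ρ)) * g σ)
        = ∑ σ : ι → ℤˣ, ∑ τ : ι → ℤˣ, (w σ * w τ) * ((f σ - f τ) * g σ) := by
      rw [Finset.sum_comm]
      refine Finset.sum_congr rfl fun σ _ => ?_
      exact Fintype.sum_equiv (Equiv.mulLeft σ) _ _ (fun ρ => rfl)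
    rw [e1]
    have e2 : (∑ σ, w σ) * (∑ σ, w σ * (f σ * g σ)) =
        ∑ σ : ι → ℤˣ, ∑ τ : ι → ℤˣ, (w σ * w τ) * (f σ * g σ) := by
      rw [mul_comm, Finset.sum_mul_sum]
      refine Finset.sum_congr rfl fun σ _ => Finset.sum_congr rfl fun τ _ => by ring
    have e3 : (∑ σ, w σ * f σ) * (∑ σ, w σ * g σ) =
        ∑ σ : ι → ℤˣ, ∑ τ : ι → ℤˣ, (w σ * w τ) * (f τ * g σ) := by
      rw [mul_comm, Finset.sum_mul_sum]
      refine Finset.sum_congr rfl fun σ _ => Finset.sum_congr rfl fun τ _ => by ring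
    rw [e2, e3, ← Finset.sum_sub_distrib]
    refine Finset.sum_congr rfl fun σ _ => ?_
    rw [← Finset.sum_sub_distrib]
    refine Finset.sum_congr rfl fun τ _ => by ring
  have hnn : 0 ≤ ∑ ρ : ι → ℤˣ, ∑ σ : ι → ℤˣ, (w σ * w (σ * ρ)) * ((f σ - f (σ * ρ)) * g σ) := by
    refine Finset.sum_nonneg fun ρ _ => ?_
    refine Pos.sum_nonneg ((hw.2 ρ).mul (Pos.mul ?_ hg))
    obtain ⟨a, ha, hfa⟩ := hf
    have h : Pos (fun σ => ∑ S : Finset ι, (a S * (1 - chi S ρ)) * chi S σ) :=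
      Pos.sum _ fun S _ => (Pos.chi S).smul (mul_nonneg (ha S) (by linarith [chi_le_one S ρ]))
    refine h.congr fun σ => ?_
    rw [hfa, hfa, ← Finset.sum_sub_distrib]
    refine Finset.sum_congr rfl fun S _ => ?_
    rw [chi_mul_arg]; ring
  linarith

end Crest.Agent.R161.Gks375
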