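import Crest.Agent.R161.Asm2_695

/-!
# Row 161: forms of uniform integrability (helper792)

* `uiprop_of_phi` : the form `x² - (2/s²)(1 - cos (s x))` of uniform integrability gives `UIprop c`
-/

set_option autoImplicit false

noncomputable section

namespace Crest.Agent.R161.GlueH792

open Finset Filter Topology Metric MeasureTheory
open Crest.Agent.R161.Geo729 Crest.Agent.R161.Defs372
open Crest.ProbabilityR.AshkinTeller
open scoped ContDiff

/-- pointwise comparison -/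
theorem max_le_phi (x M : ℝ) (hM : 0 < M) :
    max (x ^ 2 - M ^ 2) 0 ≤ x ^ 2 - 2 / (2 / M) ^ 2 * (1 - Real.cos (2 / M * x)) := by
  have h1 : 1 - Real.cos (2 / M * x) ≤ 2 := by linarith [Real.neg_one_le_cos (2 / M * x)]
  have h2 : 1 - Real.cos (2 / M * x) ≤ (2 / M * x) ^ 2 / 2 := by
    linarith [Real.one_sub_sq_div_two_le_cos (x := 2 / M * x)]
  have h3 : 2 / (2 / M) ^ 2 = M ^ 2 / 2 := by field_simp
  rw [h3]
  refine max_le ?_ ?_
  · nlinarith [sq_nonneg M]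
  · have h4 : M ^ 2 / 2 * (1 - Real.cos (2 / M * x)) ≤ M ^ 2 / 2 * ((2 / M * x) ^ 2 / 2) :=
      mul_le_mul_of_nonneg_left h2 (by positivity)
    have h5 : M ^ 2 / 2 * ((2 / M * x) ^ 2 / 2) = x ^ 2 := by field_simp
    linarith

/-- The `Φ_s` form of uniform integrability. -/
def UIphi (c : ℝ) : Prop := ∀ R : ℝ, 0 < R → ∀ ψ : ℂ → ℝ, ContDiff ℝ ∞ ψ →
  HasCompactSupport ψ → (∀ z, 0 ≤ ψ z) → tsupport ψ ⊆ ball (0 : ℂ) R →
    ∃ C : ℝ, ∀ s : ℝ, 0 < s → ∀ᶠ δ : ℝ in 𝓝[>] 0, ∀ D : Finset P2, Dom D →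
      D ⊆ Asm695.disc δ R →
        E c D (fun u => Asm695.X δ D ψ u ^ 2)
          - 2 / s ^ 2 * (1 - E c D (fun u => Real.cos (s * Asm695.X δ D ψ u))) ≤ C * s ^ 2

theorem uiprop_of_phi {c : ℝ} (hc : 1 ≤ c) (h : UIphi c) : Asm695.UIprop c := by
  intro R hR ψ h1 h2 h3 h4 ε hε
  obtain ⟨C, hC⟩ := h R hR ψ h1 h2 h3 h4
  -- choose `M` with `C (2/M)² ≤ ε`
  set M : ℝ := 2 * Real.sqrt (|C| / ε) + 1 with hMdef
  have hM : 0 < M := by positivity
  have hCM : C * (2 / M) ^ 2 ≤ ε := by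
    have h5 : 2 * Real.sqrt (|C| / ε) ≤ M := by rw [hMdef]; linarith
    have h6 : 4 * (|C| / ε) ≤ M ^ 2 := by
      have := pow_le_pow_left₀ (by positivity) h5 2
      rw [mul_pow, Real.sq_sqrt (by positivity)] at this
      linarith
    have h7 : C * (2 / M) ^ 2 ≤ |C| * (2 / M) ^ 2 :=
      mul_le_mul_of_nonneg_right (le_abs_self C) (by positivity)
    refine h7.trans ?_
    rw [div_pow, mul_div_assoc', div_le_iff₀ (by positivity)]
    have h8 : 4 * |C| ≤ M ^ 2 * ε := by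
      have := mul_le_mul_of_nonneg_right h6 hε.le
      rwa [mul_assoc, div_mul_cancel₀ _ hε.ne'] at this
    nlinarith
  refine ⟨M, hM, ?_⟩
  filter_upwards [hC (2 / M) (by positivity)] with δ hδ D hD hDd
  have h9 := hδ D hD hDd
  refine le_trans ?_ (h9.trans hCM)
  have h10 : E c D (fun u => Asm695.X δ D ψ u ^ 2)
      - 2 / (2 / M) ^ 2 * (1 - E c D (fun u => Real.cos (2 / M * Asm695.X δ D ψ u)))
      = E c D (fun u => Asm695.X δ D ψ u ^ 2
        - 2 / (2 / M) ^ 2 * (1 - Real.cos (2 / M * Asm695.X δ D ψ u))) := by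
    rw [E_sub, E_smul, E_sub, E_const hc]
  rw [h10]
  exact E_mono hc fun u _ => max_le_phi _ M hM

end Crest.Agent.R161.GlueH792
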