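import Crest.Agent.R161.Green2_722

/-!
# R161 (S0242): Dirichlet potentials in a disc and their smooth approximations (helper722), part 3
-/

set_option autoImplicit false

open MeasureTheory Metric Set Filter Topology Laplacian InnerProductSpace
open scoped ComplexConjugate ContDiff

namespace Crest.Agent.R161.Green722

noncomputable section

local notation "E2" => EuclideanSpace ℝ (Fin 2)

/-! ### chain and product rules in `ℂ` -/

theorem fderiv_pull {f : ℂ → ℝ} {z : ℂ} (hf : DifferentiableAt ℝ f z) (v : E2) :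
    fderiv ℝ (fun y : E2 => f (eC.symm y)) (eC z) v = fderiv ℝ f z (eC.symm v) := by
  have h1 : HasFDerivAt (fun y : E2 => f (eC.symm y))
      ((fderiv ℝ f z).comp (eC.symm.toContinuousLinearEquiv : E2 →L[ℝ] ℂ)) (eC z) := by
    have h2 : HasFDerivAt (fun y : E2 => (eC.symm y : ℂ))
        (eC.symm.toContinuousLinearEquiv : E2 →L[ℝ] ℂ) (eC z) :=
      eC.symm.toContinuousLinearEquiv.hasFDerivAt
    have h3 : HasFDerivAt f (fderiv ℝ f z) (eC.symm (eC z)) := by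
      simpa using hf.hasFDerivAt
    exact h3.comp (eC z) h2
  rw [h1.fderiv]
  rfl

theorem contDiffAt_pull {f : ℂ → ℝ} {z : ℂ} (hf : ContDiffAt ℝ 2 f z) :
    ContDiffAt ℝ 2 (fun y : E2 => f (eC.symm y)) (eC z) := by
  have h3 : ContDiffAt ℝ 2 f (eC.symm (eC z)) := by simpa using hf
  exact h3.comp (eC z) eC.symm.toContinuousLinearEquiv.contDiff.contDiffAt

theorem lapC_mul_le {f g : ℂ → ℝ} {z : ℂ} (hf : ContDiffAt ℝ 2 f z) (hg : ContDiffAt ℝ 2 g z) :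
    |(Δ (fun y => f y * g y)) z - ((Δ f) z * g z + f z * (Δ g) z)| ≤
      4 * (‖fderiv ℝ f z‖ * ‖fderiv ℝ g z‖) := by
  rw [lap_eC, lap_eC f, lap_eC g]
  have h1 := Crest.Agent.R097.Hm.lap_mul (contDiffAt_pull hf) (contDiffAt_pull hg)
  rw [h1]
  simp only [LinearIsometryEquiv.symm_apply_apply]
  have h2 : ∀ i : Fin 2, |fderiv ℝ (fun y : E2 => f (eC.symm y)) (eC z)
      (Crest.Agent.R097.bv i) * fderiv ℝ (fun y : E2 => g (eC.symm y)) (eC z)
      (Crest.Agent.R097.bv i)| ≤ ‖fderiv ℝ f z‖ * ‖fderiv ℝ g z‖ := by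
    intro i
    rw [fderiv_pull (hf.differentiableAt (by norm_num)), fderiv_pull
      (hg.differentiableAt (by norm_num)), abs_mul]
    have hb : ‖eC.symm (Crest.Agent.R097.bv i)‖ = 1 := by
      rw [LinearIsometryEquiv.norm_map]
      simp [Crest.Agent.R097.bv]
    have h3 := (fderiv ℝ f z).le_opNorm (eC.symm (Crest.Agent.R097.bv i))
    have h4 := (fderiv ℝ g z).le_opNorm (eC.symm (Crest.Agent.R097.bv i))
    rw [hb, mul_one, Real.norm_eq_abs] at h3 h4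
    exact mul_le_mul h3 h4 (abs_nonneg _) (norm_nonneg _)
  rw [Fin.sum_univ_two]
  have h0 := h2 0
  have h1' := h2 1
  rw [abs_le] at h0 h1' ⊢
  constructor <;> linarith [h0.1, h0.2, h1'.1, h1'.2]

theorem lapC_comp {φ : ℝ → ℝ} {q : ℂ → ℝ} {z : ℂ} (hφ : ContDiffAt ℝ 2 φ (q z))
    (hq : ContDiffAt ℝ 2 q z) :
    (Δ (fun y => φ (q y))) z
      = deriv (deriv φ) (q z) * ‖fderiv ℝ q z‖ ^ 2 + deriv φ (q z) * (Δ q) z := by
  rw [lap_eC, lap_eC q]
  have hφ' : ContDiffAt ℝ 2 φ ((fun y : E2 => q (eC.symm y)) (eC z)) := by simpa using hφ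
  have h1 := Crest.Agent.R097.Hm.lap_comp hφ' (contDiffAt_pull hq)
  rw [h1]
  simp only [LinearIsometryEquiv.symm_apply_apply]
  have h2 : ‖fderiv ℝ (fun y : E2 => q (eC.symm y)) (eC z)‖ = ‖fderiv ℝ q z‖ := by
    have h3 : fderiv ℝ (fun y : E2 => q (eC.symm y)) (eC z) =
        (fderiv ℝ q z).comp (eC.symm.toContinuousLinearEquiv : E2 →L[ℝ] ℂ) := by
      ext v
      rw [fderiv_pull (hq.differentiableAt (by norm_num))]
      rfl
    rw [h3]
    exact ContinuousLinearMap.opNorm_comp_linearIsometryEquiv (fderiv ℝ q z) eC.symm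
  rw [h2]

theorem lapC_normSq (z : ℂ) : (Δ (fun y : ℂ => ‖y‖ ^ 2)) z = 4 := by
  rw [lap_eC]
  have h1 : (fun y : E2 => ‖eC.symm y‖ ^ 2) = fun y => ‖y‖ ^ 2 := by
    funext y
    rw [LinearIsometryEquiv.norm_map]
  rw [h1, Crest.Agent.R097.Hm.lap_normsq]
  norm_num

/-! ### the Dirichlet potential -/

/-- Dirichlet potential of `g` in the disc of radius `ρ` -/
def U (ρ : ℝ) (g : ℂ → ℝ) (w : ℂ) : ℝ := ∫ z, G ρ w z * g z

theorem Gf_eq_U (ρ : ℝ) (f g : ℂ → ℝ) : Gf ρ f g = ∫ w, f w * U ρ g w := by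
  unfold Gf U
  congr 1
  funext w
  rw [← integral_const_mul]
  congr 1
  funext z
  ring

/-- holomorphic function whose real part is the regular part -/
def Fh (ρ : ℝ) (g : ℂ → ℝ) (w : ℂ) : ℂ := ∫ z, Complex.log ((ρ : ℂ) ^ 2 - w * conj z) * (g z : ℂ)

theorem re_pos {ρ r : ℝ} {w z : ℂ} (hz : ‖z‖ ≤ r) (hw : ‖w‖ * r < ρ ^ 2) :
    0 < ((ρ : ℂ) ^ 2 - w * conj z).re := by
  have h1 : (w * conj z).re ≤ ‖w‖ * r := by
    refine (Complex.re_le_norm _).trans ?_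
    rw [norm_mul, RCLike.norm_conj]
    exact mul_le_mul_of_nonneg_left hz (norm_nonneg _)
  have h2 : ((ρ : ℂ) ^ 2).re = ρ ^ 2 := by
    rw [← Complex.ofReal_pow, Complex.ofReal_re]
  rw [Complex.sub_re, h2]
  linarith

theorem measurable_Fint (ρ : ℝ) {r : ℝ} {g : ℂ → ℝ} (hg : Tst r g) (w : ℂ) :
    Measurable (fun z => Complex.log ((ρ : ℂ) ^ 2 - w * conj z) * (g z : ℂ)) := by
  have h1 : Continuous fun z : ℂ => (ρ : ℂ) ^ 2 - w * conj z := by fun_prop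
  exact (Complex.measurable_log.comp h1.measurable).mul
    (Complex.measurable_ofReal.comp hg.meas)

theorem log_bdd {ρ r t : ℝ} (ht : t * r < ρ ^ 2) (hr : 0 ≤ r) : ∃ C, ∀ w z : ℂ, ‖w‖ ≤ t →
    ‖z‖ ≤ r → ‖Complex.log ((ρ : ℂ) ^ 2 - w * conj z)‖ ≤ C := by
  have hK : IsCompact (closedBall (0 : ℂ) t ×ˢ closedBall (0 : ℂ) r) :=
    (isCompact_closedBall _ _).prod (isCompact_closedBall _ _)
  have hc : ContinuousOn (fun q : ℂ × ℂ => Complex.log ((ρ : ℂ) ^ 2 - q.1 * conj q.2))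
      (closedBall (0 : ℂ) t ×ˢ closedBall (0 : ℂ) r) := by
    refine ContinuousOn.clog (by fun_prop) ?_
    rintro ⟨w, z⟩ ⟨hw, hz⟩
    simp only [mem_closedBall, dist_zero_right] at hw hz
    refine Or.inl (re_pos hz ?_)
    exact (mul_le_mul_of_nonneg_right hw hr).trans_lt ht
  obtain ⟨C, hC⟩ := hK.exists_bound_of_continuousOn hc
  exact ⟨C, fun w z hw hz => hC (w, z) ⟨by simpa using hw, by simpa using hz⟩⟩

theorem integrable_Fint {ρ r : ℝ} (hr : 0 ≤ r) {g : ℂ → ℝ} (hg : Tst r g) {w : ℂ}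
    (hw : ‖w‖ * r < ρ ^ 2) :
    Integrable (fun z => Complex.log ((ρ : ℂ) ^ 2 - w * conj z) * (g z : ℂ)) := by
  obtain ⟨C, hC⟩ := log_bdd hw hr
  refine Integrable.mono' (hg.abs.integrable.const_mul C) (measurable_Fint ρ hg w).aestronglyMeasurable
    (Eventually.of_forall fun z => ?_)
  rw [norm_mul, Complex.norm_real, Real.norm_eq_abs]
  by_cases hz : ‖z‖ ≤ r
  · exact mul_le_mul_of_nonneg_right (hC w z le_rfl hz) (abs_nonneg _)
  · simp [hg.supp z (not_le.mp hz)]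

theorem Fh_hasDerivAt {ρ r : ℝ} (hr : 0 ≤ r) {g : ℂ → ℝ} (hg : Tst r g) {w : ℂ}
    (hw : ‖w‖ * r < ρ ^ 2) : DifferentiableAt ℂ (Fh ρ g) w := by
  obtain ⟨t, hwt, ht⟩ : ∃ t, ‖w‖ < t ∧ t * r < ρ ^ 2 := by
    rcases hr.eq_or_lt with h | h
    · refine ⟨‖w‖ + 1, by linarith, ?_⟩
      rw [← h, mul_zero] at hw ⊢
      exact hw
    · have h1 : ‖w‖ < ρ ^ 2 / r := by rwa [lt_div_iff₀ h]
      obtain ⟨t, h2, h3⟩ := exists_between h1
      exact ⟨t, h2, by rwa [lt_div_iff₀ h] at h3⟩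
  have ht0 : 0 < t := (norm_nonneg _).trans_lt hwt
  have hm : 0 < ρ ^ 2 - t * r := by linarith
  obtain ⟨C, hC⟩ := log_bdd ht hr
  have h := hasDerivAt_integral_of_dominated_loc_of_deriv_le (𝕜 := ℂ)
    (F := fun w z => Complex.log ((ρ : ℂ) ^ 2 - w * conj z) * (g z : ℂ))
    (F' := fun w z => (-conj z / ((ρ : ℂ) ^ 2 - w * conj z)) * (g z : ℂ))
    (x₀ := w) (s := ball (0 : ℂ) t) (bound := fun z => (r / (ρ ^ 2 - t * r)) * |g z|)
    (μ := (volume : Measure ℂ))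
    (isOpen_ball.mem_nhds (by simpa using hwt))
    (Eventually.of_forall fun w' => (measurable_Fint ρ hg w').aestronglyMeasurable)
    (integrable_Fint hr hg hw) ?_ ?_ (hg.abs.integrable.const_mul _) ?_
  · exact h.2.differentiableAt
  · have h1 : Continuous fun z : ℂ => -conj z := by fun_prop
    have h2 : Continuous fun z : ℂ => (ρ : ℂ) ^ 2 - w * conj z := by fun_prop
    exact ((h1.measurable.div h2.measurable).mul
      (Complex.measurable_ofReal.comp hg.meas)).aestronglyMeasurable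
  · refine Eventually.of_forall fun z w' hw' => ?_
    rw [mem_ball_zero_iff] at hw'
    rw [norm_mul, Complex.norm_real, Real.norm_eq_abs]
    by_cases hz : ‖z‖ ≤ r
    · refine mul_le_mul_of_nonneg_right ?_ (abs_nonneg _)
      rw [norm_div, norm_neg, RCLike.norm_conj]
      have h3 : ρ ^ 2 - t * r ≤ ‖(ρ : ℂ) ^ 2 - w' * conj z‖ := by
        have h4 : ‖(ρ : ℂ) ^ 2‖ - ‖w' * conj z‖ ≤ ‖(ρ : ℂ) ^ 2 - w' * conj z‖ := norm_sub_norm_le _ _
        have h5 : ‖(ρ : ℂ) ^ 2‖ = ρ ^ 2 := by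
          rw [norm_pow, Complex.norm_real, Real.norm_eq_abs, sq_abs]
        have h6 : ‖w' * conj z‖ ≤ t * r := by
          rw [norm_mul, RCLike.norm_conj]
          exact mul_le_mul hw'.le hz (norm_nonneg _) ht0.le
        linarith
      exact div_le_div₀ hr hz hm h3
    · simp [hg.supp z (not_le.mp hz)]
  · refine Eventually.of_forall fun z w' hw' => ?_
    rw [mem_ball_zero_iff] at hw'
    by_cases hz : ‖z‖ ≤ r
    · have h3 : (ρ : ℂ) ^ 2 - w' * conj z ∈ Complex.slitPlane :=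
        Or.inl (re_pos hz ((mul_le_mul_of_nonneg_right hw'.le hr).trans_lt ht))
      have h4 : HasDerivAt (fun w' : ℂ => (ρ : ℂ) ^ 2 - w' * conj z) (-conj z) w' := by
        have := ((hasDerivAt_id w').mul_const (conj z)).const_sub ((ρ : ℂ) ^ 2)
        simpa using this
      exact (h4.clog h3).mul_const _
    · simp only [hg.supp z (not_le.mp hz), Complex.ofReal_zero, mul_zero]
      exact hasDerivAt_const _ _

/-- the domain on which the extended Dirichlet potential is smooth -/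
def Dm (ρ r : ℝ) : Set ℂ := {w | ‖w‖ * r < ρ ^ 2}

theorem isOpen_Dm (ρ r : ℝ) : IsOpen (Dm ρ r) :=
  isOpen_lt (by fun_prop) continuous_const

theorem analyticOnNhd_Fh {ρ r : ℝ} (hr : 0 ≤ r) {g : ℂ → ℝ} (hg : Tst r g) :
    AnalyticOnNhd ℂ (Fh ρ g) (Dm ρ r) :=
  DifferentiableOn.analyticOnNhd (fun _ hw => (Fh_hasDerivAt hr hg hw).differentiableWithinAt)
    (isOpen_Dm ρ r)

/-- extension of the Dirichlet potential across the boundary circle -/
def Ue (ρ : ℝ) (g : ℂ → ℝ) (w : ℂ) : ℝ :=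
  -LP g w + (1 / (2 * Real.pi)) * ((Fh ρ g w).re - Real.log ρ * ∫ z, g z)

theorem U_eq_Ue {ρ r : ℝ} (h0 : 0 < ρ) (hr : 0 ≤ r) (hrρ : r < ρ) {g : ℂ → ℝ} (hg : Tst r g)
    {w : ℂ} (hw : ‖w‖ ≤ ρ) : U ρ g w = Ue ρ g w := by
  have hw' : ‖w‖ * r < ρ ^ 2 := by nlinarith [norm_nonneg w]
  have h1 : (Fh ρ g w).re = ∫ z, Real.log ‖(ρ : ℂ) ^ 2 - w * conj z‖ * g z := by
    unfold Fh
    have h2 := integral_re (integrable_Fint (ρ := ρ) hr hg hw')
    simp only [RCLike.re_eq_complex_re] at h2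
    rw [← h2]
    congr 1
    funext z
    rw [Complex.re_mul_ofReal, Complex.log_re]
  have i1 : Integrable fun z => Real.log ‖(ρ : ℂ) ^ 2 - w * conj z‖ * g z := by
    have := (integrable_Fint (ρ := ρ) hr hg hw').re
    refine this.congr (Eventually.of_forall fun z => ?_)
    simp only [RCLike.re_eq_complex_re]
    rw [Complex.re_mul_ofReal, Complex.log_re]
  have i2 : Integrable fun z => Real.log ‖w - z‖ * g z := by
    obtain ⟨A, hA⟩ := hg.bdd
    have h3 : IntegrableOn (fun z : ℂ => Real.log ‖z‖) (ball 0 (‖w‖ + r + 1)) := integrableOn_log _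
    rw [← integrable_indicator_iff isOpen_ball.measurableSet] at h3
    have h4 := h3.comp_sub_left w
    refine Integrable.mono (h4.const_mul A) ?_ (Eventually.of_forall fun z => ?_)
    · have h2' : Continuous fun z : ℂ => ‖w - z‖ := by fun_prop
      exact ((Real.measurable_log.comp h2'.measurable).mul hg.meas).aestronglyMeasurable
    · by_cases hz : ‖z‖ ≤ r
      · have h5 : (ball (0 : ℂ) (‖w‖ + r + 1)).indicator (fun z : ℂ => Real.log ‖z‖) (w - z) =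
            Real.log ‖w - z‖ := by
          rw [indicator_of_mem]
          rw [mem_ball_zero_iff]
          calc ‖w - z‖ ≤ ‖w‖ + ‖z‖ := norm_sub_le _ _
            _ < _ := by linarith
        rw [h5, norm_mul, norm_mul, mul_comm]
        gcongr
        rw [Real.norm_eq_abs, Real.norm_eq_abs]
        exact (hA z).trans (le_abs_self _)
      · rw [hg.supp z (not_le.mp hz), mul_zero, norm_zero]
        exact norm_nonneg _
  unfold U Ue LP
  rw [h1]
  have h6 : ∫ z, G ρ w z * g z = ∫ z, (-((1 / (2 * Real.pi)) * (Real.log ‖w - z‖ * g z)) +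
      ((1 / (2 * Real.pi)) * (Real.log ‖(ρ : ℂ) ^ 2 - w * conj z‖ * g z) -
        (1 / (2 * Real.pi)) * Real.log ρ * g z)) := by
    refine integral_congr_ae ?_
    have h7 : ∀ᵐ z : ℂ, z ≠ w := by
      rw [ae_iff]; simp
    filter_upwards [h7] with z hz
    by_cases hzr : ‖z‖ ≤ r
    · rw [G_symm, G_eq h0 (hzr.trans_lt hrρ) hw hz]
      unfold Gpl Hr
      have h8 : ‖(ρ : ℂ) ^ 2 - z * conj w‖ = ‖(ρ : ℂ) ^ 2 - w * conj z‖ := by
        rw [← RCLike.norm_conj (K := ℂ) ((ρ : ℂ) ^ 2 - z * conj w)]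
        congr 1
        simp [mul_comm]
      rw [h8, norm_sub_rev z w]
      ring
    · simp [hg.supp z (not_le.mp hzr)]
  rw [h6, integral_add, integral_neg, integral_const_mul, integral_sub, integral_const_mul,
    integral_const_mul]
  · ring
  · exact i1.const_mul _
  · exact hg.integrable.const_mul _
  · exact (i2.const_mul _).neg
  · exact (i1.const_mul _).sub (hg.integrable.const_mul _)

theorem contDiffAt_Ue {ρ r : ℝ} (hr : 0 ≤ r) {g : ℂ → ℝ} (hg : Tst r g)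
    (hgs : ContDiff ℝ ∞ g) (hgc : HasCompactSupport g) {w : ℂ} (hw : w ∈ Dm ρ r) :
    ContDiffAt ℝ ∞ (Ue ρ g) w := by
  have h1 : ContDiffAt ℝ ∞ (LP g) w := (contDiff_LP hgs hgc).contDiffAt
  have h2 : ContDiffAt ℝ ∞ (fun w => (Fh ρ g w).re) w := by
    have h3 : ContDiffAt ℝ ∞ (Fh ρ g) w :=
      ((analyticOnNhd_Fh hr hg w hw).contDiffAt (n := ∞)).restrict_scalars ℝ
    exact Complex.reCLM.contDiff.contDiffAt.comp w h3
  unfold Ue
  exact h1.neg.add (contDiffAt_const.mul (h2.sub contDiffAt_const))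

theorem lap_Ue {ρ r : ℝ} (hr : 0 ≤ r) {g : ℂ → ℝ} (hg : Tst r g)
    (hgs : ContDiff ℝ ∞ g) (hgc : HasCompactSupport g) {w : ℂ} (hw : w ∈ Dm ρ r) :
    (Δ (Ue ρ g)) w = -g w := by
  have h1 : ContDiffAt ℝ 2 (LP g) w := (contDiff_infty.mp (contDiff_LP hgs hgc) 2).contDiffAt
  have hF := (analyticOnNhd_Fh hr hg w hw).harmonicAt_re
  have h2 : ContDiffAt ℝ 2 (fun w => (Fh ρ g w).re) w := hF.1
  set c1 := (1 / (2 * Real.pi)) with hc1
  set c2 := Real.log ρ * ∫ z, g z with hc2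
  have e1 : Ue ρ g = (-(LP g)) + (c1 • ((fun w => (Fh ρ g w).re) - fun _ => c2)) := by
    funext w
    simp [Ue, c1, c2]
  have h3 : ContDiffAt ℝ 2 ((fun w => (Fh ρ g w).re) - fun _ : ℂ => c2) w :=
    h2.sub contDiffAt_const
  have h6 : ContDiffAt ℝ 2 (-(LP g)) w := h1.neg
  have h7 : ContDiffAt ℝ 2 (c1 • ((fun w => (Fh ρ g w).re) - fun _ : ℂ => c2)) w :=
    (contDiffAt_const (c := c1)).smul h3
  rw [e1, ContDiffAt.laplacian_add h6 h7, laplacian_neg,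
    laplacian_smul c1 h3, ContDiffAt.laplacian_sub h2 contDiffAt_const]
  have h4 : (Δ (fun _ : ℂ => c2)) w = 0 := by
    have : (Δ (fun _ : ℂ => c2)) = fun _ => 0 := laplacian_const
    rw [this]
  have h5 : (Δ (fun w => (Fh ρ g w).re)) w = 0 := hF.2.eq_of_nhds
  rw [h4, h5]
  simp [lap_LP hgs hgc]

theorem Ue_bdry {ρ r : ℝ} (h0 : 0 < ρ) (hr : 0 ≤ r) (hrρ : r < ρ) {g : ℂ → ℝ} (hg : Tst r g)
    {w : ℂ} (hw : ‖w‖ = ρ) : Ue ρ g w = 0 := by
  rw [← U_eq_Ue h0 hr hrρ hg hw.le]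
  unfold U
  have : ∀ z, G ρ w z * g z = 0 := by
    intro z
    rw [G_symm, G_bdry h0 hw, zero_mul]
  simp [this]

theorem mem_Dm {ρ r : ℝ} (h0 : 0 < ρ) (hr : 0 ≤ r) (hrρ : r < ρ) {w : ℂ} (hw : ‖w‖ ≤ ρ) :
    w ∈ Dm ρ r := by
  change ‖w‖ * r < ρ ^ 2
  nlinarith [norm_nonneg w]

/-! ### bounds near the boundary -/

theorem exists_lip {ρ r : ℝ} (h0 : 0 < ρ) (hr : 0 ≤ r) (hrρ : r < ρ) {g : ℂ → ℝ} (hg : Tst r g)
    (hgs : ContDiff ℝ ∞ g) (hgc : HasCompactSupport g) :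
    ∃ L, 0 ≤ L ∧ (∀ w : ℂ, ‖w‖ ≤ ρ → ‖fderiv ℝ (Ue ρ g) w‖ ≤ L) ∧
      ∀ w : ℂ, ‖w‖ ≤ ρ → |Ue ρ g w| ≤ L * (ρ - ‖w‖) := by
  have hcd : ContDiffOn ℝ ∞ (Ue ρ g) (Dm ρ r) := fun w hw =>
    (contDiffAt_Ue hr hg hgs hgc hw).contDiffWithinAt
  have hsub : closedBall (0 : ℂ) ρ ⊆ Dm ρ r := fun w hw =>
    mem_Dm h0 hr hrρ (by simpa using hw)
  have hc : ContinuousOn (fderiv ℝ (Ue ρ g)) (closedBall (0 : ℂ) ρ) :=
    (hcd.continuousOn_fderiv_of_isOpen (isOpen_Dm ρ r) (by simp)).mono hsub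
  obtain ⟨L, hL⟩ := (isCompact_closedBall (0 : ℂ) ρ).exists_bound_of_continuousOn hc
  have hL' : ∀ w : ℂ, ‖w‖ ≤ ρ → ‖fderiv ℝ (Ue ρ g) w‖ ≤ L := fun w hw => hL w (by simpa using hw)
  have hL0 : 0 ≤ L := (norm_nonneg _).trans (hL' 0 (by simpa using h0.le))
  refine ⟨L, hL0, hL', fun w hw => ?_⟩
  -- a boundary point on the same ray
  obtain ⟨w', hw', hd⟩ : ∃ w' : ℂ, ‖w'‖ = ρ ∧ ‖w - w'‖ = ρ - ‖w‖ := by
    rcases eq_or_ne w 0 with rfl | hne
    · exact ⟨(ρ : ℂ), by simp [abs_of_pos h0], by simp [abs_of_pos h0]⟩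
    · have hwn : 0 < ‖w‖ := norm_pos_iff.mpr hne
      refine ⟨((ρ / ‖w‖ : ℝ) : ℂ) * w, ?_, ?_⟩
      · rw [norm_mul, Complex.norm_real, Real.norm_of_nonneg (by positivity)]
        field_simp
      · have : w - ((ρ / ‖w‖ : ℝ) : ℂ) * w = ((1 - ρ / ‖w‖ : ℝ) : ℂ) * w := by
          push_cast; ring
        rw [this, norm_mul, Complex.norm_real, Real.norm_eq_abs, abs_of_nonpos, ]
        · field_simp
          ring
        · rw [sub_nonpos, one_le_div hwn]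
          exact hw
  have h1 : ‖Ue ρ g w - Ue ρ g w'‖ ≤ L * ‖w - w'‖ := by
    refine (convex_closedBall (0 : ℂ) ρ).norm_image_sub_le_of_norm_fderiv_le (𝕜 := ℝ) ?_ ?_ ?_ ?_
    · intro x hx
      exact (contDiffAt_Ue hr hg hgs hgc (hsub hx)).differentiableAt (by simp)
    · intro x hx
      exact hL x hx
    · simp [hw']
    · simpa using hw
  rw [Ue_bdry h0 hr hrρ hg hw', sub_zero, hd] at h1
  exact h1

theorem smoothTransition_bdd : ∃ M, 0 ≤ M ∧ (∀ x, |deriv Real.smoothTransition x| ≤ M) ∧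
    ∀ x, |deriv (deriv Real.smoothTransition) x| ≤ M := by
  have hcd : ContDiff ℝ ∞ Real.smoothTransition := Real.smoothTransition.contDiff
  have h1 : ContDiff ℝ ∞ (deriv Real.smoothTransition) := (contDiff_infty_iff_deriv.mp hcd).2
  have h2 : ContDiff ℝ ∞ (deriv (deriv Real.smoothTransition)) :=
    (contDiff_infty_iff_deriv.mp h1).2
  have z1 : ∀ x, x ∉ Icc (0 : ℝ) 1 → deriv Real.smoothTransition x = 0 := by
    intro x hx
    rw [mem_Icc, not_and_or, not_le, not_le] at hx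
    rcases hx with hx | hx
    · have : Real.smoothTransition =ᶠ[𝓝 x] fun _ => (0 : ℝ) := by
        filter_upwards [gt_mem_nhds hx] with y hy
        exact Real.smoothTransition.zero_of_nonpos (le_of_lt hy)
      rw [this.deriv_eq]
      simp
    · have : Real.smoothTransition =ᶠ[𝓝 x] fun _ => (1 : ℝ) := by
        filter_upwards [lt_mem_nhds hx] with y hy
        exact Real.smoothTransition.one_of_one_le (le_of_lt hy)
      rw [this.deriv_eq]
      simp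
  have z2 : ∀ x, x ∉ Icc (0 : ℝ) 1 → deriv (deriv Real.smoothTransition) x = 0 := by
    intro x hx
    have : deriv Real.smoothTransition =ᶠ[𝓝 x] fun _ => (0 : ℝ) := by
      filter_upwards [isClosed_Icc.isOpen_compl.mem_nhds hx] with y hy
      exact z1 y hy
    rw [this.deriv_eq]
    simp
  obtain ⟨M1, hM1⟩ := (isCompact_Icc (a := (0 : ℝ)) (b := 1)).exists_bound_of_continuousOn
    h1.continuous.continuousOn
  obtain ⟨M2, hM2⟩ := (isCompact_Icc (a := (0 : ℝ)) (b := 1)).exists_bound_of_continuousOn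
    h2.continuous.continuousOn
  refine ⟨max (max M1 M2) 0, le_max_right _ _, fun x => ?_, fun x => ?_⟩
  · by_cases hx : x ∈ Icc (0 : ℝ) 1
    · exact (hM1 x hx).trans ((le_max_left _ _).trans (le_max_left _ _))
    · rw [z1 x hx, abs_zero]
      exact le_max_right _ _
  · by_cases hx : x ∈ Icc (0 : ℝ) 1
    · exact (hM2 x hx).trans ((le_max_right _ _).trans (le_max_left _ _))
    · rw [z2 x hx, abs_zero]
      exact le_max_right _ _

/-- radial cutoff: `1` for `‖w‖ ≤ a`, `0` for `‖w‖ ≥ b` -/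
def qq (a b : ℝ) (w : ℂ) : ℝ := (b ^ 2 - a ^ 2)⁻¹ * (b ^ 2 - ‖w‖ ^ 2)

/-- radial cutoff: `1` for `‖w‖ ≤ a`, `0` for `‖w‖ ≥ b` -/
def chi (a b : ℝ) (w : ℂ) : ℝ := Real.smoothTransition (qq a b w)

theorem contDiff_qq (a b : ℝ) : ContDiff ℝ ∞ (qq a b) := by
  unfold qq
  exact contDiff_const.mul (contDiff_const.sub (contDiff_id.norm_sq ℝ))

theorem contDiff_chi (a b : ℝ) : ContDiff ℝ ∞ (chi a b) :=
  Real.smoothTransition.contDiff.comp (contDiff_qq a b)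

theorem chi_one {a b : ℝ} (ha : 0 ≤ a) (hab : a < b) {w : ℂ} (hw : ‖w‖ ≤ a) : chi a b w = 1 := by
  refine Real.smoothTransition.one_of_one_le ?_
  have h1 : 0 < b ^ 2 - a ^ 2 := by nlinarith
  unfold qq
  rw [inv_mul_eq_div, one_le_div h1]
  nlinarith [norm_nonneg w]

theorem chi_zero {a b : ℝ} (ha : 0 ≤ a) (hab : a < b) {w : ℂ} (hw : b ≤ ‖w‖) : chi a b w = 0 := by
  refine Real.smoothTransition.zero_of_nonpos ?_
  have h1 : 0 < b ^ 2 - a ^ 2 := by nlinarith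
  unfold qq
  have h2 : b ^ 2 - ‖w‖ ^ 2 ≤ 0 := by nlinarith [norm_nonneg w]
  exact mul_nonpos_of_nonneg_of_nonpos (by positivity) h2

theorem chi_mem (a b : ℝ) (w : ℂ) : 0 ≤ chi a b w ∧ chi a b w ≤ 1 :=
  ⟨Real.smoothTransition.nonneg _, Real.smoothTransition.le_one _⟩

theorem fderiv_qq (a b : ℝ) (w : ℂ) : ‖fderiv ℝ (qq a b) w‖ = |(b ^ 2 - a ^ 2)⁻¹| * (2 * ‖w‖) := by
  have h1 : HasFDerivAt (fun z : ℂ => ‖z‖ ^ 2) (2 • (innerSL ℝ w)) w := by
    have := (hasFDerivAt_id (𝕜 := ℝ) w).norm_sq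
    simpa using this
  have h2 := (h1.const_sub (b ^ 2)).const_mul (b ^ 2 - a ^ 2)⁻¹
  have h3 : fderiv ℝ (qq a b) w = (b ^ 2 - a ^ 2)⁻¹ • (-(2 • (innerSL ℝ w))) := h2.fderiv
  have h4 : (2 • (innerSL ℝ w)) = (2 : ℝ) • innerSL ℝ w := by rw [two_smul, two_smul]
  rw [h3, norm_smul, norm_neg, Real.norm_eq_abs, h4, norm_smul, innerSL_apply_norm]
  norm_num

theorem lap_qq (a b : ℝ) (w : ℂ) : (Δ (qq a b)) w = -(4 * (b ^ 2 - a ^ 2)⁻¹) := by
  have h1 : ContDiffAt ℝ 2 (fun z : ℂ => ‖z‖ ^ 2) w := (contDiff_id.norm_sq ℝ).contDiffAt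
  have h2 : ContDiffAt ℝ 2 ((fun _ : ℂ => b ^ 2) - fun z : ℂ => ‖z‖ ^ 2) w :=
    contDiffAt_const.sub h1
  have e1 : qq a b = (b ^ 2 - a ^ 2)⁻¹ • ((fun _ : ℂ => b ^ 2) - fun z : ℂ => ‖z‖ ^ 2) := by
    funext z
    simp [qq]
  have h4 : (Δ (fun _ : ℂ => b ^ 2)) w = 0 := by
    have : (Δ (fun _ : ℂ => b ^ 2)) = fun _ => 0 := laplacian_const
    rw [this]
  rw [e1, laplacian_smul _ h2, ContDiffAt.laplacian_sub contDiffAt_const h1, h4, lapC_normSq]
  simp only [smul_eq_mul]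
  ring

/-- bounds for the cutoff -/
theorem chi_bounds {M : ℝ} (hM : 0 ≤ M) (hM1 : ∀ x, |deriv Real.smoothTransition x| ≤ M)
    (hM2 : ∀ x, |deriv (deriv Real.smoothTransition) x| ≤ M) {a b : ℝ} (ha : 0 ≤ a) (hab : a < b)
    {w : ℂ} (hw : ‖w‖ ≤ b) :
    ‖fderiv ℝ (chi a b) w‖ ≤ M * ((b ^ 2 - a ^ 2)⁻¹ * (2 * b)) ∧
    |(Δ (chi a b)) w| ≤ M * ((b ^ 2 - a ^ 2)⁻¹ * (2 * b)) ^ 2 + M * (4 * (b ^ 2 - a ^ 2)⁻¹) := by
  have h1 : 0 < b ^ 2 - a ^ 2 := by nlinarith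
  have h2 : 0 < (b ^ 2 - a ^ 2)⁻¹ := by positivity
  have hq : ‖fderiv ℝ (qq a b) w‖ ≤ (b ^ 2 - a ^ 2)⁻¹ * (2 * b) := by
    rw [fderiv_qq, abs_of_pos h2]
    gcongr
  have hst : ContDiff ℝ ∞ Real.smoothTransition := Real.smoothTransition.contDiff
  constructor
  · have h3 : HasFDerivAt (chi a b)
        (deriv Real.smoothTransition (qq a b w) • fderiv ℝ (qq a b) w) w :=
      (hst.differentiable (by simp) (qq a b w)).hasDerivAt.comp_hasFDerivAt w
        ((contDiff_qq a b).differentiable (by simp) w).hasFDerivAt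
    rw [h3.fderiv, norm_smul, Real.norm_eq_abs]
    exact mul_le_mul (hM1 _) hq (norm_nonneg _) hM
  · have h4 : (Δ (chi a b)) w = deriv (deriv Real.smoothTransition) (qq a b w) *
        ‖fderiv ℝ (qq a b) w‖ ^ 2 + deriv Real.smoothTransition (qq a b w) * (Δ (qq a b)) w :=
      lapC_comp (contDiff_infty.mp hst 2).contDiffAt
        (contDiff_infty.mp (contDiff_qq a b) 2).contDiffAt
    rw [h4, lap_qq]
    refine (abs_add_le _ _).trans (add_le_add ?_ ?_)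
    · rw [abs_mul, abs_of_nonneg (sq_nonneg ‖fderiv ℝ (qq a b) w‖)]
      refine mul_le_mul (hM2 _) (pow_le_pow_left₀ (norm_nonneg _) hq 2) (sq_nonneg _) hM
    · rw [abs_mul, abs_neg, abs_of_pos (show (0 : ℝ) < 4 * (b ^ 2 - a ^ 2)⁻¹ by positivity)]
      exact mul_le_mul_of_nonneg_right (hM1 _) (by positivity)

end

end Crest.Agent.R161.Green722
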