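import Crest.Agent.R161.Abs_375

/-!
# Convex-order monotonicity of cluster sign averages (helper689, R161 STEP 7/8)

For clusters of signs (`Abs375.av i j C`, the uniform law on sign configurations constant on the
constraints of `C`) and weights `w̃, w` we compare `av i j C (Φ (∑ σ_x w̃_x))` with
`av i j D (Φ (∑ σ_x w_x))` for `C ⊆ D`.

* `av_le_av` : general vector valued statement;
* `av_convex` : `Φ` convex, `|w̃ x| ≤ w x`;
* `av_cos_sub` : `|av D cos - av C cos| ≤ (av D sq - av C sq) / 2`.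
-/

set_option autoImplicit false
set_option linter.unusedSectionVars false
set_option linter.unusedVariables false

open Finset
open Crest.Agent.R161.Abs375

namespace Crest.Agent.R161.H689

/-! ### label level -/

section label
variable {κ E : Type*} [Fintype κ] [DecidableEq κ] [AddCommGroup E] [Module ℝ E]

/-- flipping one label -/
def flip (c : κ) (s : κ → ℤˣ) : κ → ℤˣ := Function.update s c (-(s c))

lemma flip_flip (c : κ) (s : κ → ℤˣ) : flip c (flip c s) = s := by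
  unfold flip
  funext x
  by_cases h : x = c
  · subst h; simp
  · simp [h]

/-- `flip c` as an equivalence -/
def flipE (c : κ) : (κ → ℤˣ) ≃ (κ → ℤˣ) where
  toFun := flip c
  invFun := flip c
  left_inv := flip_flip c
  right_inv := flip_flip c

lemma sum_flip (c : κ) (F : (κ → ℤˣ) → ℝ) : ∑ s, F (flip c s) = ∑ s, F s :=
  Fintype.sum_equiv (flipE c) _ _ fun _ => rfl

lemma sgn_smul_case (u : ℤˣ) (x : E) :
    (((u : ℤ) : ℝ) • x = x ∧ (((-u : ℤˣ) : ℤ) : ℝ) • x = -x) ∨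
      (((u : ℤ) : ℝ) • x = -x ∧ (((-u : ℤˣ) : ℤ) : ℝ) • x = x) := by
  rcases Int.units_eq_one_or u with h | h
  · left; subst h; simp
  · right; subst h; simp

/-- **Label level comparison.** -/
theorem sum_label_le (Φ : E → ℝ) (a b : κ → E)
    (h : ∀ c (R : E), Φ (R + b c) + Φ (R - b c) ≤ Φ (R + a c) + Φ (R - a c)) :
    ∑ s : κ → ℤˣ, Φ (∑ c, ((s c : ℤ) : ℝ) • b c) ≤
      ∑ s : κ → ℤˣ, Φ (∑ c, ((s c : ℤ) : ℝ) • a c) := by
  classical
  -- mixed sums
  set m : Finset κ → κ → E := fun T c => if c ∈ T then a c else b c with hm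
  have key : ∀ T : Finset κ, ∑ s : κ → ℤˣ, Φ (∑ c, ((s c : ℤ) : ℝ) • b c) ≤
      ∑ s : κ → ℤˣ, Φ (∑ c, ((s c : ℤ) : ℝ) • m T c) := by
    intro T
    induction T using Finset.induction_on with
    | empty => simp [hm]
    | insert c T hc ih =>
      refine ih.trans ?_
      -- the common rest
      set R : (κ → ℤˣ) → E := fun s => ∑ d ∈ univ.erase c, ((s d : ℤ) : ℝ) • m T d with hR
      have hRflip : ∀ s, R (flip c s) = R s := by
        intro s
        refine Finset.sum_congr rfl fun d hd => ?_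
        have hdc : d ≠ c := Finset.ne_of_mem_erase hd
        simp [flip, hdc]
      have e1 : ∀ s : κ → ℤˣ, ∑ d, ((s d : ℤ) : ℝ) • m T d = R s + ((s c : ℤ) : ℝ) • b c := by
        intro s
        rw [← Finset.add_sum_erase univ _ (Finset.mem_univ c), add_comm]
        simp [hm, hc, hR]
      have e2 : ∀ s : κ → ℤˣ, ∑ d, ((s d : ℤ) : ℝ) • m (insert c T) d =
          R s + ((s c : ℤ) : ℝ) • a c := by
        intro s
        rw [← Finset.add_sum_erase univ _ (Finset.mem_univ c), add_comm]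
        congr 1
        · refine Finset.sum_congr rfl fun d hd => ?_
          have hdc : d ≠ c := Finset.ne_of_mem_erase hd
          simp [hm, hdc]
        · simp [hm]
      have d1 : ∑ s : κ → ℤˣ, Φ (∑ d, ((s d : ℤ) : ℝ) • m T d) =
          ∑ s : κ → ℤˣ, Φ (∑ d, ((flip c s d : ℤ) : ℝ) • m T d) :=
        (sum_flip c fun s => Φ (∑ d, ((s d : ℤ) : ℝ) • m T d)).symm
      have d2 : ∑ s : κ → ℤˣ, Φ (∑ d, ((s d : ℤ) : ℝ) • m (insert c T) d) =
          ∑ s : κ → ℤˣ, Φ (∑ d, ((flip c s d : ℤ) : ℝ) • m (insert c T) d) :=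
        (sum_flip c fun s => Φ (∑ d, ((s d : ℤ) : ℝ) • m (insert c T) d)).symm
      have hsum : ∑ s : κ → ℤˣ, (Φ (∑ d, ((s d : ℤ) : ℝ) • m T d) +
            Φ (∑ d, ((flip c s d : ℤ) : ℝ) • m T d)) ≤
          ∑ s : κ → ℤˣ, (Φ (∑ d, ((s d : ℤ) : ℝ) • m (insert c T) d) +
            Φ (∑ d, ((flip c s d : ℤ) : ℝ) • m (insert c T) d)) := by
        refine Finset.sum_le_sum fun s _ => ?_
        rw [e1, e1, e2, e2, hRflip]
        have hf : flip c s c = -(s c) := by simp [flip]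
        rw [hf]
        have hh := h c (R s)
        rcases sgn_smul_case (s c) (b c) with ⟨h1, h2⟩ | ⟨h1, h2⟩ <;>
        rcases sgn_smul_case (s c) (a c) with ⟨h3, h4⟩ | ⟨h3, h4⟩ <;>
        rw [h1, h2, h3, h4] <;> simp only [← sub_eq_add_neg] <;> linarith
      rw [Finset.sum_add_distrib, Finset.sum_add_distrib, ← d1, ← d2] at hsum
      linarith
  have := key univ
  simpa [hm] using this

end label

/-! ### cluster level -/

section cluster
variable {S κ E : Type*} [Fintype S] [DecidableEq S] [DecidableEq κ] [AddCommGroup E] [Module ℝ E]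

/-- relation generated by the constraints -/
def rel (i j : κ → S) (C : Finset κ) (x y : S) : Prop := ∃ k ∈ C, i k = x ∧ j k = y

/-- labels: the clusters -/
abbrev Lab (i j : κ → S) (C : Finset κ) : Type _ := Quot (rel i j C)

noncomputable instance labFintype (i j : κ → S) (C : Finset κ) : Fintype (Quot (rel i j C)) :=
  Fintype.ofFinite _

lemma ic_one_iff (i j : κ → S) (C : Finset κ) (σ : S → ℤˣ) :
    ic i j C σ = 1 ↔ ∀ k ∈ C, σ (i k) = σ (j k) := by
  rw [ic_eq]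
  split_ifs with h
  · exact ⟨fun _ => h, fun _ => rfl⟩
  · exact ⟨fun h' => absurd h' (by norm_num), fun h' => absurd h' h⟩

open Classical in
/-- sums over compatible sign configurations as sums over cluster labels -/
lemma aC_eq_label (i j : κ → S) (C : Finset κ) (f : (S → ℤˣ) → ℝ) :
    aC i j C f = ∑ s : Lab i j C → ℤˣ, f (fun x => s (Quot.mk _ x)) := by
  unfold aC
  have h1 : ∀ σ : S → ℤˣ, ic i j C σ * f σ = if (∀ k ∈ C, σ (i k) = σ (j k)) then f σ else 0 := by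
    intro σ
    rw [ic_eq]
    split_ifs <;> simp
  rw [Finset.sum_congr rfl fun σ _ => h1 σ, ← Finset.sum_filter]
  symm
  refine Finset.sum_bij' (fun s _ => fun x => s (Quot.mk _ x))
    (fun σ hσ => fun q => Quot.lift σ (by
      rintro x y ⟨k, hk, rfl, rfl⟩
      exact (Finset.mem_filter.1 hσ).2 k hk) q) ?_ ?_ ?_ ?_ ?_
  · intro s _
    rw [Finset.mem_filter]
    refine ⟨Finset.mem_univ _, fun k hk => ?_⟩
    have : (Quot.mk (rel i j C) (i k)) = Quot.mk _ (j k) := Quot.sound ⟨k, hk, rfl, rfl⟩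
    simp only [this]
  · intro σ _; exact Finset.mem_univ _
  · intro s _
    funext q
    induction q using Quot.ind
    rfl
  · intro σ _; rfl
  · intro s _; rfl

open Classical in
/-- linear statistics in terms of labels -/
lemma sum_label (i j : κ → S) (C : Finset κ) (w : S → E) (s : Lab i j C → ℤˣ) :
    ∑ x, ((s (Quot.mk _ x) : ℤ) : ℝ) • w x =
      ∑ q, ((s q : ℤ) : ℝ) • ∑ x with Quot.mk (rel i j C) x = q, w x := by
  simp only [Finset.smul_sum]
  rw [← Finset.sum_fiberwise (s := (univ : Finset S)) (g := fun x => Quot.mk (rel i j C) x)]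
  refine Finset.sum_congr rfl fun q _ => Finset.sum_congr rfl fun x hx => ?_
  rw [(Finset.mem_filter.1 hx).2]

/-- **General comparison of cluster sign averages.** -/
theorem av_le_av (i j : κ → S) {C D : Finset κ} (hCD : C ⊆ D) (Φ : E → ℝ) (w' w : S → E)
    (h : ∀ (σ : S → ℤˣ) (Q : Finset S) (R : E),
      Φ (R + ∑ x ∈ Q, ((σ x : ℤ) : ℝ) • w' x) + Φ (R - ∑ x ∈ Q, ((σ x : ℤ) : ℝ) • w' x) ≤
        Φ (R + ∑ x ∈ Q, w x) + Φ (R - ∑ x ∈ Q, w x)) :
    av i j C (fun σ => Φ (∑ x, ((σ x : ℤ) : ℝ) • w' x)) ≤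
      av i j D (fun σ => Φ (∑ x, ((σ x : ℤ) : ℝ) • w x)) := by
  classical
  unfold av
  rw [div_le_div_iff₀ (nC_pos i j C) (nC_pos i j D)]
  -- inner inequality for fixed `σ`
  have inner : ∀ σ : S → ℤˣ,
      aC i j D (fun ρ => Φ (∑ x, (((σ x * ρ x : ℤˣ) : ℤ) : ℝ) • w' x)) ≤
        aC i j D (fun ρ => Φ (∑ x, ((ρ x : ℤ) : ℝ) • w x)) := by
    intro σ
    rw [aC_eq_label, aC_eq_label]
    have e1 : ∀ s : Lab i j D → ℤˣ,
        ∑ x, (((σ x * s (Quot.mk _ x) : ℤˣ) : ℤ) : ℝ) • w' x =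
          ∑ q, ((s q : ℤ) : ℝ) • ∑ x with Quot.mk (rel i j D) x = q, ((σ x : ℤ) : ℝ) • w' x := by
      intro s
      rw [← sum_label i j D (fun x => ((σ x : ℤ) : ℝ) • w' x) s]
      refine Finset.sum_congr rfl fun x _ => ?_
      rw [smul_smul]
      congr 1
      push_cast
      ring
    have e2 : ∀ s : Lab i j D → ℤˣ, ∑ x, ((s (Quot.mk _ x) : ℤ) : ℝ) • w x =
          ∑ q, ((s q : ℤ) : ℝ) • ∑ x with Quot.mk (rel i j D) x = q, w x :=
      fun s => sum_label i j D w s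
    simp only [e1, e2]
    exact sum_label_le Φ _ _ fun q R => h σ _ R
  -- averaging over `S_D ⊆ S_C`
  have hshift : ∀ ρ : S → ℤˣ, ic i j D ρ ≠ 0 → ∀ F : (S → ℤˣ) → ℝ,
      ∑ σ : S → ℤˣ, ic i j C σ * F σ = ∑ σ : S → ℤˣ, ic i j C σ * F (fun x => σ x * ρ x) := by
    intro ρ hρ F
    have hρ' : ∀ k ∈ D, ρ (i k) = ρ (j k) := by
      rw [ic_eq] at hρ
      by_contra hcon
      rw [if_neg hcon] at hρ
      exact hρ rfl
    rw [← Fintype.sum_equiv (Equiv.mulRight ρ) (fun σ => ic i j C (σ * ρ) * F (σ * ρ))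
      (fun σ => ic i j C σ * F σ) (fun σ => rfl)]
    refine Finset.sum_congr rfl fun σ _ => ?_
    have : ic i j C (σ * ρ) = ic i j C σ := by
      rw [ic_eq, ic_eq]
      have : (∀ k ∈ C, (σ * ρ) (i k) = (σ * ρ) (j k)) ↔ ∀ k ∈ C, σ (i k) = σ (j k) := by
        refine forall₂_congr fun k hk => ?_
        simp only [Pi.mul_apply, hρ' k (hCD hk)]
        exact mul_left_inj _
      simp only [this]
    rw [this]
    rfl
  set F : (S → ℤˣ) → ℝ := fun σ => Φ (∑ x, ((σ x : ℤ) : ℝ) • w' x) with hF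
  calc aC i j C F * nC i j D = ∑ ρ : S → ℤˣ, ic i j D ρ * aC i j C F := by
        unfold nC; rw [← Finset.sum_mul]; ring
    _ = ∑ ρ : S → ℤˣ, ic i j D ρ * ∑ σ : S → ℤˣ, ic i j C σ * F (fun x => σ x * ρ x) := by
        refine Finset.sum_congr rfl fun ρ _ => ?_
        by_cases hρ : ic i j D ρ = 0
        · rw [hρ, zero_mul, zero_mul]
        · unfold aC; rw [hshift ρ hρ F]
    _ = ∑ σ : S → ℤˣ, ic i j C σ * aC i j D (fun ρ => F (fun x => σ x * ρ x)) := by
        unfold aC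
        simp only [Finset.mul_sum]
        rw [Finset.sum_comm]
        exact Finset.sum_congr rfl fun σ _ => Finset.sum_congr rfl fun ρ _ => by ring
    _ ≤ ∑ σ : S → ℤˣ, ic i j C σ * aC i j D (fun ρ => Φ (∑ x, ((ρ x : ℤ) : ℝ) • w x)) :=
        Finset.sum_le_sum fun σ _ => mul_le_mul_of_nonneg_left (inner σ) (ic_nonneg i j C σ)
    _ = aC i j D (fun ρ => Φ (∑ x, ((ρ x : ℤ) : ℝ) • w x)) * nC i j C := by
        unfold nC; rw [← Finset.sum_mul]; ring

end cluster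

/-! ### real valued applications -/

section apps
variable {S κ : Type*} [Fintype S] [DecidableEq S] [DecidableEq κ]

lemma convex_symm_mono {Φ : ℝ → ℝ} (hΦ : ConvexOn ℝ Set.univ Φ) {R b a : ℝ} (h : |b| ≤ a) :
    Φ (R + b) + Φ (R - b) ≤ Φ (R + a) + Φ (R - a) := by
  have ha : 0 ≤ a := (abs_nonneg b).trans h
  rcases eq_or_lt_of_le ha with h0 | h0
  · have : b = 0 := by rw [← h0] at h; exact abs_eq_zero.1 (le_antisymm h (abs_nonneg b))
    rw [this, ← h0]
  obtain ⟨h1, h2⟩ := abs_le.1 h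
  have hθ : 0 ≤ (a + b) / (2 * a) := div_nonneg (by linarith) (by linarith)
  have hθ' : 0 ≤ (a - b) / (2 * a) := div_nonneg (by linarith) (by linarith)
  have hs : (a + b) / (2 * a) + (a - b) / (2 * a) = 1 := by field_simp; ring
  have k1 := hΦ.2 (Set.mem_univ (R + a)) (Set.mem_univ (R - a)) hθ hθ' hs
  have k2 := hΦ.2 (Set.mem_univ (R + a)) (Set.mem_univ (R - a)) hθ' hθ (by linarith)
  simp only [smul_eq_mul] at k1 k2
  have e1 : (a + b) / (2 * a) * (R + a) + (a - b) / (2 * a) * (R - a) = R + b := by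
    field_simp; ring
  have e2 : (a - b) / (2 * a) * (R + a) + (a + b) / (2 * a) * (R - a) = R - b := by
    field_simp; ring
  rw [e1] at k1
  rw [e2] at k2
  have : (a + b) / (2 * a) * Φ (R + a) + (a - b) / (2 * a) * Φ (R - a) +
      ((a - b) / (2 * a) * Φ (R + a) + (a + b) / (2 * a) * Φ (R - a)) =
      Φ (R + a) + Φ (R - a) := by
    calc _ = ((a + b) / (2 * a) + (a - b) / (2 * a)) * (Φ (R + a) + Φ (R - a)) := by ring
      _ = _ := by rw [hs, one_mul]
  linarith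

lemma abs_sgn (u : ℤˣ) : |((u : ℤ) : ℝ)| = 1 := by
  rcases Int.units_eq_one_or u with h | h <;> subst h <;> simp

/-- **Convex order**: for convex `Φ`, `|w' x| ≤ w x` and `C ⊆ D`,
`E_C Φ(∑ σ_x w'_x) ≤ E_D Φ(∑ σ_x w_x)`. -/
theorem av_convex (i j : κ → S) {C D : Finset κ} (hCD : C ⊆ D) {Φ : ℝ → ℝ}
    (hΦ : ConvexOn ℝ Set.univ Φ) {w' w : S → ℝ} (hw : ∀ x, |w' x| ≤ w x) :
    av i j C (fun σ => Φ (∑ x, ((σ x : ℤ) : ℝ) * w' x)) ≤
      av i j D (fun σ => Φ (∑ x, ((σ x : ℤ) : ℝ) * w x)) := by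
  have := av_le_av (E := ℝ) i j hCD Φ w' w fun σ Q R => by
    refine convex_symm_mono hΦ ?_
    calc |∑ x ∈ Q, ((σ x : ℤ) : ℝ) • w' x| ≤ ∑ x ∈ Q, |((σ x : ℤ) : ℝ) • w' x| :=
          Finset.abs_sum_le_sum_abs _ _
      _ ≤ ∑ x ∈ Q, w x := Finset.sum_le_sum fun x _ => by
          rw [smul_eq_mul, abs_mul, abs_sgn, one_mul]; exact hw x
  simpa only [smul_eq_mul] using this

lemma abs_cos_sub_cos_le (a b : ℝ) : |Real.cos a - Real.cos b| ≤ |a + b| * |a - b| / 2 := by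
  rw [Real.cos_sub_cos, abs_mul, abs_mul]
  have h1 : |Real.sin ((a + b) / 2)| ≤ |(a + b) / 2| := Real.abs_sin_le_abs
  have h2 : |Real.sin ((a - b) / 2)| ≤ |(a - b) / 2| := Real.abs_sin_le_abs
  have h3 : |(a + b) / 2| = |a + b| / 2 := by rw [abs_div, abs_of_pos (by norm_num : (0:ℝ) < 2)]
  have h4 : |(a - b) / 2| = |a - b| / 2 := by rw [abs_div, abs_of_pos (by norm_num : (0:ℝ) < 2)]
  rw [h3] at h1
  rw [h4] at h2
  have h5 : |(-2 : ℝ)| = 2 := by norm_num
  rw [h5]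
  calc 2 * |Real.sin ((a + b) / 2)| * |Real.sin ((a - b) / 2)|
      ≤ 2 * (|a + b| / 2) * (|a - b| / 2) := by
        refine mul_le_mul (mul_le_mul_of_nonneg_left h1 (by norm_num)) h2 (abs_nonneg _)
          (by positivity)
    _ = _ := by ring

/-- one-sided form -/
theorem av_cos_aux (ε : ℝ) (hε : ε = 1 ∨ ε = -1) (i j : κ → S) {C D : Finset κ} (hCD : C ⊆ D)
    {φ k' k : S → ℝ} (hk' : ∀ x, 0 ≤ k' x) (hk : ∀ x, k' x ≤ k x) :
    av i j C (fun σ => (∑ x, ((σ x : ℤ) : ℝ) * (|φ x| * k' x)) ^ 2 / 2 +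
        ε * Real.cos (∑ x, ((σ x : ℤ) : ℝ) * (φ x * k' x))) ≤
      av i j D (fun σ => (∑ x, ((σ x : ℤ) : ℝ) * (|φ x| * k x)) ^ 2 / 2 +
        ε * Real.cos (∑ x, ((σ x : ℤ) : ℝ) * (φ x * k x))) := by
  have := av_le_av (E := ℝ × ℝ) i j hCD (fun p : ℝ × ℝ => p.1 ^ 2 / 2 + ε * Real.cos p.2)
    (fun x => (|φ x| * k' x, φ x * k' x)) (fun x => (|φ x| * k x, φ x * k x)) fun σ Q R => by
    simp only [Prod.fst_add, Prod.snd_add, Prod.fst_sub, Prod.snd_sub, Prod.fst_sum, Prod.snd_sum,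
      Prod.smul_fst, Prod.smul_snd, smul_eq_mul]
    set b1 := ∑ x ∈ Q, ((σ x : ℤ) : ℝ) * (|φ x| * k' x)
    set b2 := ∑ x ∈ Q, ((σ x : ℤ) : ℝ) * (φ x * k' x)
    set a1 := ∑ x ∈ Q, |φ x| * k x
    set a2 := ∑ x ∈ Q, φ x * k x
    have hp : |a2 + b2| ≤ a1 + b1 := by
      simp only [a2, b2, a1, b1, ← Finset.sum_add_distrib]
      refine (Finset.abs_sum_le_sum_abs _ _).trans (Finset.sum_le_sum fun x _ => ?_)
      have e : φ x * k x + ((σ x : ℤ) : ℝ) * (φ x * k' x) =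
          φ x * (k x + ((σ x : ℤ) : ℝ) * k' x) := by ring
      have h0 : 0 ≤ k x + ((σ x : ℤ) : ℝ) * k' x := by
        rcases Int.units_eq_one_or (σ x) with h | h <;> rw [h] <;> push_cast <;>
          linarith [hk x, hk' x]
      rw [e, abs_mul, abs_of_nonneg h0]
      apply le_of_eq; ring
    have hm : |a2 - b2| ≤ a1 - b1 := by
      simp only [a2, b2, a1, b1, ← Finset.sum_sub_distrib]
      refine (Finset.abs_sum_le_sum_abs _ _).trans (Finset.sum_le_sum fun x _ => ?_)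
      have e : φ x * k x - ((σ x : ℤ) : ℝ) * (φ x * k' x) =
          φ x * (k x - ((σ x : ℤ) : ℝ) * k' x) := by ring
      have h0 : 0 ≤ k x - ((σ x : ℤ) : ℝ) * k' x := by
        rcases Int.units_eq_one_or (σ x) with h | h <;> rw [h] <;> push_cast <;>
          linarith [hk x, hk' x]
      rw [e, abs_mul, abs_of_nonneg h0]
      apply le_of_eq; ring
    have hc : ∀ y : ℝ, Real.cos (R.2 + y) + Real.cos (R.2 - y) = 2 * Real.cos R.2 * Real.cos y :=
      fun y => by rw [Real.cos_add, Real.cos_sub]; ring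
    have hcos : |Real.cos a2 - Real.cos b2| ≤ (a1 ^ 2 - b1 ^ 2) / 2 := by
      refine (abs_cos_sub_cos_le a2 b2).trans ?_
      have := mul_le_mul hp hm (abs_nonneg _) ((abs_nonneg _).trans hp)
      nlinarith
    have hR : |Real.cos R.2| ≤ 1 := Real.abs_cos_le_one _
    have hprod : |ε * Real.cos R.2 * (Real.cos a2 - Real.cos b2)| ≤ (a1 ^ 2 - b1 ^ 2) / 2 := by
      rw [abs_mul, abs_mul]
      have : |ε| = 1 := by rcases hε with h | h <;> rw [h] <;> norm_num
      rw [this, one_mul]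
      calc |Real.cos R.2| * |Real.cos a2 - Real.cos b2| ≤ 1 * |Real.cos a2 - Real.cos b2| :=
            mul_le_mul_of_nonneg_right hR (abs_nonneg _)
        _ ≤ _ := by rw [one_mul]; exact hcos
    have h1 := (abs_le.1 hprod).1
    have e1 := hc a2
    have e2 := hc b2
    have : (R.1 + a1) ^ 2 / 2 + ε * Real.cos (R.2 + a2) + ((R.1 - a1) ^ 2 / 2 +
        ε * Real.cos (R.2 - a2)) - ((R.1 + b1) ^ 2 / 2 + ε * Real.cos (R.2 + b2) +
        ((R.1 - b1) ^ 2 / 2 + ε * Real.cos (R.2 - b2))) =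
        (a1 ^ 2 - b1 ^ 2) + 2 * (ε * Real.cos R.2 * (Real.cos a2 - Real.cos b2)) := by
      have : (R.1 + a1) ^ 2 / 2 + ε * Real.cos (R.2 + a2) + ((R.1 - a1) ^ 2 / 2 +
        ε * Real.cos (R.2 - a2)) - ((R.1 + b1) ^ 2 / 2 + ε * Real.cos (R.2 + b2) +
        ((R.1 - b1) ^ 2 / 2 + ε * Real.cos (R.2 - b2))) = (a1 ^ 2 - b1 ^ 2) +
        ε * ((Real.cos (R.2 + a2) + Real.cos (R.2 - a2)) -
          (Real.cos (R.2 + b2) + Real.cos (R.2 - b2))) := by ring
      rw [this, e1, e2]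
      ring
    linarith
  simpa only [Prod.fst_sum, Prod.snd_sum, Prod.smul_fst, Prod.smul_snd, smul_eq_mul] using this

lemma av_const_mul (i j : κ → S) (C : Finset κ) (r : ℝ) (f : (S → ℤˣ) → ℝ) :
    av i j C (fun σ => r * f σ) = r * av i j C f := by
  unfold av aC
  rw [← mul_div_assoc, Finset.mul_sum]
  congr 1
  exact Finset.sum_congr rfl fun σ _ => by ring

/-- **Cosine comparison**: `|E_D cos X - E_C cos X'| ≤ (E_D Y² - E_C Y'²)/2` where
`X = ∑ σ φ k`, `Y = ∑ σ |φ| k` (primes: smaller `k'`, fewer constraints `C ⊆ D`). -/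
theorem av_cos_sub (i j : κ → S) {C D : Finset κ} (hCD : C ⊆ D)
    {φ k' k : S → ℝ} (hk' : ∀ x, 0 ≤ k' x) (hk : ∀ x, k' x ≤ k x) :
    |av i j D (fun σ => Real.cos (∑ x, ((σ x : ℤ) : ℝ) * (φ x * k x))) -
        av i j C (fun σ => Real.cos (∑ x, ((σ x : ℤ) : ℝ) * (φ x * k' x)))| ≤
      (av i j D (fun σ => (∑ x, ((σ x : ℤ) : ℝ) * (|φ x| * k x)) ^ 2) -
        av i j C (fun σ => (∑ x, ((σ x : ℤ) : ℝ) * (|φ x| * k' x)) ^ 2)) / 2 := by
  have h1 := av_cos_aux 1 (Or.inl rfl) i j hCD (φ := φ) hk' hk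
  have h2 := av_cos_aux (-1) (Or.inr rfl) i j hCD (φ := φ) hk' hk
  have e : ∀ (ε : ℝ) (T : Finset κ) (κ' : S → ℝ),
      av i j T (fun σ => (∑ x, ((σ x : ℤ) : ℝ) * (|φ x| * κ' x)) ^ 2 / 2 +
        ε * Real.cos (∑ x, ((σ x : ℤ) : ℝ) * (φ x * κ' x))) =
      av i j T (fun σ => (∑ x, ((σ x : ℤ) : ℝ) * (|φ x| * κ' x)) ^ 2) / 2 +
        ε * av i j T (fun σ => Real.cos (∑ x, ((σ x : ℤ) : ℝ) * (φ x * κ' x))) := by
    intro ε T κ'
    rw [av_add, av_const_mul]
    congr 1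
    rw [div_eq_inv_mul, ← av_const_mul]
    congr 1
    funext σ
    rw [div_eq_inv_mul]
  rw [e, e] at h1 h2
  rw [abs_le]
  constructor <;> linarith

end apps

end Crest.Agent.R161.H689
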