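import Crest.Agent.R161.Flip_228
import Crest.Agent.R161.Dmp_341
import Crest.Agent.R161.Ifc_372

/-!
# Symmetrisation at an outer cut contour (helper689, R161 STEP 7/8)

* `E_cut_gen` : disintegration form of the domain Markov property.
* `WW U x ω` : the component containing `x` of the set of faces of `U` not reached from outside `U`
  through non-cut edges; `Sep U B ω` : `B` is not reached.
* `E_sep_decomp` : decomposition of `E[1_Sep G]` over the values of `WW` and of the boundary height.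
* `CvxMono c` : convex-order monotonicity in the domain.
* `symm_le` : `P_F(Sep) * E_D Φ(X_a') ≤ E_F[1_Sep Φ(X_a + X_b)]`.
-/

set_option autoImplicit false

noncomputable section

namespace Crest.Agent.R161.H689

open Finset Crest.Agent.R161.Geo729 Crest.Agent.R161.Defs372 Crest.Agent.R161.Dmp341
  Crest.Agent.R161.Flip228 Crest.Agent.R161.Hull374 Crest.Agent.R161.Dual374
  Crest.Agent.R161.Ifc372

open Classical in
/-- **Disintegration** at a cut set. -/
theorem E_cut_gen {c : ℝ} (hc : 1 ≤ c) {F D : Finset P2} (hD : D ⊆ F) (q : ℤ) (Ψ : Cfg → Cfg → ℝ)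
    (hΨ : ∀ β, OutLoc D (fun ω => Ψ ω β)) :
    E c F (fun ω => if CutAt D q ω then Ψ ω (ins D q ω) else 0) =
      E c F (fun ω => if CutAt D q ω then E c D (Ψ ω) else 0) := by
  have h1 : E c F (fun ω => if CutAt D q ω then Ψ ω (ins D q ω) else 0) =
      ∑ β ∈ conf D, E c F (fun ω => if CutAt D q ω then
        Ψ ω β * (if ins D q ω = β then (1 : ℝ) else 0) else 0) := by
    rw [← E_sum]
    refine E_congr fun ω hω => ?_
    by_cases h : CutAt D q ω
    · simp only [if_pos h]
      rw [Finset.sum_eq_single (ins D q ω)]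
      · simp
      · intro β _ hβ
        rw [if_neg (Ne.symm hβ), mul_zero]
      · intro hn
        exact absurd (mem_conf.2 (valid_ins hD hω h)) hn
    · simp [h]
  have h2 : ∀ β ∈ conf D, E c F (fun ω => if CutAt D q ω then
        Ψ ω β * (if ins D q ω = β then (1 : ℝ) else 0) else 0) =
      E c F (fun ω => if CutAt D q ω then Ψ ω β else 0) * pr c D β := by
    intro β hβ
    rw [E_cut hc hD q (g := fun ω => Ψ ω β) (f := fun α => if α = β then (1 : ℝ) else 0) (hΨ β)]
    congr 1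
    unfold E
    rw [Finset.sum_eq_single β]
    · simp
    · intro α _ hα
      simp only [if_neg hα, mul_zero]
    · intro hn
      exact absurd hβ hn
  rw [h1, Finset.sum_congr rfl h2]
  have h3 : ∀ β ∈ conf D, E c F (fun ω => if CutAt D q ω then Ψ ω β else 0) * pr c D β =
      E c F (fun ω => pr c D β * (if CutAt D q ω then Ψ ω β else 0)) := by
    intro β _
    rw [E_smul, mul_comm]
  rw [Finset.sum_congr rfl h3, ← E_sum]
  refine E_congr fun ω _ => ?_
  by_cases h : CutAt D q ω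
  · simp only [if_pos h]
    rfl
  · simp [h]

/-- `B` is separated from the outside of `U` by cut edges. -/
def Sep (U : Finset P2) (B : Finset P2) (ω : Cfg) : Prop := ∀ y ∈ B, y ∉ RR (U : Set P2) ω

open Classical in
/-- The component of `x` as a finset. -/
def WW (U : Finset P2) (x : P2) (ω : Cfg) : Finset P2 := U.filter fun f => f ∈ DD (U : Set P2) x ω

theorem coe_WW {U : Finset P2} {x : P2} {ω : Cfg} (hx : x ∉ RR (U : Set P2) ω) :
    (WW U x ω : Set P2) = DD (U : Set P2) x ω := by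
  ext f
  simp only [WW, Finset.coe_filter, Set.mem_ofPred_eq]
  exact ⟨fun h => h.2, fun h => ⟨DD_subset hx h, h⟩⟩

theorem WW_subset (U : Finset P2) (x : P2) (ω : Cfg) : WW U x ω ⊆ U := by
  classical
  exact Finset.filter_subset _ _

theorem mem_bdE_iff {D : Finset P2} {e : Edge} : e ∈ bdE D ↔ Bd (D : Set P2) e := by
  rw [mem_bdE]
  unfold Bd
  simp only [Finset.mem_coe]
  tauto

theorem mixed_of_bdV {D : Finset P2} {v : P2} (hv : v ∈ bdV D) : Mixed (D : Set P2) v := by
  obtain ⟨⟨f, hf, hvf⟩, h2⟩ := mem_bdV.1 hv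
  refine ⟨⟨f, hf, hvf⟩, ?_⟩
  rw [mem_intVerts, intV_iff] at h2
  push Not at h2
  obtain ⟨g, hg, hgD⟩ := h2
  exact ⟨g, hgD, hg⟩

/-- endpoints of cut edges have equal heights -/
theorem cut_eq_of_wt {c : ℝ} {F : Finset P2} {ω : Cfg} (h : Valid F ω) (hw : wt c F ω ≠ 0)
    (e : Edge) (he : ω.2.2 e = true) : ω.1 (src e) = ω.1 (tgt e) := by
  by_cases hi : e ∈ intEdges F
  · by_contra hne
    apply hw
    unfold wt
    refine Finset.prod_eq_zero hi ?_
    exact ew_eq_zero fun h' => hne (h'.1 he)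
  · obtain ⟨h1, h2⟩ := not_int_of_not_intEdges hi
    rw [h.zero _ h1, h.zero _ h2]

theorem bdV_nonempty {D : Finset P2} (h : D.Nonempty) : (bdV D).Nonempty := by
  obtain ⟨f, hf, hmax⟩ := D.exists_max_image (fun f => f.1) h
  refine ⟨(f.1 + 1, f.2), ?_⟩
  rw [mem_bdV]
  refine ⟨⟨f, hf, by simp [Geo729.IsCorner]⟩, ?_⟩
  rw [mem_intVerts]
  rintro ⟨h1, _⟩
  have := hmax _ h1
  simp at this

/-- On `Sep`, the hull component is a cut set at some height. -/
theorem cutAt_WW {c : ℝ} {F U : Finset P2} {x : P2} {ω : Cfg} (hU : IsConn (U : Set P2)ᶜ)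
    (hx : x ∉ RR (U : Set P2) ω) (h : Valid F ω) (hw : wt c F ω ≠ 0) {v : P2}
    (hv : v ∈ bdV (WW U x ω)) : CutAt (WW U x ω) (ω.1 v) ω := by
  have hUne : ((U : Set P2)ᶜ).Nonempty := by
    have : (U : Set P2) ≠ Set.univ := fun hu => by
      have : (Set.univ : Set P2).Finite := hu ▸ U.finite_toSet
      exact Set.infinite_univ this
    exact Set.nonempty_compl.2 this
  have hfin : (RR (U : Set P2) ω)ᶜ.Finite :=
    U.finite_toSet.subset (compl_RR_subset (U : Set P2) ω)
  have hK : ∀ e, ω.2.2 e = true → ω.1 (src e) = ω.1 (tgt e) := cut_eq_of_wt h hw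
  obtain ⟨h1, h2, _⟩ := explore (fun e => ω.2.2 e = true) (U : Set P2)ᶜ hU hUne x hx
    (Or.inr hfin) ω.1 hK
  have hcoe := coe_WW hx
  have key : ∀ u ∈ bdV (WW U x ω), ∃ e, Bd (DD (U : Set P2) x ω) e ∧ ω.1 (src e) = ω.1 u := by
    intro u hu
    have hm := mixed_of_bdV hu
    rw [hcoe] at hm
    obtain ⟨e, he, hue⟩ := mixed_edge hm
    refine ⟨e, he, ?_⟩
    rcases hue with hue | hue
    · rw [hue]
    · rw [← hue]; exact hK e (h1 e he)
  refine ⟨h.even v, fun e he => ?_, fun u hu => ?_⟩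
  · rw [mem_bdE_iff, hcoe] at he
    exact h1 e he
  · obtain ⟨e, he, hue⟩ := key u hu
    obtain ⟨e', he', hve⟩ := key v hv
    rw [← hue, ← hve]
    exact h2 e e' he he'

theorem dom_WW {U : Finset P2} {x : P2} {ω : Cfg} (hU : IsConn (U : Set P2)ᶜ)
    (hx : x ∉ RR (U : Set P2) ω) : Dom (WW U x ω) := by
  have hUne : ((U : Set P2)ᶜ).Nonempty := by
    have : (U : Set P2) ≠ Set.univ := fun hu => by
      have : (Set.univ : Set P2).Finite := hu ▸ U.finite_toSet
      exact Set.infinite_univ this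
    exact Set.nonempty_compl.2 this
  have hfin : (RR (U : Set P2) ω)ᶜ.Finite :=
    U.finite_toSet.subset (compl_RR_subset (U : Set P2) ω)
  obtain ⟨_, _, h3, h4⟩ := explore (fun e => ω.2.2 e = true) (U : Set P2)ᶜ hU hUne x hx
    (Or.inr hfin) (fun _ => (0 : ℤ)) (fun _ _ => rfl)
  have hcoe := coe_WW hx
  constructor
  · rw [hcoe]; exact h3
  · unfold SC; rw [hcoe]; exact h4

theorem subset_WW {U B : Finset P2} {x : P2} {ω : Cfg} (hB : IsConn (B : Set P2)) (hxB : x ∈ B)
    (h : Sep U B ω) : B ⊆ WW U x ω := by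
  intro y hy
  have : y ∈ DD (U : Set P2) x ω := (hB x hxB y hy).mono fun z hz => h z hz
  have h2 : y ∈ (WW U x ω : Set P2) := by rw [coe_WW (h x hxB)]; exact this
  exact h2

/-- the exploration event is determined by the cut variables off the revealed component -/
theorem RR_congr {U : Finset P2} {x : P2} {ω ω' : Cfg} (hx : x ∉ RR (U : Set P2) ω)
    (h : ∀ e, e ∉ intEdges (WW U x ω) → ω.2.2 e = ω'.2.2 e) :
    RR (U : Set P2) ω' = RR (U : Set P2) ω := by
  have hD : ∀ f ∈ RR (U : Set P2) ω, f ∉ WW U x ω := by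
    intro f hf hfW
    have : f ∈ (WW U x ω : Set P2) := hfW
    rw [coe_WW hx] at this
    exact comp_subset hx this hf
  have hint : ∀ f ∈ RR (U : Set P2) ω, ∀ e, (f = fA e ∨ f = fB e) → ω.2.2 e = ω'.2.2 e := by
    intro f hf e he
    apply h
    rw [mem_intEdges]
    rintro ⟨h1, h2⟩
    rcases he with he | he
    · exact hD f hf (he ▸ h1)
    · exact hD f hf (he ▸ h2)
  have hiff : ∀ a ∈ (U : Set P2)ᶜ, ∀ f,
      Relation.ReflTransGen (DStep (fun e => ¬ ω'.2.2 e = true)) a f → f ∈ RR (U : Set P2) ω := by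
    intro a ha f hf
    induction hf with
    | refl => exact subset_reach _ _ ha
    | @tail b g _ h2 ih =>
      obtain ⟨a0, ha0, hpath⟩ := ih
      obtain ⟨e, he, hfg⟩ := h2
      have hb : b = fA e ∨ b = fB e := by
        rcases hfg with ⟨h3, _⟩ | ⟨h3, _⟩
        · exact Or.inl h3
        · exact Or.inr h3
      have hz := hint b ⟨a0, ha0, hpath⟩ e hb
      refine ⟨a0, ha0, hpath.tail ⟨e, ?_, hfg⟩⟩
      show ¬ ω.2.2 e = true
      rw [hz]; exact he
  have hiff' : ∀ a ∈ (U : Set P2)ᶜ, ∀ f,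
      Relation.ReflTransGen (DStep (fun e => ¬ ω.2.2 e = true)) a f → f ∈ RR (U : Set P2) ω' := by
    intro a ha f hf
    have : f ∈ RR (U : Set P2) ω ∧ f ∈ RR (U : Set P2) ω' := by
      induction hf with
      | refl => exact ⟨subset_reach _ _ ha, subset_reach _ _ ha⟩
      | @tail b g _ h2 ih =>
        obtain ⟨⟨a0, ha0, hpath⟩, ⟨a1, ha1, hpath1⟩⟩ := ih
        obtain ⟨e, he, hfg⟩ := h2
        have hb : b = fA e ∨ b = fB e := by
          rcases hfg with ⟨h3, _⟩ | ⟨h3, _⟩
          · exact Or.inl h3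
          · exact Or.inr h3
        have hz := hint b ⟨a0, ha0, hpath⟩ e hb
        refine ⟨⟨a0, ha0, hpath.tail ⟨e, he, hfg⟩⟩, ⟨a1, ha1, hpath1.tail ⟨e, ?_, hfg⟩⟩⟩
        show ¬ ω'.2.2 e = true
        rw [← hz]; exact he
    exact this.2
  apply Set.Subset.antisymm
  · rintro f ⟨a, ha, hf⟩
    exact hiff a ha f hf
  · rintro f ⟨a, ha, hf⟩
    exact hiff' a ha f hf

open Classical in
/-- indicator of `Sep` with prescribed component -/
def evW (U B : Finset P2) (x : P2) (D : Finset P2) (ω : Cfg) : ℝ :=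
  if Sep U B ω ∧ WW U x ω = D then 1 else 0

theorem evW_outLoc {U B : Finset P2} {x : P2} (hxB : x ∈ B) (D : Finset P2) :
    OutLoc D (evW U B x D) := by
  classical
  have key : ∀ ω ω' : Cfg, (∀ e, e ∉ intEdges D → ω.2.2 e = ω'.2.2 e) →
      (Sep U B ω ∧ WW U x ω = D) → (Sep U B ω' ∧ WW U x ω' = D) := by
    rintro ω ω' h ⟨h1, h2⟩
    have hR := RR_congr (ω' := ω') (h1 x hxB) (by rw [h2]; exact h)
    refine ⟨fun y hy => ?_, ?_⟩
    · rw [hR]; exact h1 y hy
    · rw [← h2]
      unfold WW DD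
      rw [hR]
  intro ω ω' _ _ h
  unfold evW
  by_cases h1 : Sep U B ω ∧ WW U x ω = D
  · rw [if_pos h1, if_pos (key ω ω' h h1)]
  · rw [if_neg h1, if_neg (fun h2 => h1 (key ω' ω (fun e he => (h e he).symm) h2))]

open Classical in
/-- **Exploration decomposition.** -/
theorem E_sep_decomp {c : ℝ} (F U B : Finset P2) (hU : IsConn (U : Set P2)ᶜ)
    {x : P2} (hxB : x ∈ B) (hB : IsConn (B : Set P2)) (G : Cfg → ℝ) :
    E c F (fun ω => if Sep U B ω then G ω else 0) =
      ∑ D ∈ U.powerset, ∑ q ∈ Finset.Icc (-hb F) (hb F),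
        E c F (fun ω => if CutAt D q ω then evW U B x D ω * G ω else 0) := by
  simp only [← E_sum]
  unfold E
  refine Finset.sum_congr rfl fun ω hω => ?_
  have hv := mem_conf.1 hω
  by_cases hw : wt c F ω = 0
  · have : pr c F ω = 0 := by rw [pr_of_valid c hv, hw, zero_div]
    rw [this, zero_mul, zero_mul]
  congr 1
  dsimp only
  by_cases hs : Sep U B ω
  · rw [if_pos hs]
    have hW := WW_subset U x ω
    rw [Finset.sum_eq_single_of_mem (WW U x ω) (Finset.mem_powerset.2 hW)]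
    · have hne : (WW U x ω).Nonempty := ⟨x, subset_WW hB hxB hs hxB⟩
      obtain ⟨v, hvb⟩ := bdV_nonempty hne
      have hcut := cutAt_WW hU (hs x hxB) hv hw hvb
      have hmem : ω.1 v ∈ Finset.Icc (-hb F) (hb F) := by
        rw [Finset.mem_Icc, ← abs_le]
        exact hv.abs_vert v
      rw [Finset.sum_eq_single_of_mem _ hmem]
      · rw [if_pos hcut]
        have : evW U B x (WW U x ω) ω = 1 := if_pos ⟨hs, rfl⟩
        rw [this, one_mul]
      · intro q _ hq
        rw [if_neg]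
        intro hcq
        exact hq (hcq.ht v hvb).symm
    · intro D _ hD
      refine Finset.sum_eq_zero fun q _ => ?_
      have : evW U B x D ω = 0 := if_neg fun h => hD h.2.symm
      rw [this, zero_mul, ite_self]
  · rw [if_neg hs]
    symm
    refine Finset.sum_eq_zero fun D _ => Finset.sum_eq_zero fun q _ => ?_
    have : evW U B x D ω = 0 := if_neg fun h => hs h.1
    rw [this, zero_mul, ite_self]

/-! ### symmetrisation -/

/-- linear functional of the vertex heights -/
def L (S : Finset P2) (a : P2 → ℝ) (u : Cfg) : ℝ := ∑ v ∈ S, (u.1 v : ℝ) * a v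

/-- negation of all heights inside the domain -/
theorem E_neg_vert (c : ℝ) (F S : Finset P2) (a : P2 → ℝ) (g : ℝ → ℝ) :
    E c F (fun u => g (-(L S a u))) = E c F (fun u => g (L S a u)) := by
  classical
  have h := sum_flip c F (fun _ => Set.univ) (fun _ _ _ => rfl) (fun u => g (L S a u))
  have hcut : ∀ ω, Cut F Set.univ ω := fun ω =>
    ⟨fun v hv => by
      obtain ⟨_, ⟨f, hf, _⟩⟩ := hv
      simp at hf,
     fun e _ he => by
      rcases he with ⟨_, h2⟩ | ⟨h2, _⟩ <;> exact absurd (Set.mem_univ _) h2⟩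
  simp only [hcut, if_true] at h
  rw [← h]
  refine E_congr fun u _ => ?_
  congr 1
  unfold L
  rw [← Finset.sum_neg_distrib]
  refine Finset.sum_congr rfl fun v _ => ?_
  have : (flip F Set.univ u).1 v = -u.1 v := flip_k_touch F u ⟨v, Set.mem_univ _, by
    simp [Geo729.IsCorner]⟩
  rw [this]
  push_cast
  ring

/-- Jensen with a symmetric variable. -/
theorem E_convex_shift {c : ℝ} (hc : 1 ≤ c) (F S : Finset P2) (a : P2 → ℝ) {Φ : ℝ → ℝ}
    (hΦ : ConvexOn ℝ Set.univ Φ) (hev : ∀ x, Φ (-x) = Φ x) (y : ℝ) :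
    E c F (fun u => Φ (L S a u)) ≤ E c F (fun u => Φ (L S a u + y)) := by
  have h1 : E c F (fun u => Φ (L S a u + y)) = E c F (fun u => Φ (L S a u - y)) := by
    rw [← E_neg_vert c F S a (fun t => Φ (t + y))]
    refine E_congr fun u _ => ?_
    rw [← hev]
    congr 1
    ring
  have h2 : E c F (fun u => Φ (L S a u)) ≤
      E c F (fun u => (1 / 2) * Φ (L S a u + y) + (1 / 2) * Φ (L S a u - y)) := by
    refine E_mono hc fun u _ => ?_
    have := hΦ.2 (Set.mem_univ (L S a u + y)) (Set.mem_univ (L S a u - y))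
      (by norm_num : (0 : ℝ) ≤ 1 / 2) (by norm_num : (0 : ℝ) ≤ 1 / 2) (by norm_num)
    simp only [smul_eq_mul] at this
    have e : 1 / 2 * (L S a u + y) + 1 / 2 * (L S a u - y) = L S a u := by ring
    rw [e] at this
    exact this
  rw [E_add, E_smul, E_smul, ← h1] at h2
  linarith

/-- **Convex-order monotonicity in the domain.** -/
def CvxMono (c : ℝ) : Prop := ∀ D₁ D₂ : Finset P2, Dom D₁ → Dom D₂ → D₁ ⊆ D₂ →
  ∀ (S : Finset P2) (a b : P2 → ℝ), (∀ v, |a v| ≤ b v) → ∀ Φ : ℝ → ℝ, ConvexOn ℝ Set.univ Φ →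
    E c D₁ (fun u => Φ (L S a u)) ≤ E c D₂ (fun u => Φ (L S b u))

open Classical in
/-- **Symmetrisation inequality.** `a` lives inside `B`, `b` outside `U`; `D ⊆ B ⊆ U ⊆ F`. -/
theorem symm_le {c : ℝ} (hc : 1 ≤ c) (hM : CvxMono c) {F U B D : Finset P2} (hUF : U ⊆ F)
    (hU : IsConn (U : Set P2)ᶜ) {x : P2} (hxB : x ∈ B) (hB : IsConn (B : Set P2))
    (hD : Dom D) (hDB : D ⊆ B) (S : Finset P2) {a' a b : P2 → ℝ} (haa : ∀ v, |a' v| ≤ a v)
    (ha : ∀ v, v ∉ intVerts B → a v = 0) (hb : ∀ v ∈ intVerts U, b v = 0) {Φ : ℝ → ℝ}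
    (hΦ : ConvexOn ℝ Set.univ Φ) (hev : ∀ x, Φ (-x) = Φ x) :
    E c F (fun ω => if Sep U B ω then 1 else 0) * E c D (fun u => Φ (L S a' u)) ≤
      E c F (fun ω => if Sep U B ω then Φ (L S (fun v => a v + b v) ω) else 0) := by
  rw [E_sep_decomp F U B hU hxB hB, E_sep_decomp F U B hU hxB hB, Finset.sum_mul]
  refine Finset.sum_le_sum fun D0 hD0 => ?_
  rw [Finset.sum_mul]
  refine Finset.sum_le_sum fun q _ => ?_
  rw [Finset.mem_powerset] at hD0
  have hDF : D0 ⊆ F := hD0.trans hUF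
  by_cases hex : ∃ ω, Sep U B ω ∧ WW U x ω = D0
  swap
  · have h0 : ∀ ω, evW U B x D0 ω = 0 := fun ω => if_neg fun h => hex ⟨ω, h⟩
    simp only [h0, zero_mul, ite_self, mul_one]
    rw [show (fun _ : Cfg => (0 : ℝ)) = fun _ => 0 * (0 : ℝ) by simp, E_smul]
    simp
  obtain ⟨ω0, hs0, hW0⟩ := hex
  have hDom : Dom D0 := hW0 ▸ dom_WW hU (hs0 x hxB)
  have hBD : B ⊆ D0 := hW0 ▸ subset_WW hB hxB hs0
  -- linear functional on the cut event
  set A : ℝ := ∑ v ∈ S, a v with hA
  have hlin : ∀ ω : Cfg, L S (fun v => a v + b v) ω =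
      L S a (ins D0 q ω) + ((q : ℝ) * A + L S b ω) := by
    intro ω
    unfold L
    rw [hA, Finset.mul_sum, ← Finset.sum_add_distrib, ← Finset.sum_add_distrib]
    refine Finset.sum_congr rfl fun v _ => ?_
    by_cases hv : v ∈ intVerts D0
    · simp only [ins, if_pos hv]
      push_cast
      ring
    · have hvB : v ∉ intVerts B := fun h => hv (intVerts_mono hBD h)
      simp only [ins, if_neg hv]
      rw [ha v hvB]
      simp
  set Ψ : Cfg → Cfg → ℝ := fun ω β =>
    evW U B x D0 ω * Φ (L S a β + ((q : ℝ) * A + L S b ω)) with hΨ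
  have hΨout : ∀ β, OutLoc D0 (fun ω => Ψ ω β) := by
    intro β ω ω' h1 h2 h3
    simp only [hΨ]
    have e1 : evW U B x D0 ω = evW U B x D0 ω' := evW_outLoc hxB D0 ω ω' h1 h2 h3
    have e2 : L S b ω = L S b ω' := by
      unfold L
      refine Finset.sum_congr rfl fun v _ => ?_
      by_cases hv : v ∈ intVerts D0
      · rw [hb v (intVerts_mono hD0 hv)]; simp
      · rw [h1 v hv]
    rw [e1, e2]
  have key : E c F (fun ω => if CutAt D0 q ω then evW U B x D0 ω *
        Φ (L S (fun v => a v + b v) ω) else 0) =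
      E c F (fun ω => if CutAt D0 q ω then E c D0 (Ψ ω) else 0) := by
    rw [← E_cut_gen hc hDF q Ψ hΨout]
    refine E_congr fun ω _ => ?_
    simp only [hΨ, hlin]
  rw [key, mul_comm, ← E_smul]
  refine E_mono hc fun ω _ => ?_
  by_cases hcut : CutAt D0 q ω
  · simp only [if_pos hcut, mul_one]
    have h1 : E c D0 (Ψ ω) = evW U B x D0 ω *
        E c D0 (fun β => Φ (L S a β + ((q : ℝ) * A + L S b ω))) := by
      simp only [hΨ]
      rw [E_smul]
    rw [h1, mul_comm]
    have hev0 : 0 ≤ evW U B x D0 ω := by unfold evW; split_ifs <;> norm_num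
    refine mul_le_mul_of_nonneg_left ?_ hev0
    exact (hM D D0 hD hDom (hDB.trans hBD) S a' a haa Φ hΦ).trans
      (E_convex_shift hc D0 S a hΦ hev _)
  · simp [hcut]

end Crest.Agent.R161.H689
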