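import Crest.Agent.R161.H3_689
import Crest.Agent.R161.Rect_597

/-!
# Comparison of a zero boundary domain with the plane state (helper689, R161 STEP 7/8)

`plane_bound` : for `D ⊆ ball 0 n`, `Φ ≥ 0` even convex and a neutral functional `X_{a+b}`, `a` inside
`ball 0 n`, `b` outside `ball 0 (2n)`: `q * E_D Φ(X_a') ≤ ∫ Φ(X_{a+b}) dP`.
-/

set_option autoImplicit false

noncomputable section

namespace Crest.Agent.R161.H689

open Finset MeasureTheory Crest.Agent.R161.Geo729 Crest.Agent.R161.Defs372 Crest.Agent.R161.Dmp341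
  Crest.Agent.R161.Flip228 Crest.Agent.R161.Hull374 Crest.Agent.R161.Dual374
  Crest.Agent.R161.Ifc372

theorem ball_eq_rect (x : P2) (n : ℕ) :
    ball x n = Rect597.rect (x.1 - n) (x.1 + n - 1) (x.2 - n) (x.2 + n - 1) := rfl

theorem dom_ball (x : P2) (n : ℕ) : Dom (ball x n) := by
  rw [ball_eq_rect]; exact Rect597.dom_rect _ _ _ _

theorem mem_ball {x f : P2} {n : ℕ} : f ∈ ball x n ↔
    (x.1 - n ≤ f.1 ∧ f.1 ≤ x.1 + n - 1) ∧ (x.2 - n ≤ f.2 ∧ f.2 ≤ x.2 + n - 1) := by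
  unfold ball
  rw [Finset.mem_product, Finset.mem_Icc, Finset.mem_Icc]

theorem self_mem_ball {x : P2} {n : ℕ} (hn : 1 ≤ n) : x ∈ ball x n := by
  rw [mem_ball]
  omega

theorem reach_symm {Z : Edge → Prop} {B : Set P2} {f a : P2}
    (h : Relation.ReflTransGen (DStep (fun e => ¬ Z e)) a f) (hf : f ∈ B) : a ∈ Reach Z B := by
  refine ⟨f, hf, ?_⟩
  clear hf
  induction h with
  | refl => exact .refl
  | tail _ h2 ih => exact Relation.ReflTransGen.head h2.symm ih

/-- a plus-cut circuit separates -/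
theorem sep_of_circ {x : P2} {n m : ℕ} {ω : Cfg} (h : Circ (plusE ω) x n m) :
    Sep (ball x m) (ball x n) ω := by
  intro y hy hyR
  obtain ⟨a, ha, hpath⟩ := hyR
  have hpath' : Relation.ReflTransGen (DStep (fun e => ¬ plusE ω e)) a y := by
    refine Relation.ReflTransGen.mono (fun f g hfg => ?_) _ _ hpath
    obtain ⟨e, he, hfg⟩ := hfg
    exact ⟨e, fun h' => he h'.1, hfg⟩
  have := h (reach_symm hpath' (B := (ball x n : Set P2)) hy)
  exact ha this

theorem L_norm0 (S : Finset P2) (a : P2 → ℝ) (ha : ∑ v ∈ S, a v = 0) (ω : Cfg) :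
    L S a (norm0 ω) = L S a ω := by
  unfold L
  have : ∀ v ∈ S, ((norm0 ω).1 v : ℝ) * a v = (ω.1 v : ℝ) * a v - (ω.1 (0, 0) : ℝ) * a v := by
    intro v _
    have : (norm0 ω).1 v = ω.1 v + -ω.1 (0, 0) := rfl
    rw [this]
    push_cast
    ring
  rw [Finset.sum_congr rfl this, Finset.sum_sub_distrib, ← Finset.mul_sum, ha, mul_zero, sub_zero]

theorem loc_L (S : Finset P2) (a : P2 → ℝ) (g : ℝ → ℝ) :
    Loc (S : Set P2) (fun ω => g (L S a ω)) := by
  intro ω ω' h
  have : L S a ω = L S a ω' := by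
    unfold L
    exact Finset.sum_congr rfl fun v hv => by rw [(h v hv).1]
  simp only [this]

/-- **Comparison with the plane state.** -/
theorem plane_bound {c : ℝ} (hc : 1 ≤ c) (hM : CvxMono c) (hC : UnifCirc c) {P : Measure Cfg}
    (hP : IsState c P) :
    ∃ (q : ℝ) (n0 : ℕ), 0 < q ∧ 1 ≤ n0 ∧ ∀ n : ℕ, n0 ≤ n → ∀ D : Finset P2, Dom D →
      D ⊆ ball (0, 0) n → ∀ (S : Finset P2) (a' a b : P2 → ℝ), (∀ v, |a' v| ≤ a v) →
      (∀ v, v ∉ intVerts (ball (0, 0) n) → a v = 0) →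
      (∀ v ∈ intVerts (ball (0, 0) (2 * n)), b v = 0) → ∑ v ∈ S, (a v + b v) = 0 →
      ∀ Φ : ℝ → ℝ, ConvexOn ℝ Set.univ Φ → (∀ x, Φ (-x) = Φ x) → (∀ x, 0 ≤ Φ x) →
      q * E c D (fun u => Φ (L S a' u)) ≤ ∫ ω, Φ (L S (fun v => a v + b v) ω) ∂P := by
  classical
  obtain ⟨q, n0, Lc, hq, _, hCirc⟩ := hC
  refine ⟨q, max n0 1, hq, le_max_right _ _, fun n hn D hD hDn S a' a b haa ha hb hsum Φ hΦ hev
    hΦ0 => ?_⟩
  have hn0 : n0 ≤ n := (le_max_left _ _).trans hn
  have hn1 : 1 ≤ n := (le_max_right _ _).trans hn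
  refine le_of_forall_pos_le_add fun ε hε => ?_
  obtain ⟨N, hN⟩ := hP.lim S (fun ω => Φ (L S (fun v => a v + b v) ω))
    (loc_L S _ Φ) ε hε
  set F : Finset P2 := Defs372.box (max N (2 * n)) with hF
  have hFD : Dom F := Rect597.dom_box _
  have hNF : Defs372.box N ⊆ F := by
    rw [hF, ← ball_zero, ← ball_zero]
    intro f hf
    rw [mem_ball] at hf ⊢
    have : (N : ℤ) ≤ (max N (2 * n) : ℕ) := by exact_mod_cast le_max_left _ _
    omega
  have h2nF : ball (0, 0) (2 * n) ⊆ F := by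
    rw [hF, ← ball_zero]
    intro f hf
    rw [mem_ball] at hf ⊢
    have : ((2 * n : ℕ) : ℤ) ≤ (max N (2 * n) : ℕ) := by exact_mod_cast le_max_right _ _
    omega
  have h1 := hN F hFD hNF
  have h2 : E c F (fun ω => Φ (L S (fun v => a v + b v) (norm0 ω))) =
      E c F (fun ω => Φ (L S (fun v => a v + b v) ω)) :=
    E_congr fun ω _ => by rw [L_norm0 S _ hsum]
  rw [h2] at h1
  -- circuits
  have h3 := (hCirc F hFD (0, 0) n hn0 (fun _ => 1) (fun _ => zero_le_one)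
    (fun _ _ _ _ => rfl)).1
  rw [E_const hc, mul_one] at h3
  have h4 : q ≤ E c F (fun ω => if Sep (ball (0, 0) (2 * n)) (ball (0, 0) n) ω then 1 else 0) := by
    refine h3.trans (E_mono hc fun ω _ => ?_)
    rw [one_mul]
    unfold indP
    split_ifs with h5 h6
    · exact le_rfl
    · exact absurd (sep_of_circ h5) h6
    · exact zero_le_one
    · exact le_rfl
  have h5 := symm_le hc hM (F := F) (U := ball (0, 0) (2 * n)) (B := ball (0, 0) n) (D := D) h2nF
    (dom_ball _ _).sc (x := (0, 0)) (self_mem_ball hn1) (dom_ball _ _).conn hD hDn S haa ha hb hΦ hev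
  have h6 : E c F (fun ω => if Sep (ball (0, 0) (2 * n)) (ball (0, 0) n) ω then
      Φ (L S (fun v => a v + b v) ω) else 0) ≤ E c F (fun ω => Φ (L S (fun v => a v + b v) ω)) := by
    refine E_mono hc fun ω _ => ?_
    split_ifs
    · exact le_rfl
    · exact hΦ0 _
  have h7 : 0 ≤ E c D (fun u => Φ (L S a' u)) := E_nonneg hc fun _ _ => hΦ0 _
  have h8 := mul_le_mul_of_nonneg_right h4 h7
  have h9 := (abs_lt.1 h1).2
  linarith

end Crest.Agent.R161.H689
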