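import Crest.Agent.R161.H5a_689
import Crest.Agent.R161.Asm_695
import Mathlib.Analysis.Calculus.BumpFunction.FiniteDimension

/-!
# Uniform second moment control in subdomains of a disc (helper689, R161 doc 973 (6))

`disc_ui` : for a test function `ψ` there is `C` such that for every `s > 0`, eventually as `δ → 0+`,
for every `Dom D ⊆ disc δ ρ`, `E_D [X_ψ² - (2/s²)(1 - cos (s X_ψ))] ≤ C s²`.
-/

set_option autoImplicit false

noncomputable section

namespace Crest.Agent.R161.H689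

open Finset MeasureTheory Filter Topology Crest.Agent.R161.Geo729 Crest.Agent.R161.Defs372
  Crest.Agent.R161.Ifc372
open Crest.ProbabilityR.AshkinTeller
open scoped ContDiff

theorem ptC_eq_pos (δ : ℝ) (v : P2) : ptC δ v = pos δ v := rfl

theorem ptC_re (δ : ℝ) (v : P2) : (ptC δ v).re = δ * v.1 := by
  simp [ptC]

theorem ptC_im (δ : ℝ) (v : P2) : (ptC δ v).im = δ * v.2 := by
  simp [ptC]

theorem abs_fst_lt {δ R : ℝ} (hδ : 0 < δ) {v : P2} (h : ‖ptC δ v‖ < R) : |(v.1 : ℝ)| < R / δ := by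
  have h1 := Complex.abs_re_le_norm (ptC δ v)
  rw [ptC_re, abs_mul, abs_of_pos hδ] at h1
  rw [lt_div_iff₀ hδ, mul_comm]
  exact h1.trans_lt h

theorem abs_snd_lt {δ R : ℝ} (hδ : 0 < δ) {v : P2} (h : ‖ptC δ v‖ < R) : |(v.2 : ℝ)| < R / δ := by
  have h1 := Complex.abs_im_le_norm (ptC δ v)
  rw [ptC_im, abs_mul, abs_of_pos hδ] at h1
  rw [lt_div_iff₀ hδ, mul_comm]
  exact h1.trans_lt h

/-- smooth nonnegative majorant supported in a ball -/
theorem exists_maj {φ : ℂ → ℝ} (hφ : ContDiff ℝ ∞ φ) (hc : HasCompactSupport φ) (ρ : ℝ) :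
    ∃ (ψ : ℂ → ℝ) (R : ℝ), ρ ≤ R ∧ 1 ≤ R ∧ Test ψ ∧ (∀ z, |φ z| ≤ ψ z) ∧
      (∀ z, ψ z ≠ 0 → ‖z‖ < R) := by
  obtain ⟨A, hA⟩ := hφ.continuous.bounded_above_of_compact_support hc
  obtain ⟨r, hr⟩ := hc.isCompact.isBounded.subset_closedBall (0 : ℂ)
  set r1 : ℝ := max r 1 with hr1
  have h1 : 0 < r1 := lt_of_lt_of_le one_pos (le_max_right _ _)
  let B : ContDiffBump (0 : ℂ) := ⟨r1, r1 + 1, h1, by linarith⟩
  refine ⟨fun z => |A| * B z, max ρ (r1 + 1), le_max_left _ _,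
    (by linarith : (1 : ℝ) ≤ r1 + 1).trans (le_max_right _ _), ⟨?_, ?_⟩, ?_, ?_⟩
  · exact contDiff_const.mul B.contDiff
  · exact B.hasCompactSupport.mul_left
  · intro z
    by_cases hz : ‖z‖ ≤ r1
    · have hB : B z = 1 := B.one_of_mem_closedBall (by
        rw [Metric.mem_closedBall, dist_zero_right]; exact hz)
      simp only
      rw [hB, mul_one]
      have := hA z
      rw [Real.norm_eq_abs] at this
      exact this.trans (le_abs_self A)
    · have : φ z = 0 := by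
        by_contra h0
        have h2 := hr (subset_tsupport φ h0)
        rw [Metric.mem_closedBall, dist_zero_right] at h2
        exact hz (h2.trans (le_max_left _ _))
      rw [this, abs_zero]
      exact mul_nonneg (abs_nonneg _) B.nonneg
  · intro z hz
    have hB : B z ≠ 0 := fun h => hz (by simp only; rw [h, mul_zero])
    have h2 : z ∈ Function.support (B : ℂ → ℝ) := hB
    rw [B.support_eq, Metric.mem_ball, dist_zero_right] at h2
    exact h2.trans_le (le_max_right _ _)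

theorem ball_card (x : P2) (n : ℕ) : (ball x n).card = (2 * n) ^ 2 := by
  unfold ball
  rw [Finset.card_product, Int.card_Icc, Int.card_Icc, sq]
  congr 1 <;> omega

/-- the smeared height as a finite sum -/
theorem X_eq_L {δ : ℝ} {f : ℂ → ℝ} {S : Finset P2} (hS : ∀ v : P2, f (ptC δ v) ≠ 0 → v ∈ S)
    (u : Cfg) : Ifc372.X δ f u = L S (fun v => δ ^ 2 * f (ptC δ v)) u := by
  unfold Ifc372.X L
  rw [tsum_eq_sum (s := S), Finset.mul_sum]
  · exact Finset.sum_congr rfl fun v _ => by ring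
  · intro v hv
    have : f (ptC δ v) = 0 := by
      by_contra h
      exact hv (hS v h)
    rw [this, mul_zero]

theorem mem_intVerts_ball {n : ℕ} {v : P2} (h1 : -(n : ℤ) + 1 ≤ v.1) (h2 : v.1 ≤ n - 1)
    (h3 : -(n : ℤ) + 1 ≤ v.2) (h4 : v.2 ≤ n - 1) : v ∈ intVerts (ball (0, 0) n) := by
  rw [mem_intVerts]
  refine ⟨?_, ?_, ?_, ?_⟩ <;> simp only [Finset.mem_coe, mem_ball] <;> omega

theorem co1 {δ R r x : ℝ} (hδ : 0 < δ) (hr : r * δ = R) (h : |δ * x - 6 * R| < R) :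
    5 * r < x ∧ x < 7 * r := by
  have e : δ * x - 6 * R = δ * (x - 6 * r) := by rw [← hr]; ring
  rw [e, abs_mul, abs_of_pos hδ, ← hr, mul_comm r δ] at h
  have h2 := lt_of_mul_lt_mul_left h hδ.le
  rw [abs_lt] at h2
  constructor <;> linarith [h2.1, h2.2]

theorem co2 {δ R r x : ℝ} (hδ : 0 < δ) (hr : r * δ = R) (h : |δ * x| < R) : |x| < r := by
  rw [abs_mul, abs_of_pos hδ, ← hr, mul_comm r δ] at h
  exact lt_of_mul_lt_mul_left h hδ.le

theorem co3 {δ R r M : ℝ} (hδ : 0 < δ) (hr : r * δ = R) (h1 : 6 * r ≤ M) (h2 : M < 6 * r + 1) :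
    |δ * M - 6 * R| ≤ δ := by
  have e : δ * M - 6 * R = δ * (M - 6 * r) := by rw [← hr]; ring
  rw [e, abs_mul, abs_of_pos hδ]
  have h3 : |M - 6 * r| ≤ 1 := by rw [abs_le]; constructor <;> linarith
  calc δ * |M - 6 * r| ≤ δ * 1 := mul_le_mul_of_nonneg_left h3 hδ.le
    _ = δ := mul_one _

theorem co4 {r N : ℝ} (hr : 8 < r) (h0 : 0 ≤ N) (h : N < 9 * r + 1) : (2 * N) ^ 2 ≤ 400 * r ^ 2 := by
  have h1 : 2 * N ≤ 20 * r := by linarith
  calc (2 * N) ^ 2 ≤ (20 * r) ^ 2 := pow_le_pow_left₀ (by positivity) h1 2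
    _ = 400 * r ^ 2 := by ring

theorem co5 {δ R r K C card : ℝ} (hδ : 0 < δ) (hδ1 : δ < 1) (hR : 0 < R) (hr0 : 0 < r)
    (hr : r * δ = R) (hC : 0 ≤ C) (h0 : 0 ≤ card) (hcard : card ≤ 400 * r ^ 2) :
    card ^ 2 * (K * δ ^ 3) ^ 2 * (C * (1 + 40 * r)) ≤
      160000 * R ^ 4 * K ^ 2 * (C * (1 + 40 * R)) * δ := by
  have h1 : card ^ 2 ≤ (400 * r ^ 2) ^ 2 := pow_le_pow_left₀ h0 hcard 2
  have h2 : card ^ 2 * (K * δ ^ 3) ^ 2 * (C * (1 + 40 * r)) ≤
      (400 * r ^ 2) ^ 2 * (K * δ ^ 3) ^ 2 * (C * (1 + 40 * r)) := by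
    have : 0 ≤ C * (1 + 40 * r) := by positivity
    exact mul_le_mul_of_nonneg_right (mul_le_mul_of_nonneg_right h1 (sq_nonneg _)) this
  refine h2.trans ?_
  have e1 : (400 * r ^ 2) ^ 2 * (K * δ ^ 3) ^ 2 * (C * (1 + 40 * r)) =
      160000 * (r * δ) ^ 4 * K ^ 2 * (C * (δ + 40 * (r * δ))) * δ := by ring
  rw [e1, hr]
  have h3 : δ + 40 * R ≤ 1 + 40 * R := by linarith
  have h4 : C * (δ + 40 * R) ≤ C * (1 + 40 * R) := mul_le_mul_of_nonneg_left h3 hC
  have h5 : (0 : ℝ) ≤ 160000 * R ^ 4 * K ^ 2 := by positivity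
  exact mul_le_mul_of_nonneg_right (mul_le_mul_of_nonneg_left h4 h5) hδ.le

set_option maxHeartbeats 2000000 in
/-- **Uniform second moment control.** -/
theorem disc_ui {c : ℝ} (hc : 1 ≤ c) (hM : CvxMono c) (hC : UnifCirc c) {P : Measure Cfg}
    (hP : IsState c P) (hG : PlaneGauss c P) (hV : VLin P) {ρ : ℝ} (hρ : 0 < ρ) {φ : ℂ → ℝ}
    (hφ : ContDiff ℝ ∞ φ) (hφc : HasCompactSupport φ) :
    ∃ C : ℝ, 0 ≤ C ∧ ∀ s : ℝ, 0 < s → ∀ᶠ δ : ℝ in 𝓝[>] 0, ∀ D : Finset P2, Dom D →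
      D ⊆ Asm695.disc δ ρ →
      E c D (fun u => PhiS s (Asm695.X δ D φ u)) ≤ C * s ^ 2 := by
  have hprob := hP.prob
  obtain ⟨q, n0, hq, hn01, hbound⟩ := plane_bound hc hM hC hP
  obtain ⟨ψ, R, hρR, hR1, hψ, hφψ, hψR⟩ := exists_maj hφ hφc ρ
  obtain ⟨Kl, hKl⟩ := ContDiff.lipschitzWith_of_hasCompactSupport hψ.supp hψ.smooth
    (by simp)
  have hR0 : 0 < R := by linarith
  -- the neutral test function
  set f : ℂ → ℝ := fun z => ψ z - ψ (z - ((6 * R : ℝ) : ℂ)) with hf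
  have hft : Test f := by
    refine ⟨hψ.smooth.sub (hψ.smooth.comp (contDiff_id.sub contDiff_const)), ?_⟩
    refine hψ.supp.sub ?_
    exact hψ.supp.comp_homeomorph (Homeomorph.subRight (((6 * R : ℝ) : ℂ)))
  have hf0 : ∫ z, f z = 0 := by
    have hi : Integrable ψ := hψ.smooth.continuous.integrable_of_hasCompactSupport hψ.supp
    rw [hf, integral_sub hi (hi.comp_sub_right _), integral_sub_right_eq_self ψ, sub_self]
  set v : ℝ := kap c * plog f f with hv
  have hvar := hG.var f hft hf0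
  have hv0 : 0 ≤ v := ge_of_tendsto' hvar fun δ => integral_nonneg fun u => sq_nonneg _
  obtain ⟨CV, hCV⟩ := hV
  refine ⟨(v ^ 2 / 4 + 1) / q, by positivity, fun s hs => ?_⟩
  -- limit of the plane expectation
  have hlim : Tendsto (fun δ : ℝ => ∫ u, PhiS s (Ifc372.X δ f u) ∂P) (𝓝[>] 0)
      (𝓝 (v - 2 / s ^ 2 * (1 - Real.exp (-(s ^ 2 * v / 2))))) := by
    have h1 := hvar.sub (((tendsto_const_nhds (x := (1 : ℝ))).sub (hG.law f hft hf0 s)).const_mul
      (2 / s ^ 2))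
    refine h1.congr' ?_
    filter_upwards [self_mem_nhdsWithin] with δ hδ
    have hm := hG.memLp f hft δ hδ
    have hi2 : Integrable (fun u => (Ifc372.X δ f u) ^ 2) P := hm.integrable_sq
    have hmeas : AEStronglyMeasurable (fun u => Ifc372.X δ f u) P := hm.aestronglyMeasurable
    have hic : Integrable (fun u => Real.cos (s * Ifc372.X δ f u)) P := by
      refine Integrable.of_bound
        (Real.continuous_cos.comp_aestronglyMeasurable (hmeas.const_mul s)) 1 ?_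
      exact ae_of_all _ fun u => by
        rw [Real.norm_eq_abs]; exact Real.abs_cos_le_one _
    have hi3 : Integrable (fun u => 2 / s ^ 2 * (1 - Real.cos (s * Ifc372.X δ f u))) P :=
      ((integrable_const (1 : ℝ)).sub hic).const_mul _
    have e1 : ∫ u, PhiS s (Ifc372.X δ f u) ∂P = ∫ u, (Ifc372.X δ f u) ^ 2 ∂P -
        ∫ u, 2 / s ^ 2 * (1 - Real.cos (s * Ifc372.X δ f u)) ∂P := integral_sub hi2 hi3
    have e2 : ∫ u, (1 - Real.cos (s * Ifc372.X δ f u)) ∂P =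
        1 - ∫ u, Real.cos (s * Ifc372.X δ f u) ∂P := by
      rw [integral_sub (integrable_const _) hic]
      simp
    rw [e1, integral_const_mul, e2]
  have hgauss := gauss_PhiS_le hs hv0
  -- choice of η
  set η : ℝ := s ^ 2 / (8 * (v + 1)) with hη
  have hη0 : 0 < η := by positivity
  have ev1 : ∀ᶠ δ : ℝ in 𝓝[>] 0, ∫ u, PhiS s (Ifc372.X δ f u) ∂P < s ^ 2 * v ^ 2 / 4 + s ^ 2 / 4 :=
    hlim.eventually_lt_const (by
      have : 0 < s ^ 2 / 4 := by positivity
      linarith)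
  have ev2 : ∀ᶠ δ : ℝ in 𝓝[>] 0, ∫ u, (Ifc372.X δ f u) ^ 2 ∂P < v + 1 :=
    hvar.eventually_lt_const (by linarith)
  -- the constant in the bound of the error
  set Q : ℝ := (2 / η + 2) * (160000 * R ^ 4 * (Kl : ℝ) ^ 2 * (|CV| * (1 + 40 * R))) with hQ
  have hQ0 : 0 ≤ Q := by positivity
  have ev3 : ∀ᶠ δ : ℝ in 𝓝[>] 0, Q * δ < s ^ 2 / 4 := by
    have : Tendsto (fun δ : ℝ => Q * δ) (𝓝[>] 0) (𝓝 (Q * 0)) :=
      (tendsto_nhdsWithin_of_tendsto_nhds tendsto_id).const_mul Q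
    rw [mul_zero] at this
    exact this.eventually_lt_const (by positivity)
  have ev4 : ∀ᶠ δ : ℝ in 𝓝[>] 0, δ < R / 8 :=
    eventually_nhdsWithin_of_eventually_nhds (eventually_lt_nhds (by positivity))
  have ev5 : ∀ᶠ δ : ℝ in 𝓝[>] 0, δ < R / (n0 + 1) :=
    eventually_nhdsWithin_of_eventually_nhds (eventually_lt_nhds (by positivity))
  have ev6 : ∀ᶠ δ : ℝ in 𝓝[>] 0, δ < 1 :=
    eventually_nhdsWithin_of_eventually_nhds (eventually_lt_nhds one_pos)
  filter_upwards [ev1, ev2, ev3, ev4, ev5, ev6, self_mem_nhdsWithin] with δ he1 he2 he3 he4 he5 he6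
    hδ D hD hDρ
  have hδ0 : 0 < δ := hδ
  set r : ℝ := R / δ with hr
  have hr8 : 8 < r := by rw [hr, lt_div_iff₀ hδ0]; linarith
  have hrδ : r * δ = R := by rw [hr]; field_simp
  set n : ℕ := ⌈r⌉₊ + 2 with hn
  have hn1 : r + 2 ≤ n := by
    rw [hn]; push_cast; have := Nat.le_ceil r; linarith
  have hn2 : (n : ℝ) < r + 3 := by
    rw [hn]; push_cast; have := Nat.ceil_lt_add_one (by positivity : (0:ℝ) ≤ r); linarith
  have hnn0 : n0 ≤ n := by
    have h1 : (n0 : ℝ) + 1 < r := by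
      rw [hr, lt_div_iff₀ hδ0]
      rw [lt_div_iff₀ (by positivity)] at he5
      linarith
    have : (n0 : ℝ) ≤ n := by linarith
    exact_mod_cast this
  set Mi : ℤ := ⌈6 * r⌉ with hMi
  have hM1 : 6 * r ≤ Mi := Int.le_ceil _
  have hM2 : (Mi : ℝ) < 6 * r + 1 := Int.ceil_lt_add_one _
  set N : ℕ := ⌈9 * r⌉₊ with hN
  have hN1 : 9 * r ≤ N := Nat.le_ceil _
  have hN2 : (N : ℝ) < 9 * r + 1 := Nat.ceil_lt_add_one (by positivity)
  set S : Finset P2 := ball (0, 0) N with hS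
  -- coefficients
  set a : P2 → ℝ := fun w => δ ^ 2 * ψ (ptC δ w) with ha
  set a' : P2 → ℝ := fun w => δ ^ 2 * φ (ptC δ w) with ha'
  set b : P2 → ℝ := fun w => -(a (w.1 - Mi, w.2)) with hb
  have ha0 : ∀ w : P2, a w ≠ 0 → |(w.1 : ℝ)| < r ∧ |(w.2 : ℝ)| < r := by
    intro w hw
    have h1 : ψ (ptC δ w) ≠ 0 := fun h => hw (by simp only [ha]; rw [h, mul_zero])
    exact ⟨abs_fst_lt hδ0 (hψR _ h1), abs_snd_lt hδ0 (hψR _ h1)⟩
  have haa : ∀ w, |a' w| ≤ a w := by
    intro w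
    simp only [ha', ha]
    rw [abs_mul, abs_of_nonneg (sq_nonneg δ)]
    exact mul_le_mul_of_nonneg_left (hφψ _) (sq_nonneg δ)
  have hint : ∀ w, w ∉ intVerts (ball (0, 0) n) → a w = 0 := by
    intro w hw
    by_contra hne
    obtain ⟨h1, h2⟩ := ha0 w hne
    rw [abs_lt] at h1 h2
    apply hw
    have k1 : (-(n : ℝ)) + 1 < w.1 := by linarith
    have k2 : (w.1 : ℝ) < n - 1 := by linarith
    have k3 : (-(n : ℝ)) + 1 < w.2 := by linarith
    have k4 : (w.2 : ℝ) < n - 1 := by linarith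
    refine mem_intVerts_ball ?_ ?_ ?_ ?_
    · have : (-(n : ℤ)) + 1 < w.1 := by exact_mod_cast k1
      exact this.le
    · have : (w.1 : ℤ) < n - 1 := by exact_mod_cast k2
      exact this.le
    · have : (-(n : ℤ)) + 1 < w.2 := by exact_mod_cast k3
      exact this.le
    · have : (w.2 : ℤ) < n - 1 := by exact_mod_cast k4
      exact this.le
  have hbint : ∀ w ∈ intVerts (ball (0, 0) (2 * n)), b w = 0 := by
    intro w hw
    have h1 : w ∈ ball (0, 0) (2 * n) := (Finset.mem_filter.1 hw).1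
    rw [mem_ball] at h1
    by_contra hne
    have h2 : a (w.1 - Mi, w.2) ≠ 0 := fun h => hne (by simp only [hb]; rw [h, neg_zero])
    obtain ⟨h3, _⟩ := ha0 _ h2
    rw [abs_lt] at h3
    have h4 : (w.1 : ℤ) ≤ 2 * n - 1 := by
      have := h1.1.2
      push_cast at this
      omega
    have h5 : (w.1 : ℝ) ≤ 2 * n - 1 := by exact_mod_cast h4
    have h6 := h3.1
    push_cast at h6
    linarith
  have hSmem : ∀ w : P2, |(w.1 : ℝ)| < 9 * r - 1 → |(w.2 : ℝ)| < 9 * r - 1 → w ∈ S := by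
    intro w h1 h2
    rw [abs_lt] at h1 h2
    rw [hS, mem_ball]
    have k1 : (-(N : ℝ)) < w.1 := by linarith
    have k2 : (w.1 : ℝ) < N - 1 := by linarith
    have k3 : (-(N : ℝ)) < w.2 := by linarith
    have k4 : (w.2 : ℝ) < N - 1 := by linarith
    have l1 : (-(N : ℤ)) < w.1 := by exact_mod_cast k1
    have l2 : (w.1 : ℤ) < N - 1 := by exact_mod_cast k2
    have l3 : (-(N : ℤ)) < w.2 := by exact_mod_cast k3
    have l4 : (w.2 : ℤ) < N - 1 := by exact_mod_cast k4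
    simp only
    omega
  have hSa : ∀ w, a w ≠ 0 → w ∈ S := by
    intro w hw
    obtain ⟨h1, h2⟩ := ha0 w hw
    exact hSmem w (by linarith) (by linarith)
  have hSb : ∀ w, b w ≠ 0 → w ∈ S := by
    intro w hw
    have h2 : a (w.1 - Mi, w.2) ≠ 0 := fun h => hw (by simp only [hb]; rw [h, neg_zero])
    obtain ⟨h3, h4⟩ := ha0 _ h2
    refine hSmem w ?_ (by simp only at h4; linarith)
    rw [abs_lt] at h3 ⊢
    push_cast at h3
    constructor <;> linarith [h3.1, h3.2]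
  have hsum : ∑ w ∈ S, (a w + b w) = 0 := by
    rw [Finset.sum_add_distrib]
    have h1 : ∑ w ∈ S, b w = ∑' w : P2, b w := by
      rw [tsum_eq_sum (s := S)]
      intro w hw
      by_contra h
      exact hw (hSb w h)
    have h2 : ∑ w ∈ S, a w = ∑' w : P2, a w := by
      rw [tsum_eq_sum (s := S)]
      intro w hw
      by_contra h
      exact hw (hSa w h)
    rw [h1, h2]
    have h3 : ∑' w : P2, b w = -∑' w : P2, a w := by
      rw [← (Equiv.subRight ((Mi, 0) : P2)).tsum_eq a, ← tsum_neg]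
      refine tsum_congr fun w => ?_
      simp only [hb, Equiv.subRight_apply]
      congr 2
      exact Prod.ext rfl (by simp)
    rw [h3, add_neg_cancel]
  have hDn : D ⊆ ball (0, 0) n := by
    intro g hg
    have h1 : g ∈ faces (δ / ρ) := by
      rw [← Asm695.disc_of_pos hρ]
      exact hDρ hg
    have h2 := Geo132.norm_of_face (div_pos hδ0 hρ) h1
    have h3 : ‖ptC δ g‖ < R := by
      rw [Geo132.pos_div, norm_div, div_lt_one (by simpa using hρ.ne')] at h2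
      rw [ptC_eq_pos]
      refine h2.trans_le ?_
      rw [Complex.norm_real, Real.norm_eq_abs, abs_of_pos hρ]
      exact hρR
    have h4 := abs_fst_lt hδ0 h3
    have h5 := abs_snd_lt hδ0 h3
    rw [abs_lt] at h4 h5
    rw [mem_ball]
    have k1 : (-(n : ℝ)) < g.1 := by linarith
    have k2 : (g.1 : ℝ) < n - 1 := by linarith
    have k3 : (-(n : ℝ)) < g.2 := by linarith
    have k4 : (g.2 : ℝ) < n - 1 := by linarith
    have l1 : (-(n : ℤ)) < g.1 := by exact_mod_cast k1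
    have l2 : (g.1 : ℤ) < n - 1 := by exact_mod_cast k2
    have l3 : (-(n : ℤ)) < g.2 := by exact_mod_cast k3
    have l4 : (g.2 : ℤ) < n - 1 := by exact_mod_cast k4
    simp only
    omega
  have hDS : D ⊆ S := by
    intro g hg
    have h1 := hDn hg
    rw [mem_ball] at h1
    rw [hS, mem_ball]
    have : (n : ℝ) ≤ N := by linarith
    have : n ≤ N := by exact_mod_cast this
    simp only at h1 ⊢
    omega
  -- the comparison
  have hmain := hbound n hnn0 D hD hDn S a' a b haa hint hbint hsum (PhiS s) (PhiS_convex hs)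
    (PhiS_even s) (PhiS_nonneg hs)
  -- identification of the left side
  have hleft : E c D (fun u => PhiS s (L S a' u)) = E c D (fun u => PhiS s (Asm695.X δ D φ u)) :=
    Asm695.E_Lin_congr hDS a' (PhiS s)
  rw [hleft] at hmain
  -- the error
  set ε : P2 → ℝ := fun w => (a w + b w) - δ ^ 2 * f (ptC δ w) with hε
  have hXf : ∀ u, Ifc372.X δ f u = L S (fun w => δ ^ 2 * f (ptC δ w)) u := by
    refine X_eq_L fun w hw => ?_
    by_cases h1 : ψ (ptC δ w) = 0
    · have h2 : ψ (ptC δ w - ((6 * R : ℝ) : ℂ)) ≠ 0 := fun h => hw (by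
        simp only [hf]; rw [h1, h, sub_zero])
      have h3 := hψR _ h2
      have h4 := Complex.abs_re_le_norm (ptC δ w - ((6 * R : ℝ) : ℂ))
      have h5 := Complex.abs_im_le_norm (ptC δ w - ((6 * R : ℝ) : ℂ))
      rw [Complex.sub_re, Complex.ofReal_re, ptC_re] at h4
      rw [Complex.sub_im, Complex.ofReal_im, ptC_im, sub_zero] at h5
      have h6 := co1 hδ0 hrδ (h4.trans_lt h3)
      have h7 := co2 hδ0 hrδ (h5.trans_lt h3)
      exact hSmem w (by rw [abs_lt]; constructor <;> linarith [h6.1, h6.2]) (by linarith)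
    · exact hSa w fun h => h1 (by
        simp only [ha] at h
        exact (mul_eq_zero.1 h).resolve_left (by positivity))
  have hsplit : ∀ u, L S (fun w => a w + b w) u = Ifc372.X δ f u + L S ε u := by
    intro u
    rw [hXf]
    unfold L
    rw [← Finset.sum_add_distrib]
    refine Finset.sum_congr rfl fun w _ => ?_
    simp only [hε]
    ring
  have hεb : ∀ w ∈ S, |ε w| ≤ (Kl : ℝ) * δ ^ 3 := by
    intro w _
    have e1 : ε w = δ ^ 2 * (ψ (ptC δ w - ((6 * R : ℝ) : ℂ)) - ψ (ptC δ (w.1 - Mi, w.2))) := by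
      simp only [hε, hb, ha, hf]
      ring
    have e2 : dist (ptC δ w - ((6 * R : ℝ) : ℂ)) (ptC δ (w.1 - Mi, w.2)) ≤ δ := by
      rw [dist_eq_norm]
      have e3 : ptC δ w - ((6 * R : ℝ) : ℂ) - ptC δ (w.1 - Mi, w.2) =
          ((δ * Mi - 6 * R : ℝ) : ℂ) := by
        unfold ptC
        push_cast
        ring
      rw [e3, Complex.norm_real, Real.norm_eq_abs]
      exact co3 hδ0 hrδ hM1 hM2
    have e4 := hKl.dist_le_mul (ptC δ w - ((6 * R : ℝ) : ℂ)) (ptC δ (w.1 - Mi, w.2))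
    rw [Real.dist_eq] at e4
    rw [e1, abs_mul, abs_of_nonneg (sq_nonneg δ)]
    have e5 : |ψ (ptC δ w - ((6 * R : ℝ) : ℂ)) - ψ (ptC δ (w.1 - Mi, w.2))| ≤ Kl * δ :=
      e4.trans (mul_le_mul_of_nonneg_left e2 (NNReal.coe_nonneg _))
    calc δ ^ 2 * |ψ (ptC δ w - ((6 * R : ℝ) : ℂ)) - ψ (ptC δ (w.1 - Mi, w.2))|
        ≤ δ ^ 2 * (Kl * δ) := mul_le_mul_of_nonneg_left e5 (sq_nonneg δ)
      _ = _ := by ring
  have hΛ : ∀ w ∈ S, |(w.1 : ℝ)| + |(w.2 : ℝ)| ≤ 40 * r := by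
    intro w hw
    rw [hS, mem_ball] at hw
    simp only at hw
    have h1 : |(w.1 : ℝ)| ≤ N := by
      rw [abs_le]
      constructor
      · have : -(N : ℤ) ≤ w.1 := by omega
        exact_mod_cast this
      · have : (w.1 : ℤ) ≤ N := by omega
        exact_mod_cast this
    have h2 : |(w.2 : ℝ)| ≤ N := by
      rw [abs_le]
      constructor
      · have : -(N : ℤ) ≤ w.2 := by omega
        exact_mod_cast this
      · have : (w.2 : ℤ) ≤ N := by omega
        exact_mod_cast this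
    linarith
  have herr := integral_sq_L_le hP hCV S ε hεb hΛ
  have hcard : (S.card : ℝ) ≤ 400 * r ^ 2 := by
    rw [hS, ball_card]
    push_cast
    exact co4 hr8 (Nat.cast_nonneg _) hN2
  have herr2 : ∫ u, (L S ε u) ^ 2 ∂P ≤
      160000 * R ^ 4 * (Kl : ℝ) ^ 2 * (|CV| * (1 + 40 * R)) * δ := by
    exact herr.trans (co5 hδ0 he6 hR0 (by linarith) hrδ (abs_nonneg _) (Nat.cast_nonneg _) hcard)
  -- integrate the stability inequality
  have hm := hG.memLp f hft δ hδ0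
  have hi2 : Integrable (fun u => (Ifc372.X δ f u) ^ 2) P := hm.integrable_sq
  have hiL : Integrable (fun u : Cfg => (L S ε u) ^ 2) P :=
    Aut373.loc_integrable hP (S := S) (f := fun u : Cfg => (L S ε u) ^ 2)
      (loc_L S ε fun t => t ^ 2)
  have hiP : Integrable (fun u => PhiS s (Ifc372.X δ f u)) P := by
    simp only [hXf]
    exact Aut373.loc_integrable hP (S := S) (loc_L S _ (PhiS s))
  have hiP' : Integrable (fun u => PhiS s (L S (fun w => a w + b w) u)) P :=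
    Aut373.loc_integrable hP (S := S) (loc_L S _ (PhiS s))
  have hstab : ∫ u, PhiS s (L S (fun w => a w + b w) u) ∂P ≤
      ∫ u, PhiS s (Ifc372.X δ f u) ∂P + 2 * η * ∫ u, (Ifc372.X δ f u) ^ 2 ∂P +
        (2 / η + 2) * ∫ u, (L S ε u) ^ 2 ∂P := by
    have h1 : ∫ u, PhiS s (L S (fun w => a w + b w) u) ∂P ≤
        ∫ u, (PhiS s (Ifc372.X δ f u) + 2 * η * (Ifc372.X δ f u) ^ 2 +
          (2 / η + 2) * (L S ε u) ^ 2) ∂P := by
      refine integral_mono hiP' ((hiP.add (hi2.const_mul _)).add (hiL.const_mul _)) fun u => ?_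
      have := PhiS_stab hs (Ifc372.X δ f u) (L S ε u) hη0
      rw [← hsplit] at this
      exact this
    have e1 : ∫ u, (PhiS s (Ifc372.X δ f u) + 2 * η * (Ifc372.X δ f u) ^ 2 +
          (2 / η + 2) * (L S ε u) ^ 2) ∂P =
        ∫ u, (PhiS s (Ifc372.X δ f u) + 2 * η * (Ifc372.X δ f u) ^ 2) ∂P +
          ∫ u, (2 / η + 2) * (L S ε u) ^ 2 ∂P :=
      integral_add (hiP.add (hi2.const_mul _)) (hiL.const_mul _)
    have e2 : ∫ u, (PhiS s (Ifc372.X δ f u) + 2 * η * (Ifc372.X δ f u) ^ 2) ∂P =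
        ∫ u, PhiS s (Ifc372.X δ f u) ∂P + ∫ u, 2 * η * (Ifc372.X δ f u) ^ 2 ∂P :=
      integral_add hiP (hi2.const_mul _)
    rw [e1, e2, integral_const_mul, integral_const_mul] at h1
    exact h1
  have h1 : 2 * η * ∫ u, (Ifc372.X δ f u) ^ 2 ∂P ≤ s ^ 2 / 4 := by
    have h2 : 2 * η * ∫ u, (Ifc372.X δ f u) ^ 2 ∂P ≤ 2 * η * (v + 1) :=
      mul_le_mul_of_nonneg_left he2.le (by positivity)
    have h3 : 2 * η * (v + 1) = s ^ 2 / 4 := by
      rw [hη]
      field_simp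
      norm_num
    linarith
  have h2 : (2 / η + 2) * ∫ u, (L S ε u) ^ 2 ∂P ≤ s ^ 2 / 4 := by
    have h3 := mul_le_mul_of_nonneg_left herr2 (by positivity : 0 ≤ 2 / η + 2)
    have h4 : (2 / η + 2) * (160000 * R ^ 4 * (Kl : ℝ) ^ 2 * (|CV| * (1 + 40 * R)) * δ) = Q * δ := by
      rw [hQ]; ring
    linarith
  have hfin : q * E c D (fun u => PhiS s (Asm695.X δ D φ u)) ≤ (v ^ 2 / 4 + 1) * s ^ 2 := by
    have h3 : 0 ≤ s ^ 2 / 4 := by positivity
    have h4 : (v ^ 2 / 4 + 1) * s ^ 2 = s ^ 2 * v ^ 2 / 4 + s ^ 2 / 4 + s ^ 2 / 4 + s ^ 2 / 4 +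
      s ^ 2 / 4 := by ring
    rw [h4]
    linarith
  rw [div_mul_eq_mul_div, le_div_iff₀ hq, mul_comm]
  exact hfin

end Crest.Agent.R161.H689
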