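import Crest.Agent.R161.H4_689
import Crest.Agent.R161.Aut_373

/-!
# Second moments versus characteristic functions (helper689, R161 doc 973 (6)): real analysis

`PhiS s x = x² - (2/s²)(1 - cos (s x))` is nonnegative, even and convex.
-/

set_option autoImplicit false

noncomputable section

namespace Crest.Agent.R161.H689

open Finset MeasureTheory Filter Topology Crest.Agent.R161.Geo729 Crest.Agent.R161.Defs372
  Crest.Agent.R161.Ifc372

/-- `x² - (2/s²)(1 - cos (s x))` -/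
def PhiS (s x : ℝ) : ℝ := x ^ 2 - 2 / s ^ 2 * (1 - Real.cos (s * x))

theorem PhiS_even (s x : ℝ) : PhiS s (-x) = PhiS s x := by
  unfold PhiS
  rw [mul_neg, Real.cos_neg]
  ring

theorem PhiS_nonneg {s : ℝ} (hs : 0 < s) (x : ℝ) : 0 ≤ PhiS s x := by
  unfold PhiS
  have h1 := Real.one_sub_sq_div_two_le_cos (x := s * x)
  have h2 : 1 - Real.cos (s * x) ≤ (s * x) ^ 2 / 2 := by linarith
  have h3 : 2 / s ^ 2 * (1 - Real.cos (s * x)) ≤ 2 / s ^ 2 * ((s * x) ^ 2 / 2) :=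
    mul_le_mul_of_nonneg_left h2 (by positivity)
  have h4 : 2 / s ^ 2 * ((s * x) ^ 2 / 2) = x ^ 2 := by field_simp
  linarith

theorem convex_aux : ConvexOn ℝ Set.univ (fun y : ℝ => y ^ 2 + 2 * Real.cos y) := by
  have hd : ∀ y : ℝ, HasDerivAt (fun y : ℝ => y ^ 2 + 2 * Real.cos y) (2 * y - 2 * Real.sin y) y := by
    intro y
    have h1 := (hasDerivAt_pow 2 y).add ((Real.hasDerivAt_cos y).const_mul 2)
    have e : 2 * y - 2 * Real.sin y = (2 : ℕ) * y ^ (2 - 1) + 2 * -Real.sin y := by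
      norm_num
      ring
    rw [e]
    exact h1
  have hd2 : ∀ y : ℝ, HasDerivAt (fun y : ℝ => 2 * y - 2 * Real.sin y) (2 - 2 * Real.cos y) y := by
    intro y
    have h1 := ((hasDerivAt_id y).const_mul 2).sub ((Real.hasDerivAt_sin y).const_mul 2)
    have e : 2 - 2 * Real.cos y = 2 * 1 - 2 * Real.cos y := by ring
    rw [e]
    exact h1
  have e1 : deriv (fun y : ℝ => y ^ 2 + 2 * Real.cos y) = fun y => 2 * y - 2 * Real.sin y :=
    funext fun y => (hd y).deriv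
  refine convexOn_univ_of_deriv2_nonneg (fun y => (hd y).differentiableAt) ?_ ?_
  · rw [e1]; exact fun y => (hd2 y).differentiableAt
  · intro y
    rw [Function.iterate_succ_apply, Function.iterate_one, e1, (hd2 y).deriv]
    linarith [Real.cos_le_one y]

theorem PhiS_convex {s : ℝ} (hs : 0 < s) : ConvexOn ℝ Set.univ (PhiS s) := by
  refine ⟨convex_univ, fun x _ y _ a b ha hb hab => ?_⟩
  have h := convex_aux.2 (Set.mem_univ (s * x)) (Set.mem_univ (s * y)) ha hb hab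
  simp only [smul_eq_mul] at h ⊢
  have e : ∀ z : ℝ, PhiS s z = (1 / s ^ 2) * ((s * z) ^ 2 + 2 * Real.cos (s * z)) - 2 / s ^ 2 := by
    intro z
    unfold PhiS
    field_simp
    ring
  rw [e, e, e]
  have e2 : s * (a * x + b * y) = a * (s * x) + b * (s * y) := by ring
  rw [e2]
  have h2 := mul_le_mul_of_nonneg_left h (by positivity : (0 : ℝ) ≤ 1 / s ^ 2)
  have e3 : a * ((1 / s ^ 2) * ((s * x) ^ 2 + 2 * Real.cos (s * x)) - 2 / s ^ 2) +
      b * ((1 / s ^ 2) * ((s * y) ^ 2 + 2 * Real.cos (s * y)) - 2 / s ^ 2) =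
      (1 / s ^ 2) * (a * ((s * x) ^ 2 + 2 * Real.cos (s * x)) +
        b * ((s * y) ^ 2 + 2 * Real.cos (s * y))) - (a + b) * (2 / s ^ 2) := by ring
  rw [e3, hab]
  linarith

theorem abs_cos_sub_cos_le' (a b : ℝ) : |Real.cos a - Real.cos b| ≤ |a + b| * |a - b| / 2 := by
  rw [Real.cos_sub_cos, abs_mul, abs_mul]
  have h1 : |Real.sin ((a + b) / 2)| ≤ |(a + b) / 2| := Real.abs_sin_le_abs
  have h2 : |Real.sin ((a - b) / 2)| ≤ |(a - b) / 2| := Real.abs_sin_le_abs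
  have h3 : |(a + b) / 2| = |a + b| / 2 := by rw [abs_div, abs_of_pos (by norm_num : (0:ℝ) < 2)]
  have h4 : |(a - b) / 2| = |a - b| / 2 := by rw [abs_div, abs_of_pos (by norm_num : (0:ℝ) < 2)]
  rw [h3] at h1
  rw [h4] at h2
  have h5 : |(-2 : ℝ)| = 2 := by norm_num
  rw [h5]
  calc 2 * |Real.sin ((a + b) / 2)| * |Real.sin ((a - b) / 2)|
      ≤ 2 * (|a + b| / 2) * (|a - b| / 2) := by
        refine mul_le_mul (mul_le_mul_of_nonneg_left h1 (by norm_num)) h2 (abs_nonneg _)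
          (by positivity)
    _ = _ := by ring

/-- stability of `PhiS` -/
theorem PhiS_stab {s : ℝ} (hs : 0 < s) (y d : ℝ) {η : ℝ} (hη : 0 < η) :
    PhiS s (y + d) ≤ PhiS s y + 2 * η * y ^ 2 + (2 / η + 2) * d ^ 2 := by
  have h1 := abs_cos_sub_cos_le' (s * (y + d)) (s * y)
  have e1 : |s * (y + d) + s * y| = s * |2 * y + d| := by
    rw [show s * (y + d) + s * y = s * (2 * y + d) by ring, abs_mul, abs_of_pos hs]
  have e2 : |s * (y + d) - s * y| = s * |d| := by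
    rw [show s * (y + d) - s * y = s * d by ring, abs_mul, abs_of_pos hs]
  rw [e1, e2] at h1
  have h2 : Real.cos (s * (y + d)) - Real.cos (s * y) ≤ s * |2 * y + d| * (s * |d|) / 2 :=
    (le_abs_self _).trans h1
  have h3 : 2 / s ^ 2 * (Real.cos (s * (y + d)) - Real.cos (s * y)) ≤ |2 * y + d| * |d| := by
    have := mul_le_mul_of_nonneg_left h2 (by positivity : (0 : ℝ) ≤ 2 / s ^ 2)
    refine this.trans (le_of_eq ?_)
    field_simp
  have h4 : |2 * y + d| ≤ 2 * |y| + |d| := by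
    refine (abs_add_le _ _).trans ?_
    rw [abs_mul, abs_of_pos (by norm_num : (0 : ℝ) < 2)]
  have h5 : (y + d) ^ 2 - y ^ 2 ≤ |2 * y + d| * |d| := by
    rw [← abs_mul]
    refine (le_abs_self _).trans (le_of_eq ?_)
    congr 1
    ring
  have h6 : |2 * y + d| * |d| ≤ (2 * |y| + |d|) * |d| :=
    mul_le_mul_of_nonneg_right h4 (abs_nonneg _)
  have h7 : 2 * |y| * |d| ≤ η * y ^ 2 + (1 / η) * d ^ 2 := by
    have h8 : 0 ≤ (Real.sqrt η * |y| - |d| / Real.sqrt η) ^ 2 := sq_nonneg _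
    have h9 : (Real.sqrt η * |y| - |d| / Real.sqrt η) ^ 2 =
        η * y ^ 2 + (1 / η) * d ^ 2 - 2 * |y| * |d| := by
      have hsq : Real.sqrt η ^ 2 = η := Real.sq_sqrt hη.le
      have hne : Real.sqrt η ≠ 0 := (Real.sqrt_pos.2 hη).ne'
      have e3 : (Real.sqrt η * |y| - |d| / Real.sqrt η) ^ 2 =
          Real.sqrt η ^ 2 * |y| ^ 2 + |d| ^ 2 / Real.sqrt η ^ 2 - 2 * |y| * |d| := by
        field_simp
        ring
      rw [e3, hsq, sq_abs, sq_abs]
      ring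
    linarith
  have h10 : |d| * |d| = d ^ 2 := by rw [← sq, sq_abs]
  have h11 : (2 * |y| + |d|) * |d| ≤ η * y ^ 2 + (1 / η + 1) * d ^ 2 := by
    nlinarith
  unfold PhiS
  have e4 : (2 / η + 2) * d ^ 2 = 2 * ((1 / η + 1) * d ^ 2) := by ring
  rw [e4]
  nlinarith

theorem one_sub_exp_ge {t : ℝ} (ht : 0 ≤ t) : t - t ^ 2 / 2 ≤ 1 - Real.exp (-t) := by
  have h1 := Real.quadratic_le_exp_of_nonneg ht
  have hpos : 0 < 1 + t + t ^ 2 / 2 := by positivity
  have h2 : Real.exp (-t) ≤ 1 / (1 + t + t ^ 2 / 2) := by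
    rw [Real.exp_neg, ← one_div]
    exact one_div_le_one_div_of_le hpos h1
  have h3 : 1 / (1 + t + t ^ 2 / 2) ≤ 1 - t + t ^ 2 / 2 := by
    rw [div_le_iff₀ hpos]
    nlinarith [pow_nonneg ht 4]
  linarith

/-- the Gaussian value of `E PhiS` is at most `s² v² / 4` -/
theorem gauss_PhiS_le {s v : ℝ} (hs : 0 < s) (hv : 0 ≤ v) :
    v - 2 / s ^ 2 * (1 - Real.exp (-(s ^ 2 * v / 2))) ≤ s ^ 2 * v ^ 2 / 4 := by
  have h1 := one_sub_exp_ge (t := s ^ 2 * v / 2) (by positivity)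
  have h2 := mul_le_mul_of_nonneg_left h1 (by positivity : (0 : ℝ) ≤ 2 / s ^ 2)
  have h3 : 2 / s ^ 2 * (s ^ 2 * v / 2 - (s ^ 2 * v / 2) ^ 2 / 2) = v - s ^ 2 * v ^ 2 / 4 := by
    field_simp
    ring
  linarith

/-- linear growth of the second moments of the heights in the plane state -/
def VLin (P : Measure Cfg) : Prop :=
  ∃ C : ℝ, ∀ v : P2, ∫ ω, (ω.1 v : ℝ) ^ 2 ∂P ≤ C * (1 + |(v.1 : ℝ)| + |(v.2 : ℝ)|)

/-- second moment of a linear functional with small coefficients -/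
theorem integral_sq_L_le {c : ℝ} {P : Measure Cfg} (hP : IsState c P) {C : ℝ}
    (hC : ∀ v : P2, ∫ ω, (ω.1 v : ℝ) ^ 2 ∂P ≤ C * (1 + |(v.1 : ℝ)| + |(v.2 : ℝ)|))
    (S : Finset P2) (ε : P2 → ℝ) {κ Λ : ℝ} (hκ : ∀ v ∈ S, |ε v| ≤ κ)
    (hΛ : ∀ v ∈ S, |(v.1 : ℝ)| + |(v.2 : ℝ)| ≤ Λ) :
    ∫ ω, (L S ε ω) ^ 2 ∂P ≤ (S.card : ℝ) ^ 2 * κ ^ 2 * (|C| * (1 + Λ)) := by
  have hint : ∀ v : P2, Integrable (fun ω : Cfg => (ω.1 v : ℝ) ^ 2) P := fun v =>
    Aut373.loc_integrable hP (S := {v}) (f := fun ω : Cfg => (ω.1 v : ℝ) ^ 2)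
      (fun ω ω' h => by
        have : ω.1 v = ω'.1 v := (h v (by simp)).1
        simp only [this])
  have hint2 : Integrable (fun ω : Cfg => (L S ε ω) ^ 2) P :=
    Aut373.loc_integrable hP (S := S) (f := fun ω : Cfg => (L S ε ω) ^ 2)
      (loc_L S ε fun t => t ^ 2)
  have h1 : ∀ ω : Cfg, (L S ε ω) ^ 2 ≤ (S.card : ℝ) * κ ^ 2 * ∑ v ∈ S, (ω.1 v : ℝ) ^ 2 := by
    intro ω
    have h2 : (L S ε ω) ^ 2 ≤ (S.card : ℝ) * ∑ v ∈ S, ((ω.1 v : ℝ) * ε v) ^ 2 := by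
      unfold L
      exact sq_sum_le_card_mul_sum_sq
    refine h2.trans ?_
    rw [mul_assoc]
    refine mul_le_mul_of_nonneg_left ?_ (Nat.cast_nonneg _)
    rw [Finset.mul_sum]
    refine Finset.sum_le_sum fun v hv => ?_
    have h3 : (ε v) ^ 2 ≤ κ ^ 2 := by
      rw [← sq_abs]
      exact pow_le_pow_left₀ (abs_nonneg _) (hκ v hv) 2
    nlinarith [sq_nonneg (ω.1 v : ℝ)]
  have h4 : ∫ ω, (L S ε ω) ^ 2 ∂P ≤ ∫ ω, (S.card : ℝ) * κ ^ 2 * ∑ v ∈ S, (ω.1 v : ℝ) ^ 2 ∂P :=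
    integral_mono hint2 ((integrable_finsetSum _ fun v _ => hint v).const_mul _) h1
  rw [integral_const_mul, integral_finsetSum _ fun v _ => hint v] at h4
  refine h4.trans ?_
  have h5 : ∑ v ∈ S, ∫ ω, (ω.1 v : ℝ) ^ 2 ∂P ≤ ∑ v ∈ S, |C| * (1 + Λ) := by
    refine Finset.sum_le_sum fun v hv => (hC v).trans ?_
    refine (mul_le_mul_of_nonneg_right (le_abs_self C) (by positivity)).trans ?_
    refine mul_le_mul_of_nonneg_left ?_ (abs_nonneg _)
    have := hΛ v hv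
    linarith
  rw [Finset.sum_const, nsmul_eq_mul] at h5
  have h6 : (0 : ℝ) ≤ (S.card : ℝ) * κ ^ 2 := by positivity
  have h7 := mul_le_mul_of_nonneg_left h5 h6
  refine h7.trans (le_of_eq ?_)
  ring

end Crest.Agent.R161.H689
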