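import Crest.Agent.R161.H5_689

/-!
# Second moments of mixtures from one characteristic function value (helper689, R161 doc 973 (6))
-/

set_option autoImplicit false

noncomputable section

namespace Crest.Agent.R161.H689

open Finset MeasureTheory Filter Topology Crest.Agent.R161.Geo729 Crest.Agent.R161.Defs372
  Crest.Agent.R161.Ifc372
open scoped ContDiff

theorem E_PhiS (c : ℝ) (hc : 1 ≤ c) (D : Finset P2) (s : ℝ) (Y : Cfg → ℝ) :
    E c D (fun u => PhiS s (Y u)) =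
      E c D (fun u => Y u ^ 2) - 2 / s ^ 2 * (1 - E c D (fun u => Real.cos (s * Y u))) := by
  unfold PhiS
  rw [E_sub, E_smul, E_sub, E_const hc]

/-- **Second moments of mixtures.** For every `η > 0` there are `s > 0`, `η₁ > 0` such that,
eventually as `δ → 0+`, for all mixtures of zero boundary laws of `Dom`s inside the disc, closeness
(`≤ η₁`) of the characteristic function at `s` to the Gaussian value implies closeness (`≤ η`) of
the second moment. -/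
theorem mixture_second {c : ℝ} (hc : 1 ≤ c) (hM : CvxMono c) (hC : UnifCirc c) {P : Measure Cfg}
    (hP : IsState c P) (hG : PlaneGauss c P) (hV : VLin P) {ρ : ℝ} (hρ : 0 < ρ) {φ : ℂ → ℝ}
    (hφ : ContDiff ℝ ∞ φ) (hφc : HasCompactSupport φ) {v : ℝ} (hv : 0 ≤ v) {η : ℝ} (hη : 0 < η) :
    ∃ s η₁ : ℝ, 0 < s ∧ 0 < η₁ ∧ ∀ᶠ δ : ℝ in 𝓝[>] 0,
      ∀ (I : Finset (Finset P2)) (w : Finset P2 → ℝ), (∀ D ∈ I, 0 ≤ w D) → ∑ D ∈ I, w D = 1 →
        (∀ D ∈ I, Dom D ∧ D ⊆ Asm695.disc δ ρ) →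
        |∑ D ∈ I, w D * E c D (fun u => Real.cos (s * Asm695.X δ D φ u))
          - Real.exp (-(s ^ 2 * v / 2))| ≤ η₁ →
        |∑ D ∈ I, w D * E c D (fun u => Asm695.X δ D φ u ^ 2) - v| ≤ η := by
  obtain ⟨C, hC0, hui⟩ := disc_ui hc hM hC hP hG hV hρ hφ hφc
  -- choice of `s`
  set s : ℝ := Real.sqrt (η / (2 * (v ^ 2 / 4 + C + 1))) with hs
  have hpos : 0 < η / (2 * (v ^ 2 / 4 + C + 1)) := by positivity
  have hs0 : 0 < s := Real.sqrt_pos.2 hpos
  have hs2 : s ^ 2 = η / (2 * (v ^ 2 / 4 + C + 1)) := Real.sq_sqrt hpos.le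
  have hs3 : s ^ 2 * (v ^ 2 / 4 + C) ≤ η / 2 := by
    have h1 : s ^ 2 * (v ^ 2 / 4 + C + 1) = η / 2 := by
      rw [hs2]
      field_simp
    nlinarith [sq_nonneg s]
  refine ⟨s, s ^ 2 * η / 4, hs0, by positivity, ?_⟩
  filter_upwards [hui s hs0] with δ hδ I w hw0 hw1 hI hchar
  set A : ℝ := ∑ D ∈ I, w D * E c D (fun u => Asm695.X δ D φ u ^ 2) with hA
  set B : ℝ := ∑ D ∈ I, w D * E c D (fun u => Real.cos (s * Asm695.X δ D φ u)) with hB
  set T : ℝ := ∑ D ∈ I, w D * E c D (fun u => PhiS s (Asm695.X δ D φ u)) with hT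
  have hTA : T = A - 2 / s ^ 2 * (1 - B) := by
    rw [hT, hA, hB]
    have h1 : ∀ D ∈ I, w D * E c D (fun u => PhiS s (Asm695.X δ D φ u)) =
        w D * E c D (fun u => Asm695.X δ D φ u ^ 2) - 2 / s ^ 2 * (w D -
          w D * E c D (fun u => Real.cos (s * Asm695.X δ D φ u))) := by
      intro D _
      rw [E_PhiS c hc]
      ring
    rw [Finset.sum_congr rfl h1, Finset.sum_sub_distrib, ← Finset.mul_sum,
      Finset.sum_sub_distrib, hw1]
  have hT0 : 0 ≤ T := Finset.sum_nonneg fun D hD => mul_nonneg (hw0 D hD)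
    (E_nonneg hc fun _ _ => PhiS_nonneg hs0 _)
  have hT1 : T ≤ C * s ^ 2 := by
    have h1 : T ≤ ∑ D ∈ I, w D * (C * s ^ 2) :=
      Finset.sum_le_sum fun D hD => mul_le_mul_of_nonneg_left (hδ D (hI D hD).1 (hI D hD).2)
        (hw0 D hD)
    rw [← Finset.sum_mul, hw1, one_mul] at h1
    exact h1
  -- Gaussian value
  have hg1 := gauss_PhiS_le hs0 hv
  have hg2 : 2 / s ^ 2 * (1 - Real.exp (-(s ^ 2 * v / 2))) ≤ v := by
    have h1 := Real.add_one_le_exp (-(s ^ 2 * v / 2))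
    have h2 : 1 - Real.exp (-(s ^ 2 * v / 2)) ≤ s ^ 2 * v / 2 := by linarith
    have h3 := mul_le_mul_of_nonneg_left h2 (by positivity : (0 : ℝ) ≤ 2 / s ^ 2)
    refine h3.trans (le_of_eq ?_)
    field_simp
  obtain ⟨hc1, hc2⟩ := abs_le.1 hchar
  have h4 : 2 / s ^ 2 * (1 - B) ≤ 2 / s ^ 2 * (1 - Real.exp (-(s ^ 2 * v / 2))) + η / 2 := by
    have h5 : 1 - B ≤ 1 - Real.exp (-(s ^ 2 * v / 2)) + s ^ 2 * η / 4 := by linarith
    have h6 := mul_le_mul_of_nonneg_left h5 (by positivity : (0 : ℝ) ≤ 2 / s ^ 2)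
    refine h6.trans (le_of_eq ?_)
    field_simp
    ring
  have h7 : 2 / s ^ 2 * (1 - Real.exp (-(s ^ 2 * v / 2))) - η / 2 ≤ 2 / s ^ 2 * (1 - B) := by
    have h5 : 1 - Real.exp (-(s ^ 2 * v / 2)) - s ^ 2 * η / 4 ≤ 1 - B := by linarith
    have h6 := mul_le_mul_of_nonneg_left h5 (by positivity : (0 : ℝ) ≤ 2 / s ^ 2)
    refine le_trans (le_of_eq ?_) h6
    field_simp
    ring
  have h8 : s ^ 2 * v ^ 2 / 4 + C * s ^ 2 ≤ η / 2 := by linarith
  have h9 : 0 ≤ s ^ 2 * v ^ 2 / 4 := by positivity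
  have h10 : 0 ≤ C * s ^ 2 := by positivity
  rw [abs_le]
  constructor <;> linarith

end Crest.Agent.R161.H689
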