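import Crest.Agent.R161.Brs_375
import Crest.Agent.R161.H1_689
import Crest.Agent.R161.H3_689
import Crest.Agent.R161.Asm_695

/-!
# Sandwich, Mono2, CvxMono (helper375)

The correlation inequalities of `Mono_375` in the language of `Defs372`, for arbitrary finite
`F ⊆ F'` (no topology).
-/

set_option autoImplicit false
set_option linter.unusedSectionVars false
set_option linter.unusedVariables false

open Finset
open Crest.Agent.R161.Geo729 Crest.Agent.R161.Defs372 Crest.Agent.R161.Ht132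
open Crest.Agent.R161.Lsm375 Crest.Agent.R161.Gks375 Crest.Agent.R161.Hts375
open Crest.Agent.R161.Pol375 Crest.Agent.R161.Mono375
open Crest.Agent.R161.Brs375

namespace Crest.Agent.R161.Sand375

noncomputable section

variable {F F' : Finset P2}

/-- the vertex heights of a height function of `GG F'` -/
def kx (F' : Finset P2) (h : (crn F') ⊕ F' → ℤ) : P2 → ℤ :=
  fun v => if hv : v ∈ crn F' then h (.inl ⟨v, hv⟩) else 0

lemma ext_fst (F F' : Finset P2) (h : (crn F') ⊕ F' → ℤ) : (ext F F' h).1 = kx F' h := rfl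

lemma intVerts_mono (h : F ⊆ F') : intVerts F ⊆ intVerts F' := fun v hv => by
  rw [mem_intVerts] at hv ⊢
  exact ⟨h hv.1, h hv.2.1, h hv.2.2.1, h hv.2.2.2⟩

lemma pinF_nonneg (F F' : Finset P2) (a : (crn F') ⊕ F' → ℤ) : 0 ≤ pinF F F' a := by
  unfold pinF; split_ifs <;> norm_num

/-- pins of nested domains -/
lemma dom_pinF {F₁ F₂ F' : Finset P2} (h : F₁ ⊆ F₂) : Abs375.Dom (pinF F₁ F') (pinF F₂ F') := by
  classical
  refine ⟨pinF_nonneg _ _, pinF_nonneg _ _, fun a b => ?_⟩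
  by_cases ha : 0 ≤ a ∧ ∀ v : crn F', v.1 ∉ intVerts F₁ → a (.inl v) = 0
  · by_cases hb : 0 ≤ b ∧ ∀ v : crn F', v.1 ∉ intVerts F₂ → b (.inl v) = 0
    · have h1 : pinF F₁ F' (a ⊓ b) = 1 := by
        unfold pinF
        refine if_pos ⟨le_inf ha.1 hb.1, fun v hv => ?_⟩
        have : 0 ≤ b (.inl v) := hb.1 _
        simp [ha.2 v hv, this]
      have h2 : pinF F₂ F' (a ⊔ b) = 1 := by
        unfold pinF
        refine if_pos ⟨le_sup_of_le_left ha.1, fun v hv => ?_⟩
        simp [ha.2 v (fun h' => hv (intVerts_mono h h')), hb.2 v hv]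
      have h3 : pinF F₁ F' a = 1 := by unfold pinF; exact if_pos ha
      have h4 : pinF F₂ F' b = 1 := by unfold pinF; exact if_pos hb
      rw [h1, h2, h3, h4]
    · have : pinF F₂ F' b = 0 := by unfold pinF; exact if_neg hb
      rw [this, mul_zero]
      exact mul_nonneg (pinF_nonneg _ _ _) (pinF_nonneg _ _ _)
  · have : pinF F₁ F' a = 0 := by unfold pinF; exact if_neg ha
    rw [this, zero_mul]
    exact mul_nonneg (pinF_nonneg _ _ _) (pinF_nonneg _ _ _)

lemma lsm_pinF (F F' : Finset P2) : LSM (pinF F F') := by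
  have h := dom_pinF (F₁ := F) (F₂ := F) (F' := F') (Finset.Subset.refl F)
  exact ⟨h.1, h.2.2⟩

lemma cF_one_le {c : ℝ} (hc : 1 ≤ c) (F F' : Finset P2) (e : intEdges F') : 1 ≤ cF F F' c e := by
  unfold cF; split_ifs
  · exact hc
  · exact le_rfl

lemma cF_mono {c : ℝ} (hc : 1 ≤ c) {F₁ F₂ : Finset P2} (h : F₁ ⊆ F₂) (F' : Finset P2)
    (e : intEdges F') : cF F₁ F' c e ≤ cF F₂ F' c e := by
  unfold cF
  by_cases h1 : e.1 ∈ intEdges F₁
  · rw [if_pos h1, if_pos (intEdges_mono h h1)]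
  · rw [if_neg h1]
    split_ifs
    · exact hc
    · exact le_rfl

/-- box constant -/
lemma hb_nonneg (F : Finset P2) : (0 : (crn F) ⊕ F → ℤ) ≤ fun _ => hb F :=
  fun _ => (zero_le_one.trans (one_le_hb F))

lemma S_one_pos (hF : F ⊆ F') {c : ℝ} (hc : 1 ≤ c) :
    0 < S (GG F') (cF F F' c) (pinF F F') (fun _ => hb F') (fun _ => 1) := by
  have h1 := S_eq hF c (le_refl (hb F')) (fun _ => 1)
  rw [h1]
  refine mul_pos (SG_card_pos F F') ?_
  have : 0 < Z6 c F := by rw [← Z_eq]; exact Z_pos hc F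
  simpa [Z6] using this

/-- **Domain monotonicity**, general form with three nested face sets. -/
theorem E_le_gen {F₁ F₂ F' : Finset P2} (h12 : F₁ ⊆ F₂) (h2 : F₂ ⊆ F') {c : ℝ} (hc : 1 ≤ c)
    (Φ : (P2 → ℤ) → ℝ) (hΦ : IncAv (GG F') (fun h => Φ (kx F' h))) :
    E c F₁ (fun ω => Φ ω.1) ≤ E c F₂ (fun ω => Φ ω.1) := by
  have e1 := E_bridge (F := F₁) (F' := F') (h12.trans h2) (c := c) (le_refl (hb F'))
    (fun p => Φ p.1)
  have e2 := E_bridge (F := F₂) (F' := F') h2 (c := c) (le_refl (hb F')) (fun p => Φ p.1)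
  simp only [ext_fst] at e1 e2
  rw [e1, e2, div_le_div_iff₀ (S_one_pos (h12.trans h2) hc) (S_one_pos h2 hc)]
  have key := mono_heights (GG F') (c := cF F₂ F' c) (c' := cF F₁ F' c)
    (cF_one_le hc F₁ F') (cF_mono hc h12 F') (dom_pinF (F' := F') h12) (by
      intro e he a ha
      have h3 : e.1 ∉ intEdges F₁ := by
        intro h4
        apply he
        unfold cF
        rw [if_pos h4, if_pos (intEdges_mono h12 h4)]
      have h5 : 0 ≤ a ∧ ∀ v : crn F', v.1 ∉ intVerts F₁ → a (.inl v) = 0 := by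
        by_contra h
        exact ha (by unfold pinF; exact if_neg h)
      exact ⟨h5.2 _ (src_not h3).1, h5.2 _ (src_not h3).2⟩)
    (fun _ => hb F') (hb_nonneg F') hΦ
  linarith [key]

/-- **Domain monotonicity.** -/
theorem E_le (hF : F ⊆ F') {c : ℝ} (hc : 1 ≤ c)
    (Φ : (P2 → ℤ) → ℝ) (hΦ : IncAv (GG F') (fun h => Φ (kx F' h))) :
    E c F (fun ω => Φ ω.1) ≤ E c F' (fun ω => Φ ω.1) :=
  E_le_gen hF (Finset.Subset.refl F') hc Φ hΦ

/-- **Positive association.** -/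
theorem E_fkg (F : Finset P2) {c : ℝ} (hc : 1 ≤ c) (Φ Ψ : (P2 → ℤ) → ℝ)
    (hΦ : MPos (fun h => Φ (kx F h))) (hΨ : MPos (fun h => Ψ (kx F h))) :
    E c F (fun ω => Φ ω.1) * E c F (fun ω => Ψ ω.1) ≤ E c F (fun ω => Φ ω.1 * Ψ ω.1) := by
  have e1 := E_bridge (F := F) (F' := F) (Finset.Subset.refl F) (c := c) (le_refl (hb F))
    (fun p => Φ p.1)
  have e2 := E_bridge (F := F) (F' := F) (Finset.Subset.refl F) (c := c) (le_refl (hb F))
    (fun p => Ψ p.1)
  have e3 := E_bridge (F := F) (F' := F) (Finset.Subset.refl F) (c := c) (le_refl (hb F))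
    (fun p => Φ p.1 * Ψ p.1)
  simp only [ext_fst] at e1 e2 e3
  have hp := S_one_pos (F := F) (F' := F) (Finset.Subset.refl F) hc
  rw [e1, e2, e3, div_mul_div_comm, div_le_div_iff₀ (mul_pos hp hp) hp]
  have key := fkg_heights (GG F) (cF_one_le hc F F) (lsm_pinF F F) (fun _ => hb F) (hb_nonneg F)
    hΦ hΨ
  nlinarith [key, hp]

/-- comparison of two functions in the same domain through the conditional averages -/
theorem E_le_same (F : Finset P2) {c : ℝ} (hc : 1 ≤ c) (Φ Ψ : (P2 → ℤ) → ℝ)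
    (h : ∀ x : ((crn F) ⊕ F → ℤ) × Finset (intEdges F), 0 ≤ x.1 →
      Abs375.av (Abs375.ii (GG F)) (Abs375.jj (GG F)) (Abs375.Cset (GG F) ∅ x)
        (fun σ => Φ (kx F (sm σ x.1))) ≤
      Abs375.av (Abs375.ii (GG F)) (Abs375.jj (GG F)) (Abs375.Cset (GG F) ∅ x)
        (fun σ => Ψ (kx F (sm σ x.1)))) :
    E c F (fun ω => Φ ω.1) ≤ E c F (fun ω => Ψ ω.1) := by
  have e1 := E_bridge (F := F) (F' := F) (Finset.Subset.refl F) (c := c) (le_refl (hb F))
    (fun p => Φ p.1)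
  have e2 := E_bridge (F := F) (F' := F) (Finset.Subset.refl F) (c := c) (le_refl (hb F))
    (fun p => Ψ p.1)
  simp only [ext_fst] at e1 e2
  have hp := S_one_pos (F := F) (F' := F) (Finset.Subset.refl F) hc
  rw [e1, e2]
  refine div_le_div_of_nonneg_right ?_ hp.le
  have hc1 := cF_one_le hc F F
  have p1 := polar (GG F) hc1 (pinF F F) (fun _ => hb F) (hb_nonneg F) (fun h => Φ (kx F h))
  have p2 := polar (GG F) hc1 (pinF F F) (fun _ => hb F) (hb_nonneg F) (fun h => Ψ (kx F h))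
  have hR := Abs375.lsm_R (GG F) hc1 ∅ (lsm_pinF F F)
  have q := prod_pos hc1
  refine le_of_mul_le_mul_left ?_ q
  unfold S
  rw [p1, p2]
  refine Finset.sum_le_sum fun x hx => mul_le_mul_of_nonneg_left ?_ (hR.1 x)
  simp only [Finset.mem_product, Finset.mem_Icc] at hx
  exact h x hx.1.1

/-! ### linear functionals -/

/-- coefficients on the sites -/
def fc (F' S : Finset P2) (a : P2 → ℝ) : (crn F') ⊕ F' → ℝ
  | .inl v => if v.1 ∈ S then a v.1 else 0
  | .inr _ => 0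

lemma lin_kx (F' S : Finset P2) (a : P2 → ℝ) (h : (crn F') ⊕ F' → ℤ) :
    ∑ v ∈ S, (kx F' h v : ℝ) * a v = ∑ x, fc F' S a x * (h x : ℝ) := by
  classical
  rw [Fintype.sum_sum_type]
  simp only [fc, zero_mul, Finset.sum_const_zero, add_zero]
  have h1 : ∑ v ∈ S, (kx F' h v : ℝ) * a v = ∑ v ∈ crn F', if v ∈ S then (kx F' h v : ℝ) * a v else 0 := by
    rw [← Finset.sum_filter, Finset.filter_mem_eq_inter, Finset.inter_comm]
    refine (Finset.sum_subset Finset.inter_subset_left fun v hv hv' => ?_).symm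
    have : v ∉ crn F' := fun h => hv' (Finset.mem_inter.2 ⟨hv, h⟩)
    unfold kx
    rw [dif_neg this]
    simp
  rw [h1, ← Finset.sum_attach (crn F')]
  refine Finset.sum_congr rfl fun v _ => ?_
  unfold kx
  rw [dif_pos v.2]
  split_ifs
  · ring
  · ring

lemma fc_abs (F' S : Finset P2) (a : P2 → ℝ) (x : (crn F') ⊕ F') :
    |fc F' S a x| = fc F' S (fun v => |a v|) x := by
  rcases x with v | f
  · simp only [fc]; split_ifs
    · rfl
    · exact abs_zero
  · exact abs_zero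

lemma fc_nonneg (F' S : Finset P2) {a : P2 → ℝ} (ha : ∀ v, 0 ≤ a v) (x : (crn F') ⊕ F') :
    0 ≤ fc F' S a x := by
  rcases x with v | f
  · simp only [fc]; split_ifs
    · exact ha _
    · exact le_rfl
  · exact le_rfl

/-- convex functions of nonnegative linear forms, no topology -/
theorem E_convex_le (hF : F ⊆ F') {c : ℝ} (hc : 1 ≤ c) (S : Finset P2) {b : P2 → ℝ}
    (hb : ∀ v, 0 ≤ b v) {φ : ℝ → ℝ} (hφ : ConvexOn ℝ Set.univ φ) :
    E c F (fun u => φ (∑ v ∈ S, (u.1 v : ℝ) * b v)) ≤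
      E c F' (fun u => φ (∑ v ∈ S, (u.1 v : ℝ) * b v)) := by
  refine E_le hF hc (fun k => φ (∑ v ∈ S, (k v : ℝ) * b v)) ?_
  simp only [lin_kx]
  exact IncAv.of_fl _ (Fl.convex hφ (fc_nonneg F' S hb))

/-- convex functions of linear forms with `|a| ≤ b`, same domain -/
theorem E_convex_same (F : Finset P2) {c : ℝ} (hc : 1 ≤ c) (S : Finset P2) {a b : P2 → ℝ}
    (hab : ∀ v, |a v| ≤ b v) {φ : ℝ → ℝ} (hφ : ConvexOn ℝ Set.univ φ) :
    E c F (fun u => φ (∑ v ∈ S, (u.1 v : ℝ) * a v)) ≤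
      E c F (fun u => φ (∑ v ∈ S, (u.1 v : ℝ) * b v)) := by
  classical
  refine E_le_same F hc (fun k => φ (∑ v ∈ S, (k v : ℝ) * a v))
    (fun k => φ (∑ v ∈ S, (k v : ℝ) * b v)) fun x hx => ?_
  simp only [lin_kx]
  have key := H689.av_convex (Abs375.ii (GG F)) (Abs375.jj (GG F))
    (Finset.Subset.refl (Abs375.Cset (GG F) ∅ x)) hφ
    (w' := fun y => fc F S a y * (x.1 y : ℝ)) (w := fun y => fc F S b y * (x.1 y : ℝ)) (fun y => by
      have h0 : (0 : ℝ) ≤ (x.1 y : ℝ) := by exact_mod_cast hx y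
      rw [abs_mul, abs_of_nonneg h0]
      refine mul_le_mul_of_nonneg_right ?_ h0
      rcases y with v | f
      · simp only [fc]; split_ifs
        · exact hab _
        · simp
      · simp [fc])
  have e : ∀ (f : (crn F) ⊕ F → ℝ) (σ : (crn F) ⊕ F → ℤˣ),
      ∑ y, f y * ((sm σ x.1 y : ℤ) : ℝ) = ∑ y, ((σ y : ℤ) : ℝ) * (f y * (x.1 y : ℝ)) := by
    intro f σ
    refine Finset.sum_congr rfl fun y _ => ?_
    unfold sm
    push_cast
    ring
  simp only [e]
  exact key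

/-- `H689.CvxMono`, no topology -/
theorem cvx (hF : F ⊆ F') {c : ℝ} (hc : 1 ≤ c) (S : Finset P2) {a b : P2 → ℝ}
    (hab : ∀ v, |a v| ≤ b v) {φ : ℝ → ℝ} (hφ : ConvexOn ℝ Set.univ φ) :
    E c F (fun u => φ (∑ v ∈ S, (u.1 v : ℝ) * a v)) ≤
      E c F' (fun u => φ (∑ v ∈ S, (u.1 v : ℝ) * b v)) :=
  (E_convex_same F hc S hab hφ).trans
    (E_convex_le hF hc S (fun v => (abs_nonneg _).trans (hab v)) hφ)

/-- cosine sandwich with constant `1/2`, no topology -/
theorem cos_sandwich (hF : F ⊆ F') {c : ℝ} (hc : 1 ≤ c) (S : Finset P2) (a : P2 → ℝ) :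
    |E c F' (fun u => Real.cos (∑ v ∈ S, (u.1 v : ℝ) * a v)) -
        E c F (fun u => Real.cos (∑ v ∈ S, (u.1 v : ℝ) * a v))| ≤
      (1 / 2) * (E c F' (fun u => (∑ v ∈ S, (u.1 v : ℝ) * |a v|) ^ 2) -
        E c F (fun u => (∑ v ∈ S, (u.1 v : ℝ) * |a v|) ^ 2)) := by
  have key : ∀ ε : ℝ, |ε| ≤ 1 →
      E c F (fun u => (1 / 2) * (∑ v ∈ S, (u.1 v : ℝ) * |a v|) ^ 2 +
        ε * Real.cos (∑ v ∈ S, (u.1 v : ℝ) * a v)) ≤
      E c F' (fun u => (1 / 2) * (∑ v ∈ S, (u.1 v : ℝ) * |a v|) ^ 2 +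
        ε * Real.cos (∑ v ∈ S, (u.1 v : ℝ) * a v)) := by
    intro ε hε
    refine E_le hF hc (fun k => (1 / 2) * (∑ v ∈ S, (k v : ℝ) * |a v|) ^ 2 +
        ε * Real.cos (∑ v ∈ S, (k v : ℝ) * a v)) ?_
    simp only [lin_kx]
    have := Fl.cos (fc F' S a) hε
    simp only [fc_abs] at this
    exact IncAv.of_fl _ this
  have k1 := key 1 (by simp)
  have k2 := key (-1) (by simp)
  rw [E_add, E_add, E_smul, E_smul, E_smul, E_smul] at k1 k2
  rw [abs_le]
  constructor <;> linarith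

/-- two-point monotonicity, no topology -/
theorem two_point (hF : F ⊆ F') {c : ℝ} (hc : 1 ≤ c) (v w : P2) :
    E c F (fun u => (u.1 v : ℝ) * u.1 w) ≤ E c F' (fun u => (u.1 v : ℝ) * u.1 w) := by
  refine E_le hF hc (fun k => (k v : ℝ) * k w) (IncAv.of_mpos _ ?_)
  have h1 : ∀ v : P2, MPos (fun h : (crn F') ⊕ F' → ℤ => ((kx F' h v : ℤ) : ℝ)) := by
    intro v
    unfold kx
    by_cases hv : v ∈ crn F'
    · simp only [dif_pos hv]
      exact MPos.site _
    · simp only [dif_neg hv, Int.cast_zero]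
      exact MPos.zero
  exact (h1 v).mul (h1 w)

/-- nondecreasing nonnegative functions of `|k|`, no topology -/
theorem E_abs_mono (hF : F ⊆ F') {c : ℝ} (hc : 1 ≤ c) (g : (P2 → ℤ) → ℝ)
    (h0 : ∀ a, 0 ≤ a → 0 ≤ g a) (h1 : ∀ a b, 0 ≤ a → a ≤ b → g a ≤ g b) :
    E c F (fun u => g (fun v => |u.1 v|)) ≤ E c F' (fun u => g (fun v => |u.1 v|)) := by
  refine E_le hF hc (fun k => g (fun v => |k v|)) (IncAv.of_mpos _ ?_)
  refine (MPos.abs (g := fun h : (crn F') ⊕ F' → ℤ => g (kx F' h)) ?_ ?_).congr ?_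
  · intro a ha
    refine h0 _ fun v => ?_
    unfold kx
    show (0 : ℤ) ≤ _
    split_ifs with hv
    · exact ha _
    · exact le_rfl
  · intro a b ha hab
    refine h1 _ _ (fun v => ?_) fun v => ?_
    · unfold kx
      show (0 : ℤ) ≤ _
      split_ifs with hv
      · exact ha _
      · exact le_rfl
    · unfold kx
      split_ifs with hv
      · exact hab _
      · exact le_rfl
  · intro h
    congr 1
    funext v
    unfold kx ab
    split_ifs with hv
    · rfl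
    · exact abs_zero

/-! ### literal interface forms -/

theorem sandwich {c : ℝ} (hc : 1 ≤ c) : Asm695.Sandwich c := by
  intro D₁ D₂ _ _ h S a
  have k := cos_sandwich h hc S a
  unfold Asm695.Lin
  refine k.trans ?_
  have := (abs_nonneg _).trans k
  linarith

theorem mono2 {c : ℝ} (hc : 1 ≤ c) : Asm695.Mono2 c := fun _ _ _ _ h v w => two_point h hc v w

theorem cvxMono {c : ℝ} (hc : 1 ≤ c) : H689.CvxMono c :=
  fun _ _ _ _ h S _ _ hab _ hφ => cvx h hc S hab hφ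

end

end Crest.Agent.R161.Sand375
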