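import Crest.Agent.R161.H6_689
import Crest.Agent.R161.Sand_375
import Crest.Agent.R161.GlueH_792

/-!
# `UIprop c` (helper689, R161)

`uiprop : 1 ≤ c → UnifCirc c → IsState c P → PlaneGauss c P → VBound P → Asm695.UIprop c`.
-/

set_option autoImplicit false

noncomputable section

namespace Crest.Agent.R161.H689

open Finset MeasureTheory Filter Topology Crest.Agent.R161.Geo729 Crest.Agent.R161.Defs372
  Crest.Agent.R161.Ifc372
open scoped ContDiff

/-- logarithmic growth implies linear growth -/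
theorem vlin_of_vbound {c : ℝ} {P : Measure Cfg} (hP : IsState c P) (hV : VBound P) : VLin P := by
  obtain ⟨C, hC0, hC⟩ := hV
  have hVV : ∀ v : P2, ∫ u, (u.1 v : ℝ) ^ 2 ∂P = VV P v := by
    intro v
    unfold VV
    refine integral_congr_ae ?_
    filter_upwards [hP.valid] with u hu
    rw [hu.zero]
    simp
  refine ⟨VV P (1, 0) + 2 * C, fun v => ?_⟩
  rw [hVV]
  have hV0 : 0 ≤ VV P (1, 0) := integral_nonneg fun u => sq_nonneg _
  by_cases hv : v = 0
  · subst hv
    have h0 : VV P 0 = 0 := by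
      unfold VV
      have : ∀ u : Cfg, ((u.1 (0 : P2) : ℝ) - u.1 (0, 0)) ^ 2 = 0 := fun u => by
        have : u.1 (0 : P2) = u.1 (0, 0) := rfl
        rw [this, sub_self]
        norm_num
      simp [this]
    rw [h0]
    positivity
  · have h1 := (abs_le.1 (hC v (1, 0) hv (by simp [Prod.ext_iff]))).2
    have e1 : nrm (1, 0) = 1 := by simp [nrm]
    rw [e1, div_one] at h1
    -- `nrm v ≥ 1`
    have hpos : 1 ≤ (v.1 : ℝ) ^ 2 + (v.2 : ℝ) ^ 2 := by
      have h2 : v.1 ≠ 0 ∨ v.2 ≠ 0 := by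
        by_contra hcon
        push Not at hcon
        exact hv (Prod.ext hcon.1 hcon.2)
      have h3 : 1 ≤ v.1 ^ 2 + v.2 ^ 2 := by
        rcases h2 with h2 | h2
        · have : 0 < v.1 ^ 2 := by positivity
          nlinarith [sq_nonneg v.2]
        · have : 0 < v.2 ^ 2 := by positivity
          nlinarith [sq_nonneg v.1]
      exact_mod_cast h3
    have hn1 : 1 ≤ nrm v := by
      unfold nrm
      rw [Real.one_le_sqrt]
      exact hpos
    have hn2 : nrm v ≤ |(v.1 : ℝ)| + |(v.2 : ℝ)| := by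
      unfold nrm
      rw [Real.sqrt_le_left (by positivity)]
      nlinarith [sq_abs (v.1 : ℝ), sq_abs (v.2 : ℝ), abs_nonneg (v.1 : ℝ), abs_nonneg (v.2 : ℝ),
        mul_nonneg (abs_nonneg (v.1 : ℝ)) (abs_nonneg (v.2 : ℝ))]
    have hl : |Real.log (nrm v)| ≤ |(v.1 : ℝ)| + |(v.2 : ℝ)| := by
      rw [abs_of_nonneg (Real.log_nonneg hn1)]
      have := Real.log_le_sub_one_of_pos (by linarith : 0 < nrm v)
      linarith
    have h4 : C * (1 + |Real.log (nrm v)|) ≤ C * (1 + (|(v.1 : ℝ)| + |(v.2 : ℝ)|)) :=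
      mul_le_mul_of_nonneg_left (by linarith) hC0
    have h5 : 0 ≤ |(v.1 : ℝ)| + |(v.2 : ℝ)| := by positivity
    nlinarith

/-- **Uniform integrability** in the `Φ_s` form. -/
theorem uiphi {c : ℝ} (hc : 1 ≤ c) (hC : UnifCirc c) {P : Measure Cfg} (hP : IsState c P)
    (hG : PlaneGauss c P) (hV : VBound P) : GlueH792.UIphi c := by
  intro R hR ψ hψ hψc _ _
  obtain ⟨C, _, h⟩ := disc_ui hc (Sand375.cvxMono hc) hC hP hG (vlin_of_vbound hP hV) hR hψ hψc
  refine ⟨C, fun s hs => ?_⟩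
  filter_upwards [h s hs] with δ hδ D hD hDd
  have h1 := hδ D hD hDd
  rw [E_PhiS c hc] at h1
  exact h1

/-- **`UIprop`** of the final assembly. -/
theorem uiprop {c : ℝ} (hc : 1 ≤ c) (hC : UnifCirc c) {P : Measure Cfg} (hP : IsState c P)
    (hG : PlaneGauss c P) (hV : VBound P) : Asm695.UIprop c :=
  GlueH792.uiprop_of_phi hc (uiphi hc hC hP hG hV)

end Crest.Agent.R161.H689
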