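import Crest.Agent.R161.BdCor_228
import Crest.Agent.R161.Arc_389
import Crest.Agent.R161.Asm2_695

/-!
# Row 161, block H: the literal input `HBd c` of the assembly (helper228)

* `hBd` : `HA c → HC c → HBd c`
* `hBd_lemU` : `HA c → LemU c → HBd c`
-/

set_option autoImplicit false

noncomputable section

namespace Crest.Agent.R161.HBd228

open Finset Filter Topology Crest.Agent.R161.Geo729 Crest.Agent.R161.Defs372
  Crest.Agent.R161.BdI228 Crest.Agent.R161.BdCor228 Crest.Agent.R161.Ifc372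

theorem hBd {c : ℝ} (hc : 1 ≤ c) (hA : HA c) (hC : HC c) : Asm695.HBd c := by
  intro ρ hρ C ε hC0 hε
  obtain ⟨η0, hη0, h⟩ := bdReg hc hA hC hρ hC0 hε
  refine ⟨η0, hη0, fun η hη hη1 => ?_⟩
  have hev : ∀ᶠ δ : ℝ in 𝓝[>] (0 : ℝ), 0 < δ := self_mem_nhdsWithin
  filter_upwards [h η hη hη1, hev] with δ h1 hδ D hD _ hDd g hg1 hg2
  exact h1 D hD (hDd.trans (Asm695.disc_mono hδ (by linarith))) D g hg1
    fun z hz => (hg2 z hz).1

theorem hBd_lemU {c : ℝ} (hc : 1 ≤ c) (hA : HA c) (hU : LemU c) : Asm695.HBd c :=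
  hBd hc hA (Arc389.hc_of_lemU hc hU)

end Crest.Agent.R161.HBd228
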