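import Crest.Agent.R161.Flt2_702
import Crest.Agent.R161.Out_868
import Crest.Agent.R161.Sand_375

/-!
# A zero boundary domain with a hole against the big domain (helper702, R161 block H-a)

`hull_le` : if `ball b m` is outside `F'`, `F' ⊆ F`, `ball b (m+1) ⊆ F`, `a ≥ 0` lives on the interior
vertices of `F'` and `g` inside `ball b n` with the same total mass, then
`E_F' (Lin V a)² * P_F(cut circuit around ball b n inside ball b m) ≤ E_F (Lin V a - Lin W g)²`.
-/

set_option autoImplicit false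

noncomputable section

namespace Crest.Agent.R161.Ha702

open Finset Crest.Agent.R161.Geo729 Crest.Agent.R161.Defs372
open Crest.Agent.R161.Dmp341 Crest.Agent.R161.Flip228 Crest.Agent.R161.Ifc372
open Crest.Agent.R161.Out868 (mem_ball DI HI dom_ball ball_mono ball_sub_HI HI_sub HI_dom HI_empty
  circ_of_HI DI_iff self_mem_ball DI_neg circ_iff_HI)
open Crest.Agent.R161.Hull374

theorem intVerts_mono' {F F' : Finset P2} (h : F ⊆ F') : intVerts F ⊆ intVerts F' :=
  Sand375.intVerts_mono h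

/-- enlarging the domain and the coefficients -/
theorem E_sq_le {c : ℝ} (hc : 1 ≤ c) {F F' : Finset P2} (hF : F ⊆ F') (V : Finset P2)
    {g a : P2 → ℝ} (h : ∀ v ∈ V, |g v| ≤ a v) :
    E c F (fun ω => Lin V g ω ^ 2) ≤ E c F' (fun ω => Lin V a ω ^ 2) := by
  classical
  have key := Sand375.cvx hF hc V (a := fun v => if v ∈ V then g v else 0)
    (b := fun v => if v ∈ V then a v else 0) (fun v => by
      split_ifs with hv
      · exact h v hv
      · simp) (φ := fun x => x ^ 2) (Even.convexOn_pow (by decide))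
  have e1 : ∀ (f : P2 → ℝ) (ω : Cfg), ∑ v ∈ V, (ω.1 v : ℝ) * (if v ∈ V then f v else 0) =
      Lin V f ω := by
    intro f ω
    unfold Lin
    exact Finset.sum_congr rfl fun v hv => by rw [if_pos hv, mul_comm]
  simp only [e1] at key
  exact key

theorem sep_of_ball {b : P2} {m : ℕ} {F D : Finset P2} (hD : D ⊆ ball b m)
    (h : ball b (m + 1) ⊆ F) : Ann770.Sep D F := by
  intro v hv
  obtain ⟨f, hf, hvf⟩ := Ann770.tch_iff.1 hv
  have h1 := mem_ball.1 (hD hf)
  rw [mem_intVerts]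
  obtain ⟨x, y⟩ := v
  obtain ⟨p, q⟩ := f
  simp only [Geo729.IsCorner, Prod.mk.injEq] at hvf
  simp only at h1
  have key : ∀ z : P2, b.1 - (m + 1) ≤ z.1 → z.1 ≤ b.1 + m → b.2 - (m + 1) ≤ z.2 →
      z.2 ≤ b.2 + m → z ∈ F := by
    intro z h2 h3 h4 h5
    apply h
    rw [mem_ball]
    push_cast
    omega
  refine ⟨?_, ?_, ?_, ?_⟩ <;> apply key <;> simp only <;> omega

open Classical in
theorem Lin_out {D V : Finset P2} (h : ∀ v ∈ V, v ∉ intVerts D) (a : P2 → ℝ) :
    OutLoc D (fun ω => ∑ v ∈ V, a v * ((ω.1 v : ℝ) - level D ω)) := by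
  intro ω ω' h1 h2 h3
  have e := outLoc_level_self D ω ω' h1 h2 h3
  refine Finset.sum_congr rfl fun v hv => ?_
  rw [h1 v (h v hv), e]

open Classical in
/-- the hull inequality for one value of the hull -/
theorem hull_one {c : ℝ} (hc : 1 ≤ c) {F' F D : Finset P2} {b : P2} {n m : ℕ} (hn : 1 ≤ n)
    (hDdom : Dom D) (hDm : D ⊆ ball b m) (hnD : ball b n ⊆ D)
    (hdis : Disjoint (ball b m) F') (hF' : F' ⊆ F) (hsep : ball b (m + 1) ⊆ F)
    {V W : Finset P2} (hV : V ⊆ intVerts F') (hW : W ⊆ intVerts (ball b n)) {a g : P2 → ℝ}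
    (ha : ∀ v ∈ V, 0 ≤ a v) (hm : ∑ v ∈ V, a v = ∑ w ∈ W, g w) :
    E c F' (fun ω => Lin V a ω ^ 2) * E c F (fun ω => if DI b n m ω = D then 1 else 0) ≤
      E c F (fun ω => if DI b n m ω = D then (Lin V a ω - Lin W g ω) ^ 2 else 0) := by
  have hne : D.Nonempty := ⟨b, hnD (self_mem_ball hn)⟩
  have hDF : D ⊆ F := fun f hf => hsep (ball_mono b (Nat.le_succ m) (hDm hf))
  have hSep := sep_of_ball hDm hsep
  have hdis' : Disjoint D F' := Finset.disjoint_of_subset_left hDm hdis
  have hsub : F' ⊆ F \ D := fun f hf =>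
    Finset.mem_sdiff.2 ⟨hF' hf, fun h => Finset.disjoint_left.1 hdis' h hf⟩
  have hV2 : V ⊆ intVerts (F \ D) := hV.trans (intVerts_mono' hsub)
  have hVD : ∀ v ∈ V, v ∉ intVerts D := fun v hv h =>
    Ann770.not_tch_of_intVerts_sdiff (hV2 hv) (Ann770.tch_of_intVerts h)
  have hWD : W ⊆ intVerts D := hW.trans (intVerts_mono' hnD)
  set X : Cfg → ℝ := fun ω => ∑ v ∈ V, a v * ((ω.1 v : ℝ) - level D ω) with hX
  set f : Cfg → ℝ := fun β => if DI b n m β = D then 1 else 0 with hf
  have hXout : OutLoc D X := Lin_out hVD a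
  have hX2out : OutLoc D (fun ω => X ω ^ 2) := OutLoc.comp hXout (fun x => x ^ 2)
  have hf0 : 0 ≤ E c D f := E_nonneg hc fun ω _ => by simp only [hf]; split_ifs <;> norm_num
  -- `1{DI = D} G = 1_CutE G f(insL)`
  have hI : ∀ (G : Cfg → ℝ) (ω : Cfg), (if DI b n m ω = D then G ω else 0) =
      if CutE D ω then G ω * f (insL D ω) else 0 := by
    intro G ω
    have := DI_iff (x := b) (n := n) (m := m) hn hne ω
    simp only [hf]
    by_cases h1 : CutE D ω <;> by_cases h2 : DI b n m (insL D ω) = D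
    · rw [if_pos (this.2 ⟨h1, h2⟩), if_pos h1, if_pos h2, mul_one]
    · rw [if_neg (fun h => h2 (this.1 h).2), if_pos h1, if_neg h2, mul_zero]
    · rw [if_neg (fun h => h1 (this.1 h).1), if_neg h1]
    · rw [if_neg (fun h => h1 (this.1 h).1), if_neg h1]
  -- (1)
  have e1 : E c F (fun ω => if DI b n m ω = D then 1 else 0) =
      E c F (fun ω => if CutE D ω then 1 else 0) * E c D f := by
    rw [← E_cutE hc hDF hDdom (g := fun _ => 1) (f := f) (fun _ _ _ _ _ => rfl)]
    exact E_congr fun ω _ => hI (fun _ => 1) ω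
  -- (2)
  have e2 : E c F (fun ω => if DI b n m ω = D then X ω ^ 2 else 0) =
      E c F (fun ω => if CutE D ω then X ω ^ 2 else 0) * E c D f := by
    rw [← E_cutE hc hDF hDdom (g := fun ω => X ω ^ 2) (f := f) hX2out]
    exact E_congr fun ω _ => hI (fun ω => X ω ^ 2) ω
  -- (3)
  have e3 := Flt702.float_le hc hDdom hne hSep (φ := fun x => x ^ 2)
    (Even.convexOn_pow (by decide)) hV2 ha
  -- (4)
  have e4 : E c F' (fun ω => Lin V a ω ^ 2) ≤ E c (F \ D) (fun ω => Lin V a ω ^ 2) :=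
    E_sq_le hc hsub V fun v hv => (abs_of_nonneg (ha v hv)).le
  -- (5)
  set Y : Cfg → ℝ := fun ω => Lin W g (insL D ω) with hY
  have hXY : ∀ ω, Lin V a ω - Lin W g ω = X ω - Y ω := by
    intro ω
    have h1 : X ω = Lin V a ω - (∑ v ∈ V, a v) * level D ω := by
      simp only [hX, Lin]
      rw [Finset.sum_mul, ← Finset.sum_sub_distrib]
      exact Finset.sum_congr rfl fun v _ => by ring
    have h2 : Y ω = Lin W g ω - (∑ w ∈ W, g w) * level D ω := by
      simp only [hY, Lin]
      rw [Finset.sum_mul, ← Finset.sum_sub_distrib]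
      refine Finset.sum_congr rfl fun w hw => ?_
      rw [insL_K (hWD hw)]
      push_cast
      ring
    rw [h1, h2, hm]
    ring
  have e5 : E c F (fun ω => if DI b n m ω = D then X ω * Y ω else 0) = 0 := by
    have h1 : E c D (fun β => f β * Lin W g β) = 0 := by
      refine E_odd c D fun ω => ?_
      have h2 : f (negC D ω) = f ω := rfl
      have h3 : Lin W g (negC D ω) = - Lin W g ω := by
        unfold Lin
        rw [← Finset.sum_neg_distrib]
        refine Finset.sum_congr rfl fun v _ => ?_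
        simp [negC]
      rw [h2, h3]
      ring
    have h4 := E_cutE hc hDF hDdom (g := X) (f := fun β => f β * Lin W g β) hXout
    rw [h1, mul_zero] at h4
    refine Eq.trans (E_congr fun ω _ => ?_) h4
    rw [hI (fun ω => X ω * Y ω) ω]
    split_ifs
    · simp only [hY]; ring
    · rfl
  have e6 : E c F (fun ω => if DI b n m ω = D then X ω ^ 2 else 0) ≤
      E c F (fun ω => if DI b n m ω = D then (Lin V a ω - Lin W g ω) ^ 2 else 0) := by
    have h1 : E c F (fun ω => if DI b n m ω = D then X ω ^ 2 else 0) -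
        2 * E c F (fun ω => if DI b n m ω = D then X ω * Y ω else 0) ≤
        E c F (fun ω => if DI b n m ω = D then (Lin V a ω - Lin W g ω) ^ 2 else 0) := by
      rw [← E_smul, ← E_sub]
      refine E_mono hc fun ω _ => ?_
      split_ifs
      · rw [hXY ω]
        nlinarith [sq_nonneg (Y ω)]
      · simp
    rw [e5] at h1
    linarith
  have hC0 : 0 ≤ E c F (fun ω => if CutE D ω then (1 : ℝ) else 0) :=
    E_nonneg hc fun ω _ => by split_ifs <;> norm_num
  calc E c F' (fun ω => Lin V a ω ^ 2) * E c F (fun ω => if DI b n m ω = D then 1 else 0)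
      = (E c F' (fun ω => Lin V a ω ^ 2) * E c F (fun ω => if CutE D ω then 1 else 0)) *
          E c D f := by rw [e1]; ring
    _ ≤ (E c (F \ D) (fun ω => Lin V a ω ^ 2) * E c F (fun ω => if CutE D ω then 1 else 0)) *
          E c D f := mul_le_mul_of_nonneg_right (mul_le_mul_of_nonneg_right e4 hC0) hf0
    _ ≤ E c F (fun ω => if CutE D ω then X ω ^ 2 else 0) * E c D f :=
        mul_le_mul_of_nonneg_right e3 hf0
    _ = E c F (fun ω => if DI b n m ω = D then X ω ^ 2 else 0) := e2.symm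
    _ ≤ _ := e6

open Classical in
/-- **Hull inequality.** -/
theorem hull_le {c : ℝ} (hc : 1 ≤ c) {F' F : Finset P2} {b : P2} {n m : ℕ} (hn : 1 ≤ n)
    (hdis : Disjoint (ball b m) F') (hF' : F' ⊆ F) (hsep : ball b (m + 1) ⊆ F)
    {V W : Finset P2} (hV : V ⊆ intVerts F') (hW : W ⊆ intVerts (ball b n)) {a g : P2 → ℝ}
    (ha : ∀ v ∈ V, 0 ≤ a v) (hm : ∑ v ∈ V, a v = ∑ w ∈ W, g w) :
    E c F' (fun ω => Lin V a ω ^ 2) *
        E c F (fun ω => if Circ (cutE ω) b n m then 1 else 0) ≤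
      E c F (fun ω => (Lin V a ω - Lin W g ω) ^ 2) := by
  set 𝒟 : Finset (Finset P2) := (ball b m).powerset.filter fun D => Dom D ∧ ball b n ⊆ D with h𝒟
  have hmem : ∀ ω, Circ (cutE ω) b n m → DI b n m ω ∈ 𝒟 := by
    intro ω h
    rw [h𝒟, Finset.mem_filter, Finset.mem_powerset]
    exact ⟨HI_sub, HI_dom hn h, ball_sub_HI h⟩
  have hnot : ∀ ω, ¬ Circ (cutE ω) b n m → DI b n m ω ∉ 𝒟 := by
    intro ω h hD
    rw [h𝒟, Finset.mem_filter, Finset.mem_powerset] at hD
    have := hD.2.2 (self_mem_ball hn)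
    exact h (circ_of_HI this)
  have hdec : ∀ (G : Cfg → ℝ) (ω : Cfg), (if Circ (cutE ω) b n m then G ω else 0) =
      ∑ D ∈ 𝒟, if DI b n m ω = D then G ω else 0 := by
    intro G ω
    rw [Finset.sum_ite_eq]
    by_cases h : Circ (cutE ω) b n m
    · rw [if_pos h, if_pos (hmem ω h)]
    · rw [if_neg h, if_neg (hnot ω h)]
  have h1 : E c F (fun ω => if Circ (cutE ω) b n m then 1 else 0) =
      ∑ D ∈ 𝒟, E c F (fun ω => if DI b n m ω = D then 1 else 0) := by
    rw [← E_sum]
    exact E_congr fun ω _ => hdec (fun _ => 1) ω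
  have h2 : ∑ D ∈ 𝒟, E c F (fun ω => if DI b n m ω = D then (Lin V a ω - Lin W g ω) ^ 2 else 0) ≤
      E c F (fun ω => (Lin V a ω - Lin W g ω) ^ 2) := by
    rw [← E_sum]
    refine E_mono hc fun ω _ => ?_
    rw [← hdec (fun ω => (Lin V a ω - Lin W g ω) ^ 2) ω]
    split_ifs
    · exact le_rfl
    · exact sq_nonneg _
  rw [h1, Finset.mul_sum]
  refine (Finset.sum_le_sum fun D hD => ?_).trans h2
  rw [h𝒟, Finset.mem_filter, Finset.mem_powerset] at hD
  exact hull_one hc hn hD.2.1 hD.1 hD.2.2 hdis hF' hsep hV hW ha hm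

end Crest.Agent.R161.Ha702
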