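import Crest.Agent.R161.Ha1_702
import Crest.Agent.R161.BdI_228

/-!
# Block H-a: assembly from the plane bound (helper702, R161)

`PlaneSq P` : second moments of mass-zero smeared heights of the plane state at scale `s` are bounded.
`ha_of_planeSq` : `HA c` from `IsState c P`, `LemU c` and `PlaneSq P`.
-/

set_option autoImplicit false

noncomputable section

namespace Crest.Agent.R161.Ha702

open Finset hiding box
open MeasureTheory Crest.Agent.R161.Geo729 Crest.Agent.R161.Defs372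
open Crest.Agent.R161.Dmp341 Crest.Agent.R161.Flip228 Crest.Agent.R161.Ifc372
open Crest.Agent.R161.Out868 (mem_ball DI HI dom_ball ball_mono ball_sub_HI HI_sub HI_dom HI_empty
  circ_of_HI DI_iff self_mem_ball DI_neg circ_iff_HI circ_mono)
open Crest.Agent.R161.Hull374 Crest.Agent.R161.Dual374

/-- second moments of mass-zero smeared heights of the plane state -/
def PlaneSq (P : Measure Cfg) : Prop :=
  ∀ A : ℕ, ∃ C : ℝ, ∀ s : ℕ, 1 ≤ s → ∀ (b : P2) (V : Finset P2) (h : P2 → ℝ),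
    V ⊆ ball b (A * s) → (∀ v ∈ V, |h v| ≤ A / (s : ℝ) ^ 2) → ∑ v ∈ V, h v = 0 →
      ∫ ω, Lin V h ω ^ 2 ∂P ≤ C

theorem circ_sizes {Z : Edge → Prop} {x : P2} {n n' m m' : ℕ} (hn : n' ≤ n) (hm : m ≤ m')
    (h : Circ Z x n m) : Circ Z x n' m' := by
  intro f hf
  obtain ⟨a, ha, h2⟩ := hf
  have h3 : f ∈ (ball x m : Set P2) := h ⟨a, ball_mono x hn ha, h2⟩
  exact ball_mono x hm h3

theorem card_ball (b : P2) (n : ℕ) : (ball b n).card = (2 * n) * (2 * n) := by
  unfold ball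
  rw [Finset.card_product, Int.card_Icc, Int.card_Icc]
  congr 1 <;> omega

theorem Lin_norm0 {U : Finset P2} {h : P2 → ℝ} (h0 : ∑ v ∈ U, h v = 0) (ω : Cfg) :
    Lin U h (norm0 ω) = Lin U h ω := by
  unfold Lin
  have : ∀ v ∈ U, h v * ((norm0 ω).1 v : ℝ) = h v * (ω.1 v : ℝ) - h v * (ω.1 (0, 0) : ℝ) := by
    intro v _
    have : (norm0 ω).1 v = ω.1 v + -ω.1 (0, 0) := rfl
    rw [this]
    push_cast
    ring
  rw [Finset.sum_congr rfl this, Finset.sum_sub_distrib, ← Finset.sum_mul, h0, zero_mul, sub_zero]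

theorem loc_Lin_sq (U : Finset P2) (h : P2 → ℝ) :
    Loc (U : Set P2) (fun ω => Lin U h ω ^ 2) := by
  intro ω ω' hag
  have : Lin U h ω = Lin U h ω' := by
    unfold Lin
    exact Finset.sum_congr rfl fun v hv => by rw [(hag v hv).1]
  simp only [this]

open Classical in
/-- a cut circuit in `ball b s \ ball b n`, `n` much smaller than `s` -/
theorem circ_half {c : ℝ} (hc : 1 ≤ c) {J L : ℕ} (hL : 2 ≤ L) {G : Finset P2} {b : P2} {n s : ℕ}
    (hns : 2 * (L ^ J * n) ≤ s)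
    (hU : E c G (fun ω => indP (fun ω => ∀ j : ℕ, j < J →
      ¬ Circ (plusE ω) b (L ^ j * n) (2 * (L ^ j * n))) ω) ≤ 1 / 2) :
    1 / 2 ≤ E c G (fun ω => if Circ (cutE ω) b n s then 1 else 0) := by
  have h1 : E c G (fun _ => 1) ≤ E c G (fun ω => (if Circ (cutE ω) b n s then 1 else 0) +
      indP (fun ω => ∀ j : ℕ, j < J → ¬ Circ (plusE ω) b (L ^ j * n) (2 * (L ^ j * n))) ω) := by
    refine E_mono hc fun ω _ => ?_
    unfold indP
    by_cases h2 : Circ (cutE ω) b n s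
    · rw [if_pos h2]
      split_ifs <;> norm_num
    · rw [if_neg h2, if_pos, zero_add]
      intro j hj h3
      apply h2
      have h4 : Circ (cutE ω) b (L ^ j * n) (2 * (L ^ j * n)) := circ_mono (fun e he => he.1) h3
      refine circ_sizes ?_ ?_ h4
      · exact Nat.le_mul_of_pos_left n (Nat.pow_pos (by omega))
      · refine le_trans ?_ hns
        have : L ^ j ≤ L ^ J := Nat.pow_le_pow_right (by omega) hj.le
        exact Nat.mul_le_mul_left 2 (Nat.mul_le_mul_right n this)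
  rw [E_const hc, E_add] at h1
  linarith

theorem ha_of_planeSq {c : ℝ} (hc : 1 ≤ c) {P : Measure Cfg} (hP : IsState c P) (hU : LemU c)
    (hPl : PlaneSq P) : BdI228.HA c := by
  classical
  intro A₀
  obtain ⟨J, n0, L, hL, hUJ⟩ := hU (1 / 2) (by norm_num)
  obtain ⟨C, hC⟩ := hPl (64 * A₀ ^ 3 * L ^ (2 * J) + A₀ + 1)
  refine ⟨2 * (C + 1), 4 * L ^ J * (n0 + 1), fun s hs F hF b hdis V g hV hg => ?_⟩
  have hLJ : 1 ≤ L ^ J := Nat.one_le_pow _ _ (by omega)
  obtain ⟨n, hn⟩ : ∃ n, n = s / (2 * L ^ J) := ⟨_, rfl⟩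
  have hpos : 0 < 2 * L ^ J := by positivity
  have hn1 : n0 + 1 ≤ n := by
    rw [hn, Nat.le_div_iff_mul_le hpos]
    nlinarith
  have hn2 : 2 * (L ^ J * n) ≤ s := by
    have := Nat.div_mul_le_self s (2 * L ^ J)
    rw [← hn] at this
    linarith
  have hn3 : s ≤ 4 * L ^ J * n := by
    have h1 : s < (n + 1) * (2 * L ^ J) := by
      rw [hn]
      have h1 := Nat.div_add_mod s (2 * L ^ J)
      have h2 := Nat.mod_lt s hpos
      calc s = 2 * L ^ J * (s / (2 * L ^ J)) + s % (2 * L ^ J) := h1.symm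
        _ < 2 * L ^ J * (s / (2 * L ^ J)) + 2 * L ^ J := Nat.add_lt_add_left h2 _
        _ = (s / (2 * L ^ J) + 1) * (2 * L ^ J) := by ring
    have h2 : (n + 1) * (2 * L ^ J) ≤ (2 * n) * (2 * L ^ J) :=
      Nat.mul_le_mul_right _ (by omega)
    calc s ≤ (2 * n) * (2 * L ^ J) := h1.le.trans h2
      _ = 4 * L ^ J * n := by ring
  have hn0 : 1 ≤ n := by omega
  have hs1 : 1 ≤ s := by
    refine le_trans ?_ hs
    have : 1 ≤ L ^ J * (n0 + 1) := Nat.mul_pos hLJ (by omega)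
    nlinarith
  have hsR : (0 : ℝ) < s := by exact_mod_cast hs1
  have hnR : (0 : ℝ) < n := by exact_mod_cast hn0
  -- data
  set V' : Finset P2 := V ∩ intVerts F with hV'
  set W : Finset P2 := Finset.Icc b.1 (b.1 + n - 1) ×ˢ Finset.Icc b.2 (b.2 + n - 1) with hW
  set m : ℝ := ∑ v ∈ V', |g v| with hm
  have hWcard : (W.card : ℝ) = (n : ℝ) ^ 2 := by
    rw [hW, Finset.card_product, Int.card_Icc, Int.card_Icc,
      show (b.1 + n - 1 + 1 - b.1).toNat = n by omega,
      show (b.2 + n - 1 + 1 - b.2).toNat = n by omega]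
    push_cast
    ring
  have hWint : W ⊆ intVerts (ball b n) := by
    intro v hv
    rw [hW, Finset.mem_product, Finset.mem_Icc, Finset.mem_Icc] at hv
    rw [mem_intVerts]
    have key : ∀ z : P2, b.1 - n ≤ z.1 → z.1 ≤ b.1 + n - 1 → b.2 - n ≤ z.2 →
        z.2 ≤ b.2 + n - 1 → z ∈ ball b n := by
      intro z h2 h3 h4 h5
      exact mem_ball.2 ⟨h2, h3, h4, h5⟩
    refine ⟨?_, ?_, ?_, ?_⟩ <;> apply key <;> simp only <;> omega
  have hVint : V' ⊆ intVerts F := Finset.inter_subset_right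
  have hm0 : 0 ≤ m := Finset.sum_nonneg fun _ _ => abs_nonneg _
  have hmle : m ≤ 4 * (A₀ : ℝ) ^ 3 := by
    have h1 : m ≤ ∑ v ∈ V, |g v| :=
      Finset.sum_le_sum_of_subset_of_nonneg Finset.inter_subset_left fun _ _ _ => abs_nonneg _
    have h2 : ∑ v ∈ V, |g v| ≤ V.card • ((A₀ : ℝ) / (s : ℝ) ^ 2) :=
      Finset.sum_le_card_nsmul _ _ _ hg
    have h3 : (V.card : ℝ) ≤ (2 * (A₀ * s)) * (2 * (A₀ * s)) := by
      have := Finset.card_le_card hV
      rw [card_ball] at this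
      exact_mod_cast this
    rw [nsmul_eq_mul] at h2
    have h4 : (V.card : ℝ) * ((A₀ : ℝ) / (s : ℝ) ^ 2) ≤
        ((2 * (A₀ * s)) * (2 * (A₀ * s))) * ((A₀ : ℝ) / (s : ℝ) ^ 2) :=
      mul_le_mul_of_nonneg_right h3 (by positivity)
    have h5 : ((2 * ((A₀ : ℝ) * s)) * (2 * (A₀ * s))) * ((A₀ : ℝ) / (s : ℝ) ^ 2) =
        4 * (A₀ : ℝ) ^ 3 := by
      field_simp
      ring
    linarith
  set g₀ : ℝ := m / (n : ℝ) ^ 2 with hg₀
  have hg₀0 : 0 ≤ g₀ := by positivity
  have hg₀le : g₀ ≤ (64 * (A₀ : ℝ) ^ 3 * (L : ℝ) ^ (2 * J)) / (s : ℝ) ^ 2 := by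
    rw [hg₀, div_le_div_iff₀ (by positivity) (by positivity)]
    have h1 : (s : ℝ) ≤ 4 * (L : ℝ) ^ J * n := by exact_mod_cast hn3
    have h2 : (s : ℝ) ^ 2 ≤ (4 * (L : ℝ) ^ J * n) ^ 2 := pow_le_pow_left₀ hsR.le h1 2
    calc m * (s : ℝ) ^ 2 ≤ (4 * (A₀ : ℝ) ^ 3) * (4 * (L : ℝ) ^ J * n) ^ 2 :=
          mul_le_mul hmle h2 (by positivity) (by positivity)
      _ = 64 * (A₀ : ℝ) ^ 3 * (L : ℝ) ^ (2 * J) * (n : ℝ) ^ 2 := by
          rw [mul_comm 2 J, pow_mul]; ring
  have hmass : ∑ v ∈ V', |g v| = ∑ w ∈ W, (fun _ : P2 => g₀) w := by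
    rw [Finset.sum_const, nsmul_eq_mul, hWcard, hg₀, ← hm]
    field_simp
  -- combined coefficients
  set U : Finset P2 := V' ∪ W with hUdef
  set h : P2 → ℝ := fun v => (if v ∈ V' then |g v| else 0) - (if v ∈ W then g₀ else 0) with hh
  have hsum1 : ∀ f : P2 → ℝ, ∑ v ∈ U, (if v ∈ V' then f v else 0) = ∑ v ∈ V', f v := by
    intro f
    rw [Finset.sum_ite_mem, Finset.inter_eq_right.2 Finset.subset_union_left]
  have hsum2 : ∀ f : P2 → ℝ, ∑ v ∈ U, (if v ∈ W then f v else 0) = ∑ v ∈ W, f v := by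
    intro f
    rw [Finset.sum_ite_mem, Finset.inter_eq_right.2 Finset.subset_union_right]
  have hlin : ∀ ω : Cfg, Lin U h ω = Lin V' (fun v => |g v|) ω - Lin W (fun _ => g₀) ω := by
    intro ω
    unfold Lin
    rw [← hsum1 (fun v => |g v| * (ω.1 v : ℝ)), ← hsum2 (fun v => g₀ * (ω.1 v : ℝ)),
      ← Finset.sum_sub_distrib]
    refine Finset.sum_congr rfl fun v _ => ?_
    simp only [hh]
    split_ifs <;> ring
  have hsum0 : ∑ v ∈ U, h v = 0 := by
    simp only [hh]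
    rw [Finset.sum_sub_distrib, hsum1 (fun v => |g v|), hsum2 (fun _ => g₀), hmass]
    ring
  have hA : (((64 * A₀ ^ 3 * L ^ (2 * J) + A₀ + 1 : ℕ)) : ℝ) =
      64 * (A₀ : ℝ) ^ 3 * (L : ℝ) ^ (2 * J) + A₀ + 1 := by push_cast; ring
  have hhle : ∀ v ∈ U, |h v| ≤ ((64 * A₀ ^ 3 * L ^ (2 * J) + A₀ + 1 : ℕ) : ℝ) / (s : ℝ) ^ 2 := by
    intro v hv
    rw [hA]
    have h1 : |h v| ≤ (A₀ : ℝ) / (s : ℝ) ^ 2 +
        (64 * (A₀ : ℝ) ^ 3 * (L : ℝ) ^ (2 * J)) / (s : ℝ) ^ 2 := by
      simp only [hh]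
      refine (abs_sub _ _).trans (add_le_add ?_ ?_)
      · split_ifs with h2
        · rw [abs_abs]
          exact hg v (Finset.mem_inter.1 h2).1
        · rw [abs_zero]; positivity
      · split_ifs with h2
        · rw [abs_of_nonneg hg₀0]; exact hg₀le
        · rw [abs_zero]; positivity
    refine h1.trans ?_
    rw [← add_div]
    refine div_le_div_of_nonneg_right ?_ (by positivity)
    linarith
  have hUball : U ⊆ ball b ((64 * A₀ ^ 3 * L ^ (2 * J) + A₀ + 1) * s) := by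
    refine Finset.union_subset ?_ ?_
    · exact (Finset.inter_subset_left.trans hV).trans
        (ball_mono b (Nat.mul_le_mul_right s (by omega)))
    · have hns : n ≤ (64 * A₀ ^ 3 * L ^ (2 * J) + A₀ + 1) * s := by
        have h1 : n ≤ s := by nlinarith
        exact h1.trans (Nat.le_mul_of_pos_left s (by omega))
      refine Finset.Subset.trans (fun v hv => ?_) (ball_mono b hns)
      exact corner_mem_of_int (hWint hv) (by simp [Geo729.IsCorner])
  have hplane := hC s hs1 b U h hUball hhle hsum0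
  -- the big box
  obtain ⟨N1, hN1⟩ := hP.lim U (fun ω => Lin U h ω ^ 2) (loc_Lin_sq U h) 1 one_pos
  obtain ⟨N2, hN2⟩ := exists_box (F ∪ ball b (s + 1))
  have hG := hN1 (box (max N1 N2)) (dom_box _) (box_mono (le_max_left _ _))
  have hbig : F ∪ ball b (s + 1) ⊆ box (max N1 N2) := hN2.trans (box_mono (le_max_right _ _))
  set G : Finset P2 := box (max N1 N2) with hGdef
  have hdomG : Dom G := dom_box _
  simp only [Lin_norm0 hsum0] at hG
  have hEG : E c G (fun ω => Lin U h ω ^ 2) ≤ C + 1 := by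
    have := (abs_lt.1 hG).2
    linarith
  -- the hull inequality
  have hull := hull_le hc (F' := F) (F := G) (b := b) (n := n) (m := s) hn0 hdis
    (Finset.subset_union_left.trans hbig) (Finset.subset_union_right.trans hbig)
    (V := V') (W := W) hVint hWint (a := fun v => |g v|) (g := fun _ => g₀)
    (fun _ _ => abs_nonneg _) hmass
  have hEq : E c G (fun ω => (Lin V' (fun v => |g v|) ω - Lin W (fun _ => g₀) ω) ^ 2) =
      E c G (fun ω => Lin U h ω ^ 2) := E_congr fun ω _ => by rw [hlin ω]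
  rw [hEq] at hull
  have hcirc := circ_half hc hL (J := J) (G := G) (b := b) (n := n) (s := s) hn2
    (hUJ G hdomG b n (by omega))
  have hX0 : 0 ≤ E c F (fun ω => Lin V' (fun v => |g v|) ω ^ 2) :=
    E_nonneg hc fun ω _ => sq_nonneg _
  have hfin : E c F (fun ω => Lin V' (fun v => |g v|) ω ^ 2) ≤ 2 * (C + 1) := by
    have h1 := mul_le_mul_of_nonneg_left hcirc hX0
    linarith
  -- restriction to the interior vertices
  have hres : E c F (fun ω => Lin V g ω ^ 2) = E c F (fun ω => Lin V' g ω ^ 2) := by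
    refine E_congr fun ω hω => ?_
    congr 1
    unfold Lin
    symm
    refine Finset.sum_subset Finset.inter_subset_left fun v hv hv' => ?_
    have : v ∉ intVerts F := fun h => hv' (Finset.mem_inter.2 ⟨hv, h⟩)
    rw [hω.zero v this]
    simp
  rw [hres]
  exact (E_sq_le hc (Finset.Subset.refl F) V' fun v _ => le_rfl).trans hfin

end Crest.Agent.R161.Ha702
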