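import Crest.Agent.R161.Aut_373
import Crest.Agent.R161.BdI_228

/-!
# Row 161, block H-a, plane part (helper228 for helper702)

* `int_sub_sq` : `∫ (K x - K y)² dP = VV P (x - y)`
* `int_lin_sq` : `∫ (∑ h K)² dP = -1/2 ∑∑ h_x h_y VV P (x - y)` for mass zero `h`
* `sumW_le` : the lattice sum `∑_{|p| ≤ R} 1/|p| ≤ 6 (2R+1)`
* `plane_sq` : uniform second moment bound for mass zero densities at every scale
-/

set_option autoImplicit false

noncomputable section

namespace Crest.Agent.R161.HaP228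

open Finset MeasureTheory Crest.Agent.R161.Geo729 Crest.Agent.R161.Defs372
  Crest.Agent.R161.Ifc372 Crest.Agent.R161.Aut373

variable {c : ℝ} {P : Measure Cfg}

theorem loc_k (x : P2) {S : Finset P2} (hx : x ∈ S) : Loc (S : Set P2) (fun ω : Cfg => ω.1 x) :=
  fun _ _ h => (h x hx).1

theorem loc_diff_sq (x y : P2) :
    Loc (({x, y} : Finset P2) : Set P2) (fun ω : Cfg => ((ω.1 x : ℝ) - ω.1 y) ^ 2) := by
  intro ω ω' h
  have h1 : ω.1 x = ω'.1 x := loc_k x (by simp) ω ω' h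
  have h2 : ω.1 y = ω'.1 y := loc_k y (by simp) ω ω' h
  simp only [h1, h2]

theorem neut_diff_sq (x y : P2) : Neut (fun ω : Cfg => ((ω.1 x : ℝ) - ω.1 y) ^ 2) := by
  intro ω _ a _
  simp only [addH]
  push_cast
  ring

theorem int_sub_sq (hP : IsState c P) (x y : P2) :
    ∫ ω, ((ω.1 x : ℝ) - ω.1 y) ^ 2 ∂P = VV P (x - y) := by
  have h := integral_aut hP (Aut.tr y) (loc_diff_sq (x - y) (0, 0)) (neut_diff_sq (x - y) (0, 0))
  unfold VV
  rw [← h]
  refine integral_congr_ae (Filter.Eventually.of_forall fun ω => ?_)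
  simp only [Aut.cfg_k]
  have e1 : (Aut.tr y).V (x - y) = x := by
    show x - y + y = x
    abel
  have e2 : (Aut.tr y).V (0, 0) = y := by
    show ((0, 0) : P2) + y = y
    exact zero_add y
  rw [e1, e2]

theorem VV_zero (P : Measure Cfg) : VV P 0 = 0 := by
  have h0 : (0 : P2) = (0, 0) := rfl
  unfold VV
  rw [h0]
  simp

theorem lin_sq_eq (V : Finset P2) (h : P2 → ℝ) (h0 : ∑ v ∈ V, h v = 0) (ω : Cfg) :
    Flip228.Lin V h ω ^ 2 =
      ∑ x ∈ V, ∑ y ∈ V, (-(1 / 2) * h x * h y) * ((ω.1 x : ℝ) - ω.1 y) ^ 2 := by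
  have e1 : ∀ x ∈ V, ∑ y ∈ V, (-(1 / 2) * h x * h y) * ((ω.1 x : ℝ) - ω.1 y) ^ 2 =
      (-(1 / 2) * h x * (ω.1 x : ℝ) ^ 2) * ∑ y ∈ V, h y + (h x * ω.1 x) * Flip228.Lin V h ω
        + (-(1 / 2) * h x) * ∑ y ∈ V, h y * (ω.1 y : ℝ) ^ 2 := by
    intro x _
    unfold Flip228.Lin
    rw [Finset.mul_sum, Finset.mul_sum, Finset.mul_sum, ← Finset.sum_add_distrib,
      ← Finset.sum_add_distrib]
    exact Finset.sum_congr rfl fun y _ => by ring
  rw [Finset.sum_congr rfl e1, h0]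
  simp only [mul_zero, zero_add]
  rw [Finset.sum_add_distrib, ← Finset.sum_mul, ← Finset.sum_mul, ← Finset.mul_sum, h0]
  have e2 : ∑ x ∈ V, h x * (ω.1 x : ℝ) = Flip228.Lin V h ω := rfl
  rw [e2]
  ring

theorem int_lin_sq (hP : IsState c P) (V : Finset P2) (h : P2 → ℝ) (h0 : ∑ v ∈ V, h v = 0) :
    ∫ ω, Flip228.Lin V h ω ^ 2 ∂P = ∑ x ∈ V, ∑ y ∈ V, (-(1 / 2) * h x * h y) * VV P (x - y) := by
  simp only [lin_sq_eq V h h0]
  rw [integral_finsetSum]
  · refine Finset.sum_congr rfl fun x _ => ?_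
    rw [integral_finsetSum]
    · refine Finset.sum_congr rfl fun y _ => ?_
      rw [integral_const_mul, int_sub_sq hP]
    · intro y _
      exact (loc_integrable hP (loc_diff_sq x y)).const_mul _
  · intro x _
    refine integrable_finsetSum _ fun y _ => ?_
    exact (loc_integrable hP (loc_diff_sq x y)).const_mul _

/-- a constant may be subtracted from the kernel -/
theorem int_lin_sq' (hP : IsState c P) (V : Finset P2) (h : P2 → ℝ) (h0 : ∑ v ∈ V, h v = 0)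
    (a : ℝ) : ∫ ω, Flip228.Lin V h ω ^ 2 ∂P =
      ∑ x ∈ V, ∑ y ∈ V, (-(1 / 2) * h x * h y) * (VV P (x - y) - a) := by
  rw [int_lin_sq hP V h h0]
  refine Finset.sum_congr rfl fun x _ => ?_
  have e : ∑ y ∈ V, (-(1 / 2) * h x * h y) * (VV P (x - y) - a) =
      ∑ y ∈ V, (-(1 / 2) * h x * h y) * VV P (x - y) + (1 / 2 * h x * a) * ∑ y ∈ V, h y := by
    rw [Finset.mul_sum, ← Finset.sum_add_distrib]
    exact Finset.sum_congr rfl fun y _ => by ring
  rw [e, h0, mul_zero, add_zero]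

/-! ### lattice sum -/

/-- an upper bound for `1/|p|` -/
def W (p : P2) : ℝ := (if |p.2| ≤ |p.1| then (|(p.1 : ℝ)|)⁻¹ else 0) +
  (if |p.1| ≤ |p.2| then (|(p.2 : ℝ)|)⁻¹ else 0)

theorem W_nonneg (p : P2) : 0 ≤ W p := by
  unfold W
  refine add_nonneg ?_ ?_ <;> split_ifs <;> positivity

theorem inv_nrm_le (p : P2) (hp : p ≠ 0) : (nrm p)⁻¹ ≤ W p := by
  have h1 : |(p.1 : ℝ)| ≤ nrm p := by
    unfold nrm
    rw [← Real.sqrt_sq_eq_abs]
    exact Real.sqrt_le_sqrt (by nlinarith [sq_nonneg (p.2 : ℝ)])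
  have h2 : |(p.2 : ℝ)| ≤ nrm p := by
    unfold nrm
    rw [← Real.sqrt_sq_eq_abs]
    exact Real.sqrt_le_sqrt (by nlinarith [sq_nonneg (p.1 : ℝ)])
  have hne : p.1 ≠ 0 ∨ p.2 ≠ 0 := by
    by_contra hcon
    push Not at hcon
    exact hp (Prod.ext hcon.1 hcon.2)
  unfold W
  rcases le_total |p.2| |p.1| with h | h
  · have h3 : p.1 ≠ 0 := by
      intro h0
      rw [h0, abs_zero] at h
      have : p.2 = 0 := abs_eq_zero.1 (le_antisymm h (abs_nonneg _))
      tauto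
    have h4 : 0 < |(p.1 : ℝ)| := by
      rw [abs_pos]; exact_mod_cast h3
    rw [if_pos h]
    have h5 : (nrm p)⁻¹ ≤ (|(p.1 : ℝ)|)⁻¹ := inv_anti₀ h4 h1
    have h6 : (0 : ℝ) ≤ (if |p.1| ≤ |p.2| then (|(p.2 : ℝ)|)⁻¹ else 0) := by
      split_ifs <;> positivity
    linarith
  · have h3 : p.2 ≠ 0 := by
      intro h0
      rw [h0, abs_zero] at h
      have : p.1 = 0 := abs_eq_zero.1 (le_antisymm h (abs_nonneg _))
      tauto
    have h4 : 0 < |(p.2 : ℝ)| := by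
      rw [abs_pos]; exact_mod_cast h3
    rw [if_pos h]
    have h5 : (nrm p)⁻¹ ≤ (|(p.2 : ℝ)|)⁻¹ := inv_anti₀ h4 h2
    have h6 : (0 : ℝ) ≤ (if |p.2| ≤ |p.1| then (|(p.1 : ℝ)|)⁻¹ else 0) := by
      split_ifs <;> positivity
    linarith

theorem inner_le (R : ℕ) (a : ℤ) :
    ∑ b ∈ Finset.Icc (-(R : ℤ)) R, (if |b| ≤ |a| then (|(a : ℝ)|)⁻¹ else 0) ≤ 3 := by
  rcases eq_or_ne a 0 with rfl | ha
  · simp
  · rw [← Finset.sum_filter, Finset.sum_const, nsmul_eq_mul]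
    have h1 : ((Finset.Icc (-(R : ℤ)) R).filter fun b => |b| ≤ |a|).card ≤ 2 * a.natAbs + 1 := by
      have h2 : ((Finset.Icc (-(R : ℤ)) R).filter fun b => |b| ≤ |a|) ⊆
          Finset.Icc (-(a.natAbs : ℤ)) a.natAbs := by
        intro b hb
        rw [Finset.mem_filter] at hb
        rw [Finset.mem_Icc]
        have h3 := abs_le.1 hb.2
        rw [Int.natCast_natAbs]
        exact h3
      refine (Finset.card_le_card h2).trans ?_
      rw [Int.card_Icc]
      omega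
    have h3 : (1 : ℝ) ≤ |(a : ℝ)| := by
      have : (1 : ℤ) ≤ |a| := Int.one_le_abs ha
      exact_mod_cast this
    have h4 : ((2 * a.natAbs + 1 : ℕ) : ℝ) = 2 * |(a : ℝ)| + 1 := by
      push_cast
      rw [Nat.cast_natAbs]
      push_cast
      ring
    have h5 : ((((Finset.Icc (-(R : ℤ)) R).filter fun b => |b| ≤ |a|).card : ℕ) : ℝ) ≤
        2 * |(a : ℝ)| + 1 := by
      rw [← h4]
      exact_mod_cast h1
    have h6 : 0 < |(a : ℝ)| := by linarith
    rw [← div_eq_mul_inv, div_le_iff₀ h6]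
    linarith

/-- box of differences -/
def bx (R : ℕ) : Finset P2 := Finset.Icc (-(R : ℤ)) R ×ˢ Finset.Icc (-(R : ℤ)) R

theorem sumW_le (R : ℕ) : ∑ p ∈ bx R, W p ≤ 6 * (2 * R + 1) := by
  unfold bx W
  rw [Finset.sum_add_distrib]
  have hc : ((Finset.Icc (-(R : ℤ)) R).card : ℝ) = 2 * R + 1 := by
    rw [Int.card_Icc]
    have : ((R : ℤ) + 1 - -(R : ℤ)).toNat = 2 * R + 1 := by omega
    rw [this]
    push_cast
    ring
  have h1 : ∑ p ∈ Finset.Icc (-(R : ℤ)) R ×ˢ Finset.Icc (-(R : ℤ)) R,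
      (if |p.2| ≤ |p.1| then (|(p.1 : ℝ)|)⁻¹ else 0) ≤ 3 * (2 * R + 1) := by
    rw [Finset.sum_product]
    refine (Finset.sum_le_sum fun a _ => inner_le R a).trans ?_
    rw [Finset.sum_const, nsmul_eq_mul, hc]
    linarith
  have h2 : ∑ p ∈ Finset.Icc (-(R : ℤ)) R ×ˢ Finset.Icc (-(R : ℤ)) R,
      (if |p.1| ≤ |p.2| then (|(p.2 : ℝ)|)⁻¹ else 0) ≤ 3 * (2 * R + 1) := by
    rw [Finset.sum_product_right]
    refine (Finset.sum_le_sum fun a _ => inner_le R a).trans ?_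
    rw [Finset.sum_const, nsmul_eq_mul, hc]
    linarith
  linarith

theorem abs_log_le {r : ℝ} (hr : 0 < r) : |Real.log r| ≤ r + r⁻¹ := by
  rw [abs_le]
  constructor
  · have h1 := Real.log_le_sub_one_of_pos (inv_pos.2 hr)
    rw [Real.log_inv] at h1
    have : 0 < r⁻¹ := inv_pos.2 hr
    linarith
  · have h1 := Real.log_le_sub_one_of_pos hr
    have : 0 < r⁻¹ := inv_pos.2 hr
    linarith

theorem nrm_pos {p : P2} (hp : p ≠ 0) : 0 < nrm p := by
  unfold nrm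
  apply Real.sqrt_pos.2
  have hne : p.1 ≠ 0 ∨ p.2 ≠ 0 := by
    by_contra hcon
    push Not at hcon
    exact hp (Prod.ext hcon.1 hcon.2)
  rcases hne with h | h
  · have : (p.1 : ℝ) ≠ 0 := by exact_mod_cast h
    positivity
  · have : (p.2 : ℝ) ≠ 0 := by exact_mod_cast h
    positivity

theorem nrm_le {p : P2} {R : ℕ} (hp : p ∈ bx R) : nrm p ≤ 2 * R := by
  unfold bx at hp
  rw [Finset.mem_product, Finset.mem_Icc, Finset.mem_Icc] at hp
  have h1 : |(p.1 : ℝ)| ≤ R := by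
    rw [abs_le]; exact ⟨by exact_mod_cast hp.1.1, by exact_mod_cast hp.1.2⟩
  have h2 : |(p.2 : ℝ)| ≤ R := by
    rw [abs_le]; exact ⟨by exact_mod_cast hp.2.1, by exact_mod_cast hp.2.2⟩
  have h3 : (p.1 : ℝ) ^ 2 ≤ (R : ℝ) ^ 2 := sq_le_sq' (abs_le.1 h1).1 (abs_le.1 h1).2
  have h4 : (p.2 : ℝ) ^ 2 ≤ (R : ℝ) ^ 2 := sq_le_sq' (abs_le.1 h2).1 (abs_le.1 h2).2
  unfold nrm
  apply Real.sqrt_le_iff.2 ⟨by positivity, ?_⟩
  nlinarith [Nat.cast_nonneg (α := ℝ) R]

/-- pointwise kernel bound -/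
theorem kernel_le {C : ℝ} (hC : 0 ≤ C) (hV : ∀ p q : P2, p ≠ 0 → q ≠ 0 →
    |VV P p - VV P q| ≤ C * (1 + |Real.log (nrm p / nrm q)|)) {s : ℕ} (hs : 1 ≤ s) {R : ℕ}
    {p : P2} (hp : p ∈ bx R) :
    |VV P p - VV P ((s : ℤ), 0)| ≤ (if p = 0 then |VV P (1, 0)| + C * (1 + s) else 0) +
      C * (1 + 2 * R / s) + C * s * W p := by
  have hs' : (1 : ℝ) ≤ s := by exact_mod_cast hs
  have hs0 : (0 : ℝ) < s := by linarith
  have hq : (((s : ℤ), 0) : P2) ≠ 0 := by
    intro h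
    have := congrArg Prod.fst h
    simp at this
    omega
  have hnq : nrm ((s : ℤ), 0) = s := by
    unfold nrm
    simp
  have hq1 : ((1, 0) : P2) ≠ 0 := by
    intro h
    have := congrArg Prod.fst h
    simp at this
  have hn1 : nrm ((1, 0) : P2) = 1 := by
    unfold nrm
    simp
  have hW := W_nonneg p
  have hR : (0 : ℝ) ≤ 2 * R / s := by positivity
  by_cases h0 : p = 0
  · rw [if_pos h0, h0, VV_zero, zero_sub, abs_neg]
    have h1 := hV _ _ hq hq1
    rw [hnq, hn1, div_one] at h1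
    have h2 : |Real.log s| ≤ s := by
      rw [abs_of_nonneg (Real.log_nonneg hs')]
      have := Real.log_le_sub_one_of_pos hs0
      linarith
    have h3 : |VV P ((s : ℤ), 0)| ≤ |VV P (1, 0)| + |VV P ((s : ℤ), 0) - VV P (1, 0)| := by
      have := abs_add_le (VV P (1, 0)) (VV P ((s : ℤ), 0) - VV P (1, 0))
      rwa [add_sub_cancel] at this
    have h4 : C * (1 + |Real.log s|) ≤ C * (1 + s) := mul_le_mul_of_nonneg_left (by linarith) hC
    have h5 : 0 ≤ C * (1 + 2 * R / s) := by positivity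
    have h6 : 0 ≤ C * s * W 0 := by
      have := W_nonneg 0
      positivity
    linarith
  · rw [if_neg h0, zero_add]
    have h1 := hV _ _ h0 hq
    rw [hnq] at h1
    have hnp := nrm_pos h0
    have h2 := abs_log_le (div_pos hnp hs0)
    have h3 : nrm p / s ≤ 2 * R / s := div_le_div_of_nonneg_right (nrm_le hp) hs0.le
    have h4 : (nrm p / s)⁻¹ ≤ s * W p := by
      rw [inv_div, div_eq_mul_inv]
      exact mul_le_mul_of_nonneg_left (inv_nrm_le p h0) hs0.le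
    have h5 : C * (1 + |Real.log (nrm p / s)|) ≤ C * (1 + 2 * R / s + s * W p) :=
      mul_le_mul_of_nonneg_left (by linarith) hC
    have h6 : C * (1 + 2 * R / s + s * W p) = C * (1 + 2 * R / s) + C * s * W p := by ring
    linarith

theorem card_ball (b : P2) (n : ℕ) : ((ball b n).card : ℝ) = (2 * n) ^ 2 := by
  unfold ball
  rw [Finset.card_product, Int.card_Icc, Int.card_Icc]
  have h1 : (b.1 + (n : ℤ) - 1 + 1 - (b.1 - n)).toNat = 2 * n := by omega
  have h2 : (b.2 + (n : ℤ) - 1 + 1 - (b.2 - n)).toNat = 2 * n := by omega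
  rw [h1, h2]
  push_cast
  ring

/-- **Second moments in the plane.** -/
theorem plane_sq {c : ℝ} (_hc : 1 ≤ c) {P : Measure Cfg} (hP : IsState c P) (hV : VBound P) :
    ∀ A : ℕ, ∃ C : ℝ, ∀ s : ℕ, 1 ≤ s → ∀ (b : P2) (V : Finset P2) (h : P2 → ℝ),
      V ⊆ ball b (A * s) → (∀ v ∈ V, |h v| ≤ A / (s : ℝ) ^ 2) → ∑ v ∈ V, h v = 0 →
      ∫ ω, Flip228.Lin V h ω ^ 2 ∂P ≤ C := by
  intro A
  obtain ⟨C, hC, hV⟩ := hV
  set c1 : ℝ := |VV P (1, 0)| with hc1
  have hc10 : 0 ≤ c1 := abs_nonneg _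
  refine ⟨2 * A ^ 4 * (c1 + 2 * C + C * (1 + 4 * A) * (4 * A ^ 2) + 6 * C * (4 * A + 1)),
    fun s hs b V h hVb hh h0 => ?_⟩
  have hs' : (1 : ℝ) ≤ s := by exact_mod_cast hs
  have hs0 : (0 : ℝ) < s := by linarith
  set R : ℕ := 2 * (A * s) with hR
  have hsub : ∀ x ∈ V, ∀ y ∈ V, x - y ∈ bx R := by
    intro x hx y hy
    have h1 := hVb hx
    have h2 := hVb hy
    simp only [ball, Finset.mem_product, Finset.mem_Icc] at h1 h2
    simp only [bx, Finset.mem_product, Finset.mem_Icc, Prod.fst_sub, Prod.snd_sub, hR]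
    push_cast at h1 h2 ⊢
    omega
  have hcard : (V.card : ℝ) ≤ (2 * (A * s)) ^ 2 := by
    have h1 := Finset.card_le_card hVb
    have h2 := card_ball b (A * s)
    have h3 : (V.card : ℝ) ≤ (ball b (A * s)).card := by exact_mod_cast h1
    rw [h2] at h3
    push_cast at h3
    exact h3
  have hcard0 : (0 : ℝ) ≤ V.card := Nat.cast_nonneg _
  -- row sums
  have hrow : ∀ x ∈ V, ∑ y ∈ V, |VV P (x - y) - VV P ((s : ℤ), 0)| ≤
      (c1 + C * (1 + s)) + V.card * (C * (1 + 4 * A)) + C * s * (6 * (2 * R + 1)) := by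
    intro x hx
    have h1 : ∀ y ∈ V, |VV P (x - y) - VV P ((s : ℤ), 0)| ≤
        ((if x - y = 0 then c1 + C * (1 + s) else 0) + C * (1 + 4 * A)) + C * s * W (x - y) := by
      intro y hy
      have := kernel_le (P := P) hC hV hs (hsub x hx y hy)
      have e : (2 : ℝ) * R / s = 4 * A := by
        rw [hR]; push_cast; field_simp; ring
      rw [e] at this
      linarith
    refine (Finset.sum_le_sum h1).trans ?_
    rw [Finset.sum_add_distrib, Finset.sum_add_distrib, Finset.sum_const, nsmul_eq_mul,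
      ← Finset.mul_sum]
    have h2 : ∑ y ∈ V, (if x - y = 0 then c1 + C * (1 + s) else 0) ≤ c1 + C * (1 + s) := by
      have e : ∀ y ∈ V, (if x - y = 0 then c1 + C * (1 + s) else 0) =
          (if x = y then c1 + C * (1 + s) else 0) := by
        intro y _
        simp only [sub_eq_zero]
      rw [Finset.sum_congr rfl e, Finset.sum_ite_eq V x]
      rw [if_pos hx]
    have h3 : ∑ y ∈ V, W (x - y) ≤ 6 * (2 * R + 1) := by
      refine le_trans ?_ (sumW_le R)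
      rw [← Finset.sum_image (s := V) (f := W) (g := fun y => x - y)
        (fun a _ b _ hab => sub_right_injective hab)]
      refine Finset.sum_le_sum_of_subset_of_nonneg ?_ fun p _ _ => W_nonneg p
      intro p hp
      rw [Finset.mem_image] at hp
      obtain ⟨y, hy, rfl⟩ := hp
      exact hsub x hx y hy
    have h4 : C * s * ∑ y ∈ V, W (x - y) ≤ C * s * (6 * (2 * R + 1)) :=
      mul_le_mul_of_nonneg_left h3 (by positivity)
    linarith
  rw [int_lin_sq' hP V h h0 (VV P ((s : ℤ), 0))]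
  have hterm : ∀ x ∈ V, ∑ y ∈ V, (-(1 / 2) * h x * h y) * (VV P (x - y) - VV P ((s : ℤ), 0)) ≤
      (1 / 2) * (A / (s : ℝ) ^ 2) ^ 2 *
        ((c1 + C * (1 + s)) + V.card * (C * (1 + 4 * A)) + C * s * (6 * (2 * R + 1))) := by
    intro x hx
    have h1 : ∀ y ∈ V, (-(1 / 2) * h x * h y) * (VV P (x - y) - VV P ((s : ℤ), 0)) ≤
        (1 / 2) * (A / (s : ℝ) ^ 2) ^ 2 * |VV P (x - y) - VV P ((s : ℤ), 0)| := by
      intro y hy
      refine (le_abs_self _).trans ?_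
      rw [abs_mul]
      refine mul_le_mul_of_nonneg_right ?_ (abs_nonneg _)
      rw [abs_mul, abs_mul, abs_neg, abs_of_nonneg (by norm_num : (0 : ℝ) ≤ 1 / 2), mul_assoc, sq]
      refine mul_le_mul_of_nonneg_left ?_ (by norm_num)
      exact mul_le_mul (hh x hx) (hh y hy) (abs_nonneg _) (by positivity)
    refine (Finset.sum_le_sum h1).trans ?_
    rw [← Finset.mul_sum]
    exact mul_le_mul_of_nonneg_left (hrow x hx) (by positivity)
  refine (Finset.sum_le_sum hterm).trans ?_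
  rw [Finset.sum_const, nsmul_eq_mul]
  -- final arithmetic
  have hB : (c1 + C * (1 + s)) + V.card * (C * (1 + 4 * A)) + C * s * (6 * (2 * R + 1)) ≤
      (c1 + 2 * C + C * (1 + 4 * A) * (4 * A ^ 2) + 6 * C * (4 * A + 1)) * (s : ℝ) ^ 2 := by
    have hss : (s : ℝ) ≤ (s : ℝ) ^ 2 := by nlinarith
    have h1s : (1 : ℝ) ≤ (s : ℝ) ^ 2 := by nlinarith
    have e1 : c1 ≤ c1 * (s : ℝ) ^ 2 := le_mul_of_one_le_right hc10 h1s
    have e2 : C * (1 + s) ≤ 2 * C * (s : ℝ) ^ 2 := by nlinarith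
    have e3 : V.card * (C * (1 + 4 * A)) ≤ (C * (1 + 4 * A) * (4 * A ^ 2)) * (s : ℝ) ^ 2 := by
      calc V.card * (C * (1 + 4 * A)) ≤ (2 * (A * s)) ^ 2 * (C * (1 + 4 * A)) :=
            mul_le_mul_of_nonneg_right hcard (by positivity)
        _ = _ := by ring
    have e4 : C * s * (6 * (2 * R + 1)) ≤ (6 * C * (4 * A + 1)) * (s : ℝ) ^ 2 := by
      have e5 : (2 : ℝ) * R + 1 ≤ (4 * A + 1) * s := by
        rw [hR]; push_cast
        nlinarith [Nat.cast_nonneg (α := ℝ) A]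
      calc C * s * (6 * (2 * R + 1)) ≤ C * s * (6 * ((4 * A + 1) * s)) :=
            mul_le_mul_of_nonneg_left (by linarith) (by positivity)
        _ = _ := by ring
    nlinarith
  calc (V.card : ℝ) * ((1 / 2) * (A / (s : ℝ) ^ 2) ^ 2 *
        ((c1 + C * (1 + s)) + V.card * (C * (1 + 4 * A)) + C * s * (6 * (2 * R + 1))))
      ≤ (2 * (A * s)) ^ 2 * ((1 / 2) * (A / (s : ℝ) ^ 2) ^ 2 *
        ((c1 + 2 * C + C * (1 + 4 * A) * (4 * A ^ 2) + 6 * C * (4 * A + 1)) * (s : ℝ) ^ 2)) := by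
        refine mul_le_mul hcard (mul_le_mul_of_nonneg_left hB (by positivity)) (by positivity)
          (by positivity)
    _ = 2 * A ^ 4 * (c1 + 2 * C + C * (1 + 4 * A) * (4 * A ^ 2) + 6 * C * (4 * A + 1)) := by
        field_simp

end Crest.Agent.R161.HaP228
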