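import Crest.Agent.R161.Ha2_702
import Crest.Agent.R161.HaP_228

/-!
# Block H-a (helper702, R161): `HA c` from `IsState c P`, `VBound P` and `LemU c`.
-/

set_option autoImplicit false

noncomputable section

namespace Crest.Agent.R161.Ha702

open MeasureTheory Crest.Agent.R161.Defs372 Crest.Agent.R161.Ifc372

/-- **(H-a)** -/
theorem ha {c : ℝ} (hc : 1 ≤ c) {P : Measure Cfg} (hP : IsState c P) (hV : VBound P)
    (hU : LemU c) : BdI228.HA c :=
  ha_of_planeSq hc hP hU (HaP228.plane_sq hc hP hV)

end Crest.Agent.R161.Ha702
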