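import Crest.Agent.R161.Pot_373
import Crest.Agent.R161.Lines_373

/-!
R161 (helper373): half plane smallness (`PProb.small` of helper369).

* `Near δ b g` : the lattice functions `b n` have bounded macroscopic support and `b n / δ² → g`
  uniformly; closed under sums, differences, multiples, reflections.
* `law_near` : characteristic function of an exactly neutral sequence
* `dl δ ψ : P2 →₀ ℝ` : minus the discrete five point Laplacian; `mass_dl`, `near_dl`, `XL_dl`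
* `obs a D κ = e^{i XL a} (e^{i XL D} - κ)`
* `small_half` : `E conj (obs ∘ Θ) obs → 0` when `κ = exp (-kap (⟨f, ψ⟩ + ⟨ψ, -Δψ⟩ / 2))`
-/

set_option autoImplicit false

noncomputable section

namespace Crest.Agent.R161.Half373

open Finset MeasureTheory Filter Topology
open Crest.Agent.R161.Geo729 Crest.Agent.R161.Defs372 Crest.Agent.R161.Ifc372
open Crest.Agent.R161.Sym597 Crest.Agent.R161.RPconc597
open Crest.Agent.R161.Aut373 Crest.Agent.R161.RPlim373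
open Crest.Agent.R161.Sm373 Crest.Agent.R161.Riem373 Crest.Agent.R161.Law373
open Crest.Agent.R161.Lines373 Crest.Agent.R161.Pot373
open Crest.Agent.R161.Lap695 Crest.Agent.R161.Asm695
open scoped Laplacian ComplexConjugate

/-! ### reflected weights -/

/-- reflection of the lattice in the line `x = ℓ` -/
def reflE (ℓ : ℤ) : P2 ≃ P2 where
  toFun v := (2 * ℓ - v.1, v.2)
  invFun v := (2 * ℓ - v.1, v.2)
  left_inv v := by ext <;> simp
  right_inv v := by ext <;> simp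

/-- reflected weights -/
def refl (ℓ : ℤ) (a : P2 →₀ ℝ) : P2 →₀ ℝ := Finsupp.equivMapDomain (reflE ℓ) a

theorem refl_apply (ℓ : ℤ) (a : P2 →₀ ℝ) (v : P2) : refl ℓ a v = a (2 * ℓ - v.1, v.2) := rfl

theorem XL_Θ (ℓ : ℤ) (a : P2 →₀ ℝ) (ω : Cfg) : XL a (Θ ℓ ω) = XL (refl ℓ a) ω := by
  unfold XL refl
  rw [Finsupp.sum_equivMapDomain]
  rfl

theorem mass_refl (ℓ : ℤ) (a : P2 →₀ ℝ) : mass (refl ℓ a) = mass a := by
  unfold mass refl
  rw [Finsupp.sum_equivMapDomain]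

/-! ### uniformly close sequences -/

/-- the lattice functions `b n` have bounded macroscopic support and `b n / δ² → g` uniformly -/
def Near (δ : ℕ → ℝ) (b : ℕ → P2 →₀ ℝ) (g : ℂ → ℝ) : Prop :=
  (∃ R : ℝ, ∀ n v, b n v ≠ 0 → ‖ptC (δ n) v‖ ≤ R) ∧
    ∃ ε : ℕ → ℝ, Tendsto ε atTop (𝓝 0) ∧
      ∀ n v, |b n v - δ n ^ 2 * g (ptC (δ n) v)| ≤ ε n * δ n ^ 2

theorem Near.add {δ : ℕ → ℝ} {b b' : ℕ → P2 →₀ ℝ} {g g' : ℂ → ℝ} (h : Near δ b g)
    (h' : Near δ b' g') : Near δ (fun n => b n + b' n) (fun z => g z + g' z) := by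
  obtain ⟨⟨R, hR⟩, ε, hε, hb⟩ := h
  obtain ⟨⟨R', hR'⟩, ε', hε', hb'⟩ := h'
  refine ⟨⟨max R R', fun n v hv => ?_⟩, fun n => ε n + ε' n, by simpa using hε.add hε',
    fun n v => ?_⟩
  · by_cases h1 : b n v = 0
    · refine (hR' n v fun h2 => hv ?_).trans (le_max_right _ _)
      rw [Finsupp.add_apply, h1, h2, add_zero]
    · exact (hR n v h1).trans (le_max_left _ _)
  · rw [Finsupp.add_apply]
    have e : b n v + b' n v - δ n ^ 2 * (g (ptC (δ n) v) + g' (ptC (δ n) v)) =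
        (b n v - δ n ^ 2 * g (ptC (δ n) v)) + (b' n v - δ n ^ 2 * g' (ptC (δ n) v)) := by ring
    rw [e, add_mul]
    exact (abs_add_le _ _).trans (add_le_add (hb n v) (hb' n v))

theorem Near.neg {δ : ℕ → ℝ} {b : ℕ → P2 →₀ ℝ} {g : ℂ → ℝ} (h : Near δ b g) :
    Near δ (fun n => -b n) (fun z => -g z) := by
  obtain ⟨⟨R, hR⟩, ε, hε, hb⟩ := h
  refine ⟨⟨R, fun n v hv => hR n v fun h1 => hv ?_⟩, ε, hε, fun n v => ?_⟩
  · rw [Finsupp.neg_apply, h1, neg_zero]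
  · rw [Finsupp.neg_apply]
    have e : -b n v - δ n ^ 2 * -g (ptC (δ n) v) = -(b n v - δ n ^ 2 * g (ptC (δ n) v)) := by ring
    rw [e, abs_neg]
    exact hb n v

theorem Near.smul {δ : ℕ → ℝ} {b : ℕ → P2 →₀ ℝ} {g : ℂ → ℝ} (h : Near δ b g) (s : ℝ) :
    Near δ (fun n => s • b n) (fun z => s * g z) := by
  obtain ⟨⟨R, hR⟩, ε, hε, hb⟩ := h
  refine ⟨⟨R, fun n v hv => hR n v fun h1 => hv ?_⟩, fun n => |s| * ε n,
    by simpa using hε.const_mul |s|, fun n v => ?_⟩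
  · rw [Finsupp.smul_apply, h1, smul_zero]
  · rw [Finsupp.smul_apply, smul_eq_mul]
    have e : s * b n v - δ n ^ 2 * (s * g (ptC (δ n) v)) =
      s * (b n v - δ n ^ 2 * g (ptC (δ n) v)) := by ring
    rw [e, abs_mul, mul_assoc]
    exact mul_le_mul_of_nonneg_left (hb n v) (abs_nonneg _)

theorem Near.zero (δ : ℕ → ℝ) : Near δ (fun _ => 0) (fun _ => 0) :=
  ⟨⟨0, fun n v hv => absurd rfl hv⟩, fun _ => 0, tendsto_const_nhds, fun n v => by simp⟩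

theorem ptC_refl (δ : ℝ) (ℓ : ℤ) (v : P2) :
    ptC δ ((2 * ℓ - v.1, v.2) : P2) = 2 * ((δ * ℓ : ℝ) : ℂ) - conj (ptC δ v) := by
  apply Complex.ext
  · simp [ptC]; ring
  · simp [ptC]

theorem norm_refl_sub (δ x₀ : ℝ) (ℓ : ℤ) (v : P2) :
    ‖ptC δ ((2 * ℓ - v.1, v.2) : P2) - rfl' x₀ (ptC δ v)‖ = 2 * |δ * ℓ - x₀| := by
  rw [ptC_refl, rfl']
  have : (2 * ((δ * ℓ : ℝ) : ℂ) - conj (ptC δ v) - (2 * (x₀ : ℂ) - conj (ptC δ v))) =
      ((2 * (δ * ℓ - x₀) : ℝ) : ℂ) := by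
    push_cast
    ring
  rw [this, Complex.norm_real, Real.norm_eq_abs, abs_mul]
  norm_num

theorem Near.refl {δ : ℕ → ℝ} {b : ℕ → P2 →₀ ℝ} {g : ℂ → ℝ} (h : Near δ b g) (hg : Test g)
    {ℓ : ℕ → ℤ} {x₀ : ℝ} (hℓ : Tendsto (fun n => δ n * (ℓ n : ℝ)) atTop (𝓝 x₀)) :
    Near δ (fun n => refl (ℓ n) (b n)) (fun z => g (rfl' x₀ z)) := by
  obtain ⟨⟨R, hR⟩, ε, hε, hb⟩ := h
  obtain ⟨L, hL0, hL⟩ := exists_lip hg
  obtain ⟨B, hB⟩ := (hℓ.abs).bddAbove_range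
  have hB' : ∀ n, |δ n * (ℓ n : ℝ)| ≤ B := fun n => hB ⟨n, rfl⟩
  refine ⟨⟨2 * B + R, fun n v hv => ?_⟩, fun n => ε n + L * (2 * |δ n * ℓ n - x₀|), ?_,
    fun n v => ?_⟩
  · rw [refl_apply] at hv
    have h1 := hR n _ hv
    have h2 : ptC (δ n) v = 2 * ((δ n * ℓ n : ℝ) : ℂ) - conj (ptC (δ n) (2 * ℓ n - v.1, v.2)) := by
      rw [ptC_refl, map_sub, Complex.conj_conj, map_mul, Complex.conj_ofReal, Complex.conj_ofNat]
      ring
    rw [h2]
    refine (norm_sub_le _ _).trans ?_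
    rw [RCLike.norm_conj, norm_mul, Complex.norm_real, Real.norm_eq_abs]
    have h3 := hB' n
    simp only [Complex.norm_ofNat]
    linarith
  · have h1 : Tendsto (fun n => |δ n * ℓ n - x₀|) atTop (𝓝 |x₀ - x₀|) := (hℓ.sub_const x₀).abs
    rw [sub_self, abs_zero] at h1
    simpa using hε.add ((h1.const_mul 2).const_mul L)
  · rw [refl_apply]
    have h1 := hb n (2 * ℓ n - v.1, v.2)
    have h2 := hL (ptC (δ n) (2 * ℓ n - v.1, v.2)) (rfl' x₀ (ptC (δ n) v))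
    rw [norm_refl_sub] at h2
    have e : b n (2 * ℓ n - v.1, v.2) - δ n ^ 2 * g (rfl' x₀ (ptC (δ n) v)) =
        (b n (2 * ℓ n - v.1, v.2) - δ n ^ 2 * g (ptC (δ n) (2 * ℓ n - v.1, v.2))) +
          δ n ^ 2 * (g (ptC (δ n) (2 * ℓ n - v.1, v.2)) - g (rfl' x₀ (ptC (δ n) v))) := by ring
    rw [e]
    refine (abs_add_le _ _).trans ?_
    rw [abs_mul, abs_of_nonneg (sq_nonneg (δ n)), add_mul]
    refine add_le_add h1 ?_
    rw [mul_comm]
    exact mul_le_mul_of_nonneg_right h2 (sq_nonneg _)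

variable {c : ℝ} {P : Measure Cfg}

theorem law_near (hP : IsState c P) (hG : PlaneGauss c P) (hV : VBound P) {g : ℂ → ℝ}
    (hg : Test g) (h0 : ∫ z, g z = 0) {δ : ℕ → ℝ} (hδ : ∀ n, 0 < δ n)
    (hδ0 : Tendsto δ atTop (𝓝 0)) {b : ℕ → P2 →₀ ℝ} (hb0 : ∀ n, mass (b n) = 0)
    (hb : Near δ b g) :
    Tendsto (fun n => ∫ ω, Complex.exp (Complex.I * (XL (b n) ω : ℝ)) ∂P) atTop
      (𝓝 ((Real.exp (-(kap c * plog g g) / 2) : ℝ) : ℂ)) := by
  obtain ⟨⟨R, hR⟩, ε, hε, hb⟩ := hb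
  exact law_seq hP hG hV hg h0 hδ hδ0 b hb0 hR hε hb

/-! ### discrete Laplacian -/

theorem ptC_eq_pos (δ : ℝ) (v : P2) : ptC δ v = Crest.ProbabilityR.AshkinTeller.pos δ v := by
  apply Complex.ext
  · simp [ptC, Crest.ProbabilityR.AshkinTeller.pos]
  · simp [ptC, Crest.ProbabilityR.AshkinTeller.pos]

theorem dl_finite {δ : ℝ} (hδ : 0 < δ) {ψ : ℂ → ℝ} (hc : HasCompactSupport ψ) :
    {v : P2 | lap5 δ ψ (ptC δ v) ≠ 0}.Finite := by
  obtain ⟨r, hr⟩ := hc.isCompact.isBounded.subset_closedBall 0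
  refine (finite_pos (δ := δ) (R := r + 1 + δ) hδ).subset fun v hv => ?_
  by_contra hcon
  apply hv
  refine lap5_eq_zero (R := r + 1) hδ.le (fun z hz => ?_) ?_
  · by_contra h
    have := hr (subset_tsupport ψ h)
    rw [Metric.mem_closedBall, dist_zero_right] at this
    linarith
  · rw [ptC_eq_pos]
    exact (not_le.1 hcon).le

open Classical in
/-- minus the discrete five point Laplacian of `ψ` -/
def dl (δ : ℝ) (ψ : ℂ → ℝ) : P2 →₀ ℝ :=
  if h : {v : P2 | lap5 δ ψ (ptC δ v) ≠ 0}.Finite then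
    Finsupp.onFinset h.toFinset (fun v => -lap5 δ ψ (ptC δ v)) (fun v hv => by
      rw [Set.Finite.mem_toFinset]
      exact fun h0 => hv (by rw [h0, neg_zero]))
  else 0

theorem dl_apply {δ : ℝ} (hδ : 0 < δ) {ψ : ℂ → ℝ} (hc : HasCompactSupport ψ) (v : P2) :
    dl δ ψ v = -lap5 δ ψ (ptC δ v) := by
  rw [dl, dif_pos (dl_finite hδ hc)]
  rfl

theorem dl_norm {δ : ℝ} (hδ : 0 < δ) {ψ : ℂ → ℝ} (hc : HasCompactSupport ψ) {R : ℝ}
    (hR : ∀ z, R ≤ ‖z‖ → ψ z = 0) {v : P2} (hv : dl δ ψ v ≠ 0) : ‖ptC δ v‖ < R + δ := by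
  by_contra hcon
  apply hv
  rw [dl_apply hδ hc, lap5_eq_zero hδ.le hR (not_lt.1 hcon), neg_zero]

theorem exists_rad {ψ : ℂ → ℝ} (hc : HasCompactSupport ψ) :
    ∃ R : ℝ, ∀ z : ℂ, R ≤ ‖z‖ → ψ z = 0 := by
  obtain ⟨r, hr⟩ := hc.isCompact.isBounded.subset_closedBall 0
  refine ⟨r + 1, fun z hz => ?_⟩
  by_contra h
  have := hr (subset_tsupport ψ h)
  rw [Metric.mem_closedBall, dist_zero_right] at this
  linarith

theorem mass_dl {δ : ℝ} (hδ : 0 < δ) {ψ : ℂ → ℝ} (hc : HasCompactSupport ψ) :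
    mass (dl δ ψ) = 0 := by
  obtain ⟨R, hR⟩ := exists_rad hc
  rw [mass_eq (s := (dl_finite hδ hc).toFinset) fun v hv => by
    rw [dl_apply hδ hc] at hv
    rw [Set.Finite.mem_toFinset]
    exact fun h0 => hv (by rw [h0, neg_zero])]
  simp only [dl_apply hδ hc]
  rw [Finset.sum_neg_distrib, neg_eq_zero]
  simp only [ptC_eq_pos]
  exact sum_lap5 hδ hR fun v hv => by
    rw [Set.Finite.mem_toFinset]
    simpa [ptC_eq_pos] using hv

theorem near_dl {δ : ℕ → ℝ} (hδ : ∀ n, 0 < δ n) (hδ0 : Tendsto δ atTop (𝓝 0)) {ψ : ℂ → ℝ}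
    (hψ : Test ψ) : Near δ (fun n => dl (δ n) ψ) (fun z => -(Δ ψ) z) := by
  obtain ⟨C, hC0, hC⟩ := lap5_sub_le hψ.smooth hψ.supp
  obtain ⟨R, hR⟩ := exists_rad hψ.supp
  obtain ⟨B, hB⟩ := (hδ0.abs).bddAbove_range
  have hB' : ∀ n, |δ n| ≤ B := fun n => hB ⟨n, rfl⟩
  refine ⟨⟨R + B, fun n v hv => ?_⟩, fun n => C * δ n ^ 2, by simpa using (hδ0.pow 2).const_mul C,
    fun n v => ?_⟩
  · have h1 := dl_norm (hδ n) hψ.supp hR hv
    have h2 := (le_abs_self _).trans (hB' n)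
    linarith
  · rw [dl_apply (hδ n) hψ.supp]
    have h1 := hC (δ n) (ptC (δ n) v) (hδ n).le
    have e : -lap5 (δ n) ψ (ptC (δ n) v) - δ n ^ 2 * -(Δ ψ) (ptC (δ n) v) =
        -(lap5 (δ n) ψ (ptC (δ n) v) - δ n ^ 2 * (Δ ψ) (ptC (δ n) v)) := by ring
    rw [e, abs_neg]
    calc _ ≤ C * δ n ^ 4 := h1
      _ = C * δ n ^ 2 * δ n ^ 2 := by ring

theorem near_samp {δ : ℕ → ℝ} (hδ : ∀ n, 0 < δ n) {g : ℂ → ℝ}
    (hg : Test g) : Near δ (fun n => samp (δ n) g) g := by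
  obtain ⟨r, hr0, hr⟩ := exists_radius hg
  refine ⟨⟨r, fun n v hv => hr _ fun h => hv ?_⟩, fun _ => 0, tendsto_const_nhds, fun n v => ?_⟩
  · rw [samp_apply hg.supp (hδ n), h, mul_zero]
  · rw [samp_apply hg.supp (hδ n), sub_self, abs_zero, zero_mul]

/-- multiplication of the weights by a sampled function -/
def cutW (χ : ℂ → ℝ) (δ : ℝ) (a : P2 →₀ ℝ) : P2 →₀ ℝ :=
  Finsupp.onFinset a.support (fun v => χ (ptC δ v) * a v) (fun v hv => by
    rw [Finsupp.mem_support_iff]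
    exact fun h => hv (by rw [h, mul_zero]))

theorem cutW_apply (χ : ℂ → ℝ) (δ : ℝ) (a : P2 →₀ ℝ) (v : P2) :
    cutW χ δ a v = χ (ptC δ v) * a v := rfl

theorem Near.cut {δ : ℕ → ℝ} {b : ℕ → P2 →₀ ℝ} {g χ : ℂ → ℝ} (h : Near δ b g) {M : ℝ}
    (hχ : ∀ z, |χ z| ≤ M) : Near δ (fun n => cutW χ (δ n) (b n)) (fun z => χ z * g z) := by
  obtain ⟨⟨R, hR⟩, ε, hε, hb⟩ := h
  refine ⟨⟨R, fun n v hv => hR n v fun h1 => hv ?_⟩, fun n => M * ε n,
    by simpa using hε.const_mul M, fun n v => ?_⟩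
  · rw [cutW_apply, h1, mul_zero]
  · rw [cutW_apply]
    have e : χ (ptC (δ n) v) * b n v - δ n ^ 2 * (χ (ptC (δ n) v) * g (ptC (δ n) v)) =
      χ (ptC (δ n) v) * (b n v - δ n ^ 2 * g (ptC (δ n) v)) := by ring
    rw [e, abs_mul, mul_assoc]
    exact mul_le_mul (hχ _) (hb n v) (abs_nonneg _) ((abs_nonneg _).trans (hχ 0))

theorem XL_dl {δ : ℝ} (hδ : 0 < δ) {ψ : ℂ → ℝ} (hc : HasCompactSupport ψ) {T : Finset P2}
    (hT : ∀ v, lap5 δ ψ (Crest.ProbabilityR.AshkinTeller.pos δ v) ≠ 0 → v ∈ T) (ω : Cfg) :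
    XL (dl δ ψ) ω = Lin T (fun v => -lap5 δ ψ (Crest.ProbabilityR.AshkinTeller.pos δ v)) ω := by
  rw [XL_eq (s := T) fun v hv => by
    rw [dl_apply hδ hc, ptC_eq_pos] at hv
    exact hT v fun h0 => hv (by rw [h0, neg_zero])]
  unfold Lin
  refine Finset.sum_congr rfl fun v _ => ?_
  rw [dl_apply hδ hc, ptC_eq_pos]
  ring

/-- law of the discrete Laplacian weights -/
theorem law_dl (hP : IsState c P) (hG : PlaneGauss c P) (hV : VBound P) {ψ : ℂ → ℝ}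
    (hψ : Test ψ) {δ : ℕ → ℝ} (hδ : ∀ n, 0 < δ n) (hδ0 : Tendsto δ atTop (𝓝 0)) :
    Tendsto (fun n => ∫ ω, Complex.exp (Complex.I * (XL (dl (δ n) ψ) ω : ℝ)) ∂P) atTop
      (𝓝 ((Real.exp (-(kap c * ∫ z, ψ z * -(Δ ψ) z) / 2) : ℝ) : ℂ)) := by
  have h := law_near hP hG hV (test_lap hψ) (integral_lap hψ) hδ hδ0
    (fun n => mass_dl (hδ n) hψ.supp) (near_dl hδ hδ0 hψ)
  rwa [plog_lap hψ] at h

/-- scaling of the discrete Laplacian weights -/
theorem dl_smul {δ : ℝ} (hδ : 0 < δ) {ψ : ℂ → ℝ} (hc : HasCompactSupport ψ) (s : ℝ) :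
    dl δ (fun z => s * ψ z) = s • dl δ ψ := by
  have hc2 : HasCompactSupport (fun z => s * ψ z) := hc.mul_left
  ext v
  rw [Finsupp.smul_apply, dl_apply hδ hc, dl_apply hδ hc2, smul_eq_mul]
  unfold lap5
  ring

/-- additivity of the discrete Laplacian weights -/
theorem dl_add {δ : ℝ} (hδ : 0 < δ) {ψ φ : ℂ → ℝ} (hc : HasCompactSupport ψ)
    (hc' : HasCompactSupport φ) : dl δ (fun z => ψ z + φ z) = dl δ ψ + dl δ φ := by
  have hc2 : HasCompactSupport (fun z => ψ z + φ z) := hc.add hc'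
  ext v
  rw [Finsupp.add_apply, dl_apply hδ hc, dl_apply hδ hc', dl_apply hδ hc2]
  unfold lap5
  ring

/-! ### the observable -/

/-- the observable `e^{i XL a} (e^{i XL D} - κ)` -/
def obs (a D : P2 →₀ ℝ) (κ : ℝ) (ω : Cfg) : ℂ :=
  Complex.exp (Complex.I * (XL a ω : ℝ)) * (Complex.exp (Complex.I * (XL D ω : ℝ)) - κ)

theorem norm_exp_I (x : ℝ) : ‖Complex.exp (Complex.I * (x : ℝ))‖ = 1 := by
  rw [mul_comm]
  exact Complex.norm_exp_ofReal_mul_I x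

theorem norm_obs_le (a D : P2 →₀ ℝ) {κ : ℝ} (hκ : 0 ≤ κ) (ω : Cfg) :
    ‖obs a D κ ω‖ ≤ 1 + κ := by
  unfold obs
  rw [norm_mul, norm_exp_I, one_mul]
  refine (norm_sub_le _ _).trans ?_
  rw [norm_exp_I, Complex.norm_real, Real.norm_eq_abs, abs_of_nonneg hκ]

theorem loc_obs (a D : P2 →₀ ℝ) (κ : ℝ) :
    Loc ((a.support ∪ D.support : Finset P2) : Set P2) (obs a D κ) := by
  intro ω ω' h
  unfold obs
  rw [loc_XL a ω ω' fun v hv => h v (by
    rw [Finset.coe_union]; exact Or.inl hv),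
    loc_XL D ω ω' fun v hv => h v (by rw [Finset.coe_union]; exact Or.inr hv)]

theorem chg_obs (a : P2 →₀ ℝ) {D : P2 →₀ ℝ} (hD : mass D = 0) (κ : ℝ) :
    Chg (mass a) (obs a D κ) := by
  intro ω hω t ht
  unfold obs
  rw [XL_addH a, XL_addH D, hD, zero_mul, add_zero]
  have : Complex.exp (Complex.I * ((XL a ω + mass a * t : ℝ) : ℂ)) =
      Complex.exp (Complex.I * ((mass a * t : ℝ) : ℂ)) * Complex.exp (Complex.I * (XL a ω : ℝ)) := by
    rw [← Complex.exp_add]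
    congr 1
    push_cast
    ring
  rw [this]
  ring

theorem conj_exp_I (x : ℝ) :
    conj (Complex.exp (Complex.I * (x : ℝ))) = Complex.exp (Complex.I * ((-x : ℝ) : ℂ)) := by
  rw [← Complex.exp_conj]
  congr 1
  rw [map_mul, Complex.conj_I, Complex.conj_ofReal]
  push_cast
  ring

/-- the constant attached to `(f, ψ)` -/
def kf (c : ℝ) (f ψ : ℂ → ℝ) : ℝ :=
  Real.exp (-(kap c * ((∫ z, f z * ψ z) + (∫ z, ψ z * -(Δ ψ) z) / 2)))

theorem kf_nonneg (c : ℝ) (f ψ : ℂ → ℝ) : 0 ≤ kf c f ψ := (Real.exp_pos _).le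

/-- expansion of the correlation with the reflected observable -/
theorem obs_refl (a D : P2 →₀ ℝ) (κ : ℝ) (ℓ : ℤ) (ω : Cfg) :
    conj (obs a D κ (Θ ℓ ω)) * obs a D κ ω =
      Complex.exp (Complex.I * (XL (a + -refl ℓ a + (D + -refl ℓ D)) ω : ℝ)) -
        κ * Complex.exp (Complex.I * (XL (a + -refl ℓ a + -refl ℓ D) ω : ℝ)) -
        κ * Complex.exp (Complex.I * (XL (a + -refl ℓ a + D) ω : ℝ)) +
        κ ^ 2 * Complex.exp (Complex.I * (XL (a + -refl ℓ a) ω : ℝ)) := by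
  unfold obs
  rw [map_mul, map_sub, Complex.conj_ofReal, conj_exp_I, conj_exp_I, XL_Θ, XL_Θ]
  simp only [XL_add, XL_neg, Complex.ofReal_add, Complex.ofReal_neg, mul_add, mul_neg,
    Complex.exp_add]
  ring

theorem int4 {F1 F2 F3 F4 : Cfg → ℂ} (h1 : Integrable F1 P) (h2 : Integrable F2 P)
    (h3 : Integrable F3 P) (h4 : Integrable F4 P) (x y z : ℂ) :
    ∫ ω, (F1 ω - x * F2 ω - y * F3 ω + z * F4 ω) ∂P =
      (∫ ω, F1 ω ∂P) - x * (∫ ω, F2 ω ∂P) - y * (∫ ω, F3 ω ∂P) + z * ∫ ω, F4 ω ∂P := by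
  have a1 : Integrable (fun ω => F1 ω - x * F2 ω) P := h1.sub (h2.const_mul x)
  have a2 : Integrable (fun ω => F1 ω - x * F2 ω - y * F3 ω) P := a1.sub (h3.const_mul y)
  rw [integral_add a2 (h4.const_mul z), integral_sub a1 (h3.const_mul y),
    integral_sub h1 (h2.const_mul x), integral_const_mul, integral_const_mul, integral_const_mul]

/-- **Half plane smallness.** -/
theorem small_half (hP : IsState c P) (hG : PlaneGauss c P) (hV : VBound P) {f ψ : ℂ → ℝ}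
    (hf : Test f) (hψ : Test ψ) {x₀ : ℝ} (hfx : ∀ z : ℂ, z.re < x₀ → f z = 0)
    (hψx : ∀ z : ℂ, z.re ≤ x₀ → ψ z = 0) {δ : ℕ → ℝ} (hδ : ∀ n, 0 < δ n)
    (hδ0 : Tendsto δ atTop (𝓝 0)) {a D : ℕ → P2 →₀ ℝ} (hD0 : ∀ n, mass (D n) = 0)
    (ha : Near δ a f) (hD : Near δ D (fun z => -(Δ ψ) z)) {ℓ : ℕ → ℤ}
    (hℓ : Tendsto (fun n => δ n * (ℓ n : ℝ)) atTop (𝓝 x₀)) :
    Tendsto (fun n => (∫ ω, conj (obs (a n) (D n) (kf c f ψ) (Θ (ℓ n) ω)) *
      obs (a n) (D n) (kf c f ψ) ω ∂P).re) atTop (𝓝 0) := by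
  have hn := test_nref (x₀ := x₀) hψ
  have ho : Test (odd x₀ f) := test_odd hf
  -- the four sequences
  have hb0 : Near δ (fun n => a n + -refl (ℓ n) (a n)) (odd x₀ f) :=
    ha.add (ha.refl hf hℓ).neg
  have hD' : Near δ (fun n => -refl (ℓ n) (D n)) (fun z => -(Δ (nref x₀ ψ)) z) := by
    have h1 := (hD.refl (test_lap hψ) hℓ).neg
    have e : (fun z => - -(Δ ψ) (rfl' x₀ z)) = fun z => -(Δ (nref x₀ ψ)) z := by
      funext z
      rw [lap_nref hψ]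
    rw [e] at h1
    exact h1
  have hb3 := hb0.add hD
  have hb2 := hb0.add hD'
  have hb1 := hb0.add (hD.add hD')
  have elap : ∀ z, (Δ (fun w => ψ w + nref x₀ ψ w)) z = (Δ ψ) z + (Δ (nref x₀ ψ)) z := by
    intro z
    exact ContDiffAt.laplacian_add ((hψ.smooth.of_le two_le_infty).contDiffAt)
      ((hn.smooth.of_le two_le_infty).contDiffAt)
  have e1 : (fun z => odd x₀ f z + (-(Δ ψ) z + -(Δ (nref x₀ ψ)) z)) =
      fun z => odd x₀ f z + -(Δ (fun w => ψ w + nref x₀ ψ w)) z := by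
    funext z
    rw [elap]
    ring
  rw [e1] at hb1
  -- masses
  have m0 : ∀ n, mass (a n + -refl (ℓ n) (a n)) = 0 := fun n => by
    rw [mass_add, mass_neg, mass_refl]; ring
  have m3 : ∀ n, mass (a n + -refl (ℓ n) (a n) + D n) = 0 := fun n => by
    rw [mass_add, m0, hD0]; ring
  have m2 : ∀ n, mass (a n + -refl (ℓ n) (a n) + -refl (ℓ n) (D n)) = 0 := fun n => by
    rw [mass_add, m0, mass_neg, mass_refl, hD0]; ring
  have m1 : ∀ n, mass (a n + -refl (ℓ n) (a n) + (D n + -refl (ℓ n) (D n))) = 0 := fun n => by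
    rw [mass_add, m0, mass_add, mass_neg, mass_refl, hD0]; ring
  -- integrals of the limits
  have hint : ∀ g : ℂ → ℝ, Test g → Integrable g := fun g hg =>
    hg.smooth.continuous.integrable_of_hasCompactSupport hg.supp
  have i0 : ∫ z, odd x₀ f z = 0 := integral_odd hf
  have iadd : ∀ χ : ℂ → ℝ, Test χ → ∫ z, (odd x₀ f z + -(Δ χ) z) = 0 := by
    intro χ hχ
    rw [integral_add (hint _ ho) (hint _ (test_lap hχ)), i0, integral_lap hχ, add_zero]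
  have t0 := law_near hP hG hV ho i0 hδ hδ0 m0 hb0
  have t3 := law_near hP hG hV (test_add ho (test_lap hψ)) (iadd _ hψ) hδ hδ0 m3 hb3
  have t2 := law_near hP hG hV (test_add ho (test_lap hn)) (iadd _ hn) hδ hδ0 m2 hb2
  have t1 := law_near hP hG hV (test_add ho (test_lap (test_add hψ hn)))
    (iadd _ (test_add hψ hn)) hδ hδ0 m1 hb1
  rw [energy_one hf hψ hfx hψx] at t3
  rw [energy_two hf hψ hfx hψx] at t2
  rw [energy_three hf hψ hfx hψx] at t1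
  set κ : ℝ := kf c f ψ with hκ
  set E0 : ℝ := Real.exp (-(kap c * plog (odd x₀ f) (odd x₀ f)) / 2) with hE0
  have k1 : Real.exp (-(kap c * (plog (odd x₀ f) (odd x₀ f) +
      (2 * (∫ z, f z * ψ z) + ∫ z, ψ z * -(Δ ψ) z))) / 2) = E0 * κ := by
    rw [hE0, hκ, kf, ← Real.exp_add]
    congr 1
    ring
  have k2 : Real.exp (-(kap c * (plog (odd x₀ f) (odd x₀ f) +
      2 * (2 * (∫ z, f z * ψ z) + ∫ z, ψ z * -(Δ ψ) z))) / 2) = E0 * (κ * κ) := by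
    rw [hE0, hκ, kf, ← Real.exp_add, ← Real.exp_add]
    congr 1
    ring
  rw [k1] at t2 t3
  rw [k2] at t1
  have hI : ∀ b : P2 →₀ ℝ, Integrable (fun ω => Complex.exp (Complex.I * (XL b ω : ℝ))) P :=
    fun b => ((finLoc_XL b).comp (fun x => Complex.exp (Complex.I * (x : ℝ)))).integrable hP
  have key : ∀ n, ∫ ω, conj (obs (a n) (D n) κ (Θ (ℓ n) ω)) * obs (a n) (D n) κ ω ∂P =
      (∫ ω, Complex.exp (Complex.I *
        (XL (a n + -refl (ℓ n) (a n) + (D n + -refl (ℓ n) (D n))) ω : ℝ)) ∂P) -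
      κ * (∫ ω, Complex.exp (Complex.I *
        (XL (a n + -refl (ℓ n) (a n) + -refl (ℓ n) (D n)) ω : ℝ)) ∂P) -
      κ * (∫ ω, Complex.exp (Complex.I *
        (XL (a n + -refl (ℓ n) (a n) + D n) ω : ℝ)) ∂P) +
      κ ^ 2 * (∫ ω, Complex.exp (Complex.I * (XL (a n + -refl (ℓ n) (a n)) ω : ℝ)) ∂P) := by
    intro n
    simp only [obs_refl]
    exact int4 (hI _) (hI _) (hI _) (hI _) _ _ _
  simp only [key]
  have hlim := (((t1.sub (t2.const_mul (κ : ℂ))).sub (t3.const_mul (κ : ℂ))).add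
    (t0.const_mul ((κ : ℂ) ^ 2)))
  have hz : ((E0 * (κ * κ) : ℝ) : ℂ) - κ * ((E0 * κ : ℝ) : ℂ) - κ * ((E0 * κ : ℝ) : ℂ) +
      (κ : ℂ) ^ 2 * (E0 : ℂ) = 0 := by
    push_cast
    ring
  rw [hz] at hlim
  have := (Complex.continuous_re.tendsto 0).comp hlim
  rw [Complex.zero_re] at this
  exact this

end Crest.Agent.R161.Half373
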