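import Crest.Agent.R161.Asm2_695

/-!
R161, block I (helper695): the five point Laplacian.

* `lap5 δ ψ z` : second differences (not divided by `δ²`);
* `lap5_sub_le` : `|lap5 δ ψ z - δ² Δψ z| ≤ C δ⁴`;
* `sum_lap5` : exact neutrality;
* `abs_K_le` : deterministic bound of the heights in a domain contained in a disc;
* `X_sub_lap5` : deterministic comparison of `X δ D (-Δψ)` with its discrete version.
-/

set_option autoImplicit false

noncomputable section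

namespace Crest.Agent.R161.Lap695

open Finset Filter Topology Metric
open Crest.Agent.R161.Geo729 Crest.Agent.R161.Defs372 Crest.Agent.R161.Asm695
open Crest.ProbabilityR.AshkinTeller
open scoped ContDiff Laplacian

/-- five point Laplacian at mesh `δ`, not divided by `δ²` -/
def lap5 (δ : ℝ) (ψ : ℂ → ℝ) (z : ℂ) : ℝ :=
  ψ (z + δ) + ψ (z - δ) + ψ (z + δ * Complex.I) + ψ (z - δ * Complex.I) - 4 * ψ z

/-! ### one dimensional estimate -/

theorem step_bound {φ φ' : ℝ → ℝ} {C h : ℝ} (hd : ∀ t, HasDerivAt φ (φ' t) t)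
    (h0 : φ 0 = 0) (hb : ∀ t ∈ Set.Icc 0 h, |φ' t| ≤ C) (hC : 0 ≤ C) :
    ∀ t ∈ Set.Icc 0 h, |φ t| ≤ C * h := by
  intro t ht
  have h1 := norm_image_sub_le_of_norm_deriv_le_segment' (f := φ) (f' := φ') (C := C) (a := 0)
    (b := h) (fun x _ => (hd x).hasDerivWithinAt)
    (fun x hx => by rw [Real.norm_eq_abs]; exact hb x ⟨hx.1, hx.2.le⟩) t ht
  rw [h0, sub_zero, sub_zero, Real.norm_eq_abs] at h1
  exact h1.trans (mul_le_mul_of_nonneg_left ht.2 hC)

theorem second_diff {f f1 f2 f3 f4 : ℝ → ℝ} {M h : ℝ} (hh : 0 ≤ h)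
    (h1 : ∀ t, HasDerivAt f (f1 t) t) (h2 : ∀ t, HasDerivAt f1 (f2 t) t)
    (h3 : ∀ t, HasDerivAt f2 (f3 t) t) (h4 : ∀ t, HasDerivAt f3 (f4 t) t)
    (hM : ∀ t, |f4 t| ≤ M) :
    |f h + f (-h) - 2 * f 0 - h ^ 2 * f2 0| ≤ 2 * M * h ^ 4 := by
  have hM0 : 0 ≤ M := (abs_nonneg _).trans (hM 0)
  have neg : ∀ {g g' : ℝ → ℝ}, (∀ t, HasDerivAt g (g' t) t) →
      ∀ t, HasDerivAt (fun s => g (-s)) (-(g' (-t))) t := by
    intro g g' hg t
    have := (hg (-t)).comp t (hasDerivAt_neg t)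
    simpa [Function.comp_def] using this
  -- third level
  have b3 : ∀ t ∈ Set.Icc 0 h, |f3 t - f3 (-t)| ≤ 2 * M * h := by
    refine step_bound (φ := fun t => f3 t - f3 (-t)) (φ' := fun t => f4 t - -(f4 (-t)))
      (fun t => (h4 t).sub (neg h4 t)) (by simp) (fun t _ => ?_) (by positivity)
    rw [sub_neg_eq_add]
    calc |f4 t + f4 (-t)| ≤ |f4 t| + |f4 (-t)| := abs_add_le _ _
      _ ≤ 2 * M := by linarith [hM t, hM (-t)]
  have b2 : ∀ t ∈ Set.Icc 0 h, |f2 t + f2 (-t) - 2 * f2 0| ≤ 2 * M * h * h := by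
    refine step_bound (φ := fun t => f2 t + f2 (-t) - 2 * f2 0) (φ' := fun t => f3 t + -(f3 (-t)))
      (fun t => ((h3 t).add (neg h3 t)).sub_const _) (by simp; ring) (fun t ht => ?_)
      (by positivity)
    rw [← sub_eq_add_neg]
    exact b3 t ht
  have b1 : ∀ t ∈ Set.Icc 0 h, |f1 t - f1 (-t) - 2 * t * f2 0| ≤ 2 * M * h * h * h := by
    refine step_bound (φ := fun t => f1 t - f1 (-t) - 2 * t * f2 0)
      (φ' := fun t => f2 t - -(f2 (-t)) - 2 * 1 * f2 0)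
      (fun t => ((h2 t).sub (neg h2 t)).sub ((((hasDerivAt_id t).const_mul 2)).mul_const _))
      (by simp) (fun t ht => ?_) (by positivity)
    rw [sub_neg_eq_add, mul_one]
    exact b2 t ht
  have b0 : ∀ t ∈ Set.Icc 0 h, |f t + f (-t) - 2 * f 0 - t ^ 2 * f2 0| ≤
      2 * M * h * h * h * h := by
    refine step_bound (φ := fun t => f t + f (-t) - 2 * f 0 - t ^ 2 * f2 0)
      (φ' := fun t => f1 t + -(f1 (-t)) - (2 : ℕ) * t ^ (2 - 1) * f2 0)
      (fun t => (((h1 t).add (neg h1 t)).sub_const _).sub ((hasDerivAt_pow 2 t).mul_const _))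
      (by simp; ring) (fun t ht => ?_) (by positivity)
    have := b1 t ht
    rw [← sub_eq_add_neg]
    simpa using this
  have := b0 h ⟨hh, le_rfl⟩
  calc _ ≤ 2 * M * h * h * h * h := this
    _ = 2 * M * h ^ 4 := by ring

/-! ### directional derivatives -/

/-- `k`-th derivative in the direction `e` -/
def dirD (k : ℕ) (ψ : ℂ → ℝ) (e z : ℂ) : ℝ := iteratedFDeriv ℝ k ψ z (fun _ => e)

theorem dirD_zero (ψ : ℂ → ℝ) (e z : ℂ) : dirD 0 ψ e z = ψ z := by
  simp [dirD]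

theorem hasDerivAt_dirD {ψ : ℂ → ℝ} (hψ : ContDiff ℝ ∞ ψ) (k : ℕ) (e z : ℂ) (t : ℝ) :
    HasDerivAt (fun t : ℝ => dirD k ψ e (z + t * e)) (dirD (k + 1) ψ e (z + t * e)) t := by
  have h1 : Differentiable ℝ (iteratedFDeriv ℝ k ψ) :=
    hψ.differentiable_iteratedFDeriv (by exact_mod_cast WithTop.coe_lt_coe.2 (ENat.natCast_lt_top k))
  have h2 := (h1 (z + t * e)).hasFDerivAt
  have h3 : HasDerivAt (fun t : ℝ => z + (t : ℂ) * e) e t := by
    have h4 : HasDerivAt (fun t : ℝ => (t : ℂ)) 1 t := Complex.ofRealCLM.hasDerivAt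
    have := (h4.mul_const e).const_add z
    simpa using this
  have h5 := h2.comp_hasDerivAt t h3
  have h6 := ((ContinuousMultilinearMap.apply ℝ (fun _ : Fin k => ℂ) ℝ
    (fun _ => e)).hasFDerivAt (x := iteratedFDeriv ℝ k ψ (z + t * e))).comp_hasDerivAt t h5
  exact h6

theorem abs_dirD_le {ψ : ℂ → ℝ} (k : ℕ) {e : ℂ} (he : ‖e‖ = 1) (z : ℂ) :
    |dirD k ψ e z| ≤ ‖iteratedFDeriv ℝ k ψ z‖ := by
  have := (iteratedFDeriv ℝ k ψ z).le_opNorm (fun _ => e)
  simp only [he, Finset.prod_const_one, mul_one, Real.norm_eq_abs] at this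
  exact this

theorem laplacian_eq (ψ : ℂ → ℝ) (z : ℂ) :
    (Δ ψ) z = dirD 2 ψ 1 z + dirD 2 ψ Complex.I z := by
  rw [InnerProductSpace.laplacian_eq_iteratedFDeriv_complexPlane]
  unfold dirD
  have e : ∀ a : ℂ, (![a, a] : Fin 2 → ℂ) = fun _ => a := by
    intro a; funext i; fin_cases i <;> rfl
  simp only [e]

theorem second_diff_dir {ψ : ℂ → ℝ} (hψ : ContDiff ℝ ∞ ψ) {M : ℝ}
    (hM : ∀ z, ‖iteratedFDeriv ℝ 4 ψ z‖ ≤ M) {e : ℂ} (he : ‖e‖ = 1) (z : ℂ) {δ : ℝ}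
    (hδ : 0 ≤ δ) :
    |ψ (z + δ * e) + ψ (z - δ * e) - 2 * ψ z - δ ^ 2 * dirD 2 ψ e z| ≤ 2 * M * δ ^ 4 := by
  have h := second_diff hδ (hasDerivAt_dirD hψ 0 e z) (hasDerivAt_dirD hψ 1 e z)
    (hasDerivAt_dirD hψ 2 e z) (hasDerivAt_dirD hψ 3 e z)
    (fun t => (abs_dirD_le 4 he _).trans (hM _))
  simp only [dirD_zero, Complex.ofReal_zero, zero_mul, add_zero, Complex.ofReal_neg, neg_mul,
    ← sub_eq_add_neg] at h
  exact h

/-- **Taylor estimate of the five point Laplacian.** -/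
theorem lap5_sub_le {ψ : ℂ → ℝ} (hψ : ContDiff ℝ ∞ ψ) (hc : HasCompactSupport ψ) :
    ∃ C : ℝ, 0 ≤ C ∧ ∀ (δ : ℝ) (z : ℂ), 0 ≤ δ → |lap5 δ ψ z - δ ^ 2 * (Δ ψ) z| ≤ C * δ ^ 4 := by
  obtain ⟨M, hM⟩ := (hψ.continuous_iteratedFDeriv (m := 4)
    (WithTop.coe_le_coe.2 (le_top : ((4 : ℕ) : ℕ∞) ≤ ⊤))).bounded_above_of_compact_support (hc.iteratedFDeriv 4)
  have hM0 : 0 ≤ M := (norm_nonneg _).trans (hM 0)
  refine ⟨4 * M, by positivity, fun δ z hδ => ?_⟩
  have h1 := second_diff_dir hψ hM (e := 1) (by simp) z hδ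
  have h2 := second_diff_dir hψ hM (e := Complex.I) (by simp) z hδ
  rw [mul_one] at h1
  rw [laplacian_eq]
  unfold lap5
  rw [abs_le] at h1 h2 ⊢
  constructor <;> nlinarith [h1.1, h1.2, h2.1, h2.2]

/-! ### positions -/

theorem pos_add (δ : ℝ) (v a : P2) : pos δ (v + a) = pos δ v + pos δ a := by
  simp only [pos, Prod.fst_add, Prod.snd_add]
  push_cast
  ring

theorem pos_e1 (δ : ℝ) : pos δ ((1, 0) : P2) = δ := by simp [pos]
theorem pos_me1 (δ : ℝ) : pos δ ((-1, 0) : P2) = -δ := by simp [pos]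
theorem pos_e2 (δ : ℝ) : pos δ ((0, 1) : P2) = δ * Complex.I := by simp [pos]
theorem pos_me2 (δ : ℝ) : pos δ ((0, -1) : P2) = -(δ * Complex.I) := by simp [pos]

/-- discrete form of the five point Laplacian at a lattice point -/
theorem lap5_pos (δ : ℝ) (ψ : ℂ → ℝ) (v : P2) :
    lap5 δ ψ (pos δ v) = ψ (pos δ (v + (1, 0))) + ψ (pos δ (v + (-1, 0))) +
      ψ (pos δ (v + (0, 1))) + ψ (pos δ (v + (0, -1))) - 4 * ψ (pos δ v) := by
  unfold lap5
  rw [pos_add, pos_add, pos_add, pos_add, pos_e1, pos_me1, pos_e2, pos_me2, ← sub_eq_add_neg,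
    ← sub_eq_add_neg]

/-- norm of a coordinate -/
theorem abs_fst_le (δ : ℝ) (v : P2) : |δ * v.1| ≤ ‖pos δ v‖ := by
  have : (pos δ v).re = δ * v.1 := by simp [pos]
  rw [← this]
  exact Complex.abs_re_le_norm _

theorem abs_snd_le (δ : ℝ) (v : P2) : |δ * v.2| ≤ ‖pos δ v‖ := by
  have : (pos δ v).im = δ * v.2 := by simp [pos]
  rw [← this]
  exact Complex.abs_im_le_norm _

/-- finitely many lattice points in a disc -/
theorem finite_pos {δ R : ℝ} (hδ : 0 < δ) : {v : P2 | ‖pos δ v‖ ≤ R}.Finite := by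
  obtain ⟨n, hn⟩ := exists_nat_ge (R / δ)
  refine (Finset.finite_toSet (Finset.Icc (-(n : ℤ)) n ×ˢ Finset.Icc (-(n : ℤ)) n)).subset ?_
  intro v hv
  have key : ∀ x : ℤ, |δ * x| ≤ ‖pos δ v‖ → -(n : ℤ) ≤ x ∧ x ≤ n := by
    intro x hx
    have h1 : |δ * x| ≤ R := hx.trans hv
    rw [abs_mul, abs_of_pos hδ] at h1
    have h2 : |(x : ℝ)| ≤ n := by
      refine le_trans ?_ hn
      rw [le_div_iff₀ hδ]
      linarith
    have h3 : |x| ≤ (n : ℤ) := by exact_mod_cast h2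
    exact abs_le.1 h3
  simp only [Finset.coe_product, Finset.coe_Icc, Set.mem_prod, Set.mem_Icc]
  exact ⟨key _ (abs_fst_le δ v), key _ (abs_snd_le δ v)⟩

/-! ### neutrality -/

/-- the discrete weights vanish off the `δ`-neighbourhood of the support -/
theorem lap5_eq_zero {δ R : ℝ} {ψ : ℂ → ℝ} (hδ : 0 ≤ δ) (hψ : ∀ z, R ≤ ‖z‖ → ψ z = 0) {z : ℂ}
    (hz : R + δ ≤ ‖z‖) : lap5 δ ψ z = 0 := by
  have key : ∀ w : ℂ, ‖w‖ ≤ δ → ψ (z + w) = 0 := by
    intro w hw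
    apply hψ
    have := norm_sub_norm_le z (-w)
    rw [sub_neg_eq_add, norm_neg] at this
    linarith
  have n1 : ‖(δ : ℂ)‖ ≤ δ := by rw [Complex.norm_real, Real.norm_eq_abs, abs_of_nonneg hδ]
  have n2 : ‖(δ : ℂ) * Complex.I‖ ≤ δ := by rw [norm_mul, Complex.norm_I, mul_one]; exact n1
  unfold lap5
  rw [sub_eq_add_neg z, sub_eq_add_neg z, key _ n1, key _ n2, key _ (by rwa [norm_neg]),
    key _ (by rwa [norm_neg]), hψ z (by linarith)]
  ring

/-- **exact neutrality** of the discrete Laplacian -/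
theorem sum_lap5 {δ R : ℝ} (hδ : 0 < δ) {ψ : ℂ → ℝ} (hψ : ∀ z, R ≤ ‖z‖ → ψ z = 0)
    {S : Finset P2} (hS : ∀ v, lap5 δ ψ (pos δ v) ≠ 0 → v ∈ S) :
    ∑ v ∈ S, lap5 δ ψ (pos δ v) = 0 := by
  have hfs : ∀ g : P2 → ℝ, (∀ v, R + δ < ‖pos δ v‖ → g v = 0) → g.HasFiniteSupport := by
    intro g hg
    refine (finite_pos (δ := δ) (R := R + δ) hδ).subset ?_
    intro v hv
    by_contra hcon
    exact hv (hg v (not_le.1 hcon))
  have hz : ∀ v : P2, R + δ < ‖pos δ v‖ → ψ (pos δ v) = 0 := fun v hv => hψ _ (by linarith)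
  have hza : ∀ a : P2, ‖pos δ a‖ ≤ δ → ∀ v : P2, R + δ < ‖pos δ v‖ → ψ (pos δ (v + a)) = 0 := by
    intro a ha v hv
    apply hψ
    rw [pos_add]
    have h1 := norm_sub_norm_le (pos δ v) (-(pos δ a))
    rw [sub_neg_eq_add, norm_neg] at h1
    linarith
  have n1 : ‖(δ : ℂ)‖ ≤ δ := by rw [Complex.norm_real, Real.norm_eq_abs, abs_of_pos hδ]
  have n2 : ‖(δ : ℂ) * Complex.I‖ ≤ δ := by rw [norm_mul, Complex.norm_I, mul_one]; exact n1
  have z1 := hza (1, 0) (by rw [pos_e1]; exact n1)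
  have z2 := hza (-1, 0) (by rw [pos_me1, norm_neg]; exact n1)
  have z3 := hza (0, 1) (by rw [pos_e2]; exact n2)
  have z4 := hza (0, -1) (by rw [pos_me2, norm_neg]; exact n2)
  have hshift : ∀ a : P2, ∑ᶠ v : P2, ψ (pos δ (v + a)) = ∑ᶠ v : P2, ψ (pos δ v) := fun a =>
    finsum_comp_equiv (f := fun v : P2 => ψ (pos δ v)) (Equiv.addRight a)
  have h1 : ∑ᶠ v : P2, lap5 δ ψ (pos δ v) = 0 := by
    have e : (fun v : P2 => lap5 δ ψ (pos δ v)) = fun v =>
        (((ψ (pos δ (v + (1, 0))) + ψ (pos δ (v + (-1, 0)))) + ψ (pos δ (v + (0, 1)))) +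
          ψ (pos δ (v + (0, -1)))) + (-4) * ψ (pos δ v) := by
      funext v
      rw [lap5_pos]
      ring
    rw [e,
      finsum_add_distrib (hfs _ fun v hv => by rw [z1 v hv, z2 v hv, z3 v hv, z4 v hv]; ring)
        (hfs _ fun v hv => by rw [hz v hv]; ring),
      finsum_add_distrib (hfs _ fun v hv => by rw [z1 v hv, z2 v hv, z3 v hv]; ring)
        (hfs _ fun v hv => z4 v hv),
      finsum_add_distrib (hfs _ fun v hv => by rw [z1 v hv, z2 v hv]; ring)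
        (hfs _ fun v hv => z3 v hv),
      finsum_add_distrib (hfs _ fun v hv => z1 v hv) (hfs _ fun v hv => z2 v hv),
      hshift, hshift, hshift, hshift, ← mul_finsum]
    ring
  rw [finsum_eq_sum_of_support_subset _ (s := S)] at h1
  · exact h1
  · intro v hv
    exact Finset.mem_coe.2 (hS v hv)

/-! ### deterministic bounds -/

theorem norm_pos_div {δ r : ℝ} (hr : 0 < r) (v : P2) : ‖pos (δ / r) v‖ = ‖pos δ v‖ / r := by
  have : pos (δ / r) v = pos δ v / r := by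
    simp only [pos]
    push_cast
    ring
  rw [this, norm_div, Complex.norm_real, Real.norm_eq_abs, abs_of_pos hr]

theorem mem_disc {δ r : ℝ} (hδ : 0 < δ) (hr : 0 < r) {f : P2} : f ∈ disc δ r ↔
    ‖pos δ f‖ < r ∧ ‖pos δ (f.1 + 1, f.2)‖ < r ∧ ‖pos δ (f.1, f.2 + 1)‖ < r ∧
      ‖pos δ (f.1 + 1, f.2 + 1)‖ < r := by
  rw [disc_of_pos hr, Geo132.faces_eq (div_pos hδ hr), ← Geo132.isDomainFace_iff (div_pos hδ hr)]
  simp only [IsDomainFace, norm_pos_div hr, div_lt_one hr]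

/-- faces of `disc δ r` are at distance `< r` from the origin -/
theorem norm_lt_of_mem_disc {δ r : ℝ} (hδ : 0 < δ) {f : P2} (h : f ∈ disc δ r) :
    ‖pos δ f‖ < r := by
  by_cases hr : 0 < r
  · exact ((mem_disc hδ hr).1 h).1
  · rw [disc, if_neg hr] at h
    simp at h

/-- **deterministic bound of the heights** in a domain contained in a disc -/
theorem abs_K_le {δ R : ℝ} (hδ : 0 < δ) (hR : 0 < R) {D : Finset P2} (hD : D ⊆ disc δ R) {u : Cfg}
    (hω : Valid D u) (v : P2) : |(u.1 v : ℝ)| ≤ 4 * R / δ + 8 := by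
  by_cases hv : v ∈ intVerts D
  · have hvD : v ∈ D := (Finset.mem_filter.1 hv).1
    set n : ℕ := ⌈2 * R / δ⌉₊ + 2 with hn
    have hn1 : 2 * R / δ ≤ (n : ℝ) - 2 := by
      rw [hn]; push_cast
      have := Nat.le_ceil (2 * R / δ)
      linarith
    have hn2 : (n : ℝ) < 2 * R / δ + 3 := by
      rw [hn]; push_cast
      have := Nat.ceil_lt_add_one (a := 2 * R / δ) (by positivity)
      linarith
    have hn0 : 1 ≤ n := by omega
    have hex : ((v.1 + ((n - 1 : ℕ) : ℤ) + 1 : ℤ), v.2) ∉ D := by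
      intro hmem
      have h1 := norm_lt_of_mem_disc hδ (hD hmem)
      have h2 := norm_lt_of_mem_disc hδ (hD hvD)
      have h3 := (abs_fst_le δ _).trans h1.le
      have h4 := (abs_fst_le δ v).trans_lt h2
      have h5 : ((v.1 + ((n - 1 : ℕ) : ℤ) + 1 : ℤ) : ℝ) = v.1 + n := by
        have : (((n - 1 : ℕ) : ℤ)) = (n : ℤ) - 1 := by omega
        rw [this]; push_cast; ring
      simp only at h3
      rw [h5] at h3
      have h6 := (abs_le.1 h3).2
      have h7 := (abs_lt.1 h4).1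
      have h8 : 2 * R ≤ δ * n := by
        rw [div_le_iff₀ hδ] at hn1
        nlinarith
      nlinarith
    have h1 := hω.abs_face_le n v ⟨n - 1, by omega, hex⟩
    have h2 := hω.corner v hvD v (by simp [Geo729.IsCorner])
    have h3 : |u.1 v| ≤ 2 * n + 2 := by
      rw [abs_le] at h1 ⊢
      rcases abs_eq (by norm_num : (0 : ℤ) ≤ 1) |>.1 h2 with h2 | h2 <;>
      constructor <;> linarith [h1.1, h1.2]
    have h4 : |(u.1 v : ℝ)| ≤ 2 * n + 2 := by exact_mod_cast h3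
    have h5 : 4 * R / δ = 2 * (2 * R / δ) := by ring
    rw [h5]
    linarith
  · rw [hω.zero v hv]
    simp only [Int.cast_zero, abs_zero]
    positivity

/-- number of faces of a domain contained in a disc -/
theorem card_le {δ R : ℝ} (hδ : 0 < δ) {D : Finset P2} (hD : D ⊆ disc δ R) :
    (D.card : ℝ) ≤ (2 * R / δ + 1) ^ 2 := by
  by_cases hne : D.Nonempty
  swap
  · rw [Finset.not_nonempty_iff_eq_empty.1 hne]
    simp only [Finset.card_empty, Nat.cast_zero]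
    positivity
  have hR : 0 < R := by
    obtain ⟨f, hf⟩ := hne
    exact (norm_nonneg _).trans_lt (norm_lt_of_mem_disc hδ (hD hf))
  set n : ℤ := ⌊R / δ⌋ with hn
  have hn0 : 0 ≤ n := Int.floor_nonneg.2 (by positivity)
  have hn1 : (n : ℝ) ≤ R / δ := Int.floor_le _
  have hsub : D ⊆ Finset.Icc (-n) n ×ˢ Finset.Icc (-n) n := by
    intro f hf
    have h1 := norm_lt_of_mem_disc hδ (hD hf)
    have key : ∀ x : ℤ, |δ * x| ≤ ‖pos δ f‖ → -n ≤ x ∧ x ≤ n := by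
      intro x hx
      have h2 : |δ * x| ≤ R := hx.trans h1.le
      rw [abs_mul, abs_of_pos hδ] at h2
      have h3 : |(x : ℝ)| ≤ R / δ := by
        rw [le_div_iff₀ hδ]
        linarith
      have h4 : |x| ≤ n := by
        rw [hn, Int.le_floor]
        push_cast
        exact h3
      exact abs_le.1 h4
    rw [Finset.mem_product, Finset.mem_Icc, Finset.mem_Icc]
    exact ⟨key _ (abs_fst_le δ f), key _ (abs_snd_le δ f)⟩
  have h1 := Finset.card_le_card hsub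
  rw [Finset.card_product, Int.card_Icc] at h1
  have h2 : ((n + 1 - -n).toNat : ℝ) = 2 * n + 1 := by
    have : ((n + 1 - -n).toNat : ℤ) = 2 * n + 1 := by omega
    exact_mod_cast this
  calc (D.card : ℝ) ≤ (((n + 1 - -n).toNat * (n + 1 - -n).toNat : ℕ) : ℝ) := by exact_mod_cast h1
    _ = (2 * n + 1) ^ 2 := by push_cast; rw [h2]; ring
    _ ≤ (2 * R / δ + 1) ^ 2 := by
        have : 2 * (n : ℝ) + 1 ≤ 2 * R / δ + 1 := by
          have : 2 * R / δ = 2 * (R / δ) := by ring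
          rw [this]; linarith
        have h0 : (0 : ℝ) ≤ 2 * n + 1 := by
          have : (0 : ℝ) ≤ n := by exact_mod_cast hn0
          linarith
        gcongr

/-- **Deterministic comparison** of `X δ D (-Δψ)` with its discrete version. -/
theorem X_sub_lap5 {ψ : ℂ → ℝ} (hψ : ContDiff ℝ ∞ ψ) (hc : HasCompactSupport ψ) {R : ℝ}
    (hR : 0 < R) : ∃ C : ℝ, 0 ≤ C ∧ ∀ δ : ℝ, 0 < δ → δ ≤ 1 → ∀ D : Finset P2, D ⊆ disc δ R →
      ∀ u, Valid D u →
        |X δ D (fun z => -(Δ ψ) z) u - Lin D (fun v => -lap5 δ ψ (pos δ v)) u| ≤ C * δ := by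
  obtain ⟨C, hC0, hC⟩ := lap5_sub_le hψ hc
  refine ⟨C * ((2 * R + 1) ^ 2 * (4 * R + 8)), by positivity, fun δ hδ hδ1 D hD u hω => ?_⟩
  have h1 : X δ D (fun z => -(Δ ψ) z) u - Lin D (fun v => -lap5 δ ψ (pos δ v)) u =
      ∑ v ∈ D, (u.1 v : ℝ) * (lap5 δ ψ (pos δ v) - δ ^ 2 * (Δ ψ) (pos δ v)) := by
    unfold X Lin
    rw [← Finset.sum_sub_distrib]
    exact Finset.sum_congr rfl fun v _ => by ring
  rw [h1]
  calc _ ≤ ∑ v ∈ D, |(u.1 v : ℝ) * (lap5 δ ψ (pos δ v) - δ ^ 2 * (Δ ψ) (pos δ v))| :=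
        Finset.abs_sum_le_sum_abs _ _
    _ ≤ ∑ _v ∈ D, (4 * R / δ + 8) * (C * δ ^ 4) := by
        refine Finset.sum_le_sum fun v _ => ?_
        rw [abs_mul]
        exact mul_le_mul (abs_K_le hδ hR hD hω v) (hC δ _ hδ.le) (abs_nonneg _) (by positivity)
    _ = D.card * ((4 * R / δ + 8) * (C * δ ^ 4)) := by rw [Finset.sum_const, nsmul_eq_mul]
    _ ≤ (2 * R / δ + 1) ^ 2 * ((4 * R / δ + 8) * (C * δ ^ 4)) :=
        mul_le_mul_of_nonneg_right (card_le hδ hD) (by positivity)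
    _ = C * ((2 * R + δ) ^ 2 * (4 * R + 8 * δ)) * δ := by field_simp
    _ ≤ C * ((2 * R + 1) ^ 2 * (4 * R + 8)) * δ := by
        have a1 : (2 * R + δ) ^ 2 ≤ (2 * R + 1) ^ 2 := by gcongr
        have a2 : 4 * R + 8 * δ ≤ 4 * R + 8 := by linarith
        have a3 : (2 * R + δ) ^ 2 * (4 * R + 8 * δ) ≤ (2 * R + 1) ^ 2 * (4 * R + 8) :=
          mul_le_mul a1 a2 (by positivity) (by positivity)
        exact mul_le_mul_of_nonneg_right (mul_le_mul_of_nonneg_left a3 hC0) hδ.le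

end Crest.Agent.R161.Lap695
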