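import Crest.Agent.R161.Riem_373
import Crest.Agent.R161.Neg_373

/-!
R161 (helper373): characteristic functions of exactly neutral lattice functions.

`law_seq` : if `b n : P2 →₀ ℝ` have mass zero, uniformly bounded macroscopic support and
`b n / δ² → g` uniformly, `∫ g = 0`, then `∫ e^{i XL (b n)} dP → exp (-κ ⟨g, G g⟩ / 2)`.
-/

set_option autoImplicit false

noncomputable section

namespace Crest.Agent.R161.Law373

open Finset MeasureTheory Filter Topology
open Crest.Agent.R161.Geo729 Crest.Agent.R161.Defs372 Crest.Agent.R161.Ifc372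
open Crest.Agent.R161.Aut373 Crest.Agent.R161.RPlim373
open Crest.Agent.R161.Sm373 Crest.Agent.R161.Riem373

/-- uniform probability density on the box -/
def unif (N : ℕ) : P2 →₀ ℝ :=
  Finsupp.onFinset (bx N) (fun v => if v ∈ bx N then 1 / ((bx N).card : ℝ) else 0)
    (fun v hv => by
      by_contra h
      rw [if_neg h] at hv
      exact hv rfl)

theorem unif_apply (N : ℕ) (v : P2) :
    unif N v = if v ∈ bx N then 1 / ((bx N).card : ℝ) else 0 := rfl

theorem unif_support {N : ℕ} {v : P2} (h : unif N v ≠ 0) : v ∈ bx N := by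
  by_contra hv
  rw [unif_apply, if_neg hv] at h
  exact h rfl

theorem card_pos (N : ℕ) : 0 < ((bx N).card : ℝ) := by
  rw [card_bx]
  positivity

theorem mass_unif (N : ℕ) : mass (unif N) = 1 := by
  rw [mass_eq (s := bx N) fun v hv => unif_support hv]
  have : ∀ v ∈ bx N, unif N v = 1 / ((bx N).card : ℝ) := fun v hv => by
    rw [unif_apply, if_pos hv]
  rw [Finset.sum_congr rfl this, Finset.sum_const, nsmul_eq_mul]
  have := card_pos N
  field_simp

theorem unif_nonneg (N : ℕ) (v : P2) : 0 ≤ unif N v := by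
  rw [unif_apply]
  have := card_pos N
  split_ifs <;> positivity

theorem unif_le {N : ℕ} (hN : 1 ≤ N) (v : P2) : |unif N v| ≤ 1 / (N : ℝ) ^ 2 := by
  rw [abs_of_nonneg (unif_nonneg N v), unif_apply]
  have hN' : (1 : ℝ) ≤ N := by exact_mod_cast hN
  split_ifs
  · apply one_div_le_one_div_of_le (by positivity)
    rw [card_bx]
    push_cast
    nlinarith
  · positivity

variable {c : ℝ} {P : Measure Cfg}

theorem integrable_XL (hP : IsState c P) (a : P2 →₀ ℝ) : Integrable (XL a) P :=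
  (finLoc_XL a).integrable hP

theorem integrable_XL_sq (hP : IsState c P) (a : P2 →₀ ℝ) :
    Integrable (fun ω => (XL a ω) ^ 2) P :=
  ((finLoc_XL a).comp (fun x => x ^ 2)).integrable hP

/-- `L¹` norm of the smeared height with density `unif N` -/
theorem integral_abs_unif_le (hP : IsState c P) (hV : VBound P) : ∃ C : ℝ, 0 ≤ C ∧
    ∀ N : ℕ, 1 ≤ N → ∫ ω, |XL (unif N) ω| ∂P ≤ C * (1 + Real.log N) := by
  have := hP.prob
  obtain ⟨C, hC0, hC⟩ := VV_le hV
  refine ⟨(1 + C) / 2, by positivity, fun N hN => ?_⟩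
  have hN' : (1 : ℝ) ≤ N := by exact_mod_cast hN
  have hlog : 0 ≤ Real.log N := Real.log_nonneg hN'
  have hint : ∀ v : P2, Integrable (fun ω : Cfg => ((ω.1 v : ℝ) - ω.1 (0, 0)) ^ 2) P :=
    fun v => integrable_diff_sq hP v (0, 0)
  have h1 : ∀ᵐ ω ∂P, |XL (unif N) ω| ≤
      ∑ v ∈ bx N, unif N v * ((1 + ((ω.1 v : ℝ) - ω.1 (0, 0)) ^ 2) / 2) := by
    filter_upwards [hP.valid] with ω hω
    rw [XL_eq (s := bx N) fun v hv => unif_support hv]
    refine (Finset.abs_sum_le_sum_abs _ _).trans (Finset.sum_le_sum fun v _ => ?_)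
    rw [abs_mul, abs_of_nonneg (unif_nonneg N v)]
    refine mul_le_mul_of_nonneg_left ?_ (unif_nonneg N v)
    rw [hω.zero]
    push_cast
    rw [sub_zero, abs_le]
    constructor
    · nlinarith [sq_nonneg ((ω.1 v : ℝ) + 1)]
    · nlinarith [sq_nonneg ((ω.1 v : ℝ) - 1)]
  have hI : ∀ v ∈ bx N, Integrable (fun ω : Cfg =>
      unif N v * ((1 + ((ω.1 v : ℝ) - ω.1 (0, 0)) ^ 2) / 2)) P := fun v _ =>
    (((integrable_const 1).add (hint v)).div_const 2).const_mul _
  calc ∫ ω, |XL (unif N) ω| ∂P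
      ≤ ∫ ω, ∑ v ∈ bx N, unif N v * ((1 + ((ω.1 v : ℝ) - ω.1 (0, 0)) ^ 2) / 2) ∂P :=
        integral_mono_ae (integrable_XL hP _).abs (integrable_finsetSum _ hI) h1
    _ = ∑ v ∈ bx N, unif N v * ((1 + Ifc372.VV P v) / 2) := by
        rw [integral_finsetSum _ hI]
        refine Finset.sum_congr rfl fun v _ => ?_
        rw [integral_const_mul, integral_div, integral_add (integrable_const 1) (hint v)]
        simp [Ifc372.VV]
    _ ≤ ∑ v ∈ bx N, unif N v * ((1 + C * (1 + Real.log N)) / 2) := by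
        refine Finset.sum_le_sum fun v hv => ?_
        refine mul_le_mul_of_nonneg_left ?_ (unif_nonneg N v)
        rw [mem_bx] at hv
        have := hC N hN v (by linarith [hv.1]) (by linarith [hv.2])
        linarith
    _ = mass (unif N) * ((1 + C * (1 + Real.log N)) / 2) := by
        rw [← Finset.sum_mul, ← mass_eq (s := bx N) fun v hv => unif_support hv]
    _ ≤ (1 + C) / 2 * (1 + Real.log N) := by
        rw [mass_unif]
        nlinarith

/-- `L²` convergence implies `L¹` convergence -/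
theorem tendsto_L1_of_L2 (hP : IsState c P) {a : ℕ → P2 →₀ ℝ}
    (h : Tendsto (fun n => ∫ ω, (XL (a n) ω) ^ 2 ∂P) atTop (𝓝 0)) :
    Tendsto (fun n => ∫ ω, |XL (a n) ω| ∂P) atTop (𝓝 0) := by
  have := hP.prob
  rw [Metric.tendsto_nhds]
  intro ε hε
  filter_upwards [(Metric.tendsto_nhds.1 h) (ε ^ 2) (by positivity)] with n hn
  rw [Real.dist_eq, sub_zero] at hn ⊢
  have h0 : 0 ≤ ∫ ω, |XL (a n) ω| ∂P := integral_nonneg fun _ => abs_nonneg _
  rw [abs_of_nonneg h0]
  have h1 : ∫ ω, |XL (a n) ω| ∂P ≤ ∫ ω, (ε / 2 + (XL (a n) ω) ^ 2 / (2 * ε)) ∂P := by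
    refine integral_mono (integrable_XL hP _).abs
      ((integrable_const _).add ((integrable_XL_sq hP _).div_const _)) fun ω => ?_
    have h2 : 0 ≤ (|XL (a n) ω| - ε) ^ 2 / (2 * ε) := by positivity
    have h3 : (|XL (a n) ω| - ε) ^ 2 / (2 * ε) =
        (XL (a n) ω) ^ 2 / (2 * ε) - |XL (a n) ω| + ε / 2 := by
      rw [← sq_abs (XL (a n) ω)]
      field_simp
      ring
    simp only
    linarith
  rw [integral_add (integrable_const _) ((integrable_XL_sq hP _).div_const _)] at h1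
  simp only [integral_const, probReal_univ, smul_eq_mul, one_mul] at h1
  rw [show ∫ ω, (XL (a n) ω) ^ 2 / (2 * ε) ∂P = (∫ ω, (XL (a n) ω) ^ 2 ∂P) / (2 * ε) from
    integral_div _ _] at h1
  have h2 := (abs_lt.1 hn).2
  have h3 : (∫ ω, (XL (a n) ω) ^ 2 ∂P) / (2 * ε) < ε / 2 := by
    rw [div_lt_iff₀ (by positivity)]
    nlinarith
  linarith

/-- the box of macroscopic size `R` -/
def NN' (R δ : ℝ) : ℕ := ⌈R / δ⌉₊ + 1

theorem one_le_NN' (R δ : ℝ) : 1 ≤ NN' R δ := by unfold NN'; omega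

theorem div_le_NN' (R δ : ℝ) : R / δ ≤ NN' R δ := by
  unfold NN'
  push_cast
  have := Nat.le_ceil (R / δ)
  linarith

theorem mul_NN'_le {R δ : ℝ} (hR : 0 ≤ R) (hδ : 0 < δ) : δ * NN' R δ ≤ R + 2 * δ := by
  have h1 := Nat.ceil_lt_add_one (div_nonneg hR hδ.le)
  unfold NN'
  push_cast
  have h2 : δ * (R / δ) = R := by field_simp
  nlinarith

/-- difference of two characteristic functions -/
theorem abs_integral_cos_sub_le (hP : IsState c P) (a b : P2 →₀ ℝ) :
    |(∫ ω, Real.cos (XL a ω) ∂P) - ∫ ω, Real.cos (XL b ω) ∂P| ≤ ∫ ω, |XL (a - b) ω| ∂P := by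
  have hi : ∀ a : P2 →₀ ℝ, Integrable (fun ω => Real.cos (XL a ω)) P := fun a =>
    ((finLoc_XL a).comp Real.cos).integrable hP
  rw [← integral_sub (hi a) (hi b)]
  refine (abs_integral_le_integral_abs).trans ?_
  refine integral_mono ((hi a).sub (hi b)).abs (integrable_XL hP _).abs fun ω => ?_
  simp only [XL_sub]
  have h := Complex.dist_eq
  -- `cos` is 1-Lipschitz
  have h1 : |Real.cos (XL a ω) - Real.cos (XL b ω)| ≤ |XL a ω - XL b ω| := by
    rw [Real.cos_sub_cos, abs_mul, abs_mul]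
    have e1 : |Real.sin ((XL a ω + XL b ω) / 2)| ≤ 1 := Real.abs_sin_le_one _
    have e2 : |Real.sin ((XL a ω - XL b ω) / 2)| ≤ |(XL a ω - XL b ω) / 2| := Real.abs_sin_le_abs
    have e3 : |(XL a ω - XL b ω) / 2| = |XL a ω - XL b ω| / 2 := by
      rw [abs_div, abs_of_pos (by norm_num : (0 : ℝ) < 2)]
    rw [e3] at e2
    have e4 : |(-2 : ℝ)| = 2 := by norm_num
    rw [e4]
    nlinarith [abs_nonneg (Real.sin ((XL a ω - XL b ω) / 2)),
      abs_nonneg (Real.sin ((XL a ω + XL b ω) / 2))]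
  exact h1

/-- **Characteristic functions of exactly neutral lattice functions.** -/
theorem law_seq (hP : IsState c P) (hG : PlaneGauss c P) (hV : VBound P) {g : ℂ → ℝ}
    (hg : Test g) (h0 : ∫ z, g z = 0) {δ : ℕ → ℝ} (hδ : ∀ n, 0 < δ n)
    (hδ0 : Tendsto δ atTop (𝓝 0)) (b : ℕ → P2 →₀ ℝ) (hb0 : ∀ n, mass (b n) = 0) {R : ℝ}
    (hR : ∀ n v, b n v ≠ 0 → ‖ptC (δ n) v‖ ≤ R) {ε : ℕ → ℝ} (hε : Tendsto ε atTop (𝓝 0))
    (hbg : ∀ n v, |b n v - δ n ^ 2 * g (ptC (δ n) v)| ≤ ε n * δ n ^ 2) :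
    Tendsto (fun n => ∫ ω, Complex.exp (Complex.I * (XL (b n) ω : ℝ)) ∂P) atTop
      (𝓝 ((Real.exp (-(kap c * plog g g) / 2) : ℝ) : ℂ)) := by
  have hprob := hP.prob
  have e1 : ∀ n, ∫ ω, Complex.exp (Complex.I * (XL (b n) ω : ℝ)) ∂P =
      ((∫ ω, Real.cos (XL (b n) ω) ∂P : ℝ) : ℂ) := fun n =>
    Neg373.integral_exp_of_odd hP (finLoc_XL _) (neut_XL (hb0 n)) (fun ω => XL_neg_cfg _ ω)
  simp only [e1]
  refine (Complex.continuous_ofReal.tendsto _).comp ?_
  -- limit for the sampled function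
  have hlaw : Tendsto (fun n => ∫ ω, Real.cos (XL (samp (δ n) g) ω) ∂P) atTop
      (𝓝 (Real.exp (-(kap c * plog g g) / 2))) := by
    have h1 := hG.law g hg h0 1
    have h2 : Tendsto δ atTop (𝓝[>] 0) :=
      tendsto_nhdsWithin_iff.2 ⟨hδ0, Eventually.of_forall fun n => hδ n⟩
    have h3 := h1.comp h2
    have e2 : (Real.exp (-(1 ^ 2 * (kap c * plog g g) / 2))) =
        Real.exp (-(kap c * plog g g) / 2) := by
      congr 1
      ring
    rw [e2] at h3
    refine h3.congr fun n => ?_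
    simp only [Function.comp_apply, one_mul]
    simp only [X_eq hg.supp (hδ n)]
  -- the difference tends to zero
  obtain ⟨r, hr0, hr⟩ := exists_radius hg
  obtain ⟨C₁, hC₁0, hC₁⟩ := mass_samp_rate hg
  obtain ⟨C₂, hC₂0, hC₂⟩ := integral_abs_unif_le hP hV
  obtain ⟨C₃, hC₃0, hC₃⟩ := sm_bound hP hV
  set R' : ℝ := max (max R r) 0 with hR'
  have hR'0 : 0 ≤ R' := le_max_right _ _
  have hR'R : R ≤ R' := (le_max_left _ _).trans (le_max_left _ _)
  have hR'r : r ≤ R' := (le_max_right _ _).trans (le_max_left _ _)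
  set N : ℕ → ℕ := fun n => NN' R' (δ n) with hNdef
  set mm : ℕ → ℝ := fun n => mass (samp (δ n) g) with hmm
  -- the corrected difference
  set d : ℕ → P2 →₀ ℝ := fun n => b n - samp (δ n) g + mm n • unif (N n) with hd
  have hd0 : ∀ n, mass (d n) = 0 := by
    intro n
    simp only [hd, mass_add, mass_sub, mass_smul, hb0, mass_unif, hmm]
    ring
  have hsampR : ∀ n v, samp (δ n) g v ≠ 0 → ‖ptC (δ n) v‖ ≤ R' := by
    intro n v hv
    rw [samp_apply hg.supp (hδ n)] at hv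
    refine (hr _ ?_).trans hR'r
    intro h
    rw [h, mul_zero] at hv
    exact hv rfl
  have hdsupp : ∀ n v, d n v ≠ 0 → v ∈ bx (N n) := by
    intro n v hv
    by_contra hcon
    apply hv
    have h1 : b n v = 0 := by
      by_contra h
      exact hcon (abs_le_of_norm (hδ n) ((hR n v h).trans hR'R) (div_le_NN' _ _))
    have h2 : samp (δ n) g v = 0 := by
      by_contra h
      exact hcon (abs_le_of_norm (hδ n) (hsampR n v h) (div_le_NN' _ _))
    have h3 : unif (N n) v = 0 := by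
      by_contra h
      exact hcon (unif_support h)
    simp [hd, h1, h2, h3]
  have hNpos : ∀ n, 1 ≤ N n := fun n => one_le_NN' _ _
  have hNpos' : ∀ n, (1 : ℝ) ≤ N n := fun n => by exact_mod_cast hNpos n
  have hε0 : ∀ n, 0 ≤ ε n := by
    intro n
    have h1 := (abs_nonneg _).trans (hbg n 0)
    have h2 : 0 < δ n ^ 2 := by have := hδ n; positivity
    exact nonneg_of_mul_nonneg_left h1 h2
  set β : ℕ → ℝ := fun n => ε n * (R' + 2 * δ n) ^ 2 + |mm n| with hβ
  have hβ0 : ∀ n, 0 ≤ β n := fun n => by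
    have := hε0 n
    have := hδ n
    positivity
  have hdle : ∀ n v, |d n v| ≤ β n / (N n : ℝ) ^ 2 := by
    intro n v
    have hNn : (0 : ℝ) < (N n : ℝ) ^ 2 := by have := hNpos' n; positivity
    have h1 : |b n v - samp (δ n) g v| ≤ ε n * (R' + 2 * δ n) ^ 2 / (N n : ℝ) ^ 2 := by
      rw [samp_apply hg.supp (hδ n), le_div_iff₀ hNn]
      have h2 := hbg n v
      have h3 := mul_NN'_le hR'0 (hδ n)
      have h4 : (δ n * N n) ^ 2 ≤ (R' + 2 * δ n) ^ 2 := by
        apply pow_le_pow_left₀ _ h3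
        have := hδ n
        positivity
      calc |b n v - δ n ^ 2 * g (ptC (δ n) v)| * (N n : ℝ) ^ 2
          ≤ ε n * δ n ^ 2 * (N n : ℝ) ^ 2 := by gcongr
        _ = ε n * (δ n * N n) ^ 2 := by ring
        _ ≤ ε n * (R' + 2 * δ n) ^ 2 := mul_le_mul_of_nonneg_left h4 (hε0 n)
    have h2 : |mm n * unif (N n) v| ≤ |mm n| / (N n : ℝ) ^ 2 := by
      rw [abs_mul, div_eq_mul_one_div]
      exact mul_le_mul_of_nonneg_left (unif_le (hNpos n) v) (abs_nonneg _)
    have h3 : d n v = (b n v - samp (δ n) g v) + mm n * unif (N n) v := by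
      simp [hd]
    rw [h3, hβ]
    simp only
    rw [add_div]
    exact (abs_add_le _ _).trans (add_le_add h1 h2)
  have hδ1 : ∀ᶠ n in atTop, δ n ≤ 1 := hδ0.eventually (ge_mem_nhds one_pos)
  have hmm0 : ∀ᶠ n in atTop, |mm n| ≤ C₁ * δ n := by
    filter_upwards [hδ1] with n hn
    have := hC₁ (δ n) (hδ n) hn
    rwa [h0, sub_zero] at this
  have hmmlim : Tendsto (fun n => |mm n|) atTop (𝓝 0) := by
    refine squeeze_zero' (Eventually.of_forall fun n => abs_nonneg _) hmm0 ?_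
    simpa using hδ0.const_mul C₁
  have hβlim : Tendsto β atTop (𝓝 0) := by
    have h1 : Tendsto (fun n => (R' + 2 * δ n) ^ 2) atTop (𝓝 ((R' + 2 * 0) ^ 2)) :=
      ((hδ0.const_mul 2).const_add R').pow 2
    have h2 := (hε.mul h1).add hmmlim
    simpa using h2
  have hL2 : Tendsto (fun n => ∫ ω, (XL (d n) ω) ^ 2 ∂P) atTop (𝓝 0) := by
    refine squeeze_zero (fun n => integral_nonneg fun _ => sq_nonneg _)
      (fun n => hC₃ (N n) (hNpos n) (d n) (hdsupp n) (hd0 n) (β n) (hβ0 n) (hdle n)) ?_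
    have := (hβlim.pow 2).const_mul C₃
    simpa using this
  have hL1 := tendsto_L1_of_L2 hP hL2
  have hU : Tendsto (fun n => |mm n| * ∫ ω, |XL (unif (N n)) ω| ∂P) atTop (𝓝 0) := by
    have h1 : ∀ᶠ n in atTop, |mm n| * ∫ ω, |XL (unif (N n)) ω| ∂P ≤
        C₁ * C₂ * (δ n + 2 * (√(δ n) * √(R' + 2 * δ n))) := by
      filter_upwards [hmm0] with n hn
      have h2 := hC₂ (N n) (hNpos n)
      have h3 : Real.log (N n) ≤ 2 * √(N n : ℝ) :=
        log_le_two_sqrt (by have := hNpos' n; positivity)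
      have h4 : δ n * √(N n : ℝ) ≤ √(δ n) * √(R' + 2 * δ n) := by
        have h5 : δ n * √(N n : ℝ) = √(δ n) * √(δ n * N n) := by
          rw [Real.sqrt_mul (hδ n).le, ← mul_assoc, Real.mul_self_sqrt (hδ n).le]
        rw [h5]
        exact mul_le_mul_of_nonneg_left (Real.sqrt_le_sqrt (mul_NN'_le hR'0 (hδ n)))
          (Real.sqrt_nonneg _)
      have h0' : 0 ≤ ∫ ω, |XL (unif (N n)) ω| ∂P := integral_nonneg fun _ => abs_nonneg _
      have h6 : 1 + Real.log (N n) ≤ 1 + 2 * √(N n : ℝ) := by linarith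
      calc |mm n| * ∫ ω, |XL (unif (N n)) ω| ∂P
          ≤ (C₁ * δ n) * (C₂ * (1 + 2 * √(N n : ℝ))) := by
            refine mul_le_mul hn (h2.trans (mul_le_mul_of_nonneg_left h6 hC₂0)) h0' ?_
            have := hδ n
            positivity
        _ = C₁ * C₂ * (δ n + 2 * (δ n * √(N n : ℝ))) := by ring
        _ ≤ C₁ * C₂ * (δ n + 2 * (√(δ n) * √(R' + 2 * δ n))) := by gcongr
    refine squeeze_zero' (Eventually.of_forall fun n => by positivity) h1 ?_
    have h2 : Tendsto (fun n => √(δ n) * √(R' + 2 * δ n)) atTop (𝓝 (√0 * √(R' + 2 * 0))) :=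
      (hδ0.sqrt).mul (((hδ0.const_mul 2).const_add R').sqrt)
    have h3 := ((hδ0.add (h2.const_mul 2)).const_mul (C₁ * C₂))
    simpa using h3
  have hdiff : Tendsto (fun n => (∫ ω, Real.cos (XL (b n) ω) ∂P) -
      ∫ ω, Real.cos (XL (samp (δ n) g) ω) ∂P) atTop (𝓝 0) := by
    refine squeeze_zero_norm (a := fun n => (∫ ω, |XL (d n) ω| ∂P) +
      |mm n| * ∫ ω, |XL (unif (N n)) ω| ∂P) (fun n => ?_) (by simpa using hL1.add hU)
    rw [Real.norm_eq_abs]
    refine (abs_integral_cos_sub_le hP _ _).trans ?_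
    have e2 : ∀ ω, XL (b n - samp (δ n) g) ω = XL (d n) ω - mm n * XL (unif (N n)) ω := by
      intro ω
      simp only [hd, XL_add, XL_smul]
      ring
    rw [← integral_const_mul, ← integral_add (integrable_XL hP _).abs
      ((integrable_XL hP _).abs.const_mul _)]
    refine integral_mono (integrable_XL hP _).abs
      ((integrable_XL hP _).abs.add ((integrable_XL hP _).abs.const_mul _)) fun ω => ?_
    simp only
    rw [e2 ω, ← abs_mul]
    exact abs_sub _ _
  have := hlaw.add hdiff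
  rw [add_zero] at this
  refine this.congr fun n => ?_
  ring

end Crest.Agent.R161.Law373
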