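import Mathlib.MeasureTheory.Integral.Pi
import Mathlib.MeasureTheory.Integral.DominatedConvergence
import Mathlib.MeasureTheory.Integral.IntervalIntegral.Basic
import Mathlib.Analysis.SpecialFunctions.Integrals.Basic
import Mathlib.Analysis.Fourier.AddCircle

/-!
R161, STEP 6 (helper695): "all circuits at the same level" through characters.

`1{k_i = k_{i₀} for all i} = ∫_{[0,1]^ι} exp(2πi ∑ θ_i (k_i - k_{i₀})) dθ`, and the resulting
dominated convergence statement: smallness of all charged expectations gives smallness of the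
expectation on the event of equal levels.
-/

set_option autoImplicit false

namespace Crest.Agent.R161.Lev695

open MeasureTheory Filter Topology
open scoped BigOperators

/-- the uniform probability measure on `[0,1]` -/
noncomputable def u01 : Measure ℝ := volume.restrict (Set.Ioc 0 1)

instance : IsProbabilityMeasure u01 := ⟨by simp [u01]⟩

/-- uniform measure on the cube `[0,1]^ι` -/
noncomputable def cube (ι : Type*) [Fintype ι] : Measure (ι → ℝ) := Measure.pi fun _ : ι => u01

instance (ι : Type*) [Fintype ι] : IsProbabilityMeasure (cube ι) := by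
  unfold cube; infer_instance

/-- one dimensional character orthogonality -/
lemma integral_char (n : ℤ) :
    ∫ t, Complex.exp (2 * Real.pi * Complex.I * t * n) ∂u01 = if n = 0 then 1 else 0 := by
  unfold u01
  rw [← intervalIntegral.integral_of_le (zero_le_one)]
  by_cases hn : n = 0
  · simp [hn]
  · rw [if_neg hn]
    have hc : (2 * Real.pi * Complex.I * n : ℂ) ≠ 0 := by
      simp [hn, Real.pi_ne_zero]
    have e : ∀ t : ℝ, Complex.exp (2 * Real.pi * Complex.I * t * n)
        = Complex.exp ((2 * Real.pi * Complex.I * n) * t) := fun t => by ring_nf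
    simp_rw [e]
    rw [integral_exp_mul_complex hc]
    have h1 : Complex.exp (2 * Real.pi * Complex.I * n * (1 : ℝ)) = 1 := by
      rw [Complex.exp_eq_one_iff]
      exact ⟨n, by push_cast; ring⟩
    rw [h1]
    simp

/-- the indicator of `k i = k₀` for all `i` as an average of characters -/
lemma indicator_eq {ι : Type*} [Fintype ι] (k : ι → ℤ) (k₀ : ℤ) :
    (if ∀ i, k i = k₀ then (1 : ℂ) else 0)
      = ∫ θ, Complex.exp (2 * Real.pi * Complex.I * ∑ i, (θ i : ℂ) * ((k i - k₀ : ℤ) : ℂ))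
          ∂(cube ι) := by
  have e : ∀ θ : ι → ℝ,
      Complex.exp (2 * Real.pi * Complex.I * ∑ i, (θ i : ℂ) * ((k i - k₀ : ℤ) : ℂ))
      = ∏ i, Complex.exp (2 * Real.pi * Complex.I * (θ i : ℂ) * ((k i - k₀ : ℤ) : ℂ)) := by
    intro θ
    rw [Finset.mul_sum, Complex.exp_sum]
    exact Finset.prod_congr rfl fun i _ => by rw [mul_assoc (2 * Real.pi * Complex.I)]
  simp_rw [e]
  unfold cube
  rw [integral_fintype_prod_eq_prod (𝕜 := ℂ)
    (f := fun i (t : ℝ) => Complex.exp (2 * Real.pi * Complex.I * (t : ℂ) * ((k i - k₀ : ℤ) : ℂ)))]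
  simp_rw [integral_char]
  by_cases h : ∀ i, k i = k₀
  · simp [h]
  · rw [if_neg h]
    push Not at h
    obtain ⟨i, hi⟩ := h
    symm
    exact Finset.prod_eq_zero (Finset.mem_univ i) (by simp [sub_eq_zero, hi])

lemma norm_exp_I (x : ℝ) : ‖Complex.exp (2 * Real.pi * Complex.I * x)‖ = 1 := by
  have : (2 * Real.pi * Complex.I * x : ℂ) = ((2 * Real.pi * x : ℝ) : ℂ) * Complex.I := by
    push_cast; ring
  rw [this, Complex.norm_exp_ofReal_mul_I]

/-- character sums with integer coefficients -/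
lemma norm_char {ι : Type*} [Fintype ι] (k : ι → ℤ) (k₀ : ℤ) (θ : ι → ℝ) :
    ‖Complex.exp (2 * Real.pi * Complex.I * ∑ i, (θ i : ℂ) * ((k i - k₀ : ℤ) : ℂ))‖ = 1 := by
  have : (∑ i, (θ i : ℂ) * ((k i - k₀ : ℤ) : ℂ)) = ((∑ i, θ i * ((k i - k₀ : ℤ) : ℝ) : ℝ) : ℂ) := by
    push_cast; rfl
  rw [this, norm_exp_I]

/-- Fubini for the indicator of equal levels. -/
theorem integral_level {Ω : Type*} [MeasurableSpace Ω] (μ : Measure Ω) [IsProbabilityMeasure μ]
    {ι : Type*} [Fintype ι] (k : ι → Ω → ℤ) (k₀ : Ω → ℤ) (hk : ∀ i, Measurable (k i))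
    (hk₀ : Measurable k₀) (G : Ω → ℂ) (hG : Integrable G μ) :
    ∫ ω, G ω * (if ∀ i, k i ω = k₀ ω then (1 : ℂ) else 0) ∂μ
      = ∫ θ, (∫ ω, G ω *
          Complex.exp (2 * Real.pi * Complex.I * ∑ i, (θ i : ℂ) * ((k i ω - k₀ ω : ℤ) : ℂ)) ∂μ)
          ∂(cube ι) := by
  have hmeas : Measurable fun p : (ι → ℝ) × Ω =>
      Complex.exp (2 * Real.pi * Complex.I *
        ∑ i, (p.1 i : ℂ) * ((k i p.2 - k₀ p.2 : ℤ) : ℂ)) := by
    refine Complex.measurable_exp.comp (measurable_const.mul ?_)
    refine Finset.measurable_sum _ fun i _ => ?_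
    refine Measurable.mul ?_ ?_
    · exact Complex.measurable_ofReal.comp ((measurable_pi_apply i).comp measurable_fst)
    · exact (measurable_of_countable fun n : ℤ => (n : ℂ)).comp
        (((hk i).comp measurable_snd).sub (hk₀.comp measurable_snd))
  rw [integral_integral_swap]
  · refine integral_congr_ae (Eventually.of_forall fun ω => ?_)
    simp only
    rw [indicator_eq, integral_const_mul]
  · have h1 : Integrable (fun p : (ι → ℝ) × Ω => G p.2) ((cube ι).prod μ) :=
      hG.comp_snd (cube ι)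
    have h2 := h1.bdd_mul (c := 1) hmeas.aestronglyMeasurable
      (Eventually.of_forall fun p => (norm_char (fun i => k i p.2) (k₀ p.2) p.1).le)
    refine h2.congr (Eventually.of_forall fun p => ?_)
    simp only [Function.uncurry]
    ring

/-- **Equal levels, asymptotic form.**  If all charged expectations tend to `0` (boundedly), the
expectation on the event "all levels equal" tends to `0`. -/
theorem tendsto_level {α : Type*} {l : Filter α} [l.IsCountablyGenerated]
    {Ω : α → Type*} [∀ n, MeasurableSpace (Ω n)] (μ : ∀ n, Measure (Ω n))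
    [∀ n, IsProbabilityMeasure (μ n)] {ι : Type*} [Fintype ι]
    (k : ∀ n, ι → Ω n → ℤ) (k₀ : ∀ n, Ω n → ℤ) (hk : ∀ n i, Measurable (k n i))
    (hk₀ : ∀ n, Measurable (k₀ n)) (G : ∀ n, Ω n → ℂ) (C : ℝ)
    (hGm : ∀ n, AEStronglyMeasurable (G n) (μ n)) (hG : ∀ n ω, ‖G n ω‖ ≤ C)
    (h : ∀ θ : ι → ℝ, (∀ i, 0 < θ i ∧ θ i ≤ 1) → Tendsto (fun n => ∫ ω, G n ω *
      Complex.exp (2 * Real.pi * Complex.I * ∑ i, (θ i : ℂ) * ((k n i ω - k₀ n ω : ℤ) : ℂ)) ∂(μ n))
      l (𝓝 0)) :
    Tendsto (fun n => ∫ ω, G n ω * (if ∀ i, k n i ω = k₀ n ω then (1 : ℂ) else 0) ∂(μ n))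
      l (𝓝 0) := by
  have hGi : ∀ n, Integrable (G n) (μ n) := fun n =>
    Integrable.of_bound (hGm n) C (Eventually.of_forall (hG n))
  have e : ∀ n, ∫ ω, G n ω * (if ∀ i, k n i ω = k₀ n ω then (1 : ℂ) else 0) ∂(μ n)
      = ∫ θ, (∫ ω, G n ω *
          Complex.exp (2 * Real.pi * Complex.I * ∑ i, (θ i : ℂ) * ((k n i ω - k₀ n ω : ℤ) : ℂ))
          ∂(μ n)) ∂(cube ι) := fun n =>
    integral_level (μ n) (k n) (k₀ n) (hk n) (hk₀ n) (G n) (hGi n)
  simp_rw [e]
  have h0 : (0 : ℂ) = ∫ _θ : ι → ℝ, (0 : ℂ) ∂(cube ι) := by simp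
  rw [h0]
  refine tendsto_integral_filter_of_dominated_convergence (fun _ => C) ?_ ?_ ?_ ?_
  · refine Eventually.of_forall fun n => ?_
    have hmeas : Measurable fun p : (ι → ℝ) × Ω n =>
        Complex.exp (2 * Real.pi * Complex.I *
          ∑ i, (p.1 i : ℂ) * ((k n i p.2 - k₀ n p.2 : ℤ) : ℂ)) := by
      refine Complex.measurable_exp.comp (measurable_const.mul ?_)
      refine Finset.measurable_sum _ fun i _ => ?_
      refine Measurable.mul ?_ ?_
      · exact Complex.measurable_ofReal.comp ((measurable_pi_apply i).comp measurable_fst)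
      · exact (measurable_of_countable fun n : ℤ => (n : ℂ)).comp
          (((hk n i).comp measurable_snd).sub ((hk₀ n).comp measurable_snd))
    have h1 : AEStronglyMeasurable (fun p : (ι → ℝ) × Ω n => G n p.2 *
        Complex.exp (2 * Real.pi * Complex.I *
          ∑ i, (p.1 i : ℂ) * ((k n i p.2 - k₀ n p.2 : ℤ) : ℂ))) ((cube ι).prod (μ n)) :=
      (hGm n).comp_snd.mul hmeas.aestronglyMeasurable
    exact h1.integral_prod_right'
  · refine Eventually.of_forall fun n => Eventually.of_forall fun θ => ?_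
    refine (norm_integral_le_of_norm_le_const (C := C) (Eventually.of_forall fun ω => ?_)).trans ?_
    · rw [norm_mul, norm_char, mul_one]
      exact hG n ω
    · simp
  · exact integrable_const _
  · have hae : ∀ᵐ θ ∂(cube ι), ∀ i, 0 < θ i ∧ θ i ≤ 1 := by
      rw [ae_all_iff]
      intro i
      have h2 : ∀ᵐ t ∂u01, 0 < t ∧ t ≤ 1 := by
        unfold u01
        exact (ae_restrict_iff' measurableSet_Ioc).2 (Eventually.of_forall fun t ht => ht)
      exact (Measure.quasiMeasurePreserving_eval (fun _ : ι => u01) i).ae h2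
    filter_upwards [hae] with θ hθ
    exact h θ hθ

end Crest.Agent.R161.Lev695
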