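import Crest.Agent.R161.LkL_159

/-!
# Row 161, block J (helper159): from S0211's law (signed measures on `ℝ × ℝ`, six-vertex
coordinates) to smooth densities on `ℂ` (AT coordinates)

* `T : ℝ × ℝ → ℂ` coordinates; `map_T`.
* `muf f` : the signed measure with density; `hp_muf`, `energy_muf`, `finiteEnergy_muf`.
* `law_YY` : law of `YY f (xB δ)`.
-/

set_option autoImplicit false

noncomputable section

open Filter Topology MeasureTheory
open Finset hiding box
open scoped ENNReal
open Crest.ProbabilityR.SixVertex
open Crest.Agent.R150.Hgt989 Crest.Agent.R150.Pln989 Crest.Agent.R150.Pls989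
open Crest.Agent.R150.Red989
open Crest.Agent.R161.Green722 (Tst)

namespace Crest.Agent.R161.Lk159

variable {c : ℝ} {P : Measure Conf}

/-! ### coordinates -/

/-- AT coordinates of the point `p` of the six-vertex plane -/
def T (p : ℝ × ℝ) : ℂ := ⟨(p.1 - p.2) / 2, (p.1 + p.2) / 2⟩

/-- inverse coordinates -/
def Ti (z : ℂ) : ℝ × ℝ := (z.re + z.im, z.im - z.re)

lemma Ti_T (p : ℝ × ℝ) : Ti (T p) = p := by
  ext
  · simp [Ti, T]; ring
  · simp [Ti, T]; ring

lemma T_Ti (z : ℂ) : T (Ti z) = z := by
  apply Complex.ext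
  · simp only [Ti, T]; ring
  · simp only [Ti, T]; ring

lemma T_eq_mul (p : ℝ × ℝ) :
    T p = (⟨1 / 2, 1 / 2⟩ : ℂ) * Complex.measurableEquivRealProd.symm p := by
  rw [Complex.measurableEquivRealProd_symm_apply]
  apply Complex.ext
  · simp [T]; ring
  · simp [T]; ring

lemma continuous_T : Continuous T := by
  have : T = fun p : ℝ × ℝ => (((p.1 - p.2) / 2 : ℝ) : ℂ) + (((p.1 + p.2) / 2 : ℝ) : ℂ) * Complex.I := by
    funext p
    apply Complex.ext <;> simp [T]
  rw [this]
  fun_prop

lemma measurable_T : Measurable T := continuous_T.measurable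

lemma measurable_Ti : Measurable Ti := by
  unfold Ti
  exact (Complex.measurable_re.add Complex.measurable_im).prodMk
    (Complex.measurable_im.sub Complex.measurable_re)

/-- the coordinates as a measurable equivalence -/
def eT : ℝ × ℝ ≃ᵐ ℂ where
  toFun := T
  invFun := Ti
  left_inv := Ti_T
  right_inv := T_Ti
  measurable_toFun := measurable_T
  measurable_invFun := measurable_Ti

lemma map_mul_left (a : ℂ) (ha : a ≠ 0) :
    Measure.map (fun z : ℂ => a * z) volume =
      ENNReal.ofReal |(Complex.normSq a)⁻¹| • (volume : Measure ℂ) := by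
  have h := Measure.map_linearMap_addHaar_eq_smul_addHaar (volume : Measure ℂ)
    (f := Algebra.lmul ℝ ℂ a) (by
      rw [← Algebra.norm_apply, Algebra.norm_complex_apply]
      exact (Complex.normSq_pos.2 ha).ne')
  rw [← Algebra.norm_apply, Algebra.norm_complex_apply] at h
  exact h

lemma map_T : Measure.map T (volume : Measure (ℝ × ℝ)) = (2 : ℝ≥0∞) • (volume : Measure ℂ) := by
  have h1 : T = (fun z : ℂ => (⟨1 / 2, 1 / 2⟩ : ℂ) * z) ∘ Complex.measurableEquivRealProd.symm := by
    funext p
    exact T_eq_mul p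
  rw [h1, ← Measure.map_map (by fun_prop) (MeasurableEquiv.measurable _),
    Complex.volume_preserving_equiv_real_prod.symm.map_eq, map_mul_left]
  · congr 1
    have : Complex.normSq (⟨1 / 2, 1 / 2⟩ : ℂ) = 1 / 2 := by
      simp [Complex.normSq_apply]; norm_num
    rw [this]
    norm_num
  · intro h
    have := congrArg Complex.re h
    norm_num at this

lemma mp_T : MeasurePreserving T (volume : Measure (ℝ × ℝ)) ((2 : ℝ≥0∞) • (volume : Measure ℂ)) :=
  ⟨measurable_T, map_T⟩

lemma emb_T : MeasurableEmbedding T := eT.measurableEmbedding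

lemma integral_T (φ : ℂ → ℝ) : ∫ p, φ (T p) = 2 * ∫ z, φ z := by
  rw [mp_T.integral_comp emb_T, integral_smul_measure]
  simp

lemma integrable_T {φ : ℂ → ℝ} (h : Integrable φ) : Integrable fun p => φ (T p) := by
  have : Integrable φ ((2 : ℝ≥0∞) • (volume : Measure ℂ)) := h.smul_measure (by simp)
  exact mp_T.integrable_comp_of_integrable this

lemma integrable_T2 {φ : ℂ × ℂ → ℝ} (h : Integrable φ) :
    Integrable fun p : (ℝ × ℝ) × (ℝ × ℝ) => φ (T p.1, T p.2) := by
  have hm : MeasurePreserving (Prod.map T T) ((volume : Measure (ℝ × ℝ)).prod volume)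
      (((2 : ℝ≥0∞) • (volume : Measure ℂ)).prod ((2 : ℝ≥0∞) • (volume : Measure ℂ))) :=
    mp_T.prod mp_T
  have h1 : Integrable φ
      (((2 : ℝ≥0∞) • (volume : Measure ℂ)).prod ((2 : ℝ≥0∞) • (volume : Measure ℂ))) := by
    rw [Measure.prod_smul_left, Measure.prod_smul_right]
    exact (h.smul_measure (by simp)).smul_measure (by simp)
  exact hm.integrable_comp_of_integrable h1

lemma euclidDist_eq (x y : ℝ × ℝ) : euclidDist x y = Real.sqrt 2 * ‖T x - T y‖ := by
  have h : (x.1 - y.1) ^ 2 + (x.2 - y.2) ^ 2 = 2 * ‖T x - T y‖ ^ 2 := by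
    rw [← Complex.normSq_eq_norm_sq, Complex.normSq_apply]
    simp only [T, Complex.sub_re, Complex.sub_im]
    ring
  unfold euclidDist
  rw [h, Real.sqrt_mul (by norm_num), Real.sqrt_sq (norm_nonneg _)]

/-! ### integrals against densities -/

section dens

variable {X : Type*} [MeasurableSpace X] {ν : Measure X} {F φ : X → ℝ}

lemma integral_withDensityV (hF : Integrable F ν) (hFm : Measurable F)
    (hi : Integrable (fun x => φ x * F x) ν) :
    ∫ᵛ x, φ x ∂<•(ν.withDensityᵥ F) = ∫ x, φ x * F x ∂ν := by
  have hfin1 : IsFiniteMeasure (ν.withDensity fun x => ENNReal.ofReal (F x)) :=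
    isFiniteMeasure_withDensity_ofReal hF.2
  have hfin2 : IsFiniteMeasure (ν.withDensity fun x => ENNReal.ofReal (-F x)) :=
    isFiniteMeasure_withDensity_ofReal hF.neg.2
  have h0 : ν.withDensityᵥ F = (ν.withDensity fun x => ENNReal.ofReal (F x)).toSignedMeasure -
      (ν.withDensity fun x => ENNReal.ofReal (-F x)).toSignedMeasure :=
    withDensityᵥ_eq_withDensity_pos_part_sub_withDensity_neg_part hF
  have m1 : Measurable fun x => ENNReal.ofReal (F x) := hFm.ennreal_ofReal
  have m2 : Measurable fun x => ENNReal.ofReal (-F x) := hFm.neg.ennreal_ofReal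
  have l1 : ∀ᵐ x ∂ν, ENNReal.ofReal (F x) < ⊤ := Eventually.of_forall fun _ => ENNReal.ofReal_lt_top
  have l2 : ∀ᵐ x ∂ν, ENNReal.ofReal (-F x) < ⊤ := Eventually.of_forall fun _ => ENNReal.ofReal_lt_top
  have i1 : Integrable (fun x => (ENNReal.ofReal (F x)).toReal • φ x) ν := by
    refine Integrable.mono hi ?_ (Eventually.of_forall fun x => ?_)
    · have h1 : (fun x => (ENNReal.ofReal (F x)).toReal • φ x) =
          fun x => (if 0 < F x then 1 else 0) * (φ x * F x) := by
        funext x
        rw [ENNReal.toReal_ofReal', smul_eq_mul]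
        split_ifs with h
        · rw [max_eq_left h.le]; ring
        · rw [max_eq_right (not_lt.1 h)]; ring
      rw [h1]
      exact ((Measurable.ite (measurableSet_lt measurable_const hFm) measurable_const
        measurable_const).aestronglyMeasurable).mul hi.1
    · rw [ENNReal.toReal_ofReal', smul_eq_mul, norm_mul, norm_mul, mul_comm ‖φ x‖]
      gcongr
      rw [Real.norm_eq_abs, Real.norm_eq_abs, abs_of_nonneg (le_max_right _ _)]
      exact max_le (le_abs_self _) (abs_nonneg _)
  have i2 : Integrable (fun x => (ENNReal.ofReal (-F x)).toReal • φ x) ν := by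
    refine Integrable.mono hi ?_ (Eventually.of_forall fun x => ?_)
    · have h1 : (fun x => (ENNReal.ofReal (-F x)).toReal • φ x) =
          fun x => (if F x < 0 then -1 else 0) * (φ x * F x) := by
        funext x
        rw [ENNReal.toReal_ofReal', smul_eq_mul]
        split_ifs with h
        · rw [max_eq_left (by linarith)]; ring
        · rw [max_eq_right (by linarith [not_lt.1 h])]; ring
      rw [h1]
      exact ((Measurable.ite (measurableSet_lt hFm measurable_const) measurable_const
        measurable_const).aestronglyMeasurable).mul hi.1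
    · rw [ENNReal.toReal_ofReal', smul_eq_mul, norm_mul, norm_mul, mul_comm ‖φ x‖]
      gcongr
      rw [Real.norm_eq_abs, Real.norm_eq_abs, abs_of_nonneg (le_max_right _ _)]
      exact max_le (neg_le_abs _) (abs_nonneg _)
  rw [h0, VectorMeasure.integral_sub_vectorMeasure, VectorMeasure.integral_toSignedMeasure,
    VectorMeasure.integral_toSignedMeasure,
    integral_withDensity_eq_integral_toReal_smul m1 l1,
    integral_withDensity_eq_integral_toReal_smul m2 l2, ← integral_sub i1 i2]
  · refine integral_congr_ae (Eventually.of_forall fun x => ?_)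
    simp only [ENNReal.toReal_ofReal', smul_eq_mul]
    rcases le_total 0 (F x) with h | h
    · rw [max_eq_left h, max_eq_right (by linarith)]; ring
    · rw [max_eq_right h, max_eq_left (by linarith)]; ring
  · simp only [VectorMeasure.Integrable, Measure.variation_toSignedMeasure]
    rw [integrable_withDensity_iff_integrable_smul₀' m1.aemeasurable l1]
    exact i1
  · simp only [VectorMeasure.Integrable, Measure.variation_toSignedMeasure]
    rw [integrable_withDensity_iff_integrable_smul₀' m2.aemeasurable l2]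
    exact i2

end dens

/-! ### the signed measure with density `f` -/

/-- the density in six-vertex coordinates -/
def dn (f : ℂ → ℝ) (p : ℝ × ℝ) : ℝ := f (T p) / 2

/-- the signed measure -/
def muf (f : ℂ → ℝ) : SignedMeasure (ℝ × ℝ) := (volume : Measure (ℝ × ℝ)).withDensityᵥ (dn f)

variable {r δ : ℝ} {f g : ℂ → ℝ}

lemma measurable_dn (hf : Tst r f) : Measurable (dn f) := (hf.meas.comp measurable_T).div_const 2

lemma integrable_dn (hf : Tst r f) : Integrable (dn f) := (integrable_T hf.integrable).div_const 2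

lemma integral_dn (f : ℂ → ℝ) : ∫ p, dn f p = ∫ z, f z := by
  unfold dn
  rw [integral_div, integral_T]
  ring

lemma dn_zero (hf : Tst r f) {p : ℝ × ℝ} (hp : 2 * r < ‖p‖) : dn f p = 0 := by
  unfold dn
  rw [hf.supp, zero_div]
  by_contra hcon
  have h1 : ‖T p‖ ≤ r := not_lt.1 hcon
  have h2 : p = Ti (T p) := (Ti_T p).symm
  have h3 := (Complex.abs_re_le_norm (T p)).trans h1
  have h4 := (Complex.abs_im_le_norm (T p)).trans h1
  have h5 : ‖p‖ ≤ 2 * r := by
    rw [h2, Prod.norm_def, Real.norm_eq_abs, Real.norm_eq_abs]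
    simp only [Ti]
    rw [abs_le] at h3 h4
    refine max_le ?_ ?_
    · rw [abs_le]; constructor <;> linarith [h3.1, h3.2, h4.1, h4.2]
    · rw [abs_le]; constructor <;> linarith [h3.1, h3.2, h4.1, h4.2]
  linarith

lemma variation_muf (hf : Tst r f) :
    (muf f).variation = (volume : Measure (ℝ × ℝ)).withDensity fun p => ‖dn f p‖ₑ :=
  Measure.variation_withDensityᵥ (integrable_dn hf)

lemma muf_univ (hf : Tst r f) : muf f Set.univ = ∫ z, f z := by
  unfold muf
  rw [withDensityᵥ_apply (integrable_dn hf) MeasurableSet.univ, Measure.restrict_univ,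
    integral_dn]

lemma muf_compact (hf : Tst r f) :
    ∃ K : Set (ℝ × ℝ), IsCompact K ∧ (muf f).variation Kᶜ = 0 := by
  refine ⟨Metric.closedBall 0 (2 * r), isCompact_closedBall _ _, ?_⟩
  rw [variation_muf hf, withDensity_apply _ (Metric.isClosed_closedBall.measurableSet.compl)]
  rw [setLIntegral_congr_fun (g := fun _ => 0) Metric.isClosed_closedBall.measurableSet.compl]
  · simp
  · intro p hp
    have : 2 * r < ‖p‖ := by simpa using hp
    simp only [dn_zero hf this, enorm_zero]

/-- the site map of the six-vertex faces -/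
def xB (δ : ℝ) (z : ℂ) : ℤ × ℤ := (⌊(Ti z).1 / δ⌋, ⌊(Ti z).2 / δ⌋)

lemma sm_xB (hδ : 0 < δ) : SM δ (xB δ) where
  meas := by
    unfold xB
    exact (Int.measurable_floor.comp ((measurable_fst.comp measurable_Ti).div_const δ)).prodMk
      (Int.measurable_floor.comp ((measurable_snd.comp measurable_Ti).div_const δ))
  close := by
    intro z
    have ha1 := Int.floor_le ((Ti z).1 / δ)
    have ha2 := Int.lt_floor_add_one ((Ti z).1 / δ)
    have hb1 := Int.floor_le ((Ti z).2 / δ)
    have hb2 := Int.lt_floor_add_one ((Ti z).2 / δ)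
    rw [le_div_iff₀ hδ] at ha1 hb1
    rw [div_lt_iff₀ hδ] at ha2 hb2
    simp only [Ti] at ha1 ha2 hb1 hb2
    have h1 : |((δ : ℂ) * q (xB δ z) - z).re| ≤ δ := by
      simp only [xB, q, Ti, Complex.sub_re, Complex.mul_re, Complex.ofReal_re, Complex.ofReal_im,
        zero_mul, sub_zero]
      rw [abs_le]
      constructor <;> nlinarith
    have h2 : |((δ : ℂ) * q (xB δ z) - z).im| ≤ δ := by
      simp only [xB, q, Ti, Complex.sub_im, Complex.mul_im, Complex.ofReal_re, Complex.ofReal_im,
        zero_mul, add_zero]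
      rw [abs_le]
      constructor <;> nlinarith
    refine (Complex.norm_le_abs_re_add_abs_im _).trans ?_
    linarith

lemma H_xB (ω : Conf) (p : ℝ × ℝ) (δ : ℝ) : H ω (xB δ (T p)) = hgt ω δ p := by
  unfold xB H hgt
  rw [Ti_T]

lemma integrable_mul_dn (hf : Tst r f) (δ : ℝ) (ω : Conf) :
    Integrable (fun p => hgt ω δ p * dn f p) := by
  obtain ⟨C, hC⟩ := abs_hgt_le (isCompact_closedBall (0 : ℝ × ℝ) (2 * r)) δ ω
  refine Integrable.mono' ((integrable_dn hf).norm.const_mul |C|) ?_ ?_
  · exact ((measurable_hgt ω δ).mul (measurable_dn hf)).aestronglyMeasurable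
  · refine Eventually.of_forall fun p => ?_
    rw [norm_mul]
    by_cases hp : ‖p‖ ≤ 2 * r
    · have h1 := hC p (by simpa using hp)
      have h2 : ‖hgt ω δ p‖ ≤ |C| := by
        rw [Real.norm_eq_abs]
        exact h1.trans (le_abs_self C)
      gcongr
    · rw [dn_zero hf (not_le.1 hp)]
      simp

lemma hp_muf (hf : Tst r f) (δ : ℝ) (ω : Conf) : hp δ (muf f) ω = YY f (xB δ) ω := by
  unfold hp muf
  rw [integral_withDensityV (integrable_dn hf) (measurable_dn hf) (integrable_mul_dn hf δ ω)]
  unfold YY
  have h1 := integral_T (fun z => f z * H ω (xB δ z) / 2)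
  have h3 : ∫ z, f z * H ω (xB δ z) / 2 = (∫ z, f z * H ω (xB δ z)) / 2 := integral_div _ _
  rw [h3] at h1
  have h2 : ∫ z, f z * H ω (xB δ z) = 2 * ((∫ z, f z * H ω (xB δ z)) / 2) := by ring
  rw [h2, ← h1]
  refine integral_congr_ae (Eventually.of_forall fun p => ?_)
  simp only [dn]
  rw [H_xB]
  ring

/-! ### energy -/

/-- the product integrand in six-vertex coordinates -/
lemma integrable_green (hf : Tst r f) (hg : Tst r g) :
    Integrable fun p : (ℝ × ℝ) × (ℝ × ℝ) => dn f p.1 * greenKernel p.1 p.2 * dn g p.2 := by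
  have h1 := Crest.Agent.R161.Green722.integrable_log_kernel hf hg
  have h2 : Integrable (fun p : ℂ × ℂ => f p.1 * g p.2) := hf.integrable.mul_prod hg.integrable
  have h3 : Integrable (fun p : ℂ × ℂ => -(2 * Real.pi)⁻¹ / 4 * (f p.1 * Real.log ‖p.1 - p.2‖ * g p.2) +
      -(2 * Real.pi)⁻¹ / 4 * Real.log (Real.sqrt 2) * (f p.1 * g p.2)) :=
    (h1.const_mul _).add (h2.const_mul _)
  have h4 := integrable_T2 h3
  refine h4.congr ?_
  have hne : ∀ᵐ p : (ℝ × ℝ) × (ℝ × ℝ), p.1 ≠ p.2 := by
    have h1 : ∀ᵐ p : (ℝ × ℝ) × (ℝ × ℝ) ∂(volume.prod volume),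
        p ∈ {p : (ℝ × ℝ) × (ℝ × ℝ) | p.1 ≠ p.2} := by
      rw [Measure.ae_prod_mem_iff_ae_ae_mem]
      · refine Eventually.of_forall fun z => ?_
        have : ∀ᵐ w : ℝ × ℝ, w ≠ z := by rw [ae_iff]; simp
        filter_upwards [this] with w hw using hw.symm
      · exact (isOpen_ne_fun continuous_fst continuous_snd).measurableSet
    exact h1
  filter_upwards [hne] with p hp
  have hT : ‖T p.1 - T p.2‖ ≠ 0 := by
    rw [norm_ne_zero_iff, sub_ne_zero]
    exact fun h => hp (emb_T.injective h)
  simp only [dn, greenKernel, euclidDist_eq]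
  rw [Real.log_mul (by positivity) hT]
  ring

lemma ae_ne (x : ℝ × ℝ) : ∀ᵐ y : ℝ × ℝ, y ≠ x := by rw [ae_iff]; simp

lemma energy_muf (hf : Tst r f) (hf0 : ∫ z, f z = 0) : energy (muf f) = Ifc372.plog f f := by
  have hi := integrable_green hf hf
  have hvar := variation_muf hf
  have hac : (muf f).variation ≪ (volume : Measure (ℝ × ℝ)) := by
    rw [hvar]; exact withDensity_absolutelyContinuous _ _
  have hmd := measurable_dn hf
  -- integrability of the inner function for points with nonzero density
  have h1 : ∀ᵐ x ∂(muf f).variation, ∫ᵛ y, greenKernel x y ∂<•(muf f) =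
      ∫ y, greenKernel x y * dn f y := by
    have h2 : ∀ᵐ x : ℝ × ℝ, Integrable fun y => dn f x * greenKernel x y * dn f y :=
      hi.prod_right_ae
    have h3 : ∀ᵐ x ∂(muf f).variation, dn f x ≠ 0 := by
      rw [hvar, ae_withDensity_iff (by fun_prop)]
      refine Eventually.of_forall fun x hx => ?_
      intro h0
      apply hx
      rw [h0, enorm_zero]
    filter_upwards [hac h2, h3] with x hx hx0
    refine integral_withDensityV (integrable_dn hf) hmd ?_
    have h4 := hx.const_mul (dn f x)⁻¹
    refine h4.congr (Eventually.of_forall fun y => ?_)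
    simp only
    field_simp
  unfold energy
  rw [VectorMeasure.integral_congr_ae h1]
  have h5 : Integrable (fun x => (∫ y, greenKernel x y * dn f y) * dn f x) := by
    have h6 := hi.integral_prod_left
    refine h6.congr (Eventually.of_forall fun x => ?_)
    simp only
    rw [← integral_mul_const]
    refine integral_congr_ae (Eventually.of_forall fun y => ?_)
    simp only
    ring
  unfold muf
  rw [integral_withDensityV (integrable_dn hf) hmd h5]
  -- now change variables
  have h7 : ∀ x : ℝ × ℝ, ∫ y, greenKernel x y * dn f y =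
      ∫ w, -(2 * Real.pi)⁻¹ * Real.log ‖T x - w‖ * f w := by
    intro x
    have e1 := integral_T (fun w => -(2 * Real.pi)⁻¹ * Real.log ‖T x - w‖ * f w)
    have e2 : ∫ y, greenKernel x y * dn f y =
        ∫ y, ((-(2 * Real.pi)⁻¹ * Real.log ‖T x - T y‖ * f (T y)) / 2 +
          -(2 * Real.pi)⁻¹ * Real.log (Real.sqrt 2) * dn f y) := by
      refine integral_congr_ae ?_
      filter_upwards [ae_ne x] with y hy
      have hT : ‖T x - T y‖ ≠ 0 := by
        rw [norm_ne_zero_iff, sub_ne_zero]
        exact fun h => hy (emb_T.injective h).symm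
      simp only [dn, greenKernel, euclidDist_eq]
      rw [Real.log_mul (by positivity) hT]
      ring
    rw [e2]
    have hlogi : Integrable (fun w : ℂ => -(2 * Real.pi)⁻¹ * Real.log ‖T x - w‖ * f w) := by
      obtain ⟨A, hA⟩ := hf.bdd
      have hA0 : 0 ≤ A := (abs_nonneg _).trans (hA 0)
      have h8 := Crest.Agent.R161.Green722.integrableOn_log (‖T x‖ + r + 1)
      have h9 : Integrable (fun w : ℂ => (Metric.ball (0 : ℂ) (‖T x‖ + r + 1)).indicator
          (fun z => Real.log ‖z‖) (T x - w)) := by
        have := (integrable_indicator_iff Metric.isOpen_ball.measurableSet).2 h8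
        exact this.comp_sub_left (T x)
      refine Integrable.mono' ((h9.norm).const_mul A) ?_ ?_
      · exact ((((Real.measurable_log.comp (measurable_norm.comp
          (measurable_const.sub measurable_id))).const_mul _).mul hf.meas)).aestronglyMeasurable
      · refine Eventually.of_forall fun w => ?_
        by_cases hw : ‖w‖ ≤ r
        · rw [Set.indicator_of_mem]
          · rw [norm_mul, norm_mul, Real.norm_eq_abs, Real.norm_eq_abs (f w)]
            have h3 : |-(2 * Real.pi)⁻¹| ≤ 1 := by
              rw [abs_neg, abs_of_pos (by positivity)]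
              refine inv_le_one_of_one_le₀ ?_
              linarith [Real.pi_gt_three]
            calc |-(2 * Real.pi)⁻¹| * ‖Real.log ‖T x - w‖‖ * |f w|
                ≤ 1 * ‖Real.log ‖T x - w‖‖ * A := by
                  gcongr
                  exact hA w
              _ = _ := by ring
          · rw [Metric.mem_ball, dist_zero_right]
            have := norm_sub_le (T x) w
            linarith
        · rw [hf.supp w (not_le.1 hw), mul_zero, norm_zero]
          positivity
    rw [integral_add ((integrable_T hlogi).div_const 2) ((integrable_dn hf).const_mul _),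
      integral_const_mul, integral_dn, hf0, mul_zero, add_zero, integral_div, e1]
    ring
  simp only [h7]
  have h8 := integral_T (fun z => (∫ w, -(2 * Real.pi)⁻¹ * Real.log ‖z - w‖ * f w) * f z / 2)
  have h9 : ∫ x, (∫ w, -(2 * Real.pi)⁻¹ * Real.log ‖T x - w‖ * f w) * dn f x =
      ∫ p, (fun z => (∫ w, -(2 * Real.pi)⁻¹ * Real.log ‖z - w‖ * f w) * f z / 2) (T p) := by
    refine integral_congr_ae (Eventually.of_forall fun x => ?_)
    simp only [dn]
    ring
  rw [h9, h8, integral_div]
  unfold Ifc372.plog
  rw [mul_div_cancel₀ _ (by norm_num : (2 : ℝ) ≠ 0)]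
  refine integral_congr_ae (Eventually.of_forall fun z => ?_)
  simp only
  rw [← integral_mul_const]
  refine integral_congr_ae (Eventually.of_forall fun w => ?_)
  simp only
  ring

end Crest.Agent.R161.Lk159
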