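import Crest.Agent.R161.LkD_159

/-!
# Row 161, block J (helper159): PlaneGauss for the AT-coordinate state

* `law_YY` : law of `YY f (xB δ)`
* `XAT δ f ω = δ² ∑ H ω (rot v) f(δ v)`; comparison with `YY f (xA δ)`.
* `planeGauss_of` : `PlaneGauss c Q` for every measure `Q` on `Cfg` whose vertex heights are
  distributed as `kmap` of the plane state of row 150.
-/

set_option autoImplicit false

noncomputable section

open Filter Topology MeasureTheory
open Finset hiding box
open scoped ENNReal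
open Crest.ProbabilityR.SixVertex
open Crest.Agent.R150.Hgt989 Crest.Agent.R150.Pln989 Crest.Agent.R150.Pls989
open Crest.Agent.R150.Red989
open Crest.Agent.R161.Green722 (Tst)

namespace Crest.Agent.R161.Lk159

variable {c : ℝ} {P : Measure Conf} {r δ : ℝ} {f g : ℂ → ℝ}

lemma finiteEnergy_muf (hf : Tst r f) : HasFiniteEnergy (muf f) := by
  unfold HasFiniteEnergy
  have hmd := measurable_dn hf
  rw [variation_muf hf, prod_withDensity₀ (by fun_prop) (by fun_prop)]
  refine lt_of_le_of_lt (lintegral_withDensity_le_lintegral_mul _ (by fun_prop) _) ?_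
  have hi := (integrable_green hf hf).const_mul (2 * Real.pi)
  refine lt_of_le_of_lt ?_ hi.2
  refine lintegral_mono_ae ?_
  have hne : ∀ᵐ p : (ℝ × ℝ) × (ℝ × ℝ) ∂(volume.prod volume), p ∈ {p : (ℝ × ℝ) × (ℝ × ℝ) | p.1 ≠ p.2} := by
    rw [Measure.ae_prod_mem_iff_ae_ae_mem]
    · refine Eventually.of_forall fun z => ?_
      filter_upwards [ae_ne z] with w hw using hw.symm
    · exact (isOpen_ne_fun continuous_fst continuous_snd).measurableSet
  filter_upwards [hne] with p hp
  simp only [Pi.mul_apply]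
  unfold logPlusInvDist
  rw [if_neg hp]
  have e1 : 2 * Real.pi * (dn f p.1 * greenKernel p.1 p.2 * dn f p.2) =
      dn f p.1 * dn f p.2 * (-Real.log (euclidDist p.1 p.2)) := by
    unfold greenKernel
    have := Real.pi_pos
    field_simp
  rw [e1, enorm_mul, enorm_mul]
  gcongr
  exact Real.ofReal_le_enorm _

/-! ### the law -/

lemma integral_cos_gaussian (v : NNReal) (s : ℝ) :
    ∫ t, Real.cos (s * t) ∂ProbabilityTheory.gaussianReal 0 v = Real.exp (-(s ^ 2 * v / 2)) := by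
  have h := ProbabilityTheory.charFun_gaussianReal (μ := 0) (v := v) s
  rw [charFun_apply_real] at h
  have h2 := congrArg Complex.re h
  have hint : Integrable (fun x : ℝ => Complex.exp (s * x * Complex.I))
      (ProbabilityTheory.gaussianReal 0 v) := by
    refine Integrable.of_bound (C := 1) (by fun_prop) (Eventually.of_forall fun x => ?_)
    rw [show (s : ℂ) * x * Complex.I = ((s * x : ℝ) : ℂ) * Complex.I by push_cast; ring,
      Complex.norm_exp_ofReal_mul_I]
  have h3 : (∫ x, Complex.exp (s * x * Complex.I) ∂ProbabilityTheory.gaussianReal 0 v).re =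
      ∫ x, (Complex.exp (s * x * Complex.I)).re ∂ProbabilityTheory.gaussianReal 0 v := by
    have := integral_re (𝕜 := ℂ) hint
    exact this.symm
  rw [h3] at h2
  have h4 : ∀ x : ℝ, (Complex.exp (s * x * Complex.I)).re = Real.cos (s * x) := by
    intro x
    rw [show (s : ℂ) * x * Complex.I = ((s * x : ℝ) : ℂ) * Complex.I by push_cast; ring,
      Complex.exp_ofReal_mul_I_re]
  simp only [h4] at h2
  rw [h2]
  have : ((s : ℂ) * ((0 : ℝ) : ℂ) * Complex.I - ((v : ℝ) : ℂ) * s ^ 2 / 2) =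
      ((-(s ^ 2 * v / 2) : ℝ) : ℂ) := by
    push_cast; ring
  rw [this, ← Complex.ofReal_exp, Complex.ofReal_re]

/-- `cos (s ·)` as a bounded continuous function -/
def cosB (s : ℝ) : BoundedContinuousFunction ℝ ℝ :=
  BoundedContinuousFunction.ofNormedAddCommGroup (fun t => Real.cos (s * t)) (by fun_prop) 1
    fun t => by rw [Real.norm_eq_abs]; exact Real.abs_cos_le_one _

/-- the limit variance is nonnegative -/
lemma plog_nonneg (h : PlaneIn c P) (hr : 0 ≤ r) (hf : Tst r f) (hf0 : ∫ z, f z = 0) :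
    0 ≤ varianceMultiplier c * Ifc372.plog f f := by
  have h1 := cov_lim h hr hf hf hf0 hf0 (x := xB) (y := xB) (fun δ hδ => sm_xB hδ)
    (fun δ hδ => sm_xB hδ)
  exact ge_of_tendsto' h1 fun δ => integral_nonneg fun ω => mul_self_nonneg _

theorem law_YY (h : PlaneIn c P) (hr : 0 ≤ r) (hf : Tst r f) (hf0 : ∫ z, f z = 0) (s : ℝ) :
    Tendsto (fun δ : ℝ => ∫ ω, Real.cos (s * YY f (xB δ) ω) ∂P) (𝓝[>] 0)
      (𝓝 (Real.exp (-(s ^ 2 * (varianceMultiplier c * Ifc372.plog f f) / 2)))) := by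
  have h1 := h.law (muf f) (muf_compact hf) (by rw [muf_univ hf, hf0]) (finiteEnergy_muf hf) (cosB s)
  have e1 : ∫ t, cosB s t ∂ProbabilityTheory.gaussianReal 0
      (Real.toNNReal (varianceMultiplier c * energy (muf f))) =
      Real.exp (-(s ^ 2 * (varianceMultiplier c * Ifc372.plog f f) / 2)) := by
    change ∫ t, Real.cos (s * t) ∂_ = _
    rw [integral_cos_gaussian, energy_muf hf hf0, Real.coe_toNNReal _ (plog_nonneg h hr hf hf0)]
  rw [e1] at h1
  refine h1.congr fun δ => ?_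
  change ∫ ω, Real.cos (s * hp δ (muf f) ω) ∂P = _
  simp only [hp_muf hf]

/-! ### the AT lattice -/

/-- the six-vertex face at the AT vertex `v` -/
def rot (v : ℤ × ℤ) : ℤ × ℤ := (v.1 + v.2, v.2 - v.1)

lemma rot_injective : Function.Injective rot := by
  intro v w h
  simp only [rot, Prod.mk.injEq] at h
  ext <;> omega

lemma q_rot (v : ℤ × ℤ) : q (rot v) = (v.1 : ℂ) + (v.2 : ℂ) * Complex.I := by
  apply Complex.ext
  · simp [q, rot]; ring
  · simp [q, rot]; ring

/-- cell of the AT lattice containing `z` -/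
def fl (δ : ℝ) (z : ℂ) : ℤ × ℤ := (⌊z.re / δ⌋, ⌊z.im / δ⌋)

/-- site map of the AT vertices -/
def xA (δ : ℝ) (z : ℂ) : ℤ × ℤ := rot (fl δ z)

lemma measurable_fl (δ : ℝ) : Measurable (fl δ) := by
  unfold fl
  exact (Int.measurable_floor.comp (Complex.measurable_re.div_const δ)).prodMk
    (Int.measurable_floor.comp (Complex.measurable_im.div_const δ))

lemma fl_close (hδ : 0 < δ) (z : ℂ) : ‖Ifc372.ptC δ (fl δ z) - z‖ ≤ 2 * δ := by
  have ha1 := Int.floor_le (z.re / δ)
  have ha2 := Int.lt_floor_add_one (z.re / δ)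
  have hb1 := Int.floor_le (z.im / δ)
  have hb2 := Int.lt_floor_add_one (z.im / δ)
  rw [le_div_iff₀ hδ] at ha1 hb1
  rw [div_lt_iff₀ hδ] at ha2 hb2
  have h1 : |(Ifc372.ptC δ (fl δ z) - z).re| ≤ δ := by
    simp only [fl, Ifc372.ptC, Complex.sub_re, Complex.mul_re, Complex.add_re, Complex.intCast_re,
      Complex.intCast_im, Complex.I_re, Complex.I_im, Complex.ofReal_re, Complex.ofReal_im,
      zero_mul, sub_zero, mul_zero, add_zero]
    rw [abs_le]
    constructor <;> nlinarith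
  have h2 : |(Ifc372.ptC δ (fl δ z) - z).im| ≤ δ := by
    simp only [fl, Ifc372.ptC, Complex.sub_im, Complex.mul_im, Complex.add_im, Complex.mul_re,
      Complex.intCast_re, Complex.add_re,
      Complex.intCast_im, Complex.I_re, Complex.I_im, Complex.ofReal_re, Complex.ofReal_im,
      zero_mul, sub_zero, mul_zero, add_zero, mul_one, zero_add]
    rw [abs_le]
    constructor <;> nlinarith
  refine (Complex.norm_le_abs_re_add_abs_im _).trans ?_
  linarith

lemma sm_xA (hδ : 0 < δ) : SM δ (xA δ) where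
  meas := (measurable_of_countable rot).comp (measurable_fl δ)
  close := by
    intro z
    have : (δ : ℂ) * q (xA δ z) = Ifc372.ptC δ (fl δ z) := by
      unfold xA Ifc372.ptC
      rw [q_rot]
    rw [this]
    exact fl_close hδ z

/-- smeared vertex heights on the AT lattice -/
def XAT (δ : ℝ) (f : ℂ → ℝ) (ω : Conf) : ℝ := δ ^ 2 * ∑' v : ℤ × ℤ, H ω (rot v) * f (Ifc372.ptC δ v)

lemma norm_ptC (hδ : 0 < δ) (v : ℤ × ℤ) : δ * ‖v‖ ≤ ‖Ifc372.ptC δ v‖ := by
  have e : Ifc372.ptC δ v = (δ : ℂ) * q (rot v) := by rw [q_rot]; rfl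
  rw [e, norm_mul, Complex.norm_real, Real.norm_eq_abs, abs_of_pos hδ]
  refine mul_le_mul_of_nonneg_left ?_ hδ.le
  rw [q_rot, Prod.norm_def, Int.norm_eq_abs, Int.norm_eq_abs]
  have h1 := Complex.abs_re_le_norm ((v.1 : ℂ) + (v.2 : ℂ) * Complex.I)
  have h2 := Complex.abs_im_le_norm ((v.1 : ℂ) + (v.2 : ℂ) * Complex.I)
  simp at h1 h2
  exact max_le h1 h2

lemma ptC_zero (hf : Tst r f) (hδ : 0 < δ) {m : ℕ} (hm : r / δ ≤ m) {v : ℤ × ℤ} (hv : v ∉ box m) :
    f (Ifc372.ptC δ v) = 0 := by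
  refine hf.supp _ ?_
  have h1 := norm_of_not_mem hv
  have h2 := norm_ptC hδ v
  rw [div_le_iff₀ hδ] at hm
  nlinarith

lemma tsum_eq (hf : Tst r f) (hδ : 0 < δ) {m : ℕ} (hm : r / δ ≤ m) (φ : ℤ × ℤ → ℝ) :
    δ ^ 2 * ∑' v : ℤ × ℤ, φ v * f (Ifc372.ptC δ v) =
      ∑ v ∈ box m, (δ ^ 2 * f (Ifc372.ptC δ v)) * φ v := by
  rw [tsum_eq_sum (s := box m) fun v hv => by rw [ptC_zero hf hδ hm hv, mul_zero], mul_sum]
  exact sum_congr rfl fun v _ => by ring

lemma XAT_eq (hf : Tst r f) (hδ : 0 < δ) {m : ℕ} (hm : r / δ ≤ m) (ω : Conf) :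
    XAT δ f ω = XX (box m) (fun v => δ ^ 2 * f (Ifc372.ptC δ v)) rot ω := by
  unfold XAT XX
  exact tsum_eq hf hδ hm (fun v => H ω (rot v))

end Crest.Agent.R161.Lk159
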