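import Crest.Agent.R161.LkE_159

/-!
# Row 161, block J (helper159): law and variance of the AT-lattice smeared heights

* `var_AT`, `law_AT` : limits of the variance and of the law of `XAT δ f` for smooth mean zero `f`.
* `kmap`, `planeGauss_of` : `PlaneGauss c Q` for every `Q` with `Q.map Prod.fst = P.map kmap`.
* `vBound_of` : `VBound Q`.
-/

set_option autoImplicit false

noncomputable section

open Filter Topology MeasureTheory
open Finset hiding box
open scoped ENNReal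
open Crest.ProbabilityR.SixVertex
open Crest.Agent.R150.Hgt989 Crest.Agent.R150.Pln989 Crest.Agent.R150.Pls989
open Crest.Agent.R150.Red989
open Crest.Agent.R161.Green722 (Tst)

namespace Crest.Agent.R161.Lk159

variable {c : ℝ} {P : Measure Conf} {r δ : ℝ} {f g : ℂ → ℝ}

/-! ### cells of the AT lattice -/

lemma int_stepG (hf : Tst r f) {x : ℂ → ℤ × ℤ} (hx : Measurable x) {m : ℕ}
    (hm : ∀ z, ‖z‖ ≤ r → x z ∈ box m) (φ : ℤ × ℤ → ℝ) :
    ∫ z, f z * φ (x z) = ∑ s ∈ box m, wf f x s * φ s := by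
  have h1 : ∀ z, f z * φ (x z) = ∑ s ∈ box m, (x ⁻¹' {s}).indicator f z * φ s := by
    intro z
    by_cases hz : f z = 0
    · rw [hz, zero_mul]
      symm
      refine sum_eq_zero fun s _ => ?_
      by_cases hs : z ∈ x ⁻¹' {s}
      · rw [Set.indicator_of_mem hs, hz, zero_mul]
      · rw [Set.indicator_of_notMem hs, zero_mul]
    · have hzr : ‖z‖ ≤ r := by
        by_contra hcon
        exact hz (hf.supp z (not_le.1 hcon))
      rw [sum_eq_single (x z)]
      · rw [Set.indicator_of_mem (by simp)]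
      · intro s _ hs
        rw [Set.indicator_of_notMem (by simpa using fun h => hs h.symm), zero_mul]
      · intro hn
        exact absurd (hm z hzr) hn
  have hms : ∀ s, MeasurableSet (x ⁻¹' {s}) := fun s => hx (measurableSet_singleton s)
  simp only [h1]
  rw [integral_finsetSum]
  · refine sum_congr rfl fun s _ => ?_
    rw [integral_mul_const, integral_indicator (hms s), wf]
  · intro s _
    exact (hf.integrable.indicator (hms s)).mul_const _

lemma fl_mem_box (hδ : 0 < δ) {m : ℕ} (hm : r / δ + 2 ≤ m) {z : ℂ} (hz : ‖z‖ ≤ r) :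
    fl δ z ∈ box m := by
  rw [mem_box_norm]
  refine le_trans ?_ hm
  have h1 := norm_ptC hδ (fl δ z)
  have h2 := fl_close hδ z
  have h3 : ‖Ifc372.ptC δ (fl δ z)‖ ≤ 2 * δ + r := by
    have : Ifc372.ptC δ (fl δ z) = (Ifc372.ptC δ (fl δ z) - z) + z := by ring
    rw [this]
    exact (norm_add_le _ _).trans (add_le_add h2 hz)
  rw [div_add' _ _ _ hδ.ne', le_div_iff₀ hδ]
  linarith

lemma cell_eq (hδ : 0 < δ) (v : ℤ × ℤ) : fl δ ⁻¹' {v} =
    Complex.measurableEquivRealProd ⁻¹'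
      (Set.Ico (δ * v.1) (δ * v.1 + δ) ×ˢ Set.Ico (δ * v.2) (δ * v.2 + δ)) := by
  ext z
  simp only [fl, Set.mem_preimage, Set.mem_singleton_iff, Set.mem_prod, Set.mem_Ico,
    Complex.measurableEquivRealProd_apply, Prod.ext_iff, Int.floor_eq_iff, le_div_iff₀ hδ,
    div_lt_iff₀ hδ]
  constructor
  · rintro ⟨⟨h1, h2⟩, h3, h4⟩
    refine ⟨⟨?_, ?_⟩, ?_, ?_⟩ <;> linarith
  · rintro ⟨⟨h1, h2⟩, h3, h4⟩
    refine ⟨⟨?_, ?_⟩, ?_, ?_⟩ <;> linarith

lemma volume_cell (hδ : 0 < δ) (v : ℤ × ℤ) : volume (fl δ ⁻¹' {v}) = ENNReal.ofReal (δ ^ 2) := by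
  rw [cell_eq hδ, Complex.volume_preserving_equiv_real_prod.measure_preimage
    (measurableSet_Ico.prod measurableSet_Ico).nullMeasurableSet, Measure.volume_eq_prod,
    Measure.prod_prod, Real.volume_Ico, Real.volume_Ico, add_sub_cancel_left, add_sub_cancel_left,
    ← ENNReal.ofReal_mul hδ.le, sq]

/-- the difference of the weights -/
def dw (f : ℂ → ℝ) (δ : ℝ) (v : ℤ × ℤ) : ℝ := δ ^ 2 * f (Ifc372.ptC δ v) - wf f (fl δ) v

lemma abs_dw_le (hf : Tst r f) (hδ : 0 < δ) {L : ℝ} (hL : ∀ z w, |f z - f w| ≤ L * ‖z - w‖)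
    (v : ℤ × ℤ) : |dw f δ v| ≤ 2 * L * δ ^ 3 := by
  have hvol := volume_cell hδ v
  have hfin : volume (fl δ ⁻¹' {v}) < ⊤ := by rw [hvol]; exact ENNReal.ofReal_lt_top
  have hr : volume.real (fl δ ⁻¹' {v}) = δ ^ 2 := by
    rw [measureReal_def, hvol, ENNReal.toReal_ofReal (by positivity)]
  have hms : MeasurableSet (fl δ ⁻¹' {v}) := measurable_fl δ (measurableSet_singleton v)
  have e : dw f δ v = ∫ z in fl δ ⁻¹' {v}, (f (Ifc372.ptC δ v) - f z) := by
    unfold dw wf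
    rw [integral_sub, setIntegral_const, hr, smul_eq_mul]
    · exact integrableOn_const hfin.ne
    · exact hf.integrable.integrableOn
  rw [e, ← Real.norm_eq_abs]
  have hL0 : 0 ≤ L := by
    have := (abs_nonneg _).trans (hL 1 0)
    simpa using this
  refine (norm_setIntegral_le_of_norm_le_const hfin (C := L * (2 * δ)) fun z hz => ?_).trans ?_
  · rw [Real.norm_eq_abs]
    refine (hL _ _).trans ?_
    have h1 := fl_close hδ z
    rw [show fl δ z = v from hz] at h1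
    gcongr
  · rw [hr]
    nlinarith

lemma XAT_sub (hf : Tst r f) (hδ : 0 < δ) {m : ℕ} (hm : r / δ + 2 ≤ m) (ω : Conf) :
    XAT δ f ω - YY f (xA δ) ω = XX (box m) (dw f δ) rot ω := by
  have h1 := XAT_eq hf hδ (m := m) (by linarith) ω
  have h2 : YY f (xA δ) ω = ∑ v ∈ box m, wf f (fl δ) v * H ω (rot v) :=
    int_stepG hf (measurable_fl δ) (fun z hz => fl_mem_box hδ hm hz) (fun v => H ω (rot v))
  rw [h1, h2]
  unfold XX dw
  rw [← sum_sub_distrib]
  exact sum_congr rfl fun v _ => by ring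

lemma norm_rot_le (v : ℤ × ℤ) : ‖rot v‖ ≤ 2 * ‖v‖ := by
  rw [Prod.norm_def, Prod.norm_def]
  simp only [rot, Int.norm_eq_abs]
  push_cast
  have h1 : |(v.1 : ℝ)| ≤ max |(v.1 : ℝ)| |(v.2 : ℝ)| := le_max_left _ _
  have h2 : |(v.2 : ℝ)| ≤ max |(v.1 : ℝ)| |(v.2 : ℝ)| := le_max_right _ _
  refine max_le ?_ ?_
  · exact (abs_add_le _ _).trans (by linarith)
  · exact (abs_sub _ _).trans (by linarith)

/-- crude linear variance bound -/
lemma V_le_lin (h : PlaneIn c P) : ∃ C : ℝ, 0 < C ∧ ∀ z : ℤ × ℤ, V P z ≤ C * (1 + ‖z‖) := by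
  obtain ⟨C, hC, H1⟩ := V_le h
  refine ⟨2 * C, by positivity, fun z => (H1 z).trans ?_⟩
  have h1 : Real.log (1 + ‖z‖) ≤ 1 + ‖z‖ := log_le_self' (by positivity)
  have := norm_nonneg z
  nlinarith

/-- `XAT` and the integral form are asymptotically equal -/
theorem XAT_diff (h : PlaneIn c P) (hr : 0 ≤ r) (hf : Tst r f) {L : ℝ}
    (hL : ∀ z w, |f z - f w| ≤ L * ‖z - w‖) :
    Tendsto (fun δ => ∫ ω, (XAT δ f ω - YY f (xA δ) ω) ^ 2 ∂P) (𝓝[>] 0) (𝓝 0) := by
  obtain ⟨C, hC, HV⟩ := V_le_lin h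
  have hL0 : 0 ≤ L := by
    have := (abs_nonneg _).trans (hL 1 0)
    simpa using this
  -- bound by `const * δ` for `δ ≤ 1`
  set B : ℝ := (18 * (r + 4) ^ 2 * L) ^ 2 * (C * (2 * (r + 4))) with hB
  have hlim : Tendsto (fun δ : ℝ => B * δ) (𝓝[>] 0) (𝓝 0) := by
    have : Tendsto (fun δ : ℝ => B * δ) (𝓝 0) (𝓝 (B * 0)) := tendsto_id.const_mul B
    rw [mul_zero] at this
    exact this.mono_left nhdsWithin_le_nhds
  refine squeeze_zero' (Eventually.of_forall fun δ => integral_nonneg fun ω => sq_nonneg _) ?_ hlim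
  have h1 : ∀ᶠ δ : ℝ in 𝓝[>] 0, δ ≤ 1 := nhdsWithin_le_nhds (Iic_mem_nhds one_pos)
  filter_upwards [self_mem_nhdsWithin, h1] with δ hδ hδ1
  have hδ' : (0 : ℝ) < δ := hδ
  set m := ⌈r / δ + 2⌉₊ with hm
  have hm1 : r / δ + 2 ≤ m := Nat.le_ceil _
  have hm2 : (m : ℝ) ≤ r / δ + 3 := by
    have : (m : ℝ) < r / δ + 2 + 1 := Nat.ceil_lt_add_one (by positivity)
    linarith
  have hm3 : δ * (m : ℝ) ≤ r + 3 := by
    have : δ * (m : ℝ) ≤ δ * (r / δ + 3) := by gcongr
    have e : δ * (r / δ + 3) = r + 3 * δ := by field_simp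
    linarith
  have hm0 : (0 : ℝ) ≤ m := Nat.cast_nonneg m
  simp only [XAT_sub hf hδ' hm1]
  have hM : ∀ v ∈ box m, V P (rot v) ≤ C * (1 + 2 * m) := by
    intro v hv
    refine (HV _).trans ?_
    have := norm_rot_le v
    have := mem_box_norm.1 hv
    gcongr
    linarith
  refine (sq_XX_le h.plane (box m) (dw f δ) rot hM).trans ?_
  have hs : ∑ v ∈ box m, |dw f δ v| ≤ 18 * (r + 4) ^ 2 * L * δ := by
    calc ∑ v ∈ box m, |dw f δ v| ≤ ∑ v ∈ box m, 2 * L * δ ^ 3 :=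
          sum_le_sum fun v _ => abs_dw_le hf hδ' hL v
      _ = (2 * (δ * m) + δ) ^ 2 * (2 * L * δ) := by
          rw [sum_const, nsmul_eq_mul, card_box]
          push_cast
          ring
      _ ≤ (2 * (r + 3) + 1) ^ 2 * (2 * L * δ) := by gcongr
      _ ≤ (3 * (r + 4)) ^ 2 * (2 * L * δ) := by gcongr; linarith
      _ = _ := by ring
  have hs0 : 0 ≤ ∑ v ∈ box m, |dw f δ v| := sum_nonneg fun _ _ => abs_nonneg _
  have hM0 : δ * (1 + 2 * (m : ℝ)) ≤ 2 * (r + 4) := by nlinarith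
  calc (∑ v ∈ box m, |dw f δ v|) ^ 2 * (C * (1 + 2 * m))
      ≤ (18 * (r + 4) ^ 2 * L * δ) ^ 2 * (C * (1 + 2 * m)) := by gcongr
    _ = (18 * (r + 4) ^ 2 * L) ^ 2 * (C * (δ * (1 + 2 * m))) * δ := by ring
    _ ≤ (18 * (r + 4) ^ 2 * L) ^ 2 * (C * (2 * (r + 4))) * δ := by gcongr
    _ = B * δ := by rw [hB]

/-! ### `L²` bookkeeping -/

lemma loc_XAT (hf : Tst r f) (hδ : 0 < δ) : Loc (XAT δ f) := by
  have e : XAT δ f = XX (box ⌈r / δ⌉₊) (fun v => δ ^ 2 * f (Ifc372.ptC δ v)) rot :=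
    funext fun ω => XAT_eq hf hδ (Nat.le_ceil _) ω
  rw [e]
  exact loc_XX _ _ _

lemma loc_YY (hf : Tst r f) (hδ : 0 < δ) {x : ℂ → ℤ × ℤ} (hx : SM δ x) : Loc (YY f x) := by
  have e : YY f x = XX (box ⌈2 * (r / δ + 2)⌉₊) (wf f x) id :=
    funext fun ω => YY_eq hf hδ hx (Nat.le_ceil _) ω
  rw [e]
  exact loc_XX _ _ _

/-- Cauchy–Schwarz for local functions -/
lemma loc_cs [IsFiniteMeasure P] {F G : Conf → ℝ} (hF : Loc F) (hG : Loc G) :
    |∫ ω, F ω * G ω ∂P| ≤ Real.sqrt (∫ ω, F ω ^ 2 ∂P) * Real.sqrt (∫ ω, G ω ^ 2 ∂P) := by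
  have hFm : MemLp F (ENNReal.ofReal 2) P := by
    obtain ⟨A, hA⟩ := Loc.bounded hF
    exact MemLp.of_bound (Loc.continuous hF).aestronglyMeasurable A
      (Eventually.of_forall fun ω => by rw [Real.norm_eq_abs]; exact hA ω)
  have hGm : MemLp G (ENNReal.ofReal 2) P := by
    obtain ⟨A, hA⟩ := Loc.bounded hG
    exact MemLp.of_bound (Loc.continuous hG).aestronglyMeasurable A
      (Eventually.of_forall fun ω => by rw [Real.norm_eq_abs]; exact hA ω)
  have h := integral_mul_norm_le_Lp_mul_Lq (μ := P) (p := 2) (q := 2) (by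
    constructor <;> norm_num) hFm hGm
  have h1 : |∫ ω, F ω * G ω ∂P| ≤ ∫ ω, ‖F ω‖ * ‖G ω‖ ∂P := by
    rw [← Real.norm_eq_abs]
    refine (norm_integral_le_integral_norm _).trans (le_of_eq ?_)
    refine integral_congr_ae (Eventually.of_forall fun ω => ?_)
    simp only [norm_mul]
  refine h1.trans (h.trans (le_of_eq ?_))
  simp only [Real.norm_eq_abs, Real.rpow_two, sq_abs]
  rw [Real.sqrt_eq_rpow, Real.sqrt_eq_rpow]

lemma integral_abs_le [IsProbabilityMeasure P] {F : Conf → ℝ} (hF : Loc F) :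
    ∫ ω, |F ω| ∂P ≤ Real.sqrt (∫ ω, F ω ^ 2 ∂P) := by
  have h := loc_cs (P := P) (hF.comp fun t => |t|) (Loc.const 1)
  have e1 : ∫ ω, |F ω| * 1 ∂P = ∫ ω, |F ω| ∂P := by simp
  have e2 : ∫ ω : Conf, (1 : ℝ) ^ 2 ∂P = 1 := by simp
  rw [e1, e2, Real.sqrt_one, mul_one] at h
  refine (le_abs_self _).trans (h.trans (le_of_eq ?_))
  simp only [sq_abs]

lemma integral_add_sq [IsProbabilityMeasure P] {F G : Conf → ℝ} (hF : Loc F) (hG : Loc G) :
    ∫ ω, (F ω + G ω) ^ 2 ∂P ≤ 2 * ∫ ω, F ω ^ 2 ∂P + 2 * ∫ ω, G ω ^ 2 ∂P := by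
  have i1 := Loc.integrable (hF.comp fun t => t ^ 2) P
  have i2 := Loc.integrable (hG.comp fun t => t ^ 2) P
  have i3 := Loc.integrable ((hF.add hG).comp fun t => t ^ 2) P
  rw [← integral_const_mul, ← integral_const_mul, ← integral_add (i1.const_mul 2) (i2.const_mul 2)]
  refine integral_mono i3 ((i1.const_mul 2).add (i2.const_mul 2)) fun ω => ?_
  simp only
  nlinarith [sq_nonneg (F ω - G ω)]

/-- variance of the AT smeared heights -/
theorem var_AT (h : PlaneIn c P) (hr : 0 ≤ r) (hf : Tst r f) (hf0 : ∫ z, f z = 0) {L : ℝ}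
    (hL : ∀ z w, |f z - f w| ≤ L * ‖z - w‖) :
    Tendsto (fun δ => ∫ ω, XAT δ f ω ^ 2 ∂P) (𝓝[>] 0)
      (𝓝 (varianceMultiplier c * Ifc372.plog f f)) := by
  have := h.plane.prob
  have h1 := cov_lim h hr hf hf hf0 hf0 (x := xA) (y := xA) (fun δ hδ => sm_xA hδ)
    (fun δ hδ => sm_xA hδ)
  have h2 := XAT_diff h hr hf hL
  -- `E XAT² = E Y² + 2 E Y D + E D²`
  have h1' : Tendsto (fun δ => Real.sqrt (∫ ω, YY f (xA δ) ω ^ 2 ∂P)) (𝓝[>] 0)
      (𝓝 (Real.sqrt (varianceMultiplier c * Ifc372.plog f f))) := by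
    refine (h1.sqrt).congr fun δ => ?_
    congr 1
    refine integral_congr_ae (Eventually.of_forall fun ω => ?_)
    simp only
    ring
  have h2' := h2.sqrt
  rw [Real.sqrt_zero] at h2'
  have hprod := h1'.mul h2'
  rw [mul_zero] at hprod
  have hcross : Tendsto (fun δ => ∫ ω, YY f (xA δ) ω * (XAT δ f ω - YY f (xA δ) ω) ∂P) (𝓝[>] 0)
      (𝓝 0) := by
    rw [tendsto_zero_iff_abs_tendsto_zero]
    refine squeeze_zero' (Eventually.of_forall fun _ => abs_nonneg _) ?_ hprod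
    filter_upwards [self_mem_nhdsWithin] with δ hδ
    exact loc_cs (loc_YY hf hδ (sm_xA hδ)) ((loc_XAT hf hδ).sub (loc_YY hf hδ (sm_xA hδ)))
  have h3 := (h1.add (hcross.const_mul 2)).add h2
  rw [mul_zero, add_zero, add_zero] at h3
  refine h3.congr' ?_
  filter_upwards [self_mem_nhdsWithin] with δ hδ
  have lY := loc_YY hf hδ (sm_xA hδ)
  have lX := loc_XAT hf hδ
  have i1 := Loc.integrable (lY.mul lY) P
  have i2 := Loc.integrable (lY.mul (lX.sub lY)) P
  have i3 := Loc.integrable ((lX.sub lY).comp fun t => t ^ 2) P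
  rw [← integral_const_mul, ← integral_add i1 (i2.const_mul 2), ← integral_add _ i3]
  · refine integral_congr_ae (Eventually.of_forall fun ω => ?_)
    simp only
    ring
  · exact i1.add (i2.const_mul 2)

lemma abs_cos_sub_le (a b : ℝ) : |Real.cos a - Real.cos b| ≤ |a - b| := by
  have h := Real.abs_sin_le_abs (x := (a - b) / 2)
  rw [Real.cos_sub_cos, abs_mul, abs_mul, abs_neg, abs_two]
  have h1 := Real.abs_sin_le_one ((a + b) / 2)
  have h2 : |(a - b) / 2| = |a - b| / 2 := by rw [abs_div, abs_two]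
  rw [h2] at h
  have h3 := abs_nonneg (Real.sin ((a - b) / 2))
  nlinarith [abs_nonneg (Real.sin ((a + b) / 2))]

/-- law of the AT smeared heights -/
theorem law_AT (h : PlaneIn c P) (hr : 0 ≤ r) (hf : Tst r f) (hf0 : ∫ z, f z = 0) {L : ℝ}
    (hL : ∀ z w, |f z - f w| ≤ L * ‖z - w‖) (s : ℝ) :
    Tendsto (fun δ => ∫ ω, Real.cos (s * XAT δ f ω) ∂P) (𝓝[>] 0)
      (𝓝 (Real.exp (-(s ^ 2 * (varianceMultiplier c * Ifc372.plog f f) / 2)))) := by
  have := h.plane.prob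
  have h1 := law_YY h hr hf hf0 s
  have h2 := XAT_diff h hr hf hL
  have h3 := diff_lim h hr hf hf0 (x := xA) (y := xB) (fun δ hδ => sm_xA hδ) (fun δ hδ => sm_xB hδ)
  have h4 := ((h2.const_mul 2).add (h3.const_mul 2)).sqrt.const_mul |s|
  rw [mul_zero, add_zero, Real.sqrt_zero, mul_zero] at h4
  have h5 : Tendsto (fun δ => ∫ ω, Real.cos (s * XAT δ f ω) ∂P -
      ∫ ω, Real.cos (s * YY f (xB δ) ω) ∂P) (𝓝[>] 0) (𝓝 0) := by
    rw [tendsto_zero_iff_abs_tendsto_zero]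
    refine squeeze_zero' (Eventually.of_forall fun _ => abs_nonneg _) ?_ h4
    filter_upwards [self_mem_nhdsWithin] with δ hδ
    have lA := loc_YY hf hδ (sm_xA hδ)
    have lB := loc_YY hf hδ (sm_xB hδ)
    have lX := loc_XAT hf hδ
    have i1 := Loc.integrable (lX.comp fun t => Real.cos (s * t)) P
    have i2 := Loc.integrable (lB.comp fun t => Real.cos (s * t)) P
    simp only [Function.comp_apply]
    rw [← integral_sub i1 i2]
    refine (abs_integral_le_integral_abs).trans ?_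
    have i3 := Loc.integrable ((lX.sub lB).comp fun t => |t|) P
    have h6 : ∫ ω, |Real.cos (s * XAT δ f ω) - Real.cos (s * YY f (xB δ) ω)| ∂P ≤
        ∫ ω, |s| * |XAT δ f ω - YY f (xB δ) ω| ∂P := by
      refine integral_mono (i1.sub i2).abs (i3.const_mul |s|) fun ω => ?_
      simp only
      refine (abs_cos_sub_le _ _).trans (le_of_eq ?_)
      rw [← mul_sub, abs_mul]
    refine h6.trans ?_
    rw [integral_const_mul]
    refine mul_le_mul_of_nonneg_left ?_ (abs_nonneg s)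
    refine (integral_abs_le (lX.sub lB)).trans (Real.sqrt_le_sqrt ?_)
    have h7 := integral_add_sq (P := P) (lX.sub lA) (lA.sub lB)
    refine le_trans (le_of_eq ?_) h7
    refine integral_congr_ae (Eventually.of_forall fun ω => ?_)
    simp only
    ring
  have h6 := h5.add h1
  rw [zero_add] at h6
  refine h6.congr fun δ => ?_
  ring

end Crest.Agent.R161.Lk159
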