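import Crest.Agent.R161.LkF_159

/-!
# Row 161, block J (helper159): `PlaneGauss` and `VBound` for states on `Cfg`

* `kmap ω v` : vertex heights (AT coordinates) of the six-vertex plane configuration `ω`.
* `integral_kmap` : transport for `Q` with `Q.map Prod.fst = P.map kmap`.
* `planeGauss_of`, `vBound_of`, `VV_le`.
-/

set_option autoImplicit false

noncomputable section

open Filter Topology MeasureTheory
open Finset hiding box
open scoped ENNReal
open Crest.ProbabilityR.SixVertex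
open Crest.Agent.R150.Hgt989 Crest.Agent.R150.Pln989 Crest.Agent.R150.Pls989
open Crest.Agent.R150.Red989
open Crest.Agent.R161.Green722 (Tst)
open Crest.Agent.R161.Geo729 (P2 Edge)
open Crest.Agent.R161.Defs372 (Cfg)

namespace Crest.Agent.R161.Lk159

variable {c : ℝ} {P : Measure Conf} {Q : Measure Cfg} {r δ : ℝ} {f g : ℂ → ℝ}

/-- vertex heights in AT coordinates -/
def kmap (ω : Conf) : P2 → ℤ := fun v => relH ω (v.1 + v.2) (v.2 - v.1)

lemma kmap_apply (ω : Conf) (v : P2) : (kmap ω v : ℝ) = H ω (rot v) := rfl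

lemma measurable_relH (p q : ℤ) : Measurable fun ω : Conf => relH ω p q := by
  have h := (Loc.continuous (Loc.relH p q)).measurable
  have h2 := Int.measurable_floor.comp h
  have e : (fun ω : Conf => relH ω p q) = Int.floor ∘ fun ω => (relH ω p q : ℝ) := by
    ext ω
    simp
  rw [e]
  exact h2

lemma measurable_kmap : Measurable kmap :=
  measurable_pi_iff.2 fun _ => measurable_relH _ _

lemma integral_kmap (hQ : Q.map Prod.fst = P.map kmap) {F : (P2 → ℤ) → ℝ} (hF : Measurable F) :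
    ∫ ω, F ω.1 ∂Q = ∫ ω, F (kmap ω) ∂P := by
  have h1 : ∫ k, F k ∂(Q.map Prod.fst) = ∫ ω, F ω.1 ∂Q :=
    integral_map measurable_fst.aemeasurable hF.aestronglyMeasurable
  have h2 : ∫ k, F k ∂(P.map kmap) = ∫ ω, F (kmap ω) ∂P :=
    integral_map measurable_kmap.aemeasurable hF.aestronglyMeasurable
  rw [← h1, hQ, h2]

lemma prob_of (h : PlaneIn c P) (hQ : Q.map Prod.fst = P.map kmap) : IsProbabilityMeasure Q := by
  have := h.plane.prob
  have h1 : IsProbabilityMeasure (P.map kmap) :=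
    Measure.isProbabilityMeasure_map measurable_kmap.aemeasurable
  rw [← hQ] at h1
  exact ⟨by rw [← h1.measure_univ, Measure.map_apply measurable_fst MeasurableSet.univ,
    Set.preimage_univ]⟩

/-- smeared heights of a height function -/
def Xk (δ : ℝ) (f : ℂ → ℝ) (k : P2 → ℤ) : ℝ := δ ^ 2 * ∑' v : P2, (k v : ℝ) * f (Ifc372.ptC δ v)

lemma X_eq_Xk (δ : ℝ) (f : ℂ → ℝ) (ω : Cfg) : Ifc372.X δ f ω = Xk δ f ω.1 := rfl

lemma XAT_eq_Xk (δ : ℝ) (f : ℂ → ℝ) (ω : Conf) : XAT δ f ω = Xk δ f (kmap ω) := rfl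

lemma Xk_eq (hf : Tst r f) (hδ : 0 < δ) {m : ℕ} (hm : r / δ ≤ m) (k : P2 → ℤ) :
    Xk δ f k = ∑ v ∈ box m, (δ ^ 2 * f (Ifc372.ptC δ v)) * (k v : ℝ) :=
  tsum_eq hf hδ hm fun v => (k v : ℝ)

lemma measurable_Xk (hf : Tst r f) (hδ : 0 < δ) : Measurable (Xk δ f) := by
  have e : Xk δ f = fun k => ∑ v ∈ box ⌈r / δ⌉₊, (δ ^ 2 * f (Ifc372.ptC δ v)) * (k v : ℝ) :=
    funext fun k => Xk_eq hf hδ (Nat.le_ceil _) k
  rw [e]
  refine Finset.measurable_sum _ fun v _ => ?_
  refine measurable_const.mul ?_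
  exact (measurable_of_countable (fun n : ℤ => (n : ℝ))).comp (measurable_pi_apply v)

/-! ### test functions -/

lemma tst_of_test (hf : Ifc372.Test f) : ∃ r, 0 ≤ r ∧ Tst r f := by
  obtain ⟨ρ, hρ⟩ := hf.supp.isCompact.isBounded.subset_ball_lt 0 0
  obtain ⟨r, hr, _, h⟩ := Green722.exists_Tst hρ.1 hf.smooth.continuous hf.supp hρ.2
  exact ⟨r, hr, h⟩

lemma lip_of_test (hf : Ifc372.Test f) : ∃ L, ∀ z w, |f z - f w| ≤ L * ‖z - w‖ := by
  obtain ⟨C, hC⟩ := ContDiff.lipschitzWith_of_hasCompactSupport (n := ((⊤ : ℕ∞) : WithTop ℕ∞))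
    hf.supp hf.smooth (by simp)
  refine ⟨C, fun z w => ?_⟩
  have := hC.dist_le_mul z w
  rwa [Real.dist_eq, dist_eq_norm] at this

/-- **Block J.** -/
theorem planeGauss_of (h : PlaneIn c P) (hQ : Q.map Prod.fst = P.map kmap) :
    Ifc372.PlaneGauss c Q where
  memLp := by
    intro f hf δ hδ
    have := h.plane.prob
    obtain ⟨r, hr, hT⟩ := tst_of_test hf
    have hm := measurable_Xk hT hδ
    have h1 : MemLp (Xk δ f ∘ kmap) 2 P := by
      obtain ⟨A, hA⟩ := Loc.bounded (loc_XAT hT hδ)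
      exact MemLp.of_bound (Loc.continuous (loc_XAT hT hδ)).aestronglyMeasurable A
        (Eventually.of_forall fun ω => by rw [Real.norm_eq_abs]; exact hA ω)
    rw [← memLp_map_measure_iff hm.aestronglyMeasurable measurable_kmap.aemeasurable, ← hQ,
      memLp_map_measure_iff hm.aestronglyMeasurable measurable_fst.aemeasurable] at h1
    exact h1
  law := by
    intro f hf hf0 s
    obtain ⟨r, hr, hT⟩ := tst_of_test hf
    obtain ⟨L, hL⟩ := lip_of_test hf
    refine (law_AT h hr hT hf0 hL s).congr' ?_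
    filter_upwards [self_mem_nhdsWithin] with δ hδ
    exact (integral_kmap hQ (F := fun k => Real.cos (s * Xk δ f k))
      (Real.measurable_cos.comp ((measurable_Xk hT hδ).const_mul s))).symm
  var := by
    intro f hf hf0
    obtain ⟨r, hr, hT⟩ := tst_of_test hf
    obtain ⟨L, hL⟩ := lip_of_test hf
    refine (var_AT h hr hT hf0 hL).congr' ?_
    filter_upwards [self_mem_nhdsWithin] with δ hδ
    exact (integral_kmap hQ (F := fun k => Xk δ f k ^ 2) ((measurable_Xk hT hδ).pow_const 2)).symm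

/-! ### two-point variances -/

lemma VV_eq (h : PlaneIn c P) (hQ : Q.map Prod.fst = P.map kmap) (v w : P2) :
    ∫ ω, ((ω.1 v : ℝ) - ω.1 w) ^ 2 ∂Q = V P (rot v - rot w) := by
  rw [← integral_sq_sub h.plane]
  refine integral_kmap hQ (F := fun k => ((k v : ℝ) - k w) ^ 2) ?_
  have : ∀ u : P2, Measurable fun k : P2 → ℤ => (k u : ℝ) := fun u =>
    (measurable_of_countable (fun n : ℤ => (n : ℝ))).comp (measurable_pi_apply u)
  exact ((this v).sub (this w)).pow_const 2

lemma rot_sub (v w : ℤ × ℤ) : rot v - rot w = rot (v - w) := by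
  ext <;> simp [rot] <;> ring

/-- `E (K v - K w)² ≤ C (1 + log (1 + |v - w|))` -/
theorem VV_le (h : PlaneIn c P) (hQ : Q.map Prod.fst = P.map kmap) : ∃ C : ℝ, 0 < C ∧
    ∀ v w : P2, ∫ ω, ((ω.1 v : ℝ) - ω.1 w) ^ 2 ∂Q ≤ C * (1 + Real.log (1 + ‖v - w‖)) := by
  obtain ⟨C, hC, H1⟩ := V_le h
  refine ⟨2 * C, by positivity, fun v w => ?_⟩
  rw [VV_eq h hQ, rot_sub]
  refine (H1 _).trans ?_
  have h0 := norm_nonneg (v - w)
  have h2 : Real.log (1 + ‖rot (v - w)‖) ≤ Real.log (2 * (1 + ‖v - w‖)) := by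
    refine Real.log_le_log (by positivity) ?_
    have := norm_rot_le (v - w)
    linarith
  rw [Real.log_mul (by norm_num) (by positivity)] at h2
  have h3 : Real.log 2 ≤ 1 := by have := Real.log_two_lt_d9; linarith
  have h4 : 0 ≤ Real.log (1 + ‖v - w‖) := Real.log_nonneg (by linarith)
  nlinarith

/-- variance increments in the plane state of row 150 -/
theorem V_incr (h : PlaneIn c P) : ∃ C : ℝ, 0 ≤ C ∧ ∀ z z' : ℤ × ℤ, z ≠ 0 → z' ≠ 0 →
    |V P z - V P z'| ≤ C * (1 + |Real.log (‖z‖ / ‖z'‖)|) := by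
  obtain ⟨R1, hR1, H1⟩ := V_asymp h one_pos
  set R := ⌈R1⌉₊ with hR
  have hRN : R1 ≤ R := Nat.le_ceil R1
  have hRpos : (1 : ℝ) ≤ R := by linarith
  set D : ℝ := ∑ z ∈ box R, V P z with hD
  have hDn : 0 ≤ D := sum_nonneg fun _ _ => V_nonneg _ _
  have hk := kap_pos h.cpos
  have hDle : ∀ z : ℤ × ℤ, ‖z‖ ≤ R → V P z ≤ D := fun z hz =>
    single_le_sum (f := fun z => V P z) (fun _ _ => V_nonneg _ _) (mem_box_norm.2 hz)
  have hel : ∀ z : ℤ × ℤ, z ≠ 0 → |el z - Real.log ‖z‖| ≤ 1 := by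
    intro z hz
    have h1 := norm_pos_of_ne hz
    have h2 := el_ge (lt_of_lt_of_le one_pos h1) le_rfl
    have h3 := el_le (lt_of_lt_of_le one_pos h1) (le_refl ‖z‖)
    rw [Real.log_mul (by norm_num) (by positivity)] at h3
    have h4 : Real.log 2 ≤ 1 := by have := Real.log_two_lt_d9; linarith
    rw [abs_le]
    constructor <;> linarith
  -- far points
  have hfar : ∀ z z' : ℤ × ℤ, z' ≠ 0 → (R : ℝ) ≤ ‖z'‖ → ‖z'‖ ≤ ‖z‖ →
      |V P z - V P z'| ≤ (1 + 2 * kap c) * (1 + Real.log (‖z‖ / ‖z'‖)) := by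
    intro z z' hz' h1 h2
    have hz'1 := norm_pos_of_ne hz'
    have hz : z ≠ 0 := by
      rintro rfl
      rw [norm_zero] at h2
      linarith
    have h3 := H1 z z' (hRN.trans h1) h2
    rw [one_mul] at h3
    change |V P z - V P z' - kap c * (el z - el z')| ≤ _ at h3
    have h4 := hel z hz
    have h5 := hel z' hz'
    have h6 : Real.log (‖z‖ / ‖z'‖) = Real.log ‖z‖ - Real.log ‖z'‖ :=
      Real.log_div (by positivity) (by positivity)
    have h7 : 0 ≤ Real.log (‖z‖ / ‖z'‖) := Real.log_nonneg (by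
      rw [le_div_iff₀ (by positivity)]; linarith)
    have h8 : |kap c * (el z - el z')| ≤ kap c * (2 + Real.log (‖z‖ / ‖z'‖)) := by
      rw [abs_mul, abs_of_pos hk]
      refine mul_le_mul_of_nonneg_left ?_ hk.le
      rw [abs_le] at h4 h5 ⊢
      constructor <;> linarith [h4.1, h4.2, h5.1, h5.2]
    have h9 : V P z - V P z' = (V P z - V P z' - kap c * (el z - el z')) +
        kap c * (el z - el z') := by ring
    rw [h9]
    refine (abs_add_le _ _).trans ?_
    nlinarith
  have key : ∀ z z' : ℤ × ℤ, z ≠ 0 → z' ≠ 0 → ‖z'‖ ≤ ‖z‖ →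
      |V P z - V P z'| ≤ (1 + 2 * kap c + 2 * D) * (1 + Real.log (‖z‖ / ‖z'‖)) := by
    intro z z' hz hz' h2
    have hz1 := norm_pos_of_ne hz
    have hz'1 := norm_pos_of_ne hz'
    have h7 : 0 ≤ Real.log (‖z‖ / ‖z'‖) := Real.log_nonneg (by
      rw [le_div_iff₀ (by positivity)]; linarith)
    rcases le_total (R : ℝ) ‖z'‖ with h1 | h1
    · refine (hfar z z' hz' h1 h2).trans ?_
      nlinarith
    · rcases le_total ‖z‖ (R : ℝ) with h3 | h3
      · have h4 := hDle z h3
        have h5 := hDle z' h1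
        have h6 := V_nonneg P z
        have h8 := V_nonneg P z'
        rw [abs_le]
        constructor <;> nlinarith
      · have he : e1 R ≠ 0 := by
          intro h0
          have := norm_e1 R
          rw [h0, norm_zero] at this
          linarith
        have h4 := hfar z (e1 R) he (by rw [norm_e1]) (by rw [norm_e1]; exact h3)
        rw [norm_e1] at h4
        have h5 := hDle z' h1
        have h6 := hDle (e1 R) (by rw [norm_e1])
        have h8 := V_nonneg P z'
        have h9 := V_nonneg P (e1 R)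
        have h10 : Real.log (‖z‖ / R) ≤ Real.log (‖z‖ / ‖z'‖) := by
          refine Real.log_le_log (by positivity) ?_
          gcongr
        have h11 : V P z - V P z' = (V P z - V P (e1 R)) + (V P (e1 R) - V P z') := by ring
        rw [h11]
        refine (abs_add_le _ _).trans ?_
        have h12 : |V P (e1 R) - V P z'| ≤ D := by
          rw [abs_le]; constructor <;> linarith
        have h13 : (1 + 2 * kap c) * (1 + Real.log (‖z‖ / R)) ≤
            (1 + 2 * kap c) * (1 + Real.log (‖z‖ / ‖z'‖)) := by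
          refine mul_le_mul_of_nonneg_left (by linarith) (by linarith)
        nlinarith
  refine ⟨1 + 2 * kap c + 2 * D, by linarith, fun z z' hz hz' => ?_⟩
  rcases le_total ‖z'‖ ‖z‖ with h1 | h1
  · refine (key z z' hz hz' h1).trans ?_
    have := le_abs_self (Real.log (‖z‖ / ‖z'‖))
    exact mul_le_mul_of_nonneg_left (by linarith) (by linarith)
  · rw [abs_sub_comm]
    refine (key z' z hz' hz h1).trans ?_
    have h2 : Real.log (‖z'‖ / ‖z‖) = -Real.log (‖z‖ / ‖z'‖) := by
      rw [← Real.log_inv, inv_div]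
    rw [h2]
    have := neg_le_abs (Real.log (‖z‖ / ‖z'‖))
    exact mul_le_mul_of_nonneg_left (by linarith) (by linarith)

lemma rot_zero : rot 0 = 0 := by simp [rot]

lemma rot_ne_zero {v : ℤ × ℤ} (hv : v ≠ 0) : rot v ≠ 0 := by
  intro h
  exact hv (rot_injective (h.trans rot_zero.symm))

lemma nrm_eq (v : P2) : Ifc372.nrm v = ‖q (rot v)‖ := by
  unfold Ifc372.nrm
  rw [← Real.sqrt_sq (norm_nonneg (q (rot v))), normSq_q]
  congr 1
  simp only [rot]
  push_cast
  ring

lemma nrm_pos {v : P2} (hv : v ≠ 0) : 0 < Ifc372.nrm v := by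
  rw [nrm_eq]
  have := half_le_q (rot_ne_zero hv)
  linarith

/-- `‖rot v‖ ≤ 2 |v|` -/
lemma norm_rot_le_nrm (v : P2) : ‖rot v‖ ≤ 2 * Ifc372.nrm v := by
  rw [nrm_eq]
  exact norm_le_q _

lemma nrm_le_norm_rot (v : P2) : Ifc372.nrm v ≤ 2 * ‖rot v‖ := by
  rw [nrm_eq]
  have h1 := euclid_le_norm (rot v)
  rw [sqrt_eq_q] at h1
  have h2 : (1 : ℝ) ≤ Real.sqrt 2 := by
    rw [Real.one_le_sqrt]; norm_num
  have := norm_nonneg (q (rot v))
  nlinarith

/-- **`VBound`** -/
theorem vBound_of (h : PlaneIn c P) (hQ : Q.map Prod.fst = P.map kmap) : Ifc372.VBound Q := by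
  obtain ⟨C, hC, H1⟩ := V_incr h
  refine ⟨3 * C, by positivity, fun v w hv hw => ?_⟩
  have hVV : ∀ v : P2, Ifc372.VV Q v = V P (rot v) := by
    intro v
    have := VV_eq h hQ v (0, 0)
    rw [show rot ((0 : ℤ), (0 : ℤ)) = 0 from rot_zero, sub_zero] at this
    exact this
  rw [hVV, hVV]
  refine (H1 _ _ (rot_ne_zero hv) (rot_ne_zero hw)).trans ?_
  have hv1 := norm_pos_of_ne (rot_ne_zero hv)
  have hw1 := norm_pos_of_ne (rot_ne_zero hw)
  have hnv := nrm_pos hv
  have hnw := nrm_pos hw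
  have h2 : ∀ u : P2, u ≠ 0 → |Real.log ‖rot u‖ - Real.log (Ifc372.nrm u)| ≤ 1 := by
    intro u hu
    have hu1 := norm_pos_of_ne (rot_ne_zero hu)
    have hnu := nrm_pos hu
    have h3 := Real.log_le_log (by positivity) (norm_rot_le_nrm u)
    have h4 := Real.log_le_log hnu (nrm_le_norm_rot u)
    rw [Real.log_mul (by norm_num) (by positivity)] at h3 h4
    have h5 : Real.log 2 ≤ 1 := by have := Real.log_two_lt_d9; linarith
    rw [abs_le]
    constructor <;> linarith
  have h3 : |Real.log (‖rot v‖ / ‖rot w‖)| ≤ 2 + |Real.log (Ifc372.nrm v / Ifc372.nrm w)| := by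
    rw [Real.log_div (by positivity) (by positivity), Real.log_div hnv.ne' hnw.ne']
    have h4 := h2 v hv
    have h5 := h2 w hw
    have h6 := neg_abs_le (Real.log (Ifc372.nrm v) - Real.log (Ifc372.nrm w))
    have h7 := le_abs_self (Real.log (Ifc372.nrm v) - Real.log (Ifc372.nrm w))
    rw [abs_le] at h4 h5 ⊢
    constructor <;> linarith [h4.1, h4.2, h5.1, h5.2]
  have h8 := abs_nonneg (Real.log (Ifc372.nrm v / Ifc372.nrm w))
  nlinarith

end Crest.Agent.R161.Lk159
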