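import Crest.Agent.R161.LkS_159
import Crest.Agent.R161.Green1_722
import Crest.Agent.R161.Ifc_372

/-!
# Row 161, block J (helper159): smeared heights as integrals over the plane

* `q s` : position in AT coordinates of the six-vertex face `s`.
* `SM δ x` : site map `x : ℂ → ℤ × ℤ` at mesh `δ`.
* `YY f x ω = ∫ f(z) H ω (x z) dz`.
* `cov_lim` : `E YY f x_δ YY g y_δ → s · plog f g` for mean zero `f, g` and any site maps.
-/

set_option autoImplicit false

noncomputable section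

open Filter Topology MeasureTheory
open Finset hiding box
open Crest.ProbabilityR.SixVertex
open Crest.Agent.R150.Hgt989 Crest.Agent.R150.Pln989 Crest.Agent.R150.Pls989
open Crest.Agent.R150.Red989
open Crest.Agent.R161.Green722 (Tst)

namespace Crest.Agent.R161.Lk159

variable {c : ℝ} {P : Measure Conf}

/-- position in AT coordinates of the six-vertex face `s` -/
def q (s : ℤ × ℤ) : ℂ := ⟨((s.1 : ℝ) - s.2) / 2, ((s.1 : ℝ) + s.2) / 2⟩

lemma q_sub (s t : ℤ × ℤ) : q (s - t) = q s - q t := by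
  apply Complex.ext
  · simp [q]; ring
  · simp [q]; ring

@[simp] lemma q_zero : q 0 = 0 := by
  apply Complex.ext <;> simp [q]

lemma normSq_q (s : ℤ × ℤ) : ‖q s‖ ^ 2 = ((s.1 : ℝ) ^ 2 + (s.2 : ℝ) ^ 2) / 2 := by
  rw [← Complex.normSq_eq_norm_sq, Complex.normSq_apply]
  simp only [q]
  ring

lemma sqrt_eq_q (s : ℤ × ℤ) : Real.sqrt ((s.1 : ℝ) ^ 2 + (s.2 : ℝ) ^ 2) = Real.sqrt 2 * ‖q s‖ := by
  have h : (s.1 : ℝ) ^ 2 + (s.2 : ℝ) ^ 2 = 2 * ‖q s‖ ^ 2 := by rw [normSq_q]; ring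
  rw [h, Real.sqrt_mul (by norm_num), Real.sqrt_sq (norm_nonneg _)]

lemma norm_le_q (s : ℤ × ℤ) : ‖s‖ ≤ 2 * ‖q s‖ := by
  refine (norm_le_euclid s).trans ?_
  rw [sqrt_eq_q]
  have : Real.sqrt 2 ≤ 2 := by
    rw [Real.sqrt_le_left (by norm_num)]; norm_num
  exact mul_le_mul_of_nonneg_right this (norm_nonneg _)

lemma half_le_q {s : ℤ × ℤ} (hs : s ≠ 0) : 1 / 2 ≤ ‖q s‖ := by
  have := norm_pos_of_ne hs
  have := norm_le_q s
  linarith

lemma q_ne_zero {s : ℤ × ℤ} (hs : s ≠ 0) : ‖q s‖ ≠ 0 := by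
  have := half_le_q hs
  positivity

lemma el_eq_q {s : ℤ × ℤ} (hs : s ≠ 0) : el s = Real.log (Real.sqrt 2) + Real.log ‖q s‖ := by
  unfold el
  rw [sqrt_eq_q, Real.log_mul (by positivity) (q_ne_zero hs)]

/-- site maps at mesh `δ` -/
structure SM (δ : ℝ) (x : ℂ → ℤ × ℤ) : Prop where
  meas : Measurable x
  close : ∀ z, ‖(δ : ℂ) * q (x z) - z‖ ≤ 2 * δ

/-- weights of the sites -/
def wf (f : ℂ → ℝ) (x : ℂ → ℤ × ℤ) (s : ℤ × ℤ) : ℝ := ∫ z in x ⁻¹' {s}, f z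

variable {r δ : ℝ} {f g : ℂ → ℝ} {x y : ℂ → ℤ × ℤ}

lemma SM.mem_box (hδ : 0 < δ) (hx : SM δ x) {m : ℕ} (hm : 2 * (r / δ + 2) ≤ m) {z : ℂ}
    (hz : ‖z‖ ≤ r) : x z ∈ box m := by
  rw [mem_box_norm]
  refine (norm_le_q _).trans (le_trans ?_ hm)
  have h1 : ‖(δ : ℂ) * q (x z)‖ ≤ r + 2 * δ := by
    have : (δ : ℂ) * q (x z) = ((δ : ℂ) * q (x z) - z) + z := by ring
    rw [this]
    refine (norm_add_le _ _).trans ?_
    have := hx.close z
    linarith
  rw [norm_mul, Complex.norm_real, Real.norm_eq_abs, abs_of_pos hδ] at h1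
  have h2 : ‖q (x z)‖ ≤ r / δ + 2 := by
    rw [div_add' _ _ _ hδ.ne', le_div_iff₀ hδ]
    linarith
  linarith

lemma int_step (hf : Tst r f) (hδ : 0 < δ) (hx : SM δ x) {m : ℕ} (hm : 2 * (r / δ + 2) ≤ m)
    (φ : ℤ × ℤ → ℝ) : ∫ z, f z * φ (x z) = ∑ s ∈ box m, wf f x s * φ s := by
  have h1 : ∀ z, f z * φ (x z) = ∑ s ∈ box m, (x ⁻¹' {s}).indicator f z * φ s := by
    intro z
    by_cases hz : f z = 0
    · rw [hz, zero_mul]
      symm
      refine sum_eq_zero fun s _ => ?_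
      by_cases hs : z ∈ x ⁻¹' {s}
      · rw [Set.indicator_of_mem hs, hz, zero_mul]
      · rw [Set.indicator_of_notMem hs, zero_mul]
    · have hzr : ‖z‖ ≤ r := by
        by_contra hcon
        exact hz (hf.supp z (not_le.1 hcon))
      rw [sum_eq_single (x z)]
      · rw [Set.indicator_of_mem (by simp)]
      · intro s _ hs
        rw [Set.indicator_of_notMem (by simpa using fun h => hs h.symm), zero_mul]
      · intro hn
        exact absurd (hx.mem_box hδ hm hzr) hn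
  have hms : ∀ s, MeasurableSet (x ⁻¹' {s}) := fun s => hx.meas (measurableSet_singleton s)
  simp only [h1]
  rw [integral_finsetSum]
  · refine sum_congr rfl fun s _ => ?_
    rw [integral_mul_const, integral_indicator (hms s), wf]
  · intro s _
    exact (hf.integrable.indicator (hms s)).mul_const _

lemma abs_wf_le {A : ℝ} (hA : ∀ z, |f z| ≤ A) (hδ : 0 < δ) (hx : SM δ x) (s : ℤ × ℤ) :
    |wf f x s| ≤ 16 * A * δ ^ 2 := by
  have hA0 : 0 ≤ A := (abs_nonneg _).trans (hA 0)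
  unfold wf
  have hsub : x ⁻¹' {s} ⊆ Metric.closedBall ((δ : ℂ) * q s) (2 * δ) := by
    intro z hz
    have := hx.close z
    rw [show x z = s from hz] at this
    rw [Metric.mem_closedBall, dist_comm, dist_eq_norm]
    exact this
  have hvol : volume (x ⁻¹' {s}) ≤ ENNReal.ofReal (2 * δ) ^ 2 * NNReal.pi := by
    refine (measure_mono hsub).trans ?_
    rw [Complex.volume_closedBall]
  have hfin : ENNReal.ofReal (2 * δ) ^ 2 * NNReal.pi ≠ ⊤ := by finiteness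
  have hlt : volume (x ⁻¹' {s}) < ⊤ := lt_of_le_of_lt hvol hfin.lt_top
  have h1 := norm_setIntegral_le_of_norm_le_const (f := f) hlt (C := A)
    (fun z _ => by rw [Real.norm_eq_abs]; exact hA z)
  rw [Real.norm_eq_abs] at h1
  refine h1.trans ?_
  have h2 : volume.real (x ⁻¹' {s}) ≤ (2 * δ) ^ 2 * Real.pi := by
    have h3 := ENNReal.toReal_mono hfin hvol
    rw [ENNReal.toReal_mul, ENNReal.toReal_pow, ENNReal.toReal_ofReal (by positivity)] at h3
    exact h3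
  have h4 : volume.real (x ⁻¹' {s}) ≤ 16 * δ ^ 2 := by
    refine h2.trans ?_
    have := Real.pi_lt_four
    nlinarith [sq_nonneg δ]
  calc A * volume.real (x ⁻¹' {s}) ≤ A * (16 * δ ^ 2) := by gcongr
    _ = _ := by ring

lemma sum_wf (hf : Tst r f) (hδ : 0 < δ) (hx : SM δ x) {m : ℕ} (hm : 2 * (r / δ + 2) ≤ m) :
    ∑ s ∈ box m, wf f x s = ∫ z, f z := by
  have := int_step hf hδ hx hm (fun _ => 1)
  simp only [mul_one] at this
  exact this.symm

lemma int_step2 (hf : Tst r f) (hg : Tst r g) (hδ : 0 < δ) (hx : SM δ x) (hy : SM δ y) {m : ℕ}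
    (hm : 2 * (r / δ + 2) ≤ m) (Φ : ℤ × ℤ → ℤ × ℤ → ℝ) :
    ∫ z, ∫ w, f z * Φ (x z) (y w) * g w =
      ∑ s ∈ box m, ∑ t ∈ box m, wf f x s * wf g y t * Φ s t := by
  have h1 : ∀ z, ∫ w, f z * Φ (x z) (y w) * g w =
      f z * (fun s => ∑ t ∈ box m, wf g y t * Φ s t) (x z) := by
    intro z
    have := int_step hg hδ hy hm (Φ (x z))
    change _ = f z * ∑ t ∈ box m, wf g y t * Φ (x z) t
    rw [← this, ← integral_const_mul]
    refine integral_congr_ae (Eventually.of_forall fun w => ?_)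
    simp only
    ring
  simp only [h1]
  rw [int_step hf hδ hx hm (fun s => ∑ t ∈ box m, wf g y t * Φ s t)]
  refine sum_congr rfl fun s _ => ?_
  rw [mul_sum]
  refine sum_congr rfl fun t _ => ?_
  ring

/-- smeared height as an integral over the plane -/
def YY (f : ℂ → ℝ) (x : ℂ → ℤ × ℤ) (ω : Conf) : ℝ := ∫ z, f z * H ω (x z)

lemma YY_eq (hf : Tst r f) (hδ : 0 < δ) (hx : SM δ x) {m : ℕ} (hm : 2 * (r / δ + 2) ≤ m)
    (ω : Conf) : YY f x ω = XX (box m) (wf f x) id ω := by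
  unfold YY XX
  exact int_step hf hδ hx hm (H ω)

/-! ### the rescaled kernel -/

/-- the rescaled logarithm -/
def ell (δ : ℝ) (s : ℤ × ℤ) : ℝ := el s - Real.log (Real.sqrt 2) + Real.log δ

lemma ell_of_ne (hδ : 0 < δ) {s : ℤ × ℤ} (hs : s ≠ 0) : ell δ s = Real.log ‖(δ : ℂ) * q s‖ := by
  unfold ell
  rw [el_eq_q hs, norm_mul, Complex.norm_real, Real.norm_eq_abs, abs_of_pos hδ,
    Real.log_mul hδ.ne' (q_ne_zero hs)]
  ring

lemma ell_zero : ell δ 0 = Real.log δ - Real.log (Real.sqrt 2) := by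
  unfold ell el
  simp
  ring

lemma dist_sites (hx : SM δ x) (hy : SM δ y) (z w : ℂ) :
    ‖(δ : ℂ) * q (x z - y w) - (z - w)‖ ≤ 4 * δ := by
  have e : (δ : ℂ) * q (x z - y w) - (z - w) = ((δ : ℂ) * q (x z) - z) - ((δ : ℂ) * q (y w) - w) := by
    rw [q_sub]; ring
  rw [e]
  refine (norm_sub_le _ _).trans ?_
  have := hx.close z
  have := hy.close w
  linarith

lemma abs_ell_le (hδ : 0 < δ) (hδ1 : δ ≤ 1) (hx : SM δ x) (hy : SM δ y) {z w : ℂ} (hzw : z ≠ w) :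
    |ell δ (x z - y w)| ≤ |Real.log ‖z - w‖| + 6 := by
  have hd := dist_sites hx hy z w
  have hpos : 0 < ‖z - w‖ := norm_pos_iff.2 (sub_ne_zero.2 hzw)
  have hl2 : Real.log 2 ≤ 1 := by have := Real.log_two_lt_d9; linarith
  have hl2' : 0 ≤ Real.log 2 := Real.log_nonneg (by norm_num)
  have hup : ‖(δ : ℂ) * q (x z - y w)‖ ≤ ‖z - w‖ + 4 * δ := by
    have : (δ : ℂ) * q (x z - y w) = ((δ : ℂ) * q (x z - y w) - (z - w)) + (z - w) := by ring
    rw [this]
    refine (norm_add_le _ _).trans ?_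
    linarith
  have hlo : ‖z - w‖ - 4 * δ ≤ ‖(δ : ℂ) * q (x z - y w)‖ := by
    have : z - w = (δ : ℂ) * q (x z - y w) - ((δ : ℂ) * q (x z - y w) - (z - w)) := by ring
    have h2 : ‖z - w‖ ≤ ‖(δ : ℂ) * q (x z - y w)‖ + ‖(δ : ℂ) * q (x z - y w) - (z - w)‖ := by
      conv_lhs => rw [this]
      exact norm_sub_le _ _
    linarith
  rcases le_or_gt (8 * δ) ‖z - w‖ with hbig | hsmall
  · have hs : x z - y w ≠ 0 := by
      intro h0
      rw [h0, q_zero, mul_zero, norm_zero] at hlo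
      linarith
    rw [ell_of_ne hδ hs]
    have h1 : ‖z - w‖ / 2 ≤ ‖(δ : ℂ) * q (x z - y w)‖ := by linarith
    have h2 : ‖(δ : ℂ) * q (x z - y w)‖ ≤ ‖z - w‖ * 2 := by linarith
    have h3 := Real.log_le_log (by positivity) h1
    have h4 := Real.log_le_log (lt_of_lt_of_le (by positivity) h1) h2
    rw [Real.log_div hpos.ne' (by norm_num)] at h3
    rw [Real.log_mul hpos.ne' (by norm_num)] at h4
    rw [abs_le]
    have := neg_abs_le (Real.log ‖z - w‖)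
    have := le_abs_self (Real.log ‖z - w‖)
    constructor <;> linarith
  · -- near
    have h5 : -Real.log δ ≤ |Real.log ‖z - w‖| + 3 * Real.log 2 := by
      have := Real.log_le_log hpos hsmall.le
      rw [Real.log_mul (by norm_num) hδ.ne'] at this
      have e8 : Real.log 8 = 3 * Real.log 2 := by
        rw [show (8 : ℝ) = 2 ^ 3 by norm_num, Real.log_pow]; norm_num
      rw [e8] at this
      have := neg_abs_le (Real.log ‖z - w‖)
      linarith
    have hlδ : Real.log δ ≤ 0 := Real.log_nonpos hδ.le hδ1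
    have hs2 : 0 ≤ Real.log (Real.sqrt 2) ∧ Real.log (Real.sqrt 2) ≤ Real.log 2 := by
      rw [Real.log_sqrt (by norm_num)]
      constructor <;> linarith
    by_cases hs : x z - y w = 0
    · rw [hs, ell_zero, abs_le]
      have h0 := abs_nonneg (Real.log ‖z - w‖)
      constructor <;> linarith [hs2.1, hs2.2]
    · rw [ell_of_ne hδ hs]
      have h1 : δ / 2 ≤ ‖(δ : ℂ) * q (x z - y w)‖ := by
        rw [norm_mul, Complex.norm_real, Real.norm_eq_abs, abs_of_pos hδ]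
        have := half_le_q hs
        nlinarith
      have h2 : ‖(δ : ℂ) * q (x z - y w)‖ ≤ 16 := by linarith
      have h3 := Real.log_le_log (by positivity) h1
      have h4 := Real.log_le_log (lt_of_lt_of_le (by positivity) h1) h2
      rw [Real.log_div hδ.ne' (by norm_num)] at h3
      have e16 : Real.log 16 = 4 * Real.log 2 := by
        rw [show (16 : ℝ) = 2 ^ 4 by norm_num, Real.log_pow]; norm_num
      rw [e16] at h4
      have h0 := abs_nonneg (Real.log ‖z - w‖)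
      rw [abs_le]
      constructor <;> linarith

lemma ell_tendsto {x y : ℝ → ℂ → ℤ × ℤ} (hx : ∀ δ, 0 < δ → SM δ (x δ))
    (hy : ∀ δ, 0 < δ → SM δ (y δ)) {z w : ℂ} (hzw : z ≠ w) :
    Tendsto (fun δ : ℝ => ell δ (x δ z - y δ w)) (𝓝[>] 0) (𝓝 (Real.log ‖z - w‖)) := by
  have hpos : 0 < ‖z - w‖ := norm_pos_iff.2 (sub_ne_zero.2 hzw)
  have h1 : Tendsto (fun δ : ℝ => (δ : ℂ) * q (x δ z - y δ w)) (𝓝[>] 0) (𝓝 (z - w)) := by
    rw [tendsto_iff_norm_sub_tendsto_zero]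
    refine squeeze_zero' (Eventually.of_forall fun _ => norm_nonneg _) (g := fun δ => 4 * δ) ?_ ?_
    · filter_upwards [self_mem_nhdsWithin] with δ hδ
      exact dist_sites (hx δ hδ) (hy δ hδ) z w
    · have : Tendsto (fun δ : ℝ => 4 * δ) (𝓝 0) (𝓝 (4 * 0)) := tendsto_id.const_mul 4
      rw [mul_zero] at this
      exact this.mono_left nhdsWithin_le_nhds
  have h2 : Tendsto (fun δ : ℝ => Real.log ‖(δ : ℂ) * q (x δ z - y δ w)‖) (𝓝[>] 0)
      (𝓝 (Real.log ‖z - w‖)) := (h1.norm).log hpos.ne'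
  refine h2.congr' ?_
  have h3 : ∀ᶠ δ : ℝ in 𝓝[>] 0, δ < ‖z - w‖ / 8 :=
    nhdsWithin_le_nhds (Iio_mem_nhds (by positivity))
  filter_upwards [self_mem_nhdsWithin, h3] with δ hδ h4
  have hδ' : (0 : ℝ) < δ := hδ
  symm
  refine ell_of_ne hδ' ?_
  intro h0
  have hd := dist_sites (hx δ hδ) (hy δ hδ) z w
  rw [h0, q_zero, mul_zero, zero_sub, norm_neg] at hd
  linarith

/-! ### the covariance limit -/

/-- the rescaled double sum as a double integral -/
def II (f g : ℂ → ℝ) (δ : ℝ) (x y : ℂ → ℤ × ℤ) : ℝ :=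
  ∫ z, ∫ w, f z * ell δ (x z - y w) * g w

lemma measurable_site {x y : ℂ → ℤ × ℤ} (hx : Measurable x) (hy : Measurable y) (φ : ℤ × ℤ → ℝ) :
    Measurable fun p : ℂ × ℂ => φ (x p.1 - y p.2) :=
  (measurable_of_countable φ).comp ((hx.comp measurable_fst).sub (hy.comp measurable_snd))

lemma II_tendsto (hf : Tst r f) (hg : Tst r g) {x y : ℝ → ℂ → ℤ × ℤ}
    (hx : ∀ δ, 0 < δ → SM δ (x δ)) (hy : ∀ δ, 0 < δ → SM δ (y δ)) :
    Tendsto (fun δ => II f g δ (x δ) (y δ)) (𝓝[>] 0)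
      (𝓝 (∫ z, ∫ w, f z * Real.log ‖z - w‖ * g w)) := by
  have hdom := Crest.Agent.R161.Green722.integrable_dom hf hg 6
  have hmeas : ∀ δ, 0 < δ → AEStronglyMeasurable
      (fun p : ℂ × ℂ => f p.1 * ell δ (x δ p.1 - y δ p.2) * g p.2) (volume : Measure (ℂ × ℂ)) := by
    intro δ hδ
    exact (((hf.meas.comp measurable_fst).mul
      (measurable_site (hx δ hδ).meas (hy δ hδ).meas (ell δ))).mul
      (hg.meas.comp measurable_snd)).aestronglyMeasurable
  have hne : ∀ᵐ p : ℂ × ℂ, p.1 ≠ p.2 := by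
    have h1 : ∀ᵐ p : ℂ × ℂ ∂(volume.prod volume), p ∈ {p : ℂ × ℂ | p.1 ≠ p.2} := by
      rw [Measure.ae_prod_mem_iff_ae_ae_mem]
      · refine Eventually.of_forall fun z => ?_
        have : ∀ᵐ w : ℂ, w ≠ z := by rw [ae_iff]; simp
        filter_upwards [this] with w hw using hw.symm
      · exact (isOpen_ne_fun continuous_fst continuous_snd).measurableSet
    exact h1
  have hbd : ∀ δ, 0 < δ → δ ≤ 1 → ∀ᵐ p : ℂ × ℂ,
      ‖f p.1 * ell δ (x δ p.1 - y δ p.2) * g p.2‖ ≤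
        |f p.1| * (|Real.log ‖p.1 - p.2‖| + 6) * |g p.2| := by
    intro δ hδ hδ1
    filter_upwards [hne] with p hp
    rw [Real.norm_eq_abs, abs_mul, abs_mul]
    have := abs_ell_le hδ hδ1 (hx δ hδ) (hy δ hδ) hp
    gcongr
  have hlogi := Crest.Agent.R161.Green722.integrable_log_kernel hf hg
  have hkey : Tendsto (fun δ => ∫ p : ℂ × ℂ, f p.1 * ell δ (x δ p.1 - y δ p.2) * g p.2) (𝓝[>] 0)
      (𝓝 (∫ p : ℂ × ℂ, f p.1 * Real.log ‖p.1 - p.2‖ * g p.2)) := by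
    refine tendsto_integral_filter_of_dominated_convergence
      (fun p : ℂ × ℂ => |f p.1| * (|Real.log ‖p.1 - p.2‖| + 6) * |g p.2|) ?_ ?_ hdom ?_
    · filter_upwards [self_mem_nhdsWithin] with δ hδ
      exact hmeas δ hδ
    · have h1 : ∀ᶠ δ : ℝ in 𝓝[>] 0, δ ≤ 1 :=
        nhdsWithin_le_nhds (Iic_mem_nhds one_pos)
      filter_upwards [self_mem_nhdsWithin, h1] with δ hδ hδ1
      exact hbd δ hδ hδ1
    · filter_upwards [hne] with p hp
      exact ((ell_tendsto hx hy hp).const_mul (f p.1)).mul_const (g p.2)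
  have e2 : ∫ z, ∫ w, f z * Real.log ‖z - w‖ * g w =
      ∫ p : ℂ × ℂ, f p.1 * Real.log ‖p.1 - p.2‖ * g p.2 :=
    (integral_prod _ hlogi).symm
  rw [e2]
  refine hkey.congr' ?_
  have h1 : ∀ᶠ δ : ℝ in 𝓝[>] 0, δ ≤ 1 := nhdsWithin_le_nhds (Iic_mem_nhds one_pos)
  filter_upwards [self_mem_nhdsWithin, h1] with δ hδ hδ1
  have hi : Integrable (fun p : ℂ × ℂ => f p.1 * ell δ (x δ p.1 - y δ p.2) * g p.2) :=
    Integrable.mono' hdom (hmeas δ hδ) (hbd δ hδ hδ1)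
  exact integral_prod _ hi

/-- comparison of `E YY YY` with the rescaled double integral -/
lemma cov_sub_II (h : PlaneIn c P) (hr : 0 ≤ r) (hf : Tst r f) (hg : Tst r g) (hf0 : ∫ z, f z = 0)
    (hg0 : ∫ z, g z = 0) {ε : ℝ} (hε : 0 < ε) : ∃ δ0 : ℝ, 0 < δ0 ∧ ∀ δ, 0 < δ → δ < δ0 →
      ∀ x y : ℂ → ℤ × ℤ, SM δ x → SM δ y →
      |∫ ω, YY f x ω * YY g y ω ∂P + Lk159.kap c / 2 * II f g δ x y| ≤ ε := by
  obtain ⟨A, hA⟩ := hf.bdd
  obtain ⟨A', hA'⟩ := hg.bdd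
  have hA0 : 0 ≤ A := (abs_nonneg _).trans (hA 0)
  have hA0' : 0 ≤ A' := (abs_nonneg _).trans (hA' 0)
  obtain ⟨N0, hN0, H0⟩ := smeared h (64 * (A + A' + 1)) (by positivity) ⌈2 * r + 5⌉₊ hε
  refine ⟨1 / (N0 + 1), by positivity, fun δ hδ hδ0 x y hx hy => ?_⟩
  have hN0' : (1 : ℝ) ≤ N0 := by exact_mod_cast hN0
  have hδ1 : δ ≤ 1 := by
    refine hδ0.le.trans ?_
    rw [div_le_one (by positivity)]
    linarith
  set N := ⌈1 / δ⌉₊ with hN
  set m := ⌈2 * (r / δ + 2)⌉₊ with hm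
  have hm1 : 2 * (r / δ + 2) ≤ m := Nat.le_ceil _
  have hN1 : 1 / δ ≤ N := Nat.le_ceil _
  have hNpos : (0 : ℝ) < N := lt_of_lt_of_le (by positivity) hN1
  have hN1' : 1 ≤ 1 / δ := by rwa [le_div_iff₀ hδ, one_mul]
  have hN2 : (N : ℝ) ≤ 2 / δ := by
    have h1 : (N : ℝ) < 1 / δ + 1 := Nat.ceil_lt_add_one (by positivity)
    have h2 : 2 / δ = 1 / δ + 1 / δ := by ring
    linarith
  have hNN0 : N0 ≤ N := by
    have h1 : (N0 : ℝ) ≤ 1 / δ := by
      rw [le_div_iff₀ hδ]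
      rw [lt_div_iff₀ (by positivity)] at hδ0
      nlinarith
    exact_mod_cast h1.trans hN1
  have hδN : δ ^ 2 ≤ 4 / (N : ℝ) ^ 2 := by
    have h1 : δ ≤ 2 / N := by
      rw [le_div_iff₀ hNpos]
      rw [le_div_iff₀ hδ] at hN2
      linarith
    calc δ ^ 2 ≤ (2 / (N : ℝ)) ^ 2 := by gcongr
      _ = _ := by ring
  have hsup : ∀ s ∈ box m, ‖id s‖ ≤ (⌈2 * r + 5⌉₊ : ℝ) * N := by
    intro s hs
    rw [id, ]
    have h1 := mem_box_norm.1 hs
    have h2 : (m : ℝ) < 2 * (r / δ + 2) + 1 := Nat.ceil_lt_add_one (by positivity)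
    have h3 : 2 * r + 5 ≤ (⌈2 * r + 5⌉₊ : ℝ) := Nat.le_ceil _
    have h4 : r / δ = r * (1 / δ) := by ring
    have h5 : r * (1 / δ) ≤ r * N := by gcongr
    have h6 : (1 : ℝ) ≤ N := hN1'.trans hN1
    calc ‖s‖ ≤ m := h1
      _ ≤ 2 * (r * N + 2) + 1 := by rw [h4] at h2; linarith
      _ ≤ (2 * r + 5) * N := by nlinarith
      _ ≤ _ := by gcongr
  have hwf : ∀ s ∈ box m, |wf f x s| ≤ 64 * (A + A' + 1) / (N : ℝ) ^ 2 := by
    intro s _
    refine (abs_wf_le hA hδ hx s).trans ?_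
    calc 16 * A * δ ^ 2 ≤ 16 * (A + A' + 1) * (4 / (N : ℝ) ^ 2) := by gcongr; linarith
      _ = _ := by ring
  have hwg : ∀ s ∈ box m, |wf g y s| ≤ 64 * (A + A' + 1) / (N : ℝ) ^ 2 := by
    intro s _
    refine (abs_wf_le hA' hδ hy s).trans ?_
    calc 16 * A' * δ ^ 2 ≤ 16 * (A + A' + 1) * (4 / (N : ℝ) ^ 2) := by gcongr; linarith
      _ = _ := by ring
  have hsf : ∑ s ∈ box m, wf f x s = 0 := by rw [sum_wf hf hδ hx hm1, hf0]
  have hsg : ∑ s ∈ box m, wf g y s = 0 := by rw [sum_wf hg hδ hy hm1, hg0]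
  have key := H0 N hNN0 (ℤ × ℤ) (ℤ × ℤ) (box m) (box m) (wf f x) (wf g y) id id
    Function.injective_id.injOn Function.injective_id.injOn hsup hsup hwf hwg hsf hsg
  have e1 : ∫ ω, YY f x ω * YY g y ω ∂P =
      ∫ ω, XX (box m) (wf f x) id ω * XX (box m) (wf g y) id ω ∂P := by
    refine integral_congr_ae (Eventually.of_forall fun ω => ?_)
    simp only
    rw [YY_eq hf hδ hx hm1, YY_eq hg hδ hy hm1]
  have e2 : ∑ s ∈ box m, ∑ t ∈ box m, wf f x s * wf g y t * el (id s - id t) = II f g δ x y := by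
    unfold II
    rw [int_step2 hf hg hδ hx hy hm1 (fun s t => ell δ (s - t))]
    have e3 : ∀ s t, wf f x s * wf g y t * el (id s - id t) =
        wf f x s * wf g y t * ell δ (s - t) +
          wf f x s * wf g y t * (Real.log (Real.sqrt 2) - Real.log δ) := by
      intro s t
      unfold ell
      simp only [id]
      ring
    simp only [e3, sum_add_distrib]
    have e4 : ∑ s ∈ box m, ∑ t ∈ box m, wf f x s * wf g y t * (Real.log (Real.sqrt 2) - Real.log δ) =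
        0 := by
      simp only [← sum_mul, ← mul_sum]
      rw [hsg]
      simp
    rw [e4, add_zero]
  rw [e1, ← e2]
  exact key

/-- **The covariance limit.** -/
theorem cov_lim (h : PlaneIn c P) (hr : 0 ≤ r) (hf : Tst r f) (hg : Tst r g) (hf0 : ∫ z, f z = 0)
    (hg0 : ∫ z, g z = 0) {x y : ℝ → ℂ → ℤ × ℤ} (hx : ∀ δ, 0 < δ → SM δ (x δ))
    (hy : ∀ δ, 0 < δ → SM δ (y δ)) :
    Tendsto (fun δ => ∫ ω, YY f (x δ) ω * YY g (y δ) ω ∂P) (𝓝[>] 0)
      (𝓝 (varianceMultiplier c * Ifc372.plog f g)) := by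
  have h1 : Tendsto (fun δ => ∫ ω, YY f (x δ) ω * YY g (y δ) ω ∂P +
      kap c / 2 * II f g δ (x δ) (y δ)) (𝓝[>] 0) (𝓝 0) := by
    rw [Metric.tendsto_nhds]
    intro ε hε
    obtain ⟨δ0, hδ0, H0⟩ := cov_sub_II h hr hf hg hf0 hg0 (ε := ε / 2) (by positivity)
    have h3 : ∀ᶠ δ : ℝ in 𝓝[>] 0, δ < δ0 := nhdsWithin_le_nhds (Iio_mem_nhds hδ0)
    filter_upwards [self_mem_nhdsWithin, h3] with δ hδ hδ2
    rw [Real.dist_eq, sub_zero]
    have := H0 δ hδ hδ2 (x δ) (y δ) (hx δ hδ) (hy δ hδ)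
    linarith
  have h2 := (II_tendsto hf hg hx hy).const_mul (kap c / 2)
  have h3 := h1.sub h2
  have e : 0 - kap c / 2 * (∫ z, ∫ w, f z * Real.log ‖z - w‖ * g w) =
      varianceMultiplier c * Ifc372.plog f g := by
    unfold Ifc372.plog kap
    have e1 : ∀ z w : ℂ, f z * (-(2 * Real.pi)⁻¹ * Real.log ‖z - w‖) * g w =
        -(2 * Real.pi)⁻¹ * (f z * Real.log ‖z - w‖ * g w) := fun z w => by ring
    simp only [e1, integral_const_mul]
    have := Real.pi_pos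
    field_simp
    ring
  rw [e] at h3
  refine h3.congr fun δ => ?_
  ring

/-- two site maps give asymptotically the same functional -/
theorem diff_lim (h : PlaneIn c P) (hr : 0 ≤ r) (hf : Tst r f) (hf0 : ∫ z, f z = 0)
    {x y : ℝ → ℂ → ℤ × ℤ} (hx : ∀ δ, 0 < δ → SM δ (x δ)) (hy : ∀ δ, 0 < δ → SM δ (y δ)) :
    Tendsto (fun δ => ∫ ω, (YY f (x δ) ω - YY f (y δ) ω) ^ 2 ∂P) (𝓝[>] 0) (𝓝 0) := by
  have h1 := cov_lim h hr hf hf hf0 hf0 hx hx
  have h2 := cov_lim h hr hf hf hf0 hf0 hx hy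
  have h3 := cov_lim h hr hf hf hf0 hf0 hy hy
  have h4 := (h1.sub (h2.const_mul 2)).add h3
  have e : varianceMultiplier c * Ifc372.plog f f - 2 * (varianceMultiplier c * Ifc372.plog f f) +
      varianceMultiplier c * Ifc372.plog f f = 0 := by ring
  rw [e] at h4
  refine h4.congr' ?_
  filter_upwards [self_mem_nhdsWithin] with δ hδ
  have := h.plane.prob
  have hδ' : (0 : ℝ) < δ := hδ
  have hm1 : 2 * (r / δ + 2) ≤ (⌈2 * (r / δ + 2)⌉₊ : ℝ) := Nat.le_ceil _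
  have ex : ∀ ω, YY f (x δ) ω = XX (box ⌈2 * (r / δ + 2)⌉₊) (wf f (x δ)) id ω :=
    YY_eq hf hδ' (hx δ hδ) hm1
  have ey : ∀ ω, YY f (y δ) ω = XX (box ⌈2 * (r / δ + 2)⌉₊) (wf f (y δ)) id ω :=
    YY_eq hf hδ' (hy δ hδ) hm1
  simp only [ex, ey]
  have l1 := loc_XX (box ⌈2 * (r / δ + 2)⌉₊) (wf f (x δ)) id
  have l2 := loc_XX (box ⌈2 * (r / δ + 2)⌉₊) (wf f (y δ)) id
  have i11 := Loc.integrable (l1.mul l1) P
  have i12 := Loc.integrable (l1.mul l2) P
  have i22 := Loc.integrable (l2.mul l2) P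
  rw [← integral_const_mul, ← integral_sub i11 (i12.const_mul 2), ← integral_add _ i22]
  · refine integral_congr_ae (Eventually.of_forall fun ω => ?_)
    simp only
    ring
  · exact i11.sub (i12.const_mul 2)

end Crest.Agent.R161.Lk159
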