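import Crest.Agent.R161.LkV_159

/-!
# Row 161, block J (helper159): smeared covariances in the plane state

* `sum_E_le` : `∑_{|z| ≤ C N} |V z - (s/π) el z - A_N| ≤ ε N²`.
* `XX` : `X = ∑ i ∈ S, a i * H (x i)`.
* `smeared` : uniform asymptotics of `E X(a) X(b)` over all bounded mean zero densities at scale `N`.
* `smeared_bound`, `V_le` : a priori bounds.
-/

set_option autoImplicit false

noncomputable section

open Filter Topology MeasureTheory
open Finset hiding box
open Crest.ProbabilityR.SixVertex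
open Crest.Agent.R150.Hgt989 Crest.Agent.R150.Pln989 Crest.Agent.R150.Pls989
open Crest.Agent.R150.Red989

namespace Crest.Agent.R161.Lk159

variable {c : ℝ} {P : Measure Conf}

/-! ### counting in boxes -/

lemma mem_box_norm {m : ℕ} {z : ℤ × ℤ} : z ∈ box m ↔ ‖z‖ ≤ m := by
  rw [mem_box, Prod.norm_def, max_le_iff, Int.norm_eq_abs, Int.norm_eq_abs]
  constructor
  · rintro ⟨h1, h2⟩
    exact ⟨by exact_mod_cast h1, by exact_mod_cast h2⟩
  · rintro ⟨h1, h2⟩
    exact ⟨by exact_mod_cast h1, by exact_mod_cast h2⟩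

lemma card_box (m : ℕ) : (box m).card = (2 * m + 1) ^ 2 := by
  unfold box
  rw [card_product, Int.card_Icc, sq]
  have : ((m : ℤ) + 1 - -(m : ℤ)).toNat = 2 * m + 1 := by omega
  rw [this]

lemma norm_pos_of_ne {z : ℤ × ℤ} (hz : z ≠ 0) : 1 ≤ ‖z‖ := by
  rw [Prod.norm_def, Int.norm_eq_abs, Int.norm_eq_abs, le_max_iff]
  by_contra hcon
  push Not at hcon
  obtain ⟨h1, h2⟩ := hcon
  have h1' : |z.1| < 1 := by exact_mod_cast h1
  have h2' : |z.2| < 1 := by exact_mod_cast h2
  rw [Int.abs_lt_one_iff] at h1' h2'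
  exact hz (Prod.ext h1' h2')

lemma norm_of_not_mem {m : ℕ} {z : ℤ × ℤ} (h : z ∉ box m) : (m : ℝ) + 1 ≤ ‖z‖ := by
  rw [mem_box] at h
  rw [Prod.norm_def, Int.norm_eq_abs, Int.norm_eq_abs, le_max_iff]
  rw [not_and_or, not_le, not_le] at h
  rcases h with h | h
  · left
    have : (m : ℤ) + 1 ≤ |z.1| := h
    exact_mod_cast this
  · right
    have : (m : ℤ) + 1 ≤ |z.2| := h
    exact_mod_cast this

lemma box_subset {m n : ℕ} (h : m ≤ n) : box m ⊆ box n := fun _ hv => box_mono h hv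

/-- `∑_{0 < |z| ≤ m} 1/|z| ≤ 8 m` -/
lemma sum_inv_norm (m : ℕ) : ∑ z ∈ box m, ‖z‖⁻¹ ≤ 8 * m := by
  induction m with
  | zero =>
    have : box 0 = {0} := by
      ext z
      rw [mem_box_norm, mem_singleton]
      simp
    rw [this]
    simp
  | succ m ih =>
    have h := box_subset (Nat.le_succ m)
    rw [← sum_sdiff h]
    have h1 : ∑ z ∈ box (m + 1) \ box m, ‖z‖⁻¹ ≤ 8 := by
      have h2 : ∀ z ∈ box (m + 1) \ box m, ‖z‖⁻¹ ≤ ((m : ℝ) + 1)⁻¹ := by
        intro z hz
        rw [Finset.mem_sdiff] at hz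
        exact inv_anti₀ (by positivity) (norm_of_not_mem hz.2)
      refine (sum_le_card_nsmul _ _ _ h2).trans ?_
      rw [card_sdiff_of_subset h, card_box, card_box, nsmul_eq_mul]
      have : (((2 * (m + 1) + 1) ^ 2 - (2 * m + 1) ^ 2 : ℕ) : ℝ) = 8 * (m + 1) := by
        rw [Nat.cast_sub (by gcongr; omega)]
        push_cast
        ring
      rw [this]
      have hm : (0 : ℝ) < m + 1 := by positivity
      rw [mul_assoc, mul_inv_cancel₀ hm.ne']
      norm_num
    push_cast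
    linarith

/-! ### the error terms -/

/-- the point `N e₁` -/
def e1 (N : ℕ) : ℤ × ℤ := ((N : ℤ), 0)

lemma norm_e1 (N : ℕ) : ‖e1 N‖ = N := by
  rw [e1, Prod.norm_def]
  simp

lemma el_e1 (N : ℕ) : el (e1 N) = Real.log N := by
  simp [el, e1]

/-- slope -/
def kap (c : ℝ) : ℝ := varianceMultiplier c / Real.pi

lemma kap_pos (hc : 0 < c) : 0 < kap c := div_pos (varianceMultiplier_pos hc) Real.pi_pos

/-- the additive constant at scale `N` -/
def AN (c : ℝ) (P : Measure Conf) (N : ℕ) : ℝ := V P (e1 N) - kap c * Real.log N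

/-- the error of the logarithmic approximation -/
def EE (c : ℝ) (P : Measure Conf) (N : ℕ) (z : ℤ × ℤ) : ℝ := V P z - kap c * el z - AN c P N

lemma log_le_self' {x : ℝ} (hx : 0 < x) : Real.log x ≤ x := by
  have := Real.log_le_sub_one_of_pos hx
  linarith

/-- bound of the error off a fixed box -/
lemma EE_far (h : PlaneIn c P) {ε : ℝ} (hε : 0 < ε) : ∃ R0 : ℕ, 1 ≤ R0 ∧
    ∀ N : ℕ, R0 ≤ N → ∀ z : ℤ × ℤ, (R0 : ℝ) ≤ ‖z‖ →
      |EE c P N z| ≤ ε * (1 + ‖z‖ / N + N * ‖z‖⁻¹) := by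
  obtain ⟨R1, hR1, H1⟩ := V_asymp h hε
  refine ⟨⌈R1⌉₊, ?_, fun N hN z hz => ?_⟩
  · exact Nat.one_le_iff_ne_zero.2 fun hh => by
      have := Nat.ceil_eq_zero.1 hh
      linarith
  have hRN : R1 ≤ ⌈R1⌉₊ := Nat.le_ceil R1
  have hN' : (⌈R1⌉₊ : ℝ) ≤ N := by exact_mod_cast hN
  have hNpos : (0 : ℝ) < N := by linarith
  have hzpos : 0 < ‖z‖ := by linarith
  rcases le_total ‖z‖ N with hle | hle
  · have := H1 (e1 N) z (by linarith) (by rw [norm_e1]; exact hle)
    rw [norm_e1, el_e1] at this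
    have e : EE c P N z = -(V P (e1 N) - V P z - varianceMultiplier c / Real.pi *
        (Real.log N - el z)) := by
      unfold EE AN kap
      ring
    rw [e, abs_neg]
    refine this.trans ?_
    refine mul_le_mul_of_nonneg_left ?_ hε.le
    have h2 := log_le_self' (div_pos hNpos hzpos)
    have h3 : 0 ≤ ‖z‖ / N := by positivity
    rw [div_eq_mul_inv] at h2
    rw [div_eq_mul_inv (N : ℝ)]
    linarith
  · have := H1 z (e1 N) (by rw [norm_e1]; linarith) (by rw [norm_e1]; exact hle)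
    rw [norm_e1, el_e1] at this
    have e : EE c P N z = V P z - V P (e1 N) - varianceMultiplier c / Real.pi *
        (el z - Real.log N) := by
      unfold EE AN kap
      ring
    rw [e]
    refine this.trans ?_
    refine mul_le_mul_of_nonneg_left ?_ hε.le
    have h2 := log_le_self' (div_pos hzpos hNpos)
    have h3 : 0 ≤ (N : ℝ) * ‖z‖⁻¹ := by positivity
    linarith

/-- `A_N` grows at most logarithmically -/
lemma AN_le (h : PlaneIn c P) : ∃ C : ℝ, 0 < C ∧ ∀ N : ℕ, |AN c P N| ≤ C * (1 + Real.log (1 + N)) := by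
  obtain ⟨R1, hR1, H1⟩ := V_asymp h one_pos
  set R := ⌈R1⌉₊ with hR
  have hRN : R1 ≤ R := Nat.le_ceil R1
  have hRpos : (0 : ℝ) < R := by linarith
  set D : ℝ := ∑ n ∈ Finset.range (R + 1), |AN c P n| with hD
  have hDn : 0 ≤ D := sum_nonneg fun _ _ => abs_nonneg _
  refine ⟨D + 1 + 1, by linarith, fun N => ?_⟩
  have hl : 0 ≤ Real.log (1 + N) := Real.log_nonneg (by
    have : (0 : ℝ) ≤ N := Nat.cast_nonneg N
    linarith)
  rcases le_or_gt N R with hN | hN
  · have : |AN c P N| ≤ D :=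
      single_le_sum (f := fun n => |AN c P n|) (fun _ _ => abs_nonneg _)
        (mem_range.2 (Nat.lt_succ_of_le hN))
    nlinarith
  · have hN' : (R : ℝ) ≤ N := by exact_mod_cast hN.le
    have hNpos : (0 : ℝ) < N := by linarith
    have h1 := H1 (e1 N) (e1 R) (by rw [norm_e1]; exact hRN) (by rw [norm_e1, norm_e1]; exact hN')
    rw [norm_e1, norm_e1, el_e1, el_e1] at h1
    have h2 : |AN c P R| ≤ D :=
      single_le_sum (f := fun n => |AN c P n|) (fun _ _ => abs_nonneg _)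
        (mem_range.2 (Nat.lt_succ_self R))
    have e : AN c P N = (V P (e1 N) - V P (e1 R) - varianceMultiplier c / Real.pi *
        (Real.log N - Real.log R)) + AN c P R := by
      unfold AN kap
      ring
    rw [e]
    refine (abs_add_le _ _).trans ?_
    have h3 : Real.log (N / R) ≤ Real.log (1 + N) := by
      refine Real.log_le_log (by positivity) ?_
      rw [div_le_iff₀ hRpos]
      have : (1 : ℝ) ≤ R := by linarith
      nlinarith
    nlinarith

/-- the key summation -/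
theorem sum_EE_le (h : PlaneIn c P) (C : ℕ) {ε : ℝ} (hε : 0 < ε) : ∃ N0 : ℕ, 1 ≤ N0 ∧
    ∀ N : ℕ, N0 ≤ N → ∑ z ∈ box (C * N), |EE c P N z| ≤ ε * (N : ℝ) ^ 2 := by
  -- constants
  set η : ℝ := ε / (2 * (9 * (C + 1) ^ 2 * (1 + C) + 8 * (C + 1))) with hη
  have hCpos : (0 : ℝ) ≤ C := Nat.cast_nonneg C
  have hden : (0 : ℝ) < 2 * (9 * (C + 1) ^ 2 * (1 + C) + 8 * (C + 1)) := by positivity
  have hηpos : 0 < η := div_pos hε hden
  obtain ⟨R0, hR0, HR⟩ := EE_far h hηpos
  obtain ⟨A, hA, HA⟩ := AN_le h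
  set D : ℝ := ∑ z ∈ box R0, |V P z - kap c * el z| with hD
  have hDn : 0 ≤ D := sum_nonneg fun _ _ => abs_nonneg _
  -- the near part is `o(N²)`
  have hnear : ∀ᶠ N : ℕ in atTop, D + (box R0).card * (A * (1 + Real.log (1 + N))) ≤
      ε / 2 * (N : ℝ) ^ 2 := by
    have h1 : ∀ N : ℕ, Real.log (1 + N) ≤ 1 + N := fun N => log_le_self' (by positivity)
    set M : ℝ := D + (box R0).card * (A * 3) with hM
    have hMn : 0 ≤ M := by positivity
    obtain ⟨N1, hN1⟩ := exists_nat_ge (M / (ε / 2))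
    filter_upwards [eventually_ge_atTop (max N1 1)] with N hN
    have hN1' : (N1 : ℝ) ≤ N := by exact_mod_cast (le_max_left _ _).trans hN
    have hN2 : (1 : ℝ) ≤ N := by exact_mod_cast (le_max_right _ _).trans hN
    have h2 : M ≤ ε / 2 * N := by
      have := hN1.trans hN1'
      rwa [div_le_iff₀ (by positivity), mul_comm] at this
    have h3 : 1 + Real.log (1 + N) ≤ 3 * N := by linarith [h1 N]
    have hcard : (0 : ℝ) ≤ (box R0).card := Nat.cast_nonneg _
    calc D + (box R0).card * (A * (1 + Real.log (1 + N)))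
        ≤ D * N + (box R0).card * (A * (3 * N)) := by
          refine add_le_add ?_ ?_
          · nlinarith
          · gcongr
      _ = M * N := by rw [hM]; ring
      _ ≤ ε / 2 * N * N := by gcongr
      _ = ε / 2 * (N : ℝ) ^ 2 := by ring
  obtain ⟨N2, hN2⟩ := eventually_atTop.1 hnear
  refine ⟨max (max N2 R0) 1, le_max_right _ _, fun N hN => ?_⟩
  have hNN2 : N2 ≤ N := (le_max_left _ _).trans ((le_max_left _ _).trans hN)
  have hNR : R0 ≤ N := (le_max_right _ _).trans ((le_max_left _ _).trans hN)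
  have hN1 : (1 : ℝ) ≤ N := by exact_mod_cast (le_max_right _ _).trans hN
  have hNpos : (0 : ℝ) < N := by linarith
  rw [← sum_filter_add_sum_filter_not (box (C * N)) (fun z => z ∈ box R0)]
  -- near
  have hn : ∑ z ∈ (box (C * N)).filter (fun z => z ∈ box R0), |EE c P N z| ≤
      ε / 2 * (N : ℝ) ^ 2 := by
    refine le_trans ?_ (hN2 N hNN2)
    calc ∑ z ∈ (box (C * N)).filter (fun z => z ∈ box R0), |EE c P N z|
        ≤ ∑ z ∈ box R0, |EE c P N z| := by
          refine sum_le_sum_of_subset_of_nonneg ?_ fun _ _ _ => abs_nonneg _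
          intro z hz
          exact (mem_filter.1 hz).2
      _ ≤ ∑ z ∈ box R0, (|V P z - kap c * el z| + A * (1 + Real.log (1 + N))) := by
          refine sum_le_sum fun z _ => ?_
          unfold EE
          refine (abs_sub _ _).trans ?_
          have := HA N
          linarith
      _ = D + (box R0).card * (A * (1 + Real.log (1 + N))) := by
          rw [sum_add_distrib, sum_const, nsmul_eq_mul]
  -- far
  have hf : ∑ z ∈ (box (C * N)).filter (fun z => z ∉ box R0), |EE c P N z| ≤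
      ε / 2 * (N : ℝ) ^ 2 := by
    calc ∑ z ∈ (box (C * N)).filter (fun z => z ∉ box R0), |EE c P N z|
        ≤ ∑ z ∈ (box (C * N)).filter (fun z => z ∉ box R0), η * ((1 + C) + N * ‖z‖⁻¹) := by
          refine sum_le_sum fun z hz => ?_
          rw [mem_filter] at hz
          have h1 := norm_of_not_mem hz.2
          have h2 := mem_box_norm.1 hz.1
          refine (HR N hNR z (by linarith)).trans ?_
          refine mul_le_mul_of_nonneg_left ?_ hηpos.le
          have h3 : ‖z‖ / N ≤ C := by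
            rw [div_le_iff₀ hNpos]
            push_cast at h2
            exact h2
          linarith
      _ ≤ ∑ z ∈ box (C * N), η * ((1 + C) + N * ‖z‖⁻¹) := by
          refine sum_le_sum_of_subset_of_nonneg (filter_subset _ _) fun z _ _ => ?_
          positivity
      _ = η * ((box (C * N)).card * (1 + C) + N * ∑ z ∈ box (C * N), ‖z‖⁻¹) := by
          rw [← mul_sum, sum_add_distrib, sum_const, nsmul_eq_mul, ← mul_sum]
      _ ≤ η * (9 * (C + 1) ^ 2 * (N : ℝ) ^ 2 * (1 + C) + N * (8 * (C * N))) := by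
          have h4 : ((box (C * N)).card : ℝ) ≤ 9 * (C + 1) ^ 2 * (N : ℝ) ^ 2 := by
            rw [card_box]
            push_cast
            have h5 : (2 * (C * N) + 1 : ℝ) ≤ 3 * ((C + 1) * N) := by nlinarith
            have h6 : (0 : ℝ) ≤ 2 * (C * N) + 1 := by positivity
            calc (2 * (C * N) + 1 : ℝ) ^ 2 ≤ (3 * ((C + 1) * N)) ^ 2 := by gcongr
              _ = _ := by ring
          have h7 := sum_inv_norm (C * N)
          push_cast at h7
          gcongr
      _ ≤ η * ((9 * (C + 1) ^ 2 * (1 + C) + 8 * (C + 1)) * (N : ℝ) ^ 2) := by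
          refine mul_le_mul_of_nonneg_left ?_ hηpos.le
          nlinarith [sq_nonneg (N : ℝ)]
      _ = ε / 2 * (N : ℝ) ^ 2 := by
          rw [hη]
          field_simp
  linarith

/-! ### smeared functionals -/

/-- the functional `∑ a i H(x i)` -/
def XX {ι : Type*} (S : Finset ι) (a : ι → ℝ) (x : ι → ℤ × ℤ) (ω : Conf) : ℝ :=
  ∑ i ∈ S, a i * H ω (x i)

lemma loc_XX {ι : Type*} (S : Finset ι) (a : ι → ℝ) (x : ι → ℤ × ℤ) : Loc (XX S a x) :=
  Loc.sum S fun i _ => (Loc.const (a i)).mul (loc_H (x i))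

lemma integral_H_mul (hP : IsPlane c P) (x y : ℤ × ℤ) :
    ∫ ω, H ω x * H ω y ∂P = (V P x + V P y - V P (x - y)) / 2 := by
  have := cov_eq hP 0 x 0 y
  simp only [H_zero, sub_zero, zero_sub, V_zero, V_neg hP] at this
  rw [this]

lemma integral_XX {ι κ : Type*} (hP : IsPlane c P) (S : Finset ι) (T : Finset κ) (a : ι → ℝ)
    (b : κ → ℝ) (x : ι → ℤ × ℤ) (y : κ → ℤ × ℤ) :
    ∫ ω, XX S a x ω * XX T b y ω ∂P =
      ∑ i ∈ S, ∑ j ∈ T, a i * b j * ((V P (x i) + V P (y j) - V P (x i - y j)) / 2) := by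
  have := hP.prob
  unfold XX
  simp only [sum_mul_sum]
  rw [integral_finsetSum]
  · refine sum_congr rfl fun i _ => ?_
    rw [integral_finsetSum]
    · refine sum_congr rfl fun j _ => ?_
      rw [← integral_H_mul hP, ← integral_const_mul]
      refine integral_congr_ae (Eventually.of_forall fun ω => ?_)
      simp only
      ring
    · intro j _
      exact Loc.integrable (((Loc.const _).mul (loc_H _)).mul ((Loc.const _).mul (loc_H _))) P
  · intro i _
    exact Loc.integrable (Loc.sum _ fun j _ =>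
      ((Loc.const _).mul (loc_H _)).mul ((Loc.const _).mul (loc_H _))) P

lemma integral_XX_zero {ι κ : Type*} (hP : IsPlane c P) (S : Finset ι) (T : Finset κ) (a : ι → ℝ)
    (b : κ → ℝ) (x : ι → ℤ × ℤ) (y : κ → ℤ × ℤ) (ha : ∑ i ∈ S, a i = 0) (hb : ∑ j ∈ T, b j = 0) :
    ∫ ω, XX S a x ω * XX T b y ω ∂P =
      -(∑ i ∈ S, ∑ j ∈ T, a i * b j * V P (x i - y j)) / 2 := by
  rw [integral_XX hP]
  have e : ∀ i ∈ S, ∑ j ∈ T, a i * b j * ((V P (x i) + V P (y j) - V P (x i - y j)) / 2) =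
      a i * ((∑ j ∈ T, b j * V P (y j)) / 2) - (∑ j ∈ T, a i * b j * V P (x i - y j)) / 2 := by
    intro i _
    have h1 : ∑ j ∈ T, a i * b j * ((V P (x i) + V P (y j) - V P (x i - y j)) / 2) =
        a i * V P (x i) / 2 * (∑ j ∈ T, b j) + a i * ((∑ j ∈ T, b j * V P (y j)) / 2) -
          (∑ j ∈ T, a i * b j * V P (x i - y j)) / 2 := by
      rw [mul_sum, sum_div, mul_sum, sum_div, ← sum_add_distrib, ← sum_sub_distrib]
      refine sum_congr rfl fun j _ => ?_
      ring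
    rw [h1, hb]
    ring
  rw [sum_congr rfl e, sum_sub_distrib, ← sum_mul, ha, zero_mul, zero_sub, ← sum_div]
  ring

/-- **Uniform smeared covariance.** -/
theorem smeared (h : PlaneIn c P) (B : ℝ) (hB : 0 < B) (r : ℕ) {ε : ℝ} (hε : 0 < ε) :
    ∃ N0 : ℕ, 1 ≤ N0 ∧ ∀ N : ℕ, N0 ≤ N → ∀ (ι κ : Type) (S : Finset ι) (T : Finset κ)
      (a : ι → ℝ) (b : κ → ℝ) (x : ι → ℤ × ℤ) (y : κ → ℤ × ℤ), Set.InjOn x S → Set.InjOn y T →
      (∀ i ∈ S, ‖x i‖ ≤ r * N) → (∀ j ∈ T, ‖y j‖ ≤ r * N) →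
      (∀ i ∈ S, |a i| ≤ B / (N : ℝ) ^ 2) → (∀ j ∈ T, |b j| ≤ B / (N : ℝ) ^ 2) →
      ∑ i ∈ S, a i = 0 → ∑ j ∈ T, b j = 0 →
      |∫ ω, XX S a x ω * XX T b y ω ∂P +
        kap c / 2 * ∑ i ∈ S, ∑ j ∈ T, a i * b j * el (x i - y j)| ≤ ε := by
  classical
  set η : ℝ := ε / (9 * (r + 1) ^ 2 * B ^ 2) with hη
  have hηpos : 0 < η := by positivity
  obtain ⟨N0, hN0, H0⟩ := sum_EE_le h (2 * r) hηpos
  refine ⟨N0, hN0, fun N hN ι κ S T a b x y hx hy hxr hyr ha hb ha0 hb0 => ?_⟩
  have hN1 : (1 : ℝ) ≤ N := by exact_mod_cast hN0.trans hN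
  have hNpos : (0 : ℝ) < N := by linarith
  rw [integral_XX_zero h.plane S T a b x y ha0 hb0]
  have e1 : ∑ i ∈ S, ∑ j ∈ T, a i * b j * V P (x i - y j) =
      kap c * ∑ i ∈ S, ∑ j ∈ T, a i * b j * el (x i - y j) +
      ∑ i ∈ S, ∑ j ∈ T, a i * b j * EE c P N (x i - y j) := by
    have e2 : ∑ i ∈ S, ∑ j ∈ T, a i * b j * AN c P N = 0 := by
      simp only [← sum_mul, ← mul_sum]
      rw [hb0]
      simp
    have e3 : ∀ i j, a i * b j * V P (x i - y j) = kap c * (a i * b j * el (x i - y j)) +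
        a i * b j * AN c P N + a i * b j * EE c P N (x i - y j) := by
      intro i j
      unfold EE
      ring
    simp only [e3, sum_add_distrib]
    rw [e2, add_zero]
    simp only [← mul_sum]
  rw [e1]
  have e4 : -(kap c * ∑ i ∈ S, ∑ j ∈ T, a i * b j * el (x i - y j) +
      ∑ i ∈ S, ∑ j ∈ T, a i * b j * EE c P N (x i - y j)) / 2 +
      kap c / 2 * ∑ i ∈ S, ∑ j ∈ T, a i * b j * el (x i - y j) =
      -(∑ i ∈ S, ∑ j ∈ T, a i * b j * EE c P N (x i - y j)) / 2 := by ring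
  rw [e4, abs_div, abs_neg, abs_two]
  have hinner : ∀ i ∈ S, |∑ j ∈ T, a i * b j * EE c P N (x i - y j)| ≤
      B / (N : ℝ) ^ 2 * (B / (N : ℝ) ^ 2 * (η * (N : ℝ) ^ 2)) := by
    intro i hi
    have h1 : ∑ j ∈ T, |EE c P N (x i - y j)| ≤ η * (N : ℝ) ^ 2 := by
      refine le_trans ?_ (H0 N hN)
      rw [← sum_image (f := fun z => |EE c P N z|) (g := fun j => x i - y j)]
      · refine sum_le_sum_of_subset_of_nonneg ?_ fun _ _ _ => abs_nonneg _
        intro z hz
        obtain ⟨j, hj, rfl⟩ := mem_image.1 hz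
        rw [mem_box_norm]
        refine (norm_sub_le _ _).trans ?_
        have := hxr i hi
        have := hyr j hj
        push_cast
        linarith
      · intro j hj j' hj' hjj
        exact hy hj hj' (by simpa using hjj)
    calc |∑ j ∈ T, a i * b j * EE c P N (x i - y j)|
        ≤ ∑ j ∈ T, |a i * b j * EE c P N (x i - y j)| := abs_sum_le_sum_abs _ _
      _ ≤ ∑ j ∈ T, B / (N : ℝ) ^ 2 * (B / (N : ℝ) ^ 2 * |EE c P N (x i - y j)|) := by
          refine sum_le_sum fun j hj => ?_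
          rw [abs_mul, abs_mul, mul_assoc]
          have := ha i hi
          have := hb j hj
          gcongr
      _ = B / (N : ℝ) ^ 2 * (B / (N : ℝ) ^ 2 * ∑ j ∈ T, |EE c P N (x i - y j)|) := by
          rw [mul_sum, mul_sum]
      _ ≤ _ := by gcongr
  have hcard : (S.card : ℝ) ≤ 9 * (r + 1) ^ 2 * (N : ℝ) ^ 2 := by
    have h1 : S.card ≤ (box (r * N)).card := by
      refine card_le_card_of_injOn x ?_ hx
      intro i hi
      have := hxr i hi
      have h2 : x i ∈ box (r * N) := mem_box_norm.2 (by push_cast; exact this)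
      exact h2
    have h2 : (S.card : ℝ) ≤ ((box (r * N)).card : ℝ) := by exact_mod_cast h1
    refine h2.trans ?_
    rw [card_box]
    push_cast
    have hr : (0 : ℝ) ≤ r := Nat.cast_nonneg r
    have h5 : (2 * (r * N) + 1 : ℝ) ≤ 3 * ((r + 1) * N) := by nlinarith
    calc (2 * (r * N) + 1 : ℝ) ^ 2 ≤ (3 * ((r + 1) * N)) ^ 2 := by gcongr
      _ = _ := by ring
  have hall : |∑ i ∈ S, ∑ j ∈ T, a i * b j * EE c P N (x i - y j)| ≤ ε := by
    calc |∑ i ∈ S, ∑ j ∈ T, a i * b j * EE c P N (x i - y j)|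
        ≤ ∑ i ∈ S, |∑ j ∈ T, a i * b j * EE c P N (x i - y j)| := abs_sum_le_sum_abs _ _
      _ ≤ ∑ i ∈ S, B / (N : ℝ) ^ 2 * (B / (N : ℝ) ^ 2 * (η * (N : ℝ) ^ 2)) := sum_le_sum hinner
      _ = S.card * (B / (N : ℝ) ^ 2 * (B / (N : ℝ) ^ 2 * (η * (N : ℝ) ^ 2))) := by
          rw [sum_const, nsmul_eq_mul]
      _ ≤ (9 * (r + 1) ^ 2 * (N : ℝ) ^ 2) *
          (B / (N : ℝ) ^ 2 * (B / (N : ℝ) ^ 2 * (η * (N : ℝ) ^ 2))) := by gcongr
      _ = ε := by
          rw [hη]
          field_simp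
  linarith [abs_nonneg (∑ i ∈ S, ∑ j ∈ T, a i * b j * EE c P N (x i - y j))]

/-! ### a priori bounds -/

/-- the variance grows at most logarithmically -/
theorem V_le (h : PlaneIn c P) : ∃ C : ℝ, 0 < C ∧ ∀ z : ℤ × ℤ, V P z ≤ C * (1 + Real.log (1 + ‖z‖)) := by
  obtain ⟨R1, hR1, H1⟩ := V_asymp h one_pos
  set R := ⌈R1⌉₊ with hR
  have hRN : R1 ≤ R := Nat.le_ceil R1
  have hRpos : (1 : ℝ) ≤ R := by linarith
  set D : ℝ := ∑ z ∈ box R, V P z with hD
  have hDn : 0 ≤ D := sum_nonneg fun _ _ => V_nonneg _ _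
  have hk := kap_pos h.cpos
  refine ⟨D + 1 + 3 * kap c, by linarith, fun z => ?_⟩
  have hl : 0 ≤ Real.log (1 + ‖z‖) := Real.log_nonneg (by linarith [norm_nonneg z])
  by_cases hz : z ∈ box R
  · have : V P z ≤ D := single_le_sum (f := fun z => V P z) (fun _ _ => V_nonneg _ _) hz
    nlinarith
  · have hz1 := norm_of_not_mem hz
    have hzpos : 0 < ‖z‖ := by linarith
    have h1 := H1 z (e1 R) (by rw [norm_e1]; exact hRN) (by rw [norm_e1]; linarith)
    rw [norm_e1, el_e1] at h1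
    have h2 : V P (e1 R) ≤ D :=
      single_le_sum (f := fun z => V P z) (fun _ _ => V_nonneg _ _) (mem_box_norm.2 (by rw [norm_e1]))
    have h3 : Real.log (‖z‖ / R) ≤ Real.log (1 + ‖z‖) := by
      refine Real.log_le_log (by positivity) ?_
      rw [div_le_iff₀ (by linarith)]
      nlinarith
    have h4 : el z ≤ 2 + Real.log (1 + ‖z‖) := by
      refine (el_le hzpos le_rfl).trans ?_
      rw [Real.log_mul (by norm_num) hzpos.ne']
      have : Real.log 2 ≤ 1 := by have := Real.log_two_lt_d9; linarith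
      have : Real.log ‖z‖ ≤ Real.log (1 + ‖z‖) := Real.log_le_log hzpos (by linarith)
      linarith
    have h5 : 0 ≤ Real.log R := Real.log_nonneg hRpos
    have h6 := (abs_le.1 h1).2
    change V P z - V P (e1 R) - kap c * (el z - Real.log R) ≤ _ at h6
    have h7 : kap c * (el z - Real.log R) ≤ kap c * (2 + Real.log (1 + ‖z‖)) :=
      mul_le_mul_of_nonneg_left (by linarith) hk.le
    nlinarith

/-- second moment of a general (not mean zero) functional -/
theorem sq_XX_le {ι : Type*} (hP : IsPlane c P) (S : Finset ι) (a : ι → ℝ) (x : ι → ℤ × ℤ)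
    {M : ℝ} (hM : ∀ i ∈ S, V P (x i) ≤ M) :
    ∫ ω, XX S a x ω ^ 2 ∂P ≤ (∑ i ∈ S, |a i|) ^ 2 * M := by
  have := hP.prob
  have e : ∀ ω, XX S a x ω ^ 2 = XX S a x ω * XX S a x ω := fun ω => sq _
  simp only [e]
  rw [integral_XX hP, sq, sum_mul_sum, sum_mul]
  refine sum_le_sum fun i hi => ?_
  rw [sum_mul]
  refine sum_le_sum fun j hj => ?_
  have h1 : (V P (x i) + V P (x j) - V P (x i - x j)) / 2 ≤ M := by
    have := hM i hi
    have := hM j hj
    have := V_nonneg P (x i - x j)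
    linarith
  have h2 : -M ≤ (V P (x i) + V P (x j) - V P (x i - x j)) / 2 := by
    rw [← integral_H_mul hP]
    have h3 : ∀ ω, -(H ω (x i) ^ 2 + H ω (x j) ^ 2) / 2 ≤ H ω (x i) * H ω (x j) := fun ω => by
      nlinarith [sq_nonneg (H ω (x i) + H ω (x j))]
    have i1 : ∀ z, Integrable (fun ω => H ω z ^ 2) P := fun z =>
      Loc.integrable ((loc_H z).comp fun t => t ^ 2) P
    have h4 : ∫ ω, -(H ω (x i) ^ 2 + H ω (x j) ^ 2) / 2 ∂P ≤ ∫ ω, H ω (x i) * H ω (x j) ∂P := by
      refine integral_mono ?_ (Loc.integrable ((loc_H _).mul (loc_H _)) P) h3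
      exact (((i1 _).add (i1 _)).neg).div_const 2
    refine le_trans ?_ h4
    rw [integral_div, integral_neg, integral_add (i1 _) (i1 _)]
    change -M ≤ -(V P (x i) + V P (x j)) / 2
    have := hM i hi
    have := hM j hj
    linarith
  have h3 : |a i * a j * ((V P (x i) + V P (x j) - V P (x i - x j)) / 2)| ≤ |a i| * |a j| * M := by
    rw [abs_mul, abs_mul]
    gcongr
    exact abs_le.2 ⟨h2, h1⟩
  exact (le_abs_self _).trans h3

end Crest.Agent.R161.Lk159
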