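import Crest.Agent.R150.Red_989

/-!
# Row 161, block J (helper159): what is used from row 150, and the variance function

* `PlaneIn c P` : the plane state of row 150 with its law and moment convergence (= the hypotheses
  of `Red989.s0211_of_plane`).
* `V P z = E (h z - h 0)^2`.
* `V_asymp` : `V z - V z' = (s/π) log (|z|/|z'|) + O(ε (1 + log (|z|/|z'|)))`, `s = 1/arcsin (c/2)`.
-/

set_option autoImplicit false

noncomputable section

open Filter Topology MeasureTheory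
open Crest.ProbabilityR.SixVertex
open Crest.Agent.R150.Hgt989 Crest.Agent.R150.Pln989 Crest.Agent.R150.Pls989
open Crest.Agent.R150.Red989

namespace Crest.Agent.R161.Lk159

/-- the input from row 150 -/
structure PlaneIn (c : ℝ) (P : Measure Conf) : Prop where
  cpos : 0 < c
  cle : c ≤ 2
  plane : IsPlane c P
  law : ∀ μ : SignedMeasure (ℝ × ℝ),
      (∃ K : Set (ℝ × ℝ), IsCompact K ∧ μ.variation Kᶜ = 0) → μ Set.univ = 0 →
      HasFiniteEnergy μ → ∀ ψ : BoundedContinuousFunction ℝ ℝ,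
      Tendsto (fun δ : ℝ => ∫ ω, ψ (hp δ μ ω) ∂P) (𝓝[>] 0)
        (𝓝 (∫ t, ψ t ∂ProbabilityTheory.gaussianReal 0
            (Real.toNNReal (varianceMultiplier c * energy μ))))
  mom : ∀ k : ℕ, 1 ≤ k → ∀ K : Set (Fin k → (ℝ × ℝ) × (ℝ × ℝ)), IsCompact K →
      (∀ t ∈ K, PairsDisjoint t) →
      TendstoUniformlyOn
        (fun (δ : ℝ) (t : Fin k → (ℝ × ℝ) × (ℝ × ℝ)) =>
          ∫ ω, ∏ i, (hgt ω δ (t i).2 - hgt ω δ (t i).1) ∂P)
        (fun t => Real.sqrt (varianceMultiplier c) ^ k * pairingSum incrementCov (List.ofFn t))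
        (𝓝[>] 0) K

/-- the height at a site of the plane -/
def H (ω : Conf) (z : ℤ × ℤ) : ℝ := (relH ω z.1 z.2 : ℝ)

@[simp] lemma H_zero (ω : Conf) : H ω 0 = 0 := by simp [H]

lemma loc_H (z : ℤ × ℤ) : Loc fun ω => H ω z := Loc.relH _ _

/-- the variance function -/
def V (P : Measure Conf) (z : ℤ × ℤ) : ℝ := ∫ ω, (H ω z) ^ 2 ∂P

lemma V_nonneg (P : Measure Conf) (z : ℤ × ℤ) : 0 ≤ V P z := integral_nonneg fun _ => sq_nonneg _

@[simp] lemma V_zero (P : Measure Conf) : V P 0 = 0 := by simp [V]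

variable {c : ℝ} {P : Measure Conf}

lemma H_shift {ω : Conf} (h : Ice ω) (a z : ℤ × ℤ) : H (shift a ω) z = H ω (z + a) - H ω a := by
  unfold H
  rw [relH_shift h]
  push_cast
  rfl

lemma integral_shift (hP : IsPlane c P) (a : ℤ × ℤ) {F : Conf → ℝ} (hF : Loc F) :
    ∫ ω, F (shift a ω) ∂P = ∫ ω, F ω ∂P := by
  have h := hP.shift a
  conv_rhs => rw [← h]
  rw [integral_map (measurable_shift a).aemeasurable
      (Loc.continuous hF).aestronglyMeasurable]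

lemma integral_sq_sub (hP : IsPlane c P) (a b : ℤ × ℤ) :
    ∫ ω, (H ω b - H ω a) ^ 2 ∂P = V P (b - a) := by
  have h := integral_shift hP a (F := fun ω => (H ω (b - a)) ^ 2)
    ((loc_H (b - a)).comp fun x => x ^ 2)
  unfold V
  rw [← h]
  refine integral_congr_ae ?_
  filter_upwards [hP.ice] with ω hω
  rw [H_shift hω, sub_add_cancel]

lemma V_neg (hP : IsPlane c P) (z : ℤ × ℤ) : V P (-z) = V P z := by
  have h1 := integral_sq_sub hP z 0
  have h2 := integral_sq_sub hP 0 z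
  rw [zero_sub] at h1
  rw [sub_zero] at h2
  rw [← h1, ← h2]
  refine integral_congr_ae (Eventually.of_forall fun ω => ?_)
  simp only
  ring

lemma V_sub_comm (hP : IsPlane c P) (z w : ℤ × ℤ) : V P (z - w) = V P (w - z) := by
  rw [← V_neg hP, neg_sub]

/-- covariances of increments through the variance function -/
lemma cov_eq (hP : IsPlane c P) (a a' b b' : ℤ × ℤ) :
    ∫ ω, (H ω a' - H ω a) * (H ω b' - H ω b) ∂P =
      (V P (a' - b) + V P (a - b') - V P (a' - b') - V P (a - b)) / 2 := by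
  have := hP.prob
  have i : ∀ x y : ℤ × ℤ, Integrable (fun ω => (H ω x - H ω y) ^ 2) P := fun x y =>
    Loc.integrable (((loc_H x).sub (loc_H y)).comp fun t => t ^ 2) P
  rw [← integral_sq_sub hP b a', ← integral_sq_sub hP b' a, ← integral_sq_sub hP b' a',
    ← integral_sq_sub hP b a, ← integral_add (i _ _) (i _ _), ← integral_sub, ← integral_sub,
    ← integral_div]
  · refine integral_congr_ae (Eventually.of_forall fun ω => ?_)
    simp only
    ring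
  · exact ((i _ _).add (i _ _)).sub (i _ _)
  · exact i _ _
  · exact (i _ _).add (i _ _)
  · exact i _ _

/-- parallelogram: `V z - V z'` is a covariance -/
lemma V_sub_eq (hP : IsPlane c P) (z z' : ℤ × ℤ) :
    V P z - V P z' = ∫ ω, (H ω (z + z') - H ω 0) * (H ω z - H ω z') ∂P := by
  rw [cov_eq hP]
  have e1 : z + z' - z' = z := by abel
  have e2 : (0 : ℤ × ℤ) - z = -z := by abel
  have e3 : z + z' - z = z' := by abel
  have e4 : (0 : ℤ × ℤ) - z' = -z' := by abel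
  rw [e1, e2, e3, e4, V_neg hP, V_neg hP]
  ring

/-! ### the covariance asymptotics -/

/-- a lattice point as a point of the plane -/
def tp (z : ℤ × ℤ) : ℝ × ℝ := ((z.1 : ℝ), (z.2 : ℝ))

lemma pairingSum_two {α : Type*} (C : α → α → ℝ) (a b : α) : pairingSum C [a, b] = C a b := by
  rw [pairingSum]
  simp [pairingSum]

lemma pairingSum_ofFn_two {α : Type*} (C : α → α → ℝ) (t : Fin 2 → α) :
    pairingSum C (List.ofFn t) = C (t 0) (t 1) := by
  have : List.ofFn t = [t 0, t 1] := by simp [List.ofFn_succ]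
  rw [this, pairingSum_two]

lemma hgt_lattice (ω : Conf) {R : ℝ} (hR : 0 < R) (z : ℤ × ℤ) :
    hgt ω (1 / R) ((z.1 : ℝ) / R, (z.2 : ℝ) / R) = H ω z := by
  unfold hgt H
  have e : ∀ k : ℤ, ⌊((k : ℝ) / R) / (1 / R)⌋ = k := by
    intro k
    have : ((k : ℝ) / R) / (1 / R) = k := by field_simp
    rw [this, Int.floor_intCast]
  simp only [e]

lemma varianceMultiplier_pos (hc : 0 < c) : 0 < varianceMultiplier c := by
  unfold varianceMultiplier
  have : 0 < Real.arcsin (c / 2) := Real.arcsin_pos.2 (by linarith)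
  positivity


/-- `log |z|`, Euclidean -/
def el (z : ℤ × ℤ) : ℝ := Real.log (Real.sqrt ((z.1 : ℝ) ^ 2 + (z.2 : ℝ) ^ 2))

lemma el_neg (z : ℤ × ℤ) : el (-z) = el z := by simp [el]

lemma norm_le_euclid (z : ℤ × ℤ) : ‖z‖ ≤ Real.sqrt ((z.1 : ℝ) ^ 2 + (z.2 : ℝ) ^ 2) := by
  rw [Prod.norm_def, Int.norm_eq_abs, Int.norm_eq_abs]
  refine max_le ?_ ?_
  · exact Real.abs_le_sqrt (by nlinarith [sq_nonneg (z.2 : ℝ)])
  · exact Real.abs_le_sqrt (by nlinarith [sq_nonneg (z.1 : ℝ)])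

lemma euclid_le_norm (z : ℤ × ℤ) : Real.sqrt ((z.1 : ℝ) ^ 2 + (z.2 : ℝ) ^ 2) ≤ 2 * ‖z‖ := by
  have h1 : |(z.1 : ℝ)| ≤ ‖z‖ := by
    rw [Prod.norm_def, Int.norm_eq_abs, Int.norm_eq_abs]; exact le_max_left _ _
  have h2 : |(z.2 : ℝ)| ≤ ‖z‖ := by
    rw [Prod.norm_def, Int.norm_eq_abs, Int.norm_eq_abs]; exact le_max_right _ _
  have h0 : 0 ≤ ‖z‖ := norm_nonneg z
  refine Real.sqrt_le_iff.2 ⟨by positivity, ?_⟩
  have h3 := sq_le_sq' (by linarith [abs_nonneg (z.1 : ℝ)]) h1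
  have h4 := sq_le_sq' (by linarith [abs_nonneg (z.2 : ℝ)]) h2
  rw [sq_abs] at h3 h4
  nlinarith

lemma el_ge {z : ℤ × ℤ} {r : ℝ} (hr : 0 < r) (h : r ≤ ‖z‖) : Real.log r ≤ el z :=
  Real.log_le_log hr (h.trans (norm_le_euclid z))

lemma el_le {z : ℤ × ℤ} {r : ℝ} (h0 : 0 < ‖z‖) (h : ‖z‖ ≤ r) : el z ≤ Real.log (2 * r) :=
  Real.log_le_log (lt_of_lt_of_le h0 (norm_le_euclid z))
    ((euclid_le_norm z).trans (by linarith))

lemma dist_tp_div {R : ℝ} (hR : 0 < R) (a b : ℤ × ℤ) :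
    dist ((a.1 : ℝ) / R, (a.2 : ℝ) / R) ((b.1 : ℝ) / R, (b.2 : ℝ) / R) = ‖a - b‖ / R := by
  rw [Prod.dist_eq, Real.dist_eq, Real.dist_eq, Prod.norm_def, Int.norm_eq_abs, Int.norm_eq_abs]
  simp only [← sub_div, abs_div, abs_of_pos hR, Prod.fst_sub, Prod.snd_sub, Int.cast_sub]
  rw [max_div_div_right hR.le]

lemma green_div {R : ℝ} (hR : 0 < R) {a b : ℤ × ℤ} (h : 0 < ‖a - b‖) :
    greenKernel ((a.1 : ℝ) / R, (a.2 : ℝ) / R) ((b.1 : ℝ) / R, (b.2 : ℝ) / R) =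
      -(2 * Real.pi)⁻¹ * (el (a - b) - Real.log R) := by
  unfold greenKernel euclidDist el
  have h1 := lt_of_lt_of_le h (norm_le_euclid (a - b))
  congr 1
  rw [← Real.log_div h1.ne' hR.ne']
  congr 1
  simp only [Prod.fst_sub, Prod.snd_sub, Int.cast_sub, ← sub_div, div_pow]
  rw [← add_div, Real.sqrt_div' _ (sq_nonneg R), Real.sqrt_sq hR.le]

/-- the limit covariance at lattice points -/
def ic (a a' b b' : ℤ × ℤ) : ℝ :=
  (2 * Real.pi)⁻¹ * (el (a' - b) + el (a - b') - el (a' - b') - el (a - b))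

lemma incrementCov_div {R : ℝ} (hR : 0 < R) {a a' b b' : ℤ × ℤ} (h1 : 0 < ‖a' - b‖)
    (h2 : 0 < ‖a - b'‖) (h3 : 0 < ‖a' - b'‖) (h4 : 0 < ‖a - b‖) :
    incrementCov (((a.1 : ℝ) / R, (a.2 : ℝ) / R), ((a'.1 : ℝ) / R, (a'.2 : ℝ) / R))
      (((b.1 : ℝ) / R, (b.2 : ℝ) / R), ((b'.1 : ℝ) / R, (b'.2 : ℝ) / R)) = ic a a' b b' := by
  unfold incrementCov ic
  simp only
  rw [green_div hR h1, green_div hR h2, green_div hR h3, green_div hR h4]
  ring

/-- uniform covariance asymptotics at lattice points -/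
theorem cov_asymp (h : PlaneIn c P) {C ε : ℝ} (hε : 0 < ε) :
    ∃ R0 : ℝ, 0 < R0 ∧ ∀ R : ℝ, R0 ≤ R → ∀ a a' b b' : ℤ × ℤ,
      ‖a‖ ≤ C * R → ‖a'‖ ≤ C * R → ‖b‖ ≤ C * R → ‖b'‖ ≤ C * R →
      R ≤ ‖a' - b‖ → R ≤ ‖a - b'‖ → R ≤ ‖a' - b'‖ → R ≤ ‖a - b‖ →
      |∫ ω, (H ω a' - H ω a) * (H ω b' - H ω b) ∂P - varianceMultiplier c * ic a a' b b'| ≤ ε := by
  let K : Set (Fin 2 → (ℝ × ℝ) × (ℝ × ℝ)) := {t | ‖t‖ ≤ C ∧ 1 ≤ dist (t 0).2 (t 1).1 ∧
    1 ≤ dist (t 0).1 (t 1).2 ∧ 1 ≤ dist (t 0).2 (t 1).2 ∧ 1 ≤ dist (t 0).1 (t 1).1}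
  have hK : IsCompact K := by
    refine Metric.isCompact_of_isClosed_isBounded ?_ ?_
    · have c0 : IsClosed {t : Fin 2 → (ℝ × ℝ) × (ℝ × ℝ) | ‖t‖ ≤ C} :=
        isClosed_le continuous_norm continuous_const
      have c1 : ∀ f g : (Fin 2 → (ℝ × ℝ) × (ℝ × ℝ)) → ℝ × ℝ, Continuous f → Continuous g →
          IsClosed {t : Fin 2 → (ℝ × ℝ) × (ℝ × ℝ) | 1 ≤ dist (f t) (g t)} := fun f g hf hg =>
        isClosed_le continuous_const (hf.dist hg)
      exact c0.inter ((c1 _ _ (by fun_prop) (by fun_prop)).inter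
        ((c1 _ _ (by fun_prop) (by fun_prop)).inter
        ((c1 _ _ (by fun_prop) (by fun_prop)).inter (c1 _ _ (by fun_prop) (by fun_prop)))))
    · refine (Metric.isBounded_closedBall (x := (0 : Fin 2 → (ℝ × ℝ) × (ℝ × ℝ))) (r := C)).subset ?_
      intro t ht
      simpa using ht.1
  have hKd : ∀ t ∈ K, PairsDisjoint t := by
    intro t ht i j hij
    obtain ⟨_, h1, h2, h3, h4⟩ := ht
    have n1 : (t 0).2 ≠ (t 1).1 := fun e => by rw [e, dist_self] at h1; linarith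
    have n2 : (t 0).1 ≠ (t 1).2 := fun e => by rw [e, dist_self] at h2; linarith
    have n3 : (t 0).2 ≠ (t 1).2 := fun e => by rw [e, dist_self] at h3; linarith
    have n4 : (t 0).1 ≠ (t 1).1 := fun e => by rw [e, dist_self] at h4; linarith
    have hi : i = 0 ∧ j = 1 ∨ i = 1 ∧ j = 0 := by omega
    rcases hi with ⟨rfl, rfl⟩ | ⟨rfl, rfl⟩
    · exact ⟨n4, n2, n1, n3⟩
    · exact ⟨n4.symm, n1.symm, n2.symm, n3.symm⟩
  have hm := h.mom 2 (by norm_num) K hK hKd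
  rw [Metric.tendstoUniformlyOn_iff] at hm
  obtain ⟨δ0, hδ0, hδ⟩ := mem_nhdsGT_iff_exists_Ioo_subset.1 (hm ε hε)
  have hδ0' : (0 : ℝ) < δ0 := hδ0
  refine ⟨2 / δ0, by positivity, fun R hR a a' b b' ha ha' hb hb' h1 h2 h3 h4 => ?_⟩
  have hRpos : 0 < R := lt_of_lt_of_le (by positivity) hR
  have hmem : 1 / R ∈ Set.Ioo (0 : ℝ) δ0 := by
    refine ⟨by positivity, ?_⟩
    rw [div_lt_iff₀ hRpos]
    rw [div_le_iff₀ hδ0'] at hR
    linarith
  let t : Fin 2 → (ℝ × ℝ) × (ℝ × ℝ) :=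
    ![(((a.1 : ℝ) / R, (a.2 : ℝ) / R), ((a'.1 : ℝ) / R, (a'.2 : ℝ) / R)),
      (((b.1 : ℝ) / R, (b.2 : ℝ) / R), ((b'.1 : ℝ) / R, (b'.2 : ℝ) / R))]
  have hn : ∀ z : ℤ × ℤ, ‖z‖ ≤ C * R → ‖(((z.1 : ℝ) / R, (z.2 : ℝ) / R) : ℝ × ℝ)‖ ≤ C := by
    intro z hz
    have := dist_tp_div hRpos z 0
    simp only [Prod.fst_zero, Int.cast_zero, zero_div, Prod.snd_zero, sub_zero] at this
    rw [← Prod.zero_eq_mk, dist_zero_right] at this
    rw [this, div_le_iff₀ hRpos]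
    exact hz
  have hC : 0 ≤ C := (norm_nonneg _).trans (hn a ha)
  have ht : t ∈ K := by
    refine ⟨?_, ?_, ?_, ?_, ?_⟩
    · rw [pi_norm_le_iff_of_nonneg hC]
      intro i
      fin_cases i
      · simp only [t, Prod.norm_def ((_ : ℝ × ℝ), (_ : ℝ × ℝ))]
        exact max_le (hn a ha) (hn a' ha')
      · simp only [t, Prod.norm_def ((_ : ℝ × ℝ), (_ : ℝ × ℝ))]
        exact max_le (hn b hb) (hn b' hb')
    · change 1 ≤ dist ((a'.1 : ℝ) / R, (a'.2 : ℝ) / R) ((b.1 : ℝ) / R, (b.2 : ℝ) / R)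
      rw [dist_tp_div hRpos, le_div_iff₀ hRpos, one_mul]; exact h1
    · change 1 ≤ dist ((a.1 : ℝ) / R, (a.2 : ℝ) / R) ((b'.1 : ℝ) / R, (b'.2 : ℝ) / R)
      rw [dist_tp_div hRpos, le_div_iff₀ hRpos, one_mul]; exact h2
    · change 1 ≤ dist ((a'.1 : ℝ) / R, (a'.2 : ℝ) / R) ((b'.1 : ℝ) / R, (b'.2 : ℝ) / R)
      rw [dist_tp_div hRpos, le_div_iff₀ hRpos, one_mul]; exact h3
    · change 1 ≤ dist ((a.1 : ℝ) / R, (a.2 : ℝ) / R) ((b.1 : ℝ) / R, (b.2 : ℝ) / R)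
      rw [dist_tp_div hRpos, le_div_iff₀ hRpos, one_mul]; exact h4
  have hlt := (hδ hmem) t ht
  rw [pairingSum_ofFn_two, Real.sq_sqrt (varianceMultiplier_pos h.cpos).le] at hlt
  have e1 : incrementCov (t 0) (t 1) = ic a a' b b' :=
    incrementCov_div hRpos (hRpos.trans_le h1) (hRpos.trans_le h2) (hRpos.trans_le h3)
      (hRpos.trans_le h4)
  have e2 : ∫ ω, ∏ i, (hgt ω (1 / R) (t i).2 - hgt ω (1 / R) (t i).1) ∂P =
      ∫ ω, (H ω a' - H ω a) * (H ω b' - H ω b) ∂P := by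
    refine integral_congr_ae (Eventually.of_forall fun ω => ?_)
    simp only [Fin.prod_univ_two]
    change (hgt ω (1 / R) ((a'.1 : ℝ) / R, (a'.2 : ℝ) / R) -
      hgt ω (1 / R) ((a.1 : ℝ) / R, (a.2 : ℝ) / R)) *
      (hgt ω (1 / R) ((b'.1 : ℝ) / R, (b'.2 : ℝ) / R) -
      hgt ω (1 / R) ((b.1 : ℝ) / R, (b.2 : ℝ) / R)) = _
    simp only [hgt_lattice ω hRpos]
  rw [e1, e2, Real.dist_eq, abs_sub_comm] at hlt
  exact hlt.le

/-! ### asymptotics of the variance function -/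

theorem V_sub_asymp (h : PlaneIn c P) (C : ℝ) {ε : ℝ} (hε : 0 < ε) :
    ∃ R0 : ℝ, 0 < R0 ∧ ∀ R : ℝ, R0 ≤ R → ∀ z z' : ℤ × ℤ, R ≤ ‖z‖ → ‖z‖ ≤ C * R → R ≤ ‖z'‖ →
      ‖z'‖ ≤ C * R →
      |V P z - V P z' - varianceMultiplier c / Real.pi * (el z - el z')| ≤ ε := by
  obtain ⟨R0, hR0, H0⟩ := cov_asymp h (C := 2 * C) hε
  refine ⟨R0, hR0, fun R hR z z' h1 h2 h3 h4 => ?_⟩
  have hR' : 0 < R := hR0.trans_le hR
  have hC : 0 ≤ C * R := (norm_nonneg z).trans h2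
  have e1 : z + z' - z' = z := by abel
  have e2 : (0 : ℤ × ℤ) - z = -z := by abel
  have e3 : z + z' - z = z' := by abel
  have e4 : (0 : ℤ × ℤ) - z' = -z' := by abel
  have key := H0 R hR 0 (z + z') z' z (by rw [norm_zero]; linarith)
    ((norm_add_le _ _).trans (by linarith)) (by linarith) (by linarith)
    (by rwa [e1]) (by rwa [e2, norm_neg]) (by rwa [e3]) (by rwa [e4, norm_neg])
  rw [← V_sub_eq h.plane] at key
  have e5 : ic 0 (z + z') z' z = Real.pi⁻¹ * (el z - el z') := by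
    unfold ic
    rw [e1, e2, e3, e4, el_neg, el_neg, mul_inv]
    ring
  rw [e5] at key
  have e6 : varianceMultiplier c / Real.pi * (el z - el z') =
      varianceMultiplier c * (Real.pi⁻¹ * (el z - el z')) := by ring
  rw [e6]
  exact key

theorem V_asymp (h : PlaneIn c P) {ε : ℝ} (hε : 0 < ε) :
    ∃ R0 : ℝ, 1 ≤ R0 ∧ ∀ z z' : ℤ × ℤ, R0 ≤ ‖z'‖ → ‖z'‖ ≤ ‖z‖ →
      |V P z - V P z' - varianceMultiplier c / Real.pi * (el z - el z')| ≤
        ε * (1 + Real.log (‖z‖ / ‖z'‖)) := by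
  obtain ⟨R1, hR1, H1⟩ := V_sub_asymp h 2 (ε := ε / 2) (by positivity)
  have key : ∀ n : ℕ, ∀ z z' : ℤ × ℤ, max R1 1 ≤ ‖z'‖ → ‖z'‖ ≤ ‖z‖ →
      ‖z‖ ≤ 2 ^ (n + 1) * ‖z'‖ →
      |V P z - V P z' - varianceMultiplier c / Real.pi * (el z - el z')| ≤ ε / 2 * (n + 1) := by
    intro n
    induction n with
    | zero =>
      intro z z' h1 h2 h3
      have := H1 ‖z'‖ ((le_max_left _ _).trans h1) z z' h2 (by simpa using h3) le_rfl
        (by linarith [norm_nonneg z'])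
      simpa using this
    | succ n ih =>
      intro z z' h1 h2 h3
      rcases le_total (2 * ‖z'‖) ‖z‖ with h4 | h4
      · have hw : ‖z' + z'‖ = 2 * ‖z'‖ := by
          rw [Prod.norm_def, Prod.norm_def, Int.norm_eq_abs, Int.norm_eq_abs, Int.norm_eq_abs,
            Int.norm_eq_abs]
          simp only [Prod.fst_add, Prod.snd_add, Int.cast_add]
          rw [← two_mul, ← two_mul, abs_mul, abs_mul, abs_two,
            mul_max_of_nonneg _ _ (by norm_num : (0 : ℝ) ≤ 2)]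
        have hz' := norm_nonneg z'
        have a1 := ih z (z' + z') (by rw [hw]; linarith) (by rw [hw]; exact h4)
          (by rw [hw]; calc ‖z‖ ≤ 2 ^ (n + 1 + 1) * ‖z'‖ := h3
                _ = 2 ^ (n + 1) * (2 * ‖z'‖) := by ring)
        have a2 := H1 ‖z'‖ ((le_max_left _ _).trans h1) (z' + z') z' (by rw [hw]; linarith)
          (by rw [hw]) le_rfl (by linarith)
        push_cast
        have e : V P z - V P z' - varianceMultiplier c / Real.pi * (el z - el z') =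
          (V P z - V P (z' + z') - varianceMultiplier c / Real.pi * (el z - el (z' + z'))) +
          (V P (z' + z') - V P z' - varianceMultiplier c / Real.pi * (el (z' + z') - el z')) := by
          ring
        rw [e]
        refine (abs_add_le _ _).trans ?_
        linarith
      · have := H1 ‖z'‖ ((le_max_left _ _).trans h1) z z' h2 h4 le_rfl
          (by linarith [norm_nonneg z'])
        refine this.trans ?_
        push_cast
        have hn : (0 : ℝ) ≤ n := Nat.cast_nonneg n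
        nlinarith
  refine ⟨max R1 1, le_max_right _ _, fun z z' h1 h2 => ?_⟩
  have hz' : 0 < ‖z'‖ := lt_of_lt_of_le (by positivity) ((le_max_right R1 1).trans h1)
  have hr : 1 ≤ ‖z‖ / ‖z'‖ := by rwa [le_div_iff₀ hz', one_mul]
  have hlog : 0 ≤ Real.log (‖z‖ / ‖z'‖) := Real.log_nonneg hr
  have hlog2 : 0 < Real.log 2 := Real.log_pos (by norm_num)
  obtain ⟨n, hn1, hn2⟩ : ∃ n : ℕ, (n : ℝ) ≤ 2 * Real.log (‖z‖ / ‖z'‖) ∧
      ‖z‖ ≤ 2 ^ (n + 1) * ‖z'‖ := by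
    refine ⟨⌊Real.log (‖z‖ / ‖z'‖) / Real.log 2⌋₊, ?_, ?_⟩
    · refine (Nat.floor_le (by positivity)).trans ?_
      rw [div_le_iff₀ hlog2]
      have : (0.69 : ℝ) ≤ Real.log 2 := by have := Real.log_two_gt_d9; linarith
      nlinarith
    · have h3 := Nat.lt_floor_add_one (Real.log (‖z‖ / ‖z'‖) / Real.log 2)
      rw [div_lt_iff₀ hlog2] at h3
      have h4 : Real.log (‖z‖ / ‖z'‖) ≤
          Real.log (2 ^ (⌊Real.log (‖z‖ / ‖z'‖) / Real.log 2⌋₊ + 1)) := by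
        rw [Real.log_pow]
        push_cast
        exact h3.le
      have h5 := (Real.log_le_log_iff (by positivity) (by positivity)).1 h4
      rwa [div_le_iff₀ hz'] at h5
  refine (key n z z' h1 h2 hn2).trans ?_
  nlinarith

end Crest.Agent.R161.Lk159
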