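import Crest.Agent.R161.Green4_722
import Crest.Agent.R161.Ifc_372

/-!
# Row 161, block J (helper159): the logarithmic form on Laplacians

* `plog_add_left` etc. : bilinearity of `plog` on test functions
* `plog_lap_right` : `plog f (-Δψ) = ∫ f ψ`
* `plog_lap` : `plog (-Δψ) (-Δψ) = ∫ ψ (-Δψ)`
* `integral_lap` : `∫ Δψ = 0`, `test_lap` : `Test (-Δψ)`
-/

set_option autoImplicit false

noncomputable section

open Filter Topology MeasureTheory Metric
open scoped ContDiff Laplacian
open Crest.Agent.R161.Green722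
open Crest.Agent.R161.Ifc372 (plog Test)

namespace Crest.Agent.R161.Lk159

variable {f g ψ : ℂ → ℝ}

lemma plog_eq_LP (f g : ℂ → ℝ) : plog f g = -∫ z, f z * LP g z := by
  unfold plog LP
  rw [← integral_neg]
  refine integral_congr_ae (Eventually.of_forall fun z => ?_)
  simp only
  have e1 : ∀ w : ℂ, f z * (-(2 * Real.pi)⁻¹ * Real.log ‖z - w‖) * g w =
      (-(2 * Real.pi)⁻¹ * f z) * (Real.log ‖z - w‖ * g w) := fun w => by ring
  simp only [e1]
  rw [integral_const_mul]
  ring

lemma LP_neg (g : ℂ → ℝ) (z : ℂ) : LP (fun w => -g w) z = -LP g z := by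
  unfold LP
  have : ∀ w : ℂ, Real.log ‖z - w‖ * -g w = -(Real.log ‖z - w‖ * g w) := fun w => by ring
  simp only [this, integral_neg]
  ring

/-- `plog f (-Δψ) = ∫ f ψ` -/
theorem plog_lap_right (f : ℂ → ℝ) (hψ : ContDiff ℝ ∞ ψ) (hc : HasCompactSupport ψ) :
    plog f (fun z => -(Δ ψ) z) = ∫ z, f z * ψ z := by
  rw [plog_eq_LP, ← integral_neg]
  refine integral_congr_ae (Eventually.of_forall fun z => ?_)
  simp only
  have h1 := LP_neg (Δ ψ) z
  have h2 := LP_lap hψ hc z
  rw [h2] at h1
  rw [h1]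
  ring

/-- `plog (-Δψ) (-Δψ) = ∫ ψ (-Δψ)` -/
theorem plog_lap (hψ : ContDiff ℝ ∞ ψ) (hc : HasCompactSupport ψ) :
    plog (fun z => -(Δ ψ) z) (fun z => -(Δ ψ) z) = ∫ z, ψ z * (-(Δ ψ) z) := by
  rw [plog_lap_right _ hψ hc]
  refine integral_congr_ae (Eventually.of_forall fun z => ?_)
  simp only
  ring

lemma contDiff_lap (hψ : ContDiff ℝ ∞ ψ) : ContDiff ℝ ∞ (fun z => -(Δ ψ) z) := by
  have h1 : ContDiff ℝ ∞ (iteratedFDeriv ℝ 2 ψ) := hψ.iteratedFDeriv_right (by
    norm_cast)
  have h2 : ∀ m : Fin 2 → ℂ, ContDiff ℝ ∞ fun z => iteratedFDeriv ℝ 2 ψ z m := fun m =>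
    (ContinuousMultilinearMap.apply ℝ (fun _ : Fin 2 => ℂ) ℝ m).contDiff.comp h1
  rw [InnerProductSpace.laplacian_eq_iteratedFDeriv_complexPlane]
  exact ((h2 _).add (h2 _)).neg

lemma test_lap (hψ : Test ψ) : Test (fun z => -(Δ ψ) z) where
  smooth := contDiff_lap hψ.smooth
  supp := (hasCompactSupport_lapC hψ.supp).comp_left (g := fun t : ℝ => -t) (by simp)

/-- `∫ Δψ = 0` -/
theorem integral_lap (hψ : ContDiff ℝ ∞ ψ) (hc : HasCompactSupport ψ) :
    ∫ z, -(Δ ψ) z = 0 := by
  have h := green_onC isOpen_univ (v := fun _ => (1 : ℝ)) contDiffOn_const hψ hc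
    (Set.subset_univ _)
  have h2 : ∀ z : ℂ, (Δ (fun _ : ℂ => (1 : ℝ))) z = 0 := fun z => by
    rw [InnerProductSpace.laplacian_const]
    rfl
  simp only [one_mul, h2, zero_mul, integral_zero] at h
  rw [integral_neg, h, neg_zero]

/-! ### bilinearity -/

variable {r : ℝ}

lemma integrable_plog (hf : Tst r f) (hg : Tst r g) : Integrable (fun p : ℂ × ℂ =>
    f p.1 * (-(2 * Real.pi)⁻¹ * Real.log ‖p.1 - p.2‖) * g p.2) (volume.prod volume) := by
  have h := (integrable_log_kernel hf hg).const_mul (-(2 * Real.pi)⁻¹)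
  refine h.congr (Eventually.of_forall fun p => ?_)
  simp only
  ring

lemma plog_comm (hf : Tst r f) (hg : Tst r g) : plog f g = plog g f := by
  unfold plog
  rw [integral_integral_swap (integrable_plog hf hg)]
  refine integral_congr_ae (Eventually.of_forall fun z => ?_)
  refine integral_congr_ae (Eventually.of_forall fun w => ?_)
  simp only
  rw [norm_sub_rev]
  ring

lemma plog_add_left {f' : ℂ → ℝ} (hf : Tst r f) (hf' : Tst r f') (hg : Tst r g) :
    plog (fun z => f z + f' z) g = plog f g + plog f' g := by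
  unfold plog
  have i1 := (integrable_plog hf hg).integral_prod_left
  have i2 := (integrable_plog hf' hg).integral_prod_left
  rw [← integral_add i1 i2]
  refine integral_congr_ae ?_
  filter_upwards [(integrable_plog hf hg).prod_right_ae, (integrable_plog hf' hg).prod_right_ae]
    with z h1 h2
  rw [← integral_add h1 h2]
  refine integral_congr_ae (Eventually.of_forall fun w => ?_)
  simp only
  ring

lemma plog_smul_left (a : ℝ) (f g : ℂ → ℝ) : plog (fun z => a * f z) g = a * plog f g := by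
  unfold plog
  rw [← integral_const_mul]
  refine integral_congr_ae (Eventually.of_forall fun z => ?_)
  simp only
  rw [← integral_const_mul]
  refine integral_congr_ae (Eventually.of_forall fun w => ?_)
  simp only
  ring

lemma plog_smul_right (a : ℝ) (f g : ℂ → ℝ) : plog f (fun z => a * g z) = a * plog f g := by
  unfold plog
  rw [← integral_const_mul]
  refine integral_congr_ae (Eventually.of_forall fun z => ?_)
  simp only
  rw [← integral_const_mul]
  refine integral_congr_ae (Eventually.of_forall fun w => ?_)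
  simp only
  ring

lemma _root_.Crest.Agent.R161.Green722.Tst.add' (hf : Tst r f) (hg : Tst r g) :
    Tst r (fun z => f z + g z) where
  meas := hf.meas.add hg.meas
  bdd := by
    obtain ⟨A, hA⟩ := hf.bdd
    obtain ⟨B, hB⟩ := hg.bdd
    exact ⟨A + B, fun z => (abs_add_le _ _).trans (add_le_add (hA z) (hB z))⟩
  supp := fun z hz => by rw [hf.supp z hz, hg.supp z hz, add_zero]

lemma plog_add_self (hf : Tst r f) (hg : Tst r g) :
    plog (fun z => f z + g z) (fun z => f z + g z) = plog f f + 2 * plog f g + plog g g := by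
  have hfg := hf.add' hg
  rw [plog_add_left hf hg hfg, plog_comm hf hfg, plog_comm hg hfg, plog_add_left hf hg hf,
    plog_add_left hf hg hg, plog_comm hg hf]
  ring

/-- the form on `f - Δψ` -/
theorem plog_add_lap (hf : Tst r f) (hψ : ContDiff ℝ ∞ ψ) (hc : HasCompactSupport ψ)
    (hT : Tst r fun z => -(Δ ψ) z) :
    plog (fun z => f z + -(Δ ψ) z) (fun z => f z + -(Δ ψ) z) =
      plog f f + 2 * (∫ z, f z * ψ z) + ∫ z, ψ z * (-(Δ ψ) z) := by
  rw [plog_add_self hf hT, plog_lap_right f hψ hc, plog_lap hψ hc]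

end Crest.Agent.R161.Lk159
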