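import Crest.Agent.R161.Abs_375

/-!
# Signed heights and `(|h|, η)` (helper722, R161, link `Hts_375` ↔ `Abs_375`)

For a height system `G : Geo V F P`, couplings `c`, a weight `U` on absolute heights and a function
`f` of the signed heights

`(∏_p c p) * ∑_{h ∈ [-N, N]} W c h * U |h| * f h
    = ∑_{(a, η), a ∈ [0, N]} R c ∅ U (a, η) * av (Cset (a, η)) (σ ↦ f (σ a))`.

* `sum_signed` : the identity;
* `ratio_eq` : the corresponding ratio form;
* `expect_mono` : domination in ratio form (Holley).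
-/

set_option autoImplicit false
set_option linter.unusedSectionVars false
set_option linter.unnecessarySeqFocus false
set_option linter.unusedVariables false

open Finset
open Crest.Agent.R161.Lsm375 Crest.Agent.R161.Gks375 Crest.Agent.R161.Hts375
  Crest.Agent.R161.Abs375

namespace Crest.Agent.R161.Lnk722

section link
variable {V F P : Type*} [Fintype V] [Fintype F] [Fintype P]
  [DecidableEq V] [DecidableEq F] [DecidableEq P]

/-- signed heights -/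
def sg (σ : V ⊕ F → ℤˣ) (a : V ⊕ F → ℤ) : V ⊕ F → ℤ := fun x => (σ x : ℤ) * a x

/-- absolute heights -/
def ab (h : V ⊕ F → ℤ) : V ⊕ F → ℤ := fun x => |h x|

theorem ab_nonneg (h : V ⊕ F → ℤ) : 0 ≤ ab h := fun x => abs_nonneg _

/-- compatible signs -/
def Cmp (G : Geo V F P) (a : V ⊕ F → ℤ) (σ : V ⊕ F → ℤˣ) : Prop :=
  ∀ v f, G.inc v f → 0 < a (.inl v) → σ (.inl v) = σ (.inr f)

theorem even_unit_mul (u : ℤˣ) (n : ℤ) : Even ((u : ℤ) * n) ↔ Even n := by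
  rcases Int.units_eq_one_or u with h | h <;> subst h <;> simp

theorem odd_unit_mul (u : ℤˣ) (n : ℤ) : Odd ((u : ℤ) * n) ↔ Odd n := by
  rcases Int.units_eq_one_or u with h | h <;> subst h <;> simp

theorem valid_sg (G : Geo V F P) {a : V ⊕ F → ℤ} (ha : 0 ≤ a) (σ : V ⊕ F → ℤˣ) :
    G.Valid (sg σ a) ↔ G.Valid a ∧ Cmp G a σ := by
  constructor
  · rintro ⟨h1, h2, h3⟩
    have e1 : ∀ v, Even (a (.inl v)) := fun v => (even_unit_mul _ _).1 (h1 v)
    have e2 : ∀ f, Odd (a (.inr f)) := fun f => (odd_unit_mul _ _).1 (h2 f)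
    have key : ∀ v f, G.inc v f → |a (.inl v) - a (.inr f)| = 1 ∧
        (0 < a (.inl v) → σ (.inl v) = σ (.inr f)) := by
      intro v f hvf
      have h := h3 v f hvf
      have av0 : 0 ≤ a (.inl v) := ha _
      have af0 : 0 ≤ a (.inr f) := ha _
      obtain ⟨r, hr⟩ := e2 f
      simp only [sg] at h
      rw [abs_eq (by norm_num)] at h ⊢
      rcases Int.units_eq_one_or (σ (.inl v)) with h4 | h4 <;>
      rcases Int.units_eq_one_or (σ (.inr f)) with h5 | h5 <;>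
      rw [h4, h5] at h <;> push_cast at h
      · exact ⟨by omega, fun _ => by rw [h4, h5]⟩
      · exact ⟨by omega, fun _ => by omega⟩
      · exact ⟨by omega, fun _ => by omega⟩
      · exact ⟨by omega, fun _ => by rw [h4, h5]⟩
    exact ⟨⟨e1, e2, fun v f hvf => (key v f hvf).1⟩, fun v f hvf => (key v f hvf).2⟩
  · rintro ⟨⟨h1, h2, h3⟩, hC⟩
    refine ⟨fun v => (even_unit_mul _ _).2 (h1 v), fun f => (odd_unit_mul _ _).2 (h2 f),
      fun v f hvf => ?_⟩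
    have h := h3 v f hvf
    have av0 : 0 ≤ a (.inl v) := ha _
    have af0 : 0 ≤ a (.inr f) := ha _
    have hc := hC v f hvf
    simp only [sg]
    rw [abs_eq (by norm_num)] at h ⊢
    by_cases hv : 0 < a (.inl v)
    · rw [hc hv]
      rcases Int.units_eq_one_or (σ (.inr f)) with h5 | h5 <;> rw [h5] <;> push_cast <;> omega
    · have : a (.inl v) = 0 := by omega
      rw [this] at h ⊢
      rcases Int.units_eq_one_or (σ (.inr f)) with h5 | h5 <;> rw [h5] <;> push_cast <;> omega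

theorem face_pos (G : Geo V F P) {a : V ⊕ F → ℤ} (hv : G.Valid a) (ha : 0 ≤ a) (f : F) :
    1 ≤ a (.inr f) := by
  have h0 : 0 ≤ a (.inr f) := ha _
  obtain ⟨r, hr⟩ := hv.2.1 f
  omega

theorem flat_sg (G : Geo V F P) {a : V ⊕ F → ℤ} (hv : G.Valid a) (ha : 0 ≤ a) {σ : V ⊕ F → ℤˣ}
    (hC : Cmp G a σ) (p : P) :
    G.Flat (sg σ a) p ↔ G.Flat a p ∧ σ (.inr (G.f₁ p)) = σ (.inr (G.f₂ p)) := by
  have f1 := face_pos G hv ha (G.f₁ p)
  have f2 := face_pos G hv ha (G.f₂ p)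
  have v1 : 0 ≤ a (.inl (G.v₁ p)) := ha _
  have v2 : 0 ≤ a (.inl (G.v₂ p)) := ha _
  have c11 := hC _ _ (G.inc₁₁ p)
  have c21 := hC _ _ (G.inc₂₁ p)
  unfold Geo.Flat
  simp only [sg]
  constructor
  · rintro ⟨h1, h2⟩
    have hs : σ (.inr (G.f₁ p)) = σ (.inr (G.f₂ p)) := by
      rcases Int.units_eq_one_or (σ (.inr (G.f₁ p))) with h5 | h5 <;>
      rcases Int.units_eq_one_or (σ (.inr (G.f₂ p))) with h6 | h6 <;>
      rw [h5, h6] at h2 ⊢ <;> push_cast at h2 <;> omega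
    refine ⟨⟨?_, ?_⟩, hs⟩
    · rcases Int.units_eq_one_or (σ (.inl (G.v₁ p))) with h5 | h5 <;>
      rcases Int.units_eq_one_or (σ (.inl (G.v₂ p))) with h6 | h6 <;>
      rw [h5, h6] at h1 <;> push_cast at h1 <;> omega
    · rw [hs] at h2
      rcases Int.units_eq_one_or (σ (.inr (G.f₂ p))) with h6 | h6 <;>
      rw [h6] at h2 <;> push_cast at h2 <;> omega
  · rintro ⟨⟨h1, h2⟩, hs⟩
    refine ⟨?_, by rw [hs, h2]⟩
    by_cases h0 : 0 < a (.inl (G.v₁ p))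
    · rw [c11 h0, c21 (h1 ▸ h0), h1]
    · have e1 : a (.inl (G.v₁ p)) = 0 := by omega
      have e2 : a (.inl (G.v₂ p)) = 0 := by omega
      rw [e1, e2]; simp

theorem sign_eq_of_not_flat (G : Geo V F P) {a : V ⊕ F → ℤ} (hv : G.Valid a) (ha : 0 ≤ a)
    {σ : V ⊕ F → ℤˣ} (hC : Cmp G a σ) {p : P} (hp : ¬ G.Flat a p) :
    σ (.inr (G.f₁ p)) = σ (.inr (G.f₂ p)) := by
  have f1 := face_pos G hv ha (G.f₁ p)
  have f2 := face_pos G hv ha (G.f₂ p)
  have v1 : 0 ≤ a (.inl (G.v₁ p)) := ha _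
  have v2 : 0 ≤ a (.inl (G.v₂ p)) := ha _
  have c11 := hC _ _ (G.inc₁₁ p)
  have c12 := hC _ _ (G.inc₁₂ p)
  have c21 := hC _ _ (G.inc₂₁ p)
  have c22 := hC _ _ (G.inc₂₂ p)
  have d11 := hv.2.2 _ _ (G.inc₁₁ p)
  have d12 := hv.2.2 _ _ (G.inc₁₂ p)
  by_cases h1 : 0 < a (.inl (G.v₁ p))
  · rw [← c11 h1, ← c12 h1]
  by_cases h2 : 0 < a (.inl (G.v₂ p))
  · rw [← c21 h2, ← c22 h2]
  exfalso
  apply hp
  have e1 : a (.inl (G.v₁ p)) = 0 := by omega
  have e2 : a (.inl (G.v₂ p)) = 0 := by omega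
  rw [e1, zero_sub, abs_neg, abs_of_nonneg (by omega)] at d11 d12
  exact ⟨by rw [e1, e2], by rw [d11, d12]⟩

theorem wp_sg (G : Geo V F P) (c : P → ℝ) {a : V ⊕ F → ℤ} (hv : G.Valid a) (ha : 0 ≤ a)
    {σ : V ⊕ F → ℤˣ} (hC : Cmp G a σ) (p : P) :
    c p * G.wp c (sg σ a) p =
      G.wp c a p * (if σ (.inr (G.f₁ p)) = σ (.inr (G.f₂ p)) then c p else 1) := by
  have h1 := flat_sg G hv ha hC p
  unfold Geo.wp
  by_cases hf : G.Flat a p
  · by_cases hs : σ (.inr (G.f₁ p)) = σ (.inr (G.f₂ p))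
    · rw [if_pos (h1.2 ⟨hf, hs⟩), if_pos hf, if_pos hs]
    · rw [if_neg (fun h => hs (h1.1 h).2), if_pos hf, if_neg hs]
  · have hs := sign_eq_of_not_flat G hv ha hC hf
    rw [if_neg (fun h => hf (h1.1 h).1), if_neg hf, if_pos hs]
    ring

open Classical in
theorem W_sg (G : Geo V F P) (c : P → ℝ) {a : V ⊕ F → ℤ} (ha : 0 ≤ a) (σ : V ⊕ F → ℤˣ) :
    (∏ p, c p) * G.W c (sg σ a) = G.W c a * ((if Cmp G a σ then 1 else 0) *
      ∏ p, (if σ (.inr (G.f₁ p)) = σ (.inr (G.f₂ p)) then c p else 1)) := by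
  have h1 := valid_sg G ha σ
  unfold Geo.W
  by_cases hv : G.Valid a
  · by_cases hC : Cmp G a σ
    · rw [if_pos (h1.2 ⟨hv, hC⟩), if_pos hv, if_pos hC, one_mul, ← Finset.prod_mul_distrib,
        ← Finset.prod_mul_distrib]
      exact Finset.prod_congr rfl fun p _ => wp_sg G c hv ha hC p
    · rw [if_neg (fun h => hC (h1.1 h).2), if_neg hC]
      ring
  · rw [if_neg (fun h => hv (h1.1 h).1), if_neg hv]
    ring

open Classical in
theorem ic_Cset (G : Geo V F P) (a : V ⊕ F → ℤ) (η : Finset P) (σ : V ⊕ F → ℤˣ) :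
    ic (ii G) (jj G) (Cset G ∅ (a, η)) σ = (if Cmp G a σ then 1 else 0) *
      ∏ p ∈ η, (if σ (.inr (G.f₁ p)) = σ (.inr (G.f₂ p)) then (1 : ℝ) else 0) := by
  rw [ic_eq]
  have h1 : (∀ k ∈ Cset G ∅ (a, η), σ (ii G k) = σ (jj G k)) ↔
      Cmp G a σ ∧ ∀ p ∈ η, σ (.inr (G.f₁ p)) = σ (.inr (G.f₂ p)) := by
    constructor
    · intro h
      refine ⟨fun v f hvf hv => ?_, fun p hp => ?_⟩
      · exact h (.inr (.inl (v, f))) ((mem_Cset _ _ _ _).2 ⟨hvf, hv⟩)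
      · exact h (.inl p) ((mem_Cset _ _ _ _).2 hp)
    · rintro ⟨h2, h3⟩ k hk
      rw [mem_Cset] at hk
      rcases k with p | vf | t
      · exact h3 p hk
      · exact h2 vf.1 vf.2 hk.1 hk.2
      · simp [Act] at hk
  by_cases hC : Cmp G a σ
  · by_cases he : ∀ p ∈ η, σ (.inr (G.f₁ p)) = σ (.inr (G.f₂ p))
    · rw [if_pos (h1.2 ⟨hC, he⟩), if_pos hC, one_mul]
      symm
      exact Finset.prod_eq_one fun p hp => if_pos (he p hp)
    · rw [if_neg (fun h => he (h1.1 h).2), if_pos hC, one_mul]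
      push Not at he
      obtain ⟨p, hp, hne⟩ := he
      symm
      exact Finset.prod_eq_zero hp (if_neg hne)
  · rw [if_neg (fun h => hC (h1.1 h).1), if_neg hC, zero_mul]

open Classical in
theorem sum_eta (G : Geo V F P) (c : P → ℝ) (a : V ⊕ F → ℤ) (σ : V ⊕ F → ℤˣ) :
    ∑ η : Finset P, (∏ p ∈ η, (c p - 1)) * ic (ii G) (jj G) (Cset G ∅ (a, η)) σ =
      (if Cmp G a σ then 1 else 0) *
      ∏ p, (if σ (.inr (G.f₁ p)) = σ (.inr (G.f₂ p)) then c p else 1) := by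
  have h1 : ∀ η : Finset P, (∏ p ∈ η, (c p - 1)) * ic (ii G) (jj G) (Cset G ∅ (a, η)) σ =
      (if Cmp G a σ then 1 else 0) *
        ∏ p ∈ η, ((c p - 1) * (if σ (.inr (G.f₁ p)) = σ (.inr (G.f₂ p)) then (1 : ℝ) else 0)) := by
    intro η
    rw [ic_Cset, Finset.prod_mul_distrib]
    ring
  rw [Finset.sum_congr rfl fun η _ => h1 η, ← Finset.mul_sum]
  congr 1
  have h2 : ∀ p, (if σ (.inr (G.f₁ p)) = σ (.inr (G.f₂ p)) then c p else 1) =
      (c p - 1) * (if σ (.inr (G.f₁ p)) = σ (.inr (G.f₂ p)) then (1 : ℝ) else 0) + 1 := by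
    intro p
    split_ifs <;> ring
  rw [Finset.prod_congr rfl fun p _ => h2 p, Finset.prod_add_one]
  simp [Finset.powerset_univ]

/-- Sum over `η` for fixed absolute heights. -/
theorem sum_R_av (G : Geo V F P) (c : P → ℝ) (U : (V ⊕ F → ℤ) → ℝ) {a : V ⊕ F → ℤ} (ha : 0 ≤ a)
    (f : (V ⊕ F → ℤˣ) → ℝ) :
    ∑ η : Finset P, R G c ∅ U (a, η) * av (ii G) (jj G) (Cset G ∅ (a, η)) f =
      (∏ p, c p) * (zf a * U a * ∑ σ : V ⊕ F → ℤˣ, G.W c (sg σ a) * f σ) := by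
  classical
  have h1 : ∀ η : Finset P, R G c ∅ U (a, η) * av (ii G) (jj G) (Cset G ∅ (a, η)) f =
      G.W c a * zf a * U a * ∑ σ : V ⊕ F → ℤˣ, ((∏ p ∈ η, (c p - 1)) *
        ic (ii G) (jj G) (Cset G ∅ (a, η)) σ) * f σ := by
    intro η
    unfold R
    simp only
    rw [mul_assoc _ (nC (ii G) (jj G) (Cset G ∅ (a, η))) _, nC_mul_av]
    unfold aC
    rw [mul_assoc, Finset.mul_sum]
    simp only [mul_assoc]
  rw [Finset.sum_congr rfl fun η _ => h1 η, ← Finset.mul_sum, Finset.sum_comm]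
  have h2 : ∀ σ : V ⊕ F → ℤˣ, ∑ η : Finset P, ((∏ p ∈ η, (c p - 1)) *
      ic (ii G) (jj G) (Cset G ∅ (a, η)) σ) * f σ = ((if Cmp G a σ then 1 else 0) *
      ∏ p, (if σ (.inr (G.f₁ p)) = σ (.inr (G.f₂ p)) then c p else 1)) * f σ := by
    intro σ
    rw [← Finset.sum_mul, sum_eta]
  rw [Finset.sum_congr rfl fun σ _ => h2 σ]
  rw [Finset.mul_sum, Finset.mul_sum, Finset.mul_sum]
  refine Finset.sum_congr rfl fun σ _ => ?_
  have h3 := W_sg G c ha σ
  calc G.W c a * zf a * U a * (((if Cmp G a σ then 1 else 0) *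
      ∏ p, (if σ (.inr (G.f₁ p)) = σ (.inr (G.f₂ p)) then c p else 1)) * f σ)
      = (G.W c a * ((if Cmp G a σ then 1 else 0) *
      ∏ p, (if σ (.inr (G.f₁ p)) = σ (.inr (G.f₂ p)) then c p else 1))) * (zf a * U a * f σ) := by
        ring
    _ = ((∏ p, c p) * G.W c (sg σ a)) * (zf a * U a * f σ) := by rw [h3]
    _ = _ := by ring

/-! ### counting the signs -/

theorem sg_eq_iff {σ : V ⊕ F → ℤˣ} {a h : V ⊕ F → ℤ} (ha : 0 ≤ a) :
    sg σ a = h ↔ a = ab h ∧ ∀ x, (σ x : ℤ) * |h x| = h x := by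
  constructor
  · rintro rfl
    have h1 : a = ab (sg σ a) := by
      funext x
      have hx : 0 ≤ a x := ha x
      simp only [ab, sg]
      rcases Int.units_eq_one_or (σ x) with h5 | h5 <;> rw [h5] <;> push_cast <;>
        simp [abs_of_nonneg hx]
    refine ⟨h1, fun x => ?_⟩
    have := congrFun h1 x
    simp only [ab] at this
    rw [← this]
    rfl
  · rintro ⟨rfl, h2⟩
    funext x
    exact h2 x

theorem sum_unit (n : ℤ) : ∑ s : ℤˣ, (if (s : ℤ) * |n| = n then (1 : ℝ) else 0) =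
    if n = 0 then 2 else 1 := by
  have : (univ : Finset ℤˣ) = {1, -1} := by decide
  rw [this, Finset.sum_pair (by decide)]
  by_cases h0 : n = 0
  · subst h0; norm_num
  · rw [if_neg h0]
    rcases lt_or_gt_of_ne h0 with h | h
    · rw [abs_of_neg h]
      have e1 : ¬ (((1 : ℤˣ) : ℤ) * -n = n) := by push_cast; omega
      have e2 : (((-1 : ℤˣ) : ℤ) * -n = n) := by push_cast; ring
      rw [if_neg e1, if_pos e2]; norm_num
    · rw [abs_of_pos h]
      have e1 : (((1 : ℤˣ) : ℤ) * n = n) := by push_cast; ring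
      have e2 : ¬ (((-1 : ℤˣ) : ℤ) * n = n) := by push_cast; omega
      rw [if_pos e1, if_neg e2]; norm_num

open Classical in
theorem count_signs (h : V ⊕ F → ℤ) (hF : ∀ f, h (.inr f) ≠ 0) :
    zf (ab h) * ∑ σ : V ⊕ F → ℤˣ, (if ∀ x, (σ x : ℤ) * |h x| = h x then (1 : ℝ) else 0) = 1 := by
  have h1 : ∀ σ : V ⊕ F → ℤˣ, (if ∀ x, (σ x : ℤ) * |h x| = h x then (1 : ℝ) else 0) =
      ∏ x, (if (σ x : ℤ) * |h x| = h x then (1 : ℝ) else 0) := by
    intro σ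
    split_ifs with h2
    · exact (Finset.prod_eq_one fun x _ => if_pos (h2 x)).symm
    · push Not at h2
      obtain ⟨x, hx⟩ := h2
      exact (Finset.prod_eq_zero (Finset.mem_univ x) (if_neg hx)).symm
  rw [Finset.sum_congr rfl fun σ _ => h1 σ]
  have h2 : ∑ σ : V ⊕ F → ℤˣ, ∏ x, (if (σ x : ℤ) * |h x| = h x then (1 : ℝ) else 0) =
      ∏ x, ∑ s : ℤˣ, (if (s : ℤ) * |h x| = h x then (1 : ℝ) else 0) := by
    rw [Finset.prod_univ_sum, Fintype.piFinset_univ]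
  rw [h2, Finset.prod_congr rfl fun x _ => sum_unit (h x), Fintype.prod_sum_type]
  have h3 : ∏ f : F, (if h (.inr f) = 0 then (2 : ℝ) else 1) = 1 :=
    Finset.prod_eq_one fun f _ => if_neg (hF f)
  rw [h3, mul_one]
  unfold zf
  rw [if_pos (ab_nonneg h), one_mul, ← Finset.prod_mul_distrib]
  refine Finset.prod_eq_one fun v _ => ?_
  simp only [ab, abs_eq_zero]
  split_ifs <;> norm_num

/-- Resummation of the signs. -/
theorem sum_box (N : V ⊕ F → ℤ) (g : (V ⊕ F → ℤ) → ℝ)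
    (hg : ∀ h, (∃ f, h (.inr f) = 0) → g h = 0) :
    ∑ a ∈ Finset.Icc (0 : V ⊕ F → ℤ) N, zf a * ∑ σ : V ⊕ F → ℤˣ, g (sg σ a) =
      ∑ h ∈ Finset.Icc (-N) N, g h := by
  classical
  have hbox : ∀ (a : V ⊕ F → ℤ) (σ : V ⊕ F → ℤˣ), 0 ≤ a → a ≤ N → sg σ a ∈ Finset.Icc (-N) N := by
    intro a σ h1 h2
    rw [Finset.mem_Icc]
    constructor <;> intro x <;> have k1 := h1 x <;> have k2 := h2 x <;>
      simp only [sg, Pi.neg_apply, Pi.zero_apply] at k1 k2 ⊢ <;>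
      rcases Int.units_eq_one_or (σ x) with h5 | h5 <;> rw [h5] <;> push_cast <;> linarith
  have h1 : ∀ a ∈ Finset.Icc (0 : V ⊕ F → ℤ) N, zf a * ∑ σ : V ⊕ F → ℤˣ, g (sg σ a) =
      ∑ h ∈ Finset.Icc (-N) N, ∑ σ : V ⊕ F → ℤˣ,
        (if sg σ a = h then (1 : ℝ) else 0) * (zf a * g h) := by
    intro a ha
    rw [Finset.mem_Icc] at ha
    rw [Finset.sum_comm, Finset.mul_sum]
    refine Finset.sum_congr rfl fun σ _ => ?_
    simp only [ite_mul, one_mul, zero_mul]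
    rw [Finset.sum_ite_eq, if_pos (hbox a σ ha.1 ha.2)]
  rw [Finset.sum_congr rfl h1, Finset.sum_comm]
  refine Finset.sum_congr rfl fun h hh => ?_
  by_cases hF : ∃ f, h (.inr f) = 0
  · rw [hg h hF]
    simp
  push Not at hF
  rw [Finset.mem_Icc] at hh
  have hab : ab h ∈ Finset.Icc (0 : V ⊕ F → ℤ) N := by
    rw [Finset.mem_Icc]
    refine ⟨ab_nonneg h, fun x => ?_⟩
    exact abs_le.2 ⟨hh.1 x, hh.2 x⟩
  rw [Finset.sum_eq_single_of_mem (ab h) hab]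
  · have h2 : ∀ σ : V ⊕ F → ℤˣ, (if sg σ (ab h) = h then (1 : ℝ) else 0) =
        if ∀ x, (σ x : ℤ) * |h x| = h x then (1 : ℝ) else 0 := by
      intro σ
      have := sg_eq_iff (σ := σ) (a := ab h) (h := h) (ab_nonneg h)
      by_cases h3 : sg σ (ab h) = h
      · rw [if_pos h3, if_pos (this.1 h3).2]
      · rw [if_neg h3, if_neg (fun h4 => h3 (this.2 ⟨rfl, h4⟩))]
    rw [← Finset.sum_mul, Finset.sum_congr rfl fun σ _ => h2 σ]
    have h4 := count_signs h hF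
    calc _ = (zf (ab h) * ∑ σ : V ⊕ F → ℤˣ,
        (if ∀ x, (σ x : ℤ) * |h x| = h x then (1 : ℝ) else 0)) * g h := by ring
      _ = g h := by rw [h4, one_mul]
  · intro a ha hne
    rw [Finset.mem_Icc] at ha
    refine Finset.sum_eq_zero fun σ _ => ?_
    rw [if_neg, zero_mul]
    intro h3
    exact hne ((sg_eq_iff ha.1).1 h3).1

/-- **The link**: signed heights versus `(|h|, η)`. -/
theorem sum_signed (G : Geo V F P) (c : P → ℝ) (U : (V ⊕ F → ℤ) → ℝ) (N : V ⊕ F → ℤ)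
    (f : (V ⊕ F → ℤ) → ℝ) :
    ∑ x ∈ Finset.Icc (0 : V ⊕ F → ℤ) N ×ˢ (univ : Finset (Finset P)),
        R G c ∅ U x * av (ii G) (jj G) (Cset G ∅ x) (fun σ => f (sg σ x.1)) =
      (∏ p, c p) * ∑ h ∈ Finset.Icc (-N) N, G.W c h * U (ab h) * f h := by
  classical
  rw [Finset.sum_product]
  have h1 : ∀ a ∈ Finset.Icc (0 : V ⊕ F → ℤ) N,
      ∑ η : Finset P, R G c ∅ U (a, η) *
        av (ii G) (jj G) (Cset G ∅ (a, η)) (fun σ => f (sg σ (a, η).1)) =
      (∏ p, c p) * (zf a * ∑ σ : V ⊕ F → ℤˣ, G.W c (sg σ a) * U (ab (sg σ a)) * f (sg σ a)) := by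
    intro a ha
    rw [Finset.mem_Icc] at ha
    rw [sum_R_av G c U ha.1 (fun σ => f (sg σ a)), mul_assoc (zf a), Finset.mul_sum]
    congr 2
    refine Finset.sum_congr rfl fun σ _ => ?_
    have : ab (sg σ a) = a := ((sg_eq_iff (σ := σ) ha.1).1 rfl).1.symm
    rw [this]
    ring
  rw [Finset.sum_congr rfl h1, ← Finset.mul_sum]
  congr 1
  refine sum_box N (fun h => G.W c h * U (ab h) * f h) ?_
  rintro h ⟨f', hf'⟩
  have : ¬ G.Valid h := by
    intro hv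
    have := hv.2.1 f'
    rw [hf'] at this
    exact absurd this (by decide)
  unfold Geo.W
  rw [if_neg this]
  ring

theorem sum_signed_one (G : Geo V F P) (c : P → ℝ) (U : (V ⊕ F → ℤ) → ℝ) (N : V ⊕ F → ℤ) :
    ∑ x ∈ Finset.Icc (0 : V ⊕ F → ℤ) N ×ˢ (univ : Finset (Finset P)), R G c ∅ U x =
      (∏ p, c p) * ∑ h ∈ Finset.Icc (-N) N, G.W c h * U (ab h) := by
  have := sum_signed G c U N (fun _ => 1)
  simpa only [av_const, mul_one] using this

theorem box_lattice (N : V ⊕ F → ℤ) :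
    ∀ a ∈ Finset.Icc (0 : V ⊕ F → ℤ) N ×ˢ (univ : Finset (Finset P)),
      ∀ b ∈ Finset.Icc (0 : V ⊕ F → ℤ) N ×ˢ (univ : Finset (Finset P)),
        a ⊓ b ∈ Finset.Icc (0 : V ⊕ F → ℤ) N ×ˢ (univ : Finset (Finset P)) ∧
        a ⊔ b ∈ Finset.Icc (0 : V ⊕ F → ℤ) N ×ˢ (univ : Finset (Finset P)) := by
  rintro ⟨a, η⟩ ha ⟨b, θ⟩ hb
  simp only [Finset.mem_product, Finset.mem_Icc, Finset.mem_univ, and_true] at ha hb
  constructor
  · simp only [Prod.mk_inf_mk, Finset.mem_product, Finset.mem_Icc, Finset.mem_univ, and_true]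
    exact ⟨le_inf ha.1 hb.1, inf_le_left.trans ha.2⟩
  · simp only [Prod.mk_sup_mk, Finset.mem_product, Finset.mem_Icc, Finset.mem_univ, and_true]
    exact ⟨ha.1.trans le_sup_left, sup_le ha.2 hb.2⟩

/-- **Domination in terms of signed heights.** `(c', U')` below `(c, U)`; `f` such that its cluster
sign averages increase in `(|h|, η)`. -/
theorem expect_mono (G : Geo V F P) {c c' : P → ℝ} (hc' : ∀ p, 1 ≤ c' p) (hcc : ∀ p, c' p ≤ c p)
    {U' U : (V ⊕ F → ℤ) → ℝ} (hU : Dom U' U)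
    (hpin : ∀ p, c' p ≠ c p → ∀ a, U' a ≠ 0 → a (.inl (G.v₁ p)) = 0 ∧ a (.inl (G.v₂ p)) = 0)
    (N : V ⊕ F → ℤ) {f : (V ⊕ F → ℤ) → ℝ}
    (hf : ∀ x y : (V ⊕ F → ℤ) × Finset P, 0 ≤ x.1 → x ≤ y →
      av (ii G) (jj G) (Cset G ∅ x) (fun σ => f (sg σ x.1)) ≤
        av (ii G) (jj G) (Cset G ∅ y) (fun σ => f (sg σ y.1))) :
    (∑ h ∈ Finset.Icc (-N) N, G.W c' h * U' (ab h) * f h) *
        (∑ h ∈ Finset.Icc (-N) N, G.W c h * U (ab h)) ≤
      (∑ h ∈ Finset.Icc (-N) N, G.W c' h * U' (ab h)) *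
        ∑ h ∈ Finset.Icc (-N) N, G.W c h * U (ab h) * f h := by
  have hc : ∀ p, 1 ≤ c p := fun p => (hc' p).trans (hcc p)
  have key := (dom_R G hc' hcc ∅ hU hpin).expect_le
    (Finset.Icc (0 : V ⊕ F → ℤ) N ×ˢ (univ : Finset (Finset P))) (box_lattice N)
    (f := fun x => av (ii G) (jj G) (Cset G ∅ x) (fun σ => f (sg σ x.1)))
    (fun a ha b hb hab => hf a b (Finset.mem_Icc.1 (Finset.mem_product.1 ha).1).1 hab)
  rw [sum_signed, sum_signed, sum_signed_one, sum_signed_one] at key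
  have p1 : 0 < ∏ p, c' p := Finset.prod_pos fun p _ => lt_of_lt_of_le one_pos (hc' p)
  have p2 : 0 < ∏ p, c p := Finset.prod_pos fun p _ => lt_of_lt_of_le one_pos (hc p)
  have p3 := mul_pos p1 p2
  set A := ∑ h ∈ Finset.Icc (-N) N, G.W c' h * U' (ab h) * f h
  set B := ∑ h ∈ Finset.Icc (-N) N, G.W c h * U (ab h)
  set C := ∑ h ∈ Finset.Icc (-N) N, G.W c' h * U' (ab h)
  set D := ∑ h ∈ Finset.Icc (-N) N, G.W c h * U (ab h) * f h
  have : ((∏ p, c' p) * ∏ p, c p) * (A * B) ≤ ((∏ p, c' p) * ∏ p, c p) * (C * D) := by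
    calc _ = (∏ p, c' p) * A * ((∏ p, c p) * B) := by ring
      _ ≤ (∏ p, c' p) * C * ((∏ p, c p) * D) := key
      _ = _ := by ring
  exact le_of_mul_le_mul_left this p3

/-- **Association** for functions of signed heights whose cluster averages are increasing:
`f = φ(|h|)`-type functions `f, g` with `g` depending on `|h|` only. -/
theorem assoc (G : Geo V F P) {c : P → ℝ} (hc : ∀ p, 1 ≤ c p)
    {U : (V ⊕ F → ℤ) → ℝ} (hU : LSM U) (N : V ⊕ F → ℤ) {f g : (V ⊕ F → ℤ) → ℝ}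
    (hf : ∀ x y : (V ⊕ F → ℤ) × Finset P, 0 ≤ x.1 → x ≤ y →
      av (ii G) (jj G) (Cset G ∅ x) (fun σ => f (sg σ x.1)) ≤
        av (ii G) (jj G) (Cset G ∅ y) (fun σ => f (sg σ y.1)))
    (hg0 : ∀ a, 0 ≤ g a) (hg : Monotone g) :
    (∑ h ∈ Finset.Icc (-N) N, G.W c h * U (ab h) * f h) *
        (∑ h ∈ Finset.Icc (-N) N, G.W c h * U (ab h) * g (ab h)) ≤
      (∑ h ∈ Finset.Icc (-N) N, G.W c h * U (ab h)) *
        ∑ h ∈ Finset.Icc (-N) N, G.W c h * U (ab h) * (g (ab h) * f h) := by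
  have h1 : Dom U (fun a => U a * g a) := Dom.of_lsm_mono hU hg0 hg
  have key := expect_mono G hc (fun p => le_rfl) h1 (fun p hp => absurd rfl hp) N hf
  have e1 : ∑ h ∈ Finset.Icc (-N) N, G.W c h * (U (ab h) * g (ab h)) =
      ∑ h ∈ Finset.Icc (-N) N, G.W c h * U (ab h) * g (ab h) :=
    Finset.sum_congr rfl fun h _ => by ring
  have e2 : ∑ h ∈ Finset.Icc (-N) N, G.W c h * (U (ab h) * g (ab h)) * f h =
      ∑ h ∈ Finset.Icc (-N) N, G.W c h * U (ab h) * (g (ab h) * f h) :=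
    Finset.sum_congr rfl fun h _ => by ring
  rw [e1, e2] at key
  exact key

end link

end Crest.Agent.R161.Lnk722
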