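import Crest.Agent.R161.Blk4_696

/-!
# Row 161 (helper696): lower bound for two cut circuits in finite volume (input of helper770's (R))
-/

set_option autoImplicit false

noncomputable section

namespace Crest.Agent.R161.Blk696

open MeasureTheory
open Crest.Agent.R161.Geo729 Crest.Agent.R161.Defs372 Crest.Agent.R161.Dual374
open Crest.Agent.R161.Hull374 Crest.Agent.R161.Ifc372 Crest.Agent.R161.Dmp341
open Crest.Agent.R161.Ring421 Crest.Agent.R161.NuInv421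

/-- An event of the plus-cut percolation, seen in finite volume: if `A` (for the plus-cut edges or for
the minus-cut edges) implies `B`, then `P_F(B)` is asymptotically at least `nu P A`. -/
theorem lower_of {c : ℝ} (hc : 1 ≤ c) {P : Measure Cfg} (hP : IsState c P)
    {A : Set (Edge → Bool)} (hA : LocEv A) {B : Cfg → Prop}
    (h1 : ∀ ω, (∀ v, Even (ω.1 v)) → (∀ e, EdgeOk ω e) → plusMap ω ∈ A → B ω)
    (h2 : ∀ ω, (∀ v, Even (ω.1 v)) → (∀ e, EdgeOk ω e) → plusMap (addH 2 ω) ∈ A → B ω)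
    {ε : ℝ} (hε : 0 < ε) :
    ∃ n : ℕ, ∀ F : Finset P2, Dom F → box n ⊆ F →
      (nu P).real A - ε ≤ Pr c F {ω | B ω} := by
  have := hP.prob
  obtain ⟨S, hS⟩ := hA
  obtain ⟨n, hn⟩ := Aut373.lim_neut hP (loc_GA hS) (neut_GA A) hε
  refine ⟨n, fun F hF hnF => ?_⟩
  have h3 := hn F hF hnF
  rw [← nu_real hS.measurableSet, E_GA] at h3
  have e1 : E c F (indP (fun ω => plusMap ω ∈ A)) ≤ E c F (indP B) :=
    E_mono' hc fun ω hω hok => indP_mono (h1 ω hω.even hok)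
  have e2 : E c F (indP (fun ω => plusMap (addH 2 ω) ∈ A)) ≤ E c F (indP B) :=
    E_mono' hc fun ω hω hok => indP_mono (h2 ω hω.even hok)
  rw [Pr_eq]
  have h5 := abs_lt.1 h3
  linarith [h5.1]

/-- **Two cut circuits** have probability at least `c3 ^ 2 - ε` in all large domains. -/
theorem lower {c : ℝ} (hc : 1 ≤ c) {P : Measure Cfg} (hP : IsState c P) (hfkg : FKGLoc (nu P))
    {c3 : ℝ} (h3 : 0 ≤ c3) {n1 n2 : ℕ}
    (hc1 : c3 ≤ ((nu P) (CircZ (0, 0) n1 (2 * n1))).toReal)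
    (hc2 : c3 ≤ ((nu P) (CircZ (0, 0) n2 (2 * n2))).toReal) {ε : ℝ} (hε : 0 < ε) :
    ∃ n : ℕ, ∀ F : Finset P2, Dom F → box n ⊆ F →
      c3 ^ 2 - ε ≤ Pr c F {ω | Circ (cutE ω) (0, 0) n1 (2 * n1) ∧ Circ (cutE ω) (0, 0) n2 (2 * n2)} := by
  have hl1 := locEv_circZ (0, 0) n1 (2 * n1)
  have hl2 := locEv_circZ (0, 0) n2 (2 * n2)
  have hprob := hP.prob
  have hf : (nu P).real (CircZ (0, 0) n1 (2 * n1)) * (nu P).real (CircZ (0, 0) n2 (2 * n2)) ≤
      (nu P).real (CircZ (0, 0) n1 (2 * n1) ∩ CircZ (0, 0) n2 (2 * n2)) := by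
    have h := hfkg _ _ hl1 hl2 (incEv_circZ _ _ _) (incEv_circZ _ _ _)
    have h' := ENNReal.toReal_mono (measure_ne_top (nu P) _) h
    rw [ENNReal.toReal_mul] at h'
    exact h'
  obtain ⟨n, hn⟩ := lower_of hc hP (hl1.inter hl2)
    (B := fun ω => Circ (cutE ω) (0, 0) n1 (2 * n1) ∧ Circ (cutE ω) (0, 0) n2 (2 * n2))
    (fun ω _ _ h => ⟨circ_mono (fun e he => ((plusMap_true ω e).1 he).1) h.1,
      circ_mono (fun e he => ((plusMap_true ω e).1 he).1) h.2⟩)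
    (fun ω _ _ h => ⟨circ_mono (fun e he => ((plusMap_true (addH 2 ω) e).1 he).1) h.1,
      circ_mono (fun e he => ((plusMap_true (addH 2 ω) e).1 he).1) h.2⟩) hε
  refine ⟨n, fun F hF hnF => ?_⟩
  have h4 := hn F hF hnF
  have h5 : c3 ^ 2 ≤ (nu P).real (CircZ (0, 0) n1 (2 * n1)) * (nu P).real (CircZ (0, 0) n2 (2 * n2)) := by
    rw [pow_two]
    exact mul_le_mul hc1 hc2 h3 (h3.trans hc1)
  linarith

end Crest.Agent.R161.Blk696
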