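import Crest.Agent.R161.Mkv_760

/-!
# Row 161: Markov property of the plane state, conclusion (helper760)

`qmarkov_Qb : 1 ≤ c → IsPlane c P → QMarkov c (Qb c P)`.
-/

set_option autoImplicit false

noncomputable section

namespace Crest.Agent.R161.Mkv760

open MeasureTheory
open Crest.Agent.R161.Geo729 Crest.Agent.R161.Defs372 Crest.Agent.R161.Dmp341
open Crest.Agent.R150.Hgt989 (Conf relH Ice dx dy relH_succ_snd relH_succ_fst relH_zero relH_congr)
open Crest.Agent.R150.Pls989 (IsPlane)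
open Crest.Agent.R161.ExInv792 (KH khmap hts measurable_khmap measurable_hts)
open Crest.Agent.R161.SwT597 (Stp cf NC ind)
open Crest.Agent.R161.Qb760 Crest.Agent.R161.Box760 Crest.Agent.R161.Exp760
open Crest.Agent.R161.Iso760

/-- mass of a pair -/
def Ma (c : ℝ) (P : Measure Conf) (n : ℕ) (X : Conf × Finset Edge) : ℝ :=
  P.real (cy (RW n) X.1) * ∏ e ∈ SS n, pz c (khmap X.1) e (zT X.2 e)

variable {c : ℝ} {P : Measure Conf} {n : ℕ} {D : Finset P2} {v0 : P2}

lemma offD_nw (X : Conf × Finset Edge) (β : Cfg) : OffD D (khmap X.1) (hts (nw D v0 X β)) :=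
  ⟨fun v hv => by
    show (nw D v0 X β).1 v = _
    simp only [nw, glue, hv, if_false]; rfl,
   fun f hf => by
    show (nw D v0 X β).2.1 f = _
    simp only [nw, glue, hf, if_false]; rfl⟩

/-- **weight relation** -/
theorem ma_Ψ (hc : 1 ≤ c) (hP : IsPlane c P) (h0 : ((0, 0) : P2) ∈ D)
    (hDn : D ⊆ Defs372.box n) (hv0 : v0 ∈ bdV D) {X : Conf × Finset Edge} (hX : Gd c n D X)
    {β : Cfg} (hβ : GI c D β) :
    Ma c P n (Ψ n D v0 X β) * wt c D (inn D v0 X) = Ma c P n X * wt c D β := by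
  have hcv := cv_nw h0 hDn hv0 hX hβ
  have hX' := gd_Ψ h0 hDn hv0 hX hβ
  have hoff := offD_nw (D := D) (v0 := v0) X β
  have hκ : CV (khmap X.1) := cv_khmap hX.ice
  have h1 := cy_swap (c := c) hP (R := RW n) (by simp only [RW]; omega) (stp_H6 hκ)
    (stp_H6 hcv) fun x hx => hoff.bx hDn hx
  rw [show cf (H6 (khmap X.1)) = X.1 by rw [H6_khmap, cf_relH hX.ice],
    cy_congr (rp_spec (R := RW n) (cv_of_stp hcv)).2.symm] at h1
  have h2 := nc_swap (n := n) hoff hDn hκ hcv c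
  have h3 := prod_pz hc hκ n X.2
  have h4 := prod_pz hc (cv_khmap hX'.ice) n (Ψ n D v0 X β).2
  have h5 : wt c (FF n) (Qb760.mk (khmap X.1) X.2) =
      wtOut c (FF n) D (om X.1 X.2) * wt c D (inn D v0 X) := wt_om h0 hDn hv0 hX
  have h6 : wt c (FF n) (Qb760.mk (khmap (Ψ n D v0 X β).1) (Ψ n D v0 X β).2) =
      wtOut c (FF n) D (om X.1 X.2) * wt c D β :=
    (wt_Ψ hcv).trans (wt_nw h0 hDn hv0 hX hβ)
  have h7 : ∏ e ∈ SS n, wf c (khmap (Ψ n D v0 X β).1) e =
      ∏ e ∈ SS n, wf c (hts (nw D v0 X β)) e := Finset.prod_congr rfl fun e he => wf_Ψ hcv he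
  rw [h5] at h3
  rw [h6, h7] at h4
  have hV : 0 < ∏ e ∈ SS n, wf c (khmap X.1) e := Finset.prod_pos fun e _ => wf_pos hc _ _
  have hV' : 0 < ∏ e ∈ SS n, wf c (hts (nw D v0 X β)) e := Finset.prod_pos fun e _ => wf_pos hc _ _
  have hN : 0 < c ^ NC (RW n) (H6 (khmap X.1)) := pow_pos (by linarith) _
  have h8 : P.real (cy (RW n) (Ψ n D v0 X β).1) = P.real (cy (RW n)
      (rp (RW n) (cf (H6 (hts (nw D v0 X β)))))) := rfl
  unfold Ma
  rw [h8]
  generalize P.real (cy (RW n) (rp (RW n) (cf (H6 (hts (nw D v0 X β)))))) = A' at *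
  generalize P.real (cy (RW n) X.1) = A at *
  generalize ∏ e ∈ SS n, wf c (khmap X.1) e = V at *
  generalize ∏ e ∈ SS n, wf c (hts (nw D v0 X β)) e = V' at *
  generalize c ^ NC (RW n) (H6 (khmap X.1)) = N at *
  generalize c ^ NC (RW n) (H6 (hts (nw D v0 X β))) = N' at *
  generalize ∏ e ∈ SS n, pz c (khmap X.1) e (zT X.2 e) = p1 at *
  generalize ∏ e ∈ SS n, pz c (khmap (Ψ n D v0 X β).1) e (zT (Ψ n D v0 X β).2 e) = p2 at *
  generalize wt c D (inn D v0 X) = I at *
  generalize wt c D β = B at *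
  generalize wtOut c (FF n) D (om X.1 X.2) = O at *
  have hne : V * V' * N ≠ 0 := by positivity
  apply mul_right_cancel₀ hne
  calc A' * p2 * I * (V * V' * N) = (A' * N) * (p2 * V') * V * I := by ring
    _ = (A * N') * (O * B) * V * I := by rw [← h1, h4]
    _ = A * (O * B) * I * (N' * V) := by ring
    _ = A * (O * B) * I * (N * V') := by rw [h2]
    _ = A * (O * I) * B * (V' * N) := by ring
    _ = A * (p1 * V) * B * (V' * N) := by rw [h3]
    _ = A * p1 * B * (V * V' * N) := by ring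

open Classical in
/-- the good pairs -/
def YY (c : ℝ) (n : ℕ) (D : Finset P2) : Finset (Conf × Finset Edge) :=
  ((Rp (RW n)) ×ˢ (SS n).powerset).filter (Gd c n D)

lemma mem_YY {X : Conf × Finset Edge} : X ∈ YY c n D ↔ Gd c n D X := by
  classical
  unfold YY
  rw [Finset.mem_filter, Finset.mem_product, Finset.mem_powerset]
  exact ⟨fun h => h.2, fun h => ⟨⟨h.rep, h.sub⟩, h⟩⟩

open Classical in
/-- the good inside configurations -/
def CC (c : ℝ) (D : Finset P2) : Finset Cfg := (conf D).filter fun β => wt c D β ≠ 0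

lemma mem_CC {β : Cfg} : β ∈ CC c D ↔ GI c D β := by
  classical
  unfold CC
  rw [Finset.mem_filter, mem_conf]
  exact ⟨fun h => ⟨h.1, h.2⟩, fun h => ⟨h.val, h.wt⟩⟩

lemma sum_CC (g : Cfg → ℝ) : ∑ β ∈ CC c D, wt c D β * g β = ∑ β ∈ conf D, wt c D β * g β := by
  classical
  unfold CC
  rw [Finset.sum_filter]
  refine Finset.sum_congr rfl fun β _ => ?_
  split_ifs with h
  · rfl
  · rw [not_not] at h
    rw [h, zero_mul]

/-- **double counting** -/
theorem double_count (hc : 1 ≤ c) (hP : IsPlane c P) (h0 : ((0, 0) : P2) ∈ D)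
    (hDn : D ⊆ Defs372.box n) (hv0 : v0 ∈ bdV D) (g : Cfg → ℝ) :
    (∑ X ∈ YY c n D, Ma c P n X * g (inn D v0 X)) * Z c D =
      (∑ X ∈ YY c n D, Ma c P n X) * ∑ β ∈ conf D, wt c D β * g β := by
  classical
  have hZ : Z c D = ∑ β ∈ CC c D, wt c D β * 1 := by
    rw [sum_CC fun _ => 1]
    unfold Z
    simp only [mul_one]
  rw [hZ, ← sum_CC g, Finset.sum_mul_sum, Finset.sum_mul_sum, ← Finset.sum_product',
    ← Finset.sum_product']
  refine Finset.sum_nbij' (fun x => (Ψ n D v0 x.1 x.2, inn D v0 x.1))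
    (fun x => (Ψ n D v0 x.1 x.2, inn D v0 x.1)) ?_ ?_ ?_ ?_ ?_
  · rintro ⟨X, β⟩ hx
    rw [Finset.mem_product, mem_YY, mem_CC] at hx
    rw [Finset.mem_product, mem_YY, mem_CC]
    exact ⟨gd_Ψ h0 hDn hv0 hx.1 hx.2, gi_inn h0 hDn hv0 hx.1⟩
  · rintro ⟨X, β⟩ hx
    rw [Finset.mem_product, mem_YY, mem_CC] at hx
    rw [Finset.mem_product, mem_YY, mem_CC]
    exact ⟨gd_Ψ h0 hDn hv0 hx.1 hx.2, gi_inn h0 hDn hv0 hx.1⟩
  · rintro ⟨X, β⟩ hx
    rw [Finset.mem_product, mem_YY, mem_CC] at hx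
    simp only
    rw [Ψ_Ψ h0 hDn hv0 hx.1 hx.2, inn_Ψ h0 hDn hv0 hx.1 hx.2]
  · rintro ⟨X, β⟩ hx
    rw [Finset.mem_product, mem_YY, mem_CC] at hx
    simp only
    rw [Ψ_Ψ h0 hDn hv0 hx.1 hx.2, inn_Ψ h0 hDn hv0 hx.1 hx.2]
  · rintro ⟨X, β⟩ hx
    rw [Finset.mem_product, mem_YY, mem_CC] at hx
    simp only
    have := ma_Ψ hc hP h0 hDn hv0 hx.1 hx.2
    calc Ma c P n X * g (inn D v0 X) * (wt c D β * 1)
        = (Ma c P n X * wt c D β) * g (inn D v0 X) := by ring
      _ = (Ma c P n (Ψ n D v0 X β) * wt c D (inn D v0 X)) * g (inn D v0 X) := by rw [this]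
      _ = _ := by ring

open Classical in
/-- the integrand -/
def FI (n : ℕ) (D : Finset P2) (G : Cfg → ℝ) (ω : Cfg) : ℝ :=
  if DF (Defs372.box n) (0, 0) ω = D then G (norm0 ω) else 0

lemma FI_good (h0 : ((0, 0) : P2) ∈ D) (hv0 : v0 ∈ bdV D) {G : Cfg → ℝ}
    (hG : Loc (↑D : Set P2) G) {X : Conf × Finset Edge} (hg : Gd c n D X) :
    FI n D G (om X.1 X.2) = G (norm0 (inn D v0 X)) := by
  unfold FI
  rw [if_pos hg.df]
  exact (norm0_ins (hg.cut h0 hv0) hG (by exact subset_rfl) h0).symm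

lemma FI_bad (hc : 1 ≤ c) (P : Measure Conf) {G : Cfg → ℝ} {X : Conf × Finset Edge}
    (h1 : X.1 ∈ Rp (RW n)) (h2 : X.2 ⊆ SS n) (hg : ¬ Gd c n D X) :
    Ma c P n X * FI n D G (om X.1 X.2) = 0 := by
  by_cases hdf : DF (Defs372.box n) (0, 0) (om X.1 X.2) = D
  · have hwt : wt c (FF n) (om X.1 X.2) = 0 := by
      by_contra hne
      exact hg ⟨h1, h2, hdf, hne⟩
    have hice : Ice X.1 := (mem_Rp.1 h1).1
    have h3 := prod_pz hc (cv_khmap hice) n X.2
    have h4 : wt c (Defs372.box (n + 1)) (Qb760.mk (khmap X.1) X.2) = 0 := hwt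
    rw [h4] at h3
    have hV : 0 < ∏ e ∈ SS n, wf c (khmap X.1) e := Finset.prod_pos fun e _ => wf_pos hc _ _
    have h5 : ∏ e ∈ SS n, pz c (khmap X.1) e (zT X.2 e) = 0 := by
      rcases mul_eq_zero.1 h3 with h | h
      · exact h
      · exact absurd h hV.ne'
    unfold Ma
    rw [h5, mul_zero, zero_mul]
  · unfold FI
    rw [if_neg hdf, mul_zero]

/-- the integral as a finite sum -/
theorem integral_FI (hc : 1 ≤ c) (hP : IsPlane c P) (hD : Dom D) (h0 : ((0, 0) : P2) ∈ D)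
    (hDn : D ⊆ Defs372.box n) (hv0 : v0 ∈ bdV D) {G : Cfg → ℝ} (hG : Loc (↑D : Set P2) G) :
    ∫ ω, FI n D G ω ∂(Qb c P) = ∑ X ∈ YY c n D, Ma c P n X * G (norm0 (inn D v0 X)) := by
  classical
  have := hP.prob
  have hFeq : ∀ ω, FI n D G ω = iD (Defs372.box n) D ω.2.2 * G (norm0 ω) := by
    intro ω
    unfold FI
    rw [iD_eq]
    split_ifs <;> ring
  have hGn := loc_norm0 hG (by exact h0)
  have hmeas : Measurable (FI n D G) := by
    rw [funext hFeq]
    exact (Loc.measurable (L := (tE (Defs372.box n)).image Prod.fst)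
      (loc_of_z (tE (Defs372.box n)) (iD_loc (Defs372.box n) D))).mul (Loc.measurable hGn)
  have hdep : DepZ (SS n) (FI n D G) := by
    intro ω ω' h1 h2
    have hk : ω.1 = ω'.1 := by
      have : (hts ω).1 = (hts ω').1 := by rw [h1]
      exact this
    have hh : ω.2.1 = ω'.2.1 := by
      have : (hts ω).2 = (hts ω').2 := by rw [h1]
      exact this
    have hdf : DF (Defs372.box n) (0, 0) ω = DF (Defs372.box n) (0, 0) ω' :=
      DF_congr_B fun e he => h2 e (mem_SS he)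
    have hGG : G (norm0 ω) = G (norm0 ω') := by
      refine hGn _ _ fun v hv => ⟨congrFun hk v, congrFun hh v, fun b => ?_⟩
      exact h2 _ (mem_SS (Or.inl (by simpa using hDn hv)))
    unfold FI
    rw [hdf, hGG]
  obtain ⟨M, hM0, hM⟩ := bdd_norm0 hD.conn h0 hG
  have hint : ∀ T ∈ (SS n).powerset, Integrable (fun w => FI n D G (Qb760.mk (khmap w) T)) P := by
    intro T _
    have hmk : Measurable fun p : KH => Qb760.mk p T :=
      measurable_fst.prodMk (measurable_snd.prodMk measurable_const)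
    refine Integrable.of_bound ((hmeas.comp hmk).comp measurable_khmap).aestronglyMeasurable M ?_
    filter_upwards [hP.ice] with w hw
    unfold FI
    split_ifs
    · exact hM _ fun f _ v hv => (cv_khmap hw).corner f v hv
    · simpa using hM0
  rw [integral_Qb hc P (SS n) hmeas hdep hint]
  -- dependence on the window
  have hwin : ∀ w w' : Conf, AgR (RW n) w w' →
      cexp c (SS n) (FI n D G) (khmap w) = cexp c (SS n) (FI n D G) (khmap w') := by
    intro w w' h
    have hkv : ∀ v, v6 v ∈ bx (RW n) → (khmap w).1 v = (khmap w').1 v := by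
      intro v hv
      rw [← H6_vert (khmap w) v, ← H6_vert (khmap w') v, H6_khmap, H6_khmap]
      exact h.relH hv
    have hkf : ∀ v, f6 v ∈ bx (RW n) → (khmap w).2 v = (khmap w').2 v := by
      intro v hv
      rw [← H6_face (khmap w) v, ← H6_face (khmap w') v, H6_khmap, H6_khmap]
      exact h.relH hv
    unfold cexp
    refine Finset.sum_congr rfl fun T _ => ?_
    congr 1
    · refine Finset.prod_congr rfl fun e he => ?_
      obtain ⟨h1, h2, h3, h4⟩ := sites_SS he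
      unfold pz Csq472.pcut
      rw [hkv _ h1, hkv _ h2, hkf _ h3, hkf _ h4]
    · have hdf : DF (Defs372.box n) (0, 0) (Qb760.mk (khmap w) T) =
          DF (Defs372.box n) (0, 0) (Qb760.mk (khmap w') T) := DF_congr_B fun e _ => rfl
      have hGG : G (norm0 (Qb760.mk (khmap w) T)) = G (norm0 (Qb760.mk (khmap w') T)) := by
        refine hGn _ _ fun v hv => ⟨?_, ?_, fun b => rfl⟩
        · exact hkv v (D_site hDn hv).1
        · exact hkf v (D_site hDn hv).2
      unfold FI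
      rw [hdf, hGG]
  rw [integral_rep hP.ice hwin]
  -- the sum over pairs
  have h1 : ∑ w ∈ Rp (RW n), P.real (cy (RW n) w) * cexp c (SS n) (FI n D G) (khmap w) =
      ∑ X ∈ (Rp (RW n)) ×ˢ (SS n).powerset, Ma c P n X * FI n D G (om X.1 X.2) := by
    rw [Finset.sum_product]
    refine Finset.sum_congr rfl fun w _ => ?_
    unfold cexp
    rw [Finset.mul_sum]
    refine Finset.sum_congr rfl fun T _ => ?_
    unfold Ma om
    ring
  rw [h1]
  unfold YY
  rw [Finset.sum_filter]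
  refine Finset.sum_congr rfl fun X hX => ?_
  rw [Finset.mem_product, Finset.mem_powerset] at hX
  by_cases hg : Gd c n D X
  · rw [if_pos hg, FI_good h0 hv0 hG hg]
  · rw [if_neg hg, FI_bad hc P hX.1 hX.2 hg]

/-- **Markov property of the plane state at the explored domains.** -/
theorem qmarkov_Qb (hc : 1 ≤ c) (hP : IsPlane c P) : QMarkov c (Qb c P) := by
  classical
  intro n D hD h0 hDn G hG
  have := hP.prob
  obtain ⟨v0, hv0⟩ := exists_bdV ⟨_, h0⟩
  have h1 := integral_FI hc hP hD h0 hDn hv0 hG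
  have h2 := integral_FI hc hP hD h0 hDn hv0 (G := fun _ => 1) (fun _ _ _ => rfl)
  have h3 := double_count hc hP h0 hDn hv0 fun β => G (norm0 β)
  have h4 : ∫ ω, FI n D (fun _ => 1) ω ∂(Qb c P) =
      (Qb c P).real {ω | DF (Defs372.box n) (0, 0) ω = D} := by
    rw [← integral_iD]
    refine integral_congr_ae (Filter.Eventually.of_forall fun ω => ?_)
    simp only [FI]
    rw [iD_eq]
  have h5 : ∫ ω, (if DF (Defs372.box n) (0, 0) ω = D then G (norm0 ω) else 0) ∂(Qb c P) =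
      ∫ ω, FI n D G ω ∂(Qb c P) := rfl
  rw [h5, h1, ← h4, h2, E_eq_div]
  simp only [mul_one]
  have hZ := (Z_pos hc D).ne'
  rw [← mul_div_assoc, eq_div_iff hZ]
  exact h3

end Crest.Agent.R161.Mkv760
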