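import Crest.Agent.R161.Rep_760

/-!
# Row 161: Markov property of the plane state at the explored domains (helper760)

`qmarkov_Qb : 1 ≤ c → IsPlane c P → QMarkov c (Qb c P)`.
-/

set_option autoImplicit false

noncomputable section

namespace Crest.Agent.R161.Mkv760

open MeasureTheory
open Crest.Agent.R161.Geo729 Crest.Agent.R161.Defs372 Crest.Agent.R161.Dmp341
open Crest.Agent.R150.Hgt989 (Conf relH Ice dx dy relH_succ_snd relH_succ_fst relH_zero relH_congr)
open Crest.Agent.R150.Pls989 (IsPlane)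
open Crest.Agent.R161.ExInv792 (KH khmap hts measurable_khmap measurable_hts)
open Crest.Agent.R161.SwT597 (Stp cf NC ind)
open Crest.Agent.R161.Qb760 Crest.Agent.R161.Box760 Crest.Agent.R161.Exp760
open Crest.Agent.R161.Iso760

/-- the finite window -/
abbrev FF (n : ℕ) : Finset P2 := Defs372.box (n + 1)

/-- configuration of the plane from arrows and cut set -/
def om (w : Conf) (T : Finset Edge) : Cfg := Qb760.mk (khmap w) T

section

variable (c : ℝ) (n : ℕ) (D : Finset P2) (v0 : P2)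

/-- replace the inside of `D` by `β` -/
def nw (X : Conf × Finset Edge) (β : Cfg) : Cfg := glue D ((om X.1 X.2).1 v0) (om X.1 X.2) β

open Classical in
/-- the new pair -/
def Ψ (X : Conf × Finset Edge) (β : Cfg) : Conf × Finset Edge :=
  (rp (RW n) (cf (H6 (hts (nw D v0 X β)))), (SS n).filter fun e => (nw D v0 X β).2.2 e = true)

/-- inside configuration -/
def inn (X : Conf × Finset Edge) : Cfg := ins D ((om X.1 X.2).1 v0) (om X.1 X.2)

/-- good pairs -/
structure Gd (X : Conf × Finset Edge) : Prop where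
  rep : X.1 ∈ Rp (RW n)
  sub : X.2 ⊆ SS n
  df : DF (Defs372.box n) (0, 0) (om X.1 X.2) = D
  wt : wt c (FF n) (om X.1 X.2) ≠ 0

/-- good inside configurations -/
structure GI (β : Cfg) : Prop where
  val : Valid D β
  wt : wt c D β ≠ 0

variable {c n D v0}

lemma Gd.ice {X : Conf × Finset Edge} (h : Gd c n D X) : Ice X.1 := (mem_Rp.1 h.rep).1

lemma Gd.cv {X : Conf × Finset Edge} (h : Gd c n D X) : CV (hts (om X.1 X.2)) := cv_khmap h.ice

lemma Gd.cut (h0 : ((0, 0) : P2) ∈ D) (hv0 : v0 ∈ bdV D) {X : Conf × Finset Edge}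
    (h : Gd c n D X) : CutAt D ((om X.1 X.2).1 v0) (om X.1 X.2) := by
  have hx : ((0, 0) : P2) ∉ RR (Defs372.box n) (om X.1 X.2) :=
    mem_DF_not_RR (x := (0, 0)) (by rw [h.df]; exact h0)
  have hK : ∀ e, Zp (om X.1 X.2) e → (om X.1 X.2).1 (src e) = (om X.1 X.2).1 (tgt e) := by
    intro e he
    have heT : e ∈ X.2 := by
      have h1 : zT X.2 e = true := he
      simpa [zT] using h1
    have h1 : ew c (om X.1 X.2) e ≠ 0 := fun h2 => h.wt (Finset.prod_eq_zero (h.sub heT) h2)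
    by_contra h2
    apply h1
    unfold ew
    have h3 : (om X.1 X.2).2.2 e = true := he
    simp [h3, h2]
  have := DF_cutAt (box_sc n) hx hK h.cv.ev (v := v0) (by rw [h.df]; exact hv0)
  rwa [h.df] at this

/-- window membership of six-vertex faces -/
lemma v6_mem {v : P2} (h : |v.1| ≤ n + 2) (h' : |v.2| ≤ n + 2) : v6 v ∈ bx (RW n) := by
  rw [mem_bx]
  unfold v6
  rw [abs_le] at h h'
  simp only [abs_le, RW]
  push_cast
  omega

lemma f6_mem {v : P2} (h : |v.1| ≤ n + 2) (h' : |v.2| ≤ n + 2) : f6 v ∈ bx (RW n) := by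
  rw [mem_bx]
  unfold f6
  rw [abs_le] at h h'
  simp only [abs_le, RW]
  push_cast
  omega

/-- heights of the new pair in the window -/
lemma hts_Ψ {X : Conf × Finset Edge} {β : Cfg} (hcv : CV (hts (nw D v0 X β))) {x : ℤ × ℤ}
    (hx : x ∈ bx (RW n)) :
    H6 (khmap (Ψ n D v0 X β).1) x = H6 (hts (nw D v0 X β)) x - (nw D v0 X β).1 (0, 0) := by
  have h1 : AgR (RW n) (Ψ n D v0 X β).1 (cf (H6 (hts (nw D v0 X β)))) :=
    (rp_spec (cv_of_stp hcv)).2
  have h2 := h1.relH hx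
  have h3 : H6 (khmap (Ψ n D v0 X β).1) x = relH (Ψ n D v0 X β).1 x.1 x.2 := by
    rw [H6_khmap]
  rw [h3, h2, relH_cf (stp_H6 hcv)]
  have h0 : H6 (hts (nw D v0 X β)) (0, 0) = (nw D v0 X β).1 (0, 0) := by
    have := H6_vert (hts (nw D v0 X β)) (0, 0)
    simpa [v6, hts] using this
  rw [h0]

lemma k_Ψ {X : Conf × Finset Edge} {β : Cfg} (hcv : CV (hts (nw D v0 X β))) {v : P2}
    (hv : v6 v ∈ bx (RW n)) :
    (khmap (Ψ n D v0 X β).1).1 v = (nw D v0 X β).1 v - (nw D v0 X β).1 (0, 0) := by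
  have := hts_Ψ hcv hv
  rw [H6_vert, H6_vert] at this
  exact this

lemma h_Ψ {X : Conf × Finset Edge} {β : Cfg} (hcv : CV (hts (nw D v0 X β))) {v : P2}
    (hv : f6 v ∈ bx (RW n)) :
    (khmap (Ψ n D v0 X β).1).2 v = (nw D v0 X β).2.1 v - (nw D v0 X β).1 (0, 0) := by
  have := hts_Ψ hcv hv
  rw [H6_face, H6_face] at this
  exact this

lemma z_Ψ {X : Conf × Finset Edge} {β : Cfg} {e : Edge} (he : e ∈ SS n) :
    (om (Ψ n D v0 X β).1 (Ψ n D v0 X β).2).2.2 e = (nw D v0 X β).2.2 e := by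
  classical
  show zT (Ψ n D v0 X β).2 e = _
  unfold zT Ψ
  simp only [Finset.mem_filter, he, true_and]
  cases (nw D v0 X β).2.2 e <;> simp

lemma z_Ψ' {X : Conf × Finset Edge} {β : Cfg} {e : Edge} (he : e ∉ SS n) :
    (om (Ψ n D v0 X β).1 (Ψ n D v0 X β).2).2.2 e = false := by
  classical
  show zT (Ψ n D v0 X β).2 e = _
  unfold zT Ψ
  simp [he]

/-- edges of the window only see sites of the window -/
lemma sites_SS {e : Edge} (he : e ∈ SS n) :
    v6 (src e) ∈ bx (RW n) ∧ v6 (tgt e) ∈ bx (RW n) ∧ f6 (fA e) ∈ bx (RW n) ∧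
      f6 (fB e) ∈ bx (RW n) := by
  have h := SS_bd he
  rw [abs_le, abs_le] at h
  obtain ⟨⟨a, b⟩, s⟩ := e
  simp only at h
  refine ⟨v6_mem ?_ ?_, v6_mem ?_ ?_, f6_mem ?_ ?_, f6_mem ?_ ?_⟩ <;> rw [abs_le] <;> cases s <;>
    simp only [src_mk, tgt_h, tgt_v, fA_mk, fB_h, fB_v] <;> omega

lemma wf_Ψ {X : Conf × Finset Edge} {β : Cfg} (hcv : CV (hts (nw D v0 X β))) {e : Edge}
    (he : e ∈ SS n) : wf c (khmap (Ψ n D v0 X β).1) e = wf c (hts (nw D v0 X β)) e := by
  obtain ⟨h1, h2, h3, h4⟩ := sites_SS he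
  unfold wf
  rw [k_Ψ hcv h1, k_Ψ hcv h2, h_Ψ hcv h3, h_Ψ hcv h4]
  simp only [sub_left_inj]
  rfl

lemma wt_Ψ {X : Conf × Finset Edge} {β : Cfg} (hcv : CV (hts (nw D v0 X β))) :
    wt c (FF n) (om (Ψ n D v0 X β).1 (Ψ n D v0 X β).2) = wt c (FF n) (nw D v0 X β) := by
  unfold wt
  refine Finset.prod_congr rfl fun e he => ?_
  obtain ⟨h1, h2, h3, h4⟩ := sites_SS he
  unfold ew
  rw [z_Ψ he]
  have e1 : (om (Ψ n D v0 X β).1 (Ψ n D v0 X β).2).1 = (khmap (Ψ n D v0 X β).1).1 := rfl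
  have e2 : (om (Ψ n D v0 X β).1 (Ψ n D v0 X β).2).2.1 = (khmap (Ψ n D v0 X β).1).2 := rfl
  rw [e1, e2, k_Ψ hcv h1, k_Ψ hcv h2, h_Ψ hcv h3, h_Ψ hcv h4]
  simp only [sub_left_inj]

lemma D_sub_FF (hDn : D ⊆ Defs372.box n) : D ⊆ FF n := hDn.trans (box_mono (Nat.le_succ n))

/-- inside sites of `D` are in the window -/
lemma D_site (hDn : D ⊆ Defs372.box n) {v : P2} (hv : v ∈ D) : v6 v ∈ bx (RW n) ∧ f6 v ∈ bx (RW n) := by
  have h := hDn hv
  rw [Box760.mem_box] at h
  constructor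
  · exact v6_mem (by rw [abs_le]; omega) (by rw [abs_le]; omega)
  · exact f6_mem (by rw [abs_le]; omega) (by rw [abs_le]; omega)

lemma intV_mem_D {v : P2} (hv : v ∈ intVerts D) : v ∈ D :=
  corner_mem_of_int hv (f := v) (by simp [Geo729.IsCorner])

/-- a boundary vertex of `D` is in the window -/
lemma bdV_site (hDn : D ⊆ Defs372.box n) {v : P2} (hv : v ∈ bdV D) : v6 v ∈ bx (RW n) := by
  obtain ⟨⟨f, hf, hc⟩, -⟩ := mem_bdV.1 hv
  have h := hDn hf
  rw [Box760.mem_box] at h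
  obtain ⟨a, b⟩ := f
  simp only at h
  rcases hc with rfl | rfl | rfl | rfl <;>
  · refine v6_mem ?_ ?_ <;> simp only [abs_le] <;> omega

set_option linter.unusedSectionVars false
variable (h0 : ((0, 0) : P2) ∈ D) (hDn : D ⊆ Defs372.box n) (hv0 : v0 ∈ bdV D)
include h0 hDn hv0

lemma cv_nw {X : Conf × Finset Edge} (hX : Gd c n D X) {β : Cfg} (hβ : GI c D β) :
    CV (hts (nw D v0 X β)) := by
  have := cv_glue hX.cv (hX.cut h0 hv0) hβ.val
  exact this

lemma wt_nw {X : Conf × Finset Edge} (hX : Gd c n D X) {β : Cfg} (hβ : GI c D β) :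
    wt c (FF n) (nw D v0 X β) = wtOut c (FF n) D (om X.1 X.2) * wt c D β :=
  wt_glue (D_sub_FF hDn) (hX.cut h0 hv0) hβ.val

lemma wt_om {X : Conf × Finset Edge} (hX : Gd c n D X) :
    wt c (FF n) (om X.1 X.2) = wtOut c (FF n) D (om X.1 X.2) * wt c D (inn D v0 X) := by
  have h1 := wt_glue (c := c) (D_sub_FF hDn) (hX.cut h0 hv0)
    (valid_ins' hX.cv (hX.cut h0 hv0))
  rw [glue_ins] at h1
  exact h1

lemma gi_inn {X : Conf × Finset Edge} (hX : Gd c n D X) : GI c D (inn D v0 X) where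
  val := valid_ins' hX.cv (hX.cut h0 hv0)
  wt := fun h => hX.wt (by rw [wt_om h0 hDn hv0 hX, h, mul_zero])

/-- the new pair is good -/
lemma gd_Ψ {X : Conf × Finset Edge} (hX : Gd c n D X) {β : Cfg} (hβ : GI c D β) :
    Gd c n D (Ψ n D v0 X β) where
  rep := rp_mem (cv_of_stp (cv_nw h0 hDn hv0 hX hβ))
  sub := by
    classical
    exact Finset.filter_subset _ _
  df := by
    have h1 := (DF_congr (B := Defs372.box n) (x := (0, 0)) (ω := om X.1 X.2)
      (ω' := om (Ψ n D v0 X β).1 (Ψ n D v0 X β).2) (box_sc n) h0 ?_).1 hX.df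
    · exact h1
    · intro e he
      by_cases heS : e ∈ SS n
      · rw [z_Ψ heS]
        simp only [nw, glue, he, if_false]
      · rw [z_Ψ' heS]
        show zT X.2 e = false
        have : e ∉ X.2 := fun h => heS (hX.sub h)
        simp [zT, this]
  wt := by
    rw [wt_Ψ (cv_nw h0 hDn hv0 hX hβ), wt_nw h0 hDn hv0 hX hβ]
    refine mul_ne_zero (fun h => hX.wt ?_) hβ.wt
    rw [wt_om h0 hDn hv0 hX, h, zero_mul]

/-- the inside of the new pair -/
lemma inn_Ψ {X : Conf × Finset Edge} (hX : Gd c n D X) {β : Cfg} (hβ : GI c D β) :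
    inn D v0 (Ψ n D v0 X β) = β := by
  have hcv := cv_nw h0 hDn hv0 hX hβ
  have hv0' : v0 ∉ intVerts D := (mem_bdV.1 hv0).2
  have hq : (om (Ψ n D v0 X β).1 (Ψ n D v0 X β).2).1 v0 =
      (om X.1 X.2).1 v0 - (nw D v0 X β).1 (0, 0) := by
    have h1 := k_Ψ (n := n) hcv (bdV_site hDn hv0)
    have h2 : (nw D v0 X β).1 v0 = (om X.1 X.2).1 v0 := by simp [nw, glue, hv0']
    rw [h2] at h1
    exact h1
  unfold inn
  rw [hq]
  refine Prod.ext ?_ (Prod.ext ?_ ?_)
  · funext v
    by_cases hv : v ∈ intVerts D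
    · simp only [ins, hv, if_true]
      have h1 := k_Ψ (n := n) hcv (D_site hDn (intV_mem_D hv)).1
      have h2 : (nw D v0 X β).1 v = β.1 v + (om X.1 X.2).1 v0 := by simp [nw, glue, hv]
      have h3 : (om (Ψ n D v0 X β).1 (Ψ n D v0 X β).2).1 v = (khmap (Ψ n D v0 X β).1).1 v := rfl
      rw [h3, h1, h2]
      ring
    · simp only [ins, hv, if_false]
      exact (hβ.val.zero v hv).symm
  · funext f
    by_cases hf : f ∈ D
    · simp only [ins, hf, if_true]
      have h1 := h_Ψ (n := n) hcv (D_site hDn hf).2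
      have h2 : (nw D v0 X β).2.1 f = β.2.1 f + (om X.1 X.2).1 v0 := by simp [nw, glue, hf]
      have h3 : (om (Ψ n D v0 X β).1 (Ψ n D v0 X β).2).2.1 f = (khmap (Ψ n D v0 X β).1).2 f := rfl
      rw [h3, h1, h2]
      ring
    · simp only [ins, hf, if_false]
      exact (hβ.val.off f hf).symm
  · funext e
    by_cases he : e ∈ intEdges D
    · simp only [ins, he, if_true]
      rw [z_Ψ (intEdges_mono (D_sub_FF hDn) he)]
      simp [nw, glue, he]
    · simp only [ins, he, if_false]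
      exact (hβ.val.cut e he).symm

/-- the map is an involution -/
lemma Ψ_Ψ {X : Conf × Finset Edge} (hX : Gd c n D X) {β : Cfg} (hβ : GI c D β) :
    Ψ n D v0 (Ψ n D v0 X β) (inn D v0 X) = X := by
  classical
  have hcv := cv_nw h0 hDn hv0 hX hβ
  have hX' := gd_Ψ h0 hDn hv0 hX hβ
  have hI := gi_inn h0 hDn hv0 hX
  have hcv2 := cv_nw h0 hDn hv0 hX' hI
  have hv0' : v0 ∉ intVerts D := (mem_bdV.1 hv0).2
  set a := (nw D v0 X β).1 (0, 0) with ha
  have hq : (om (Ψ n D v0 X β).1 (Ψ n D v0 X β).2).1 v0 = (om X.1 X.2).1 v0 - a := by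
    have h1 := k_Ψ (n := n) hcv (bdV_site hDn hv0)
    have h2 : (nw D v0 X β).1 v0 = (om X.1 X.2).1 v0 := by simp [nw, glue, hv0']
    rw [h2] at h1
    exact h1
  -- heights of the second configuration in the window
  have hH : ∀ x ∈ bx (RW n), H6 (hts (nw D v0 (Ψ n D v0 X β) (inn D v0 X))) x =
      H6 (khmap X.1) x - a := by
    intro x hx
    rcases cover x with ⟨v, rfl⟩ | ⟨f, rfl⟩
    · rw [H6_vert, H6_vert]
      show (nw D v0 (Ψ n D v0 X β) (inn D v0 X)).1 v = _
      by_cases hv : v ∈ intVerts D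
      · simp only [nw, glue, hv, if_true, hq, inn, ins]
        show (om X.1 X.2).1 v - _ + _ = _
        have : (om X.1 X.2).1 v = (khmap X.1).1 v := rfl
        rw [this]
        ring
      · simp only [nw, glue, hv, if_false]
        have h1 := k_Ψ (n := n) hcv hx
        have h2 : (nw D v0 X β).1 v = (om X.1 X.2).1 v := by simp [nw, glue, hv]
        rw [h2] at h1
        exact h1
    · rw [H6_face, H6_face]
      show (nw D v0 (Ψ n D v0 X β) (inn D v0 X)).2.1 f = _
      by_cases hf : f ∈ D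
      · simp only [nw, glue, hf, if_true, hq, inn, ins]
        show (om X.1 X.2).2.1 f - _ + _ = _
        have : (om X.1 X.2).2.1 f = (khmap X.1).2 f := rfl
        rw [this]
        ring
      · simp only [nw, glue, hf, if_false]
        have h1 := h_Ψ (n := n) hcv hx
        have h2 : (nw D v0 X β).2.1 f = (om X.1 X.2).2.1 f := by simp [nw, glue, hf]
        rw [h2] at h1
        exact h1
  have hoff1 : OffD D (khmap (Ψ n D v0 X β).1) (hts (nw D v0 (Ψ n D v0 X β) (inn D v0 X))) :=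
    ⟨fun v hv => by
      show (nw D v0 (Ψ n D v0 X β) (inn D v0 X)).1 v = _
      simp only [nw, glue, hv, if_false]; rfl,
     fun f hf => by
      show (nw D v0 (Ψ n D v0 X β) (inn D v0 X)).2.1 f = _
      simp only [nw, glue, hf, if_false]; rfl⟩
  have hoff2 : OffD D (khmap X.1) (hts (nw D v0 X β)) :=
    ⟨fun v hv => by
      show (nw D v0 X β).1 v = _
      simp only [nw, glue, hv, if_false]; rfl,
     fun f hf => by
      show (nw D v0 X β).2.1 f = _
      simp only [nw, glue, hf, if_false]; rfl⟩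
  have hag : AgR (RW n) (cf (H6 (hts (nw D v0 (Ψ n D v0 X β) (inn D v0 X))))) X.1 := by
    intro r hr
    have hcfX : X.1 = cf (H6 (khmap X.1)) := by rw [H6_khmap, cf_relH hX.ice]
    by_cases hin : -((RW n : ℕ) : ℤ) < r.1 ∧ -((RW n : ℕ) : ℤ) < r.2
    · rw [mem_bx, abs_le, abs_le] at hr
      have m1 : r ∈ bx (RW n) := by rw [mem_bx, abs_le, abs_le]; exact hr
      have m2 : (r.1, r.2 - 1) ∈ bx (RW n) := by
        rw [mem_bx, abs_le, abs_le]; simp only; omega
      have m3 : (r.1 - 1, r.2) ∈ bx (RW n) := by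
        rw [mem_bx, abs_le, abs_le]; simp only; omega
      conv_rhs => rw [hcfX]
      unfold cf
      rw [hH r m1, hH _ m2, hH _ m3]
      simp only [sub_sub_sub_cancel_right]
    · -- boundary of the window: nothing changes
      have hout : ∀ x : ℤ × ℤ, (x.1 ≤ -((RW n : ℕ) : ℤ) ∨ x.2 ≤ -((RW n : ℕ) : ℤ)) →
          x ∉ bx (RW n - 1) := by
        intro x hx h
        rw [mem_bx, abs_le, abs_le] at h
        have : ((RW n - 1 : ℕ) : ℤ) = (RW n : ℕ) - 1 := by simp only [RW]; omega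
        rw [this] at h
        omega
      have hr1 : r ∉ bx (RW n - 1) := hout r (by omega)
      have hr2 : (r.1, r.2 - 1) ∉ bx (RW n - 1) := hout _ (by simp only; omega)
      have hr3 : (r.1 - 1, r.2) ∉ bx (RW n - 1) := hout _ (by simp only; omega)
      have h1 : cf (H6 (hts (nw D v0 (Ψ n D v0 X β) (inn D v0 X)))) r =
          cf (H6 (khmap (Ψ n D v0 X β).1)) r := by
        unfold cf
        rw [hoff1.bx hDn hr1, hoff1.bx hDn hr2, hoff1.bx hDn hr3]
      have h2 : cf (H6 (khmap (Ψ n D v0 X β).1)) r = (Ψ n D v0 X β).1 r := by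
        rw [H6_khmap, cf_relH hX'.ice]
      have h3 : (Ψ n D v0 X β).1 r = cf (H6 (hts (nw D v0 X β))) r :=
        (rp_spec (cv_of_stp hcv)).2 r hr
      have h4 : cf (H6 (hts (nw D v0 X β))) r = cf (H6 (khmap X.1)) r := by
        unfold cf
        rw [hoff2.bx hDn hr1, hoff2.bx hDn hr2, hoff2.bx hDn hr3]
      rw [h1, h2, h3, h4, ← hcfX]
  refine Prod.ext ?_ ?_
  · show rp (RW n) (cf (H6 (hts (nw D v0 (Ψ n D v0 X β) (inn D v0 X))))) = X.1
    rw [rp_congr hag, (mem_Rp.1 hX.rep).2]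
  · show (SS n).filter (fun e => (nw D v0 (Ψ n D v0 X β) (inn D v0 X)).2.2 e = true) = X.2
    ext e
    rw [Finset.mem_filter]
    have hz : ∀ e ∈ SS n, (nw D v0 (Ψ n D v0 X β) (inn D v0 X)).2.2 e = (om X.1 X.2).2.2 e := by
      intro e he
      by_cases heD : e ∈ intEdges D
      · simp [nw, glue, heD, inn, ins]
      · simp only [nw, glue, heD, if_false]
        rw [z_Ψ he]
        simp [nw, glue, heD]
    constructor
    · rintro ⟨he, h1⟩
      rw [hz e he] at h1
      have h2 : zT X.2 e = true := h1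
      simpa [zT] using h2
    · intro he
      refine ⟨hX.sub he, ?_⟩
      rw [hz e (hX.sub he)]
      show zT X.2 e = true
      simp [zT, he]

end

end Crest.Agent.R161.Mkv760
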