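import Crest.Agent.R161.LcD_991

/-!
# Row 161: mod-4 observables in finite volume (helper991)

Main result `abs_E_sgn_le`: for `d` local on `box m` there is a constant `C` such that for every
`F ⊇ box (m+1)` and every height-shift invariant version of `d`
`|E c F (fun ω => sg4 ω * d (norm0 ω))| ≤ C * Pr c F {ω | ω.1 (0,0) = 0}`,
where `sg4 ω = ±1` according to `ω.1 (0,0) mod 4`.
-/

set_option autoImplicit false

noncomputable section

namespace Crest.Agent.R161.Mod991

open Finset Crest.Agent.R161.Geo729 Crest.Agent.R161.Defs372 Crest.Agent.R161.Ht132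
open Crest.Agent.R161.LcD991

/-! ### alternating sums of log-concave sequences -/

theorem alt_range {f : ℕ → ℝ} (h0 : ∀ n, 0 ≤ f n) (hf : Antitone f) (K : ℕ) :
    0 ≤ ∑ n ∈ Finset.range K, (-1 : ℝ) ^ n * f n ∧
      ∑ n ∈ Finset.range K, (-1 : ℝ) ^ n * f n ≤ f 0 := by
  induction K generalizing f with
  | zero => simpa using h0 0
  | succ K ih =>
    have h1 := ih (f := fun n => f (n + 1)) (fun n => h0 _) (fun a b hab => hf (by omega))
    rw [Finset.sum_range_succ']
    have h2 : ∑ n ∈ Finset.range K, (-1 : ℝ) ^ (n + 1) * f (n + 1) =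
        -∑ n ∈ Finset.range K, (-1 : ℝ) ^ n * f (n + 1) := by
      rw [← Finset.sum_neg_distrib]
      exact Finset.sum_congr rfl fun n _ => by ring
    have h3 : f (0 + 1) ≤ f 0 := hf (by omega)
    rw [h2]
    simp only [pow_zero, one_mul]
    constructor <;> linarith [h1.1, h1.2]

theorem sum_Icc_sym (F : ℤ → ℝ) (m : ℤ) (K : ℕ) :
    ∑ b ∈ Finset.Icc (m - K) (m + K), F b =
      ∑ n ∈ Finset.range (K + 1), F (m + n) + ∑ n ∈ Finset.range (K + 1), F (m - n) - F m := by
  induction K with
  | zero => simp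
  | succ K ih =>
    have e : Finset.Icc (m - ((K + 1 : ℕ) : ℤ)) (m + ((K + 1 : ℕ) : ℤ)) =
        insert (m - ((K + 1 : ℕ) : ℤ)) (insert (m + ((K + 1 : ℕ) : ℤ)) (Finset.Icc (m - K) (m + K))) := by
      ext x
      simp only [Finset.mem_insert, Finset.mem_Icc]
      push_cast
      omega
    rw [e, Finset.sum_insert, Finset.sum_insert, ih, Finset.sum_range_succ _ (K + 1),
      Finset.sum_range_succ _ (K + 1)]
    · ring
    · simp only [Finset.mem_Icc]; push_cast; omega
    · simp only [Finset.mem_insert, Finset.mem_Icc]; push_cast; omega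

/-- sign of the parity -/
def sg (b : ℤ) : ℝ := if Even b then 1 else -1

theorem sg_add_nat (m : ℤ) (n : ℕ) : sg (m + n) = sg m * (-1) ^ n := by
  induction n with
  | zero => simp
  | succ n ih =>
    have : sg (m + (n : ℤ) + 1) = -sg (m + n) := by
      unfold sg
      by_cases h : Even (m + (n : ℤ))
      · rw [if_pos h, if_neg (by rw [Int.even_add_one]; simpa using h)]
      · rw [if_neg h, if_pos (by rw [Int.even_add_one]; exact h)]; simp
    push_cast
    rw [← add_assoc, this, ih, pow_succ]
    ring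

theorem sg_sub_nat (m : ℤ) (n : ℕ) : sg (m - n) = sg m * (-1) ^ n := by
  have h := sg_add_nat (m - n) n
  have h2 : m - (n : ℤ) + n = m := by ring
  rw [h2] at h
  rw [h, mul_assoc, ← mul_pow]
  norm_num

theorem abs_sg (b : ℤ) : |sg b| = 1 := by
  unfold sg; split_ifs <;> simp

/-- alternating sums of a log-concave sequence with finite support are bounded by its maximum -/
theorem alt_lc {q : ℤ → ℝ} (h0 : ∀ b, 0 ≤ q b)
    (hlc : ∀ a b, a < b → q a * q b ≤ q (a + 1) * q (b - 1)) {N : ℕ}
    (hN : ∀ b, b ∉ Finset.Icc (-(N : ℤ)) N → q b = 0) {M : ℝ} (hM : ∀ b, q b ≤ M) :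
    |∑ b ∈ Finset.Icc (-(N : ℤ)) N, sg b * q b| ≤ M := by
  obtain ⟨m, hm, hmax⟩ := Finset.exists_max_image (Finset.Icc (-(N : ℤ)) N) q
    ⟨0, by simp⟩
  have hmax' : ∀ b, q b ≤ q m := by
    intro b
    by_cases hb : b ∈ Finset.Icc (-(N : ℤ)) N
    · exact hmax b hb
    · rw [hN b hb]; exact h0 m
  rcases (h0 m).eq_or_lt with hz | hpos
  · have : ∀ b, q b = 0 := fun b => le_antisymm (by rw [hz]; exact hmax' b) (h0 b)
    simp only [this, mul_zero, Finset.sum_const_zero, abs_zero]
    exact (h0 0).trans (hM 0)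
  · have hup : ∀ n : ℕ, q (m + ((n + 1 : ℕ) : ℤ)) ≤ q (m + n) := by
      intro n
      rcases Nat.eq_zero_or_pos n with rfl | hn
      · simpa using hmax' (m + 1)
      · have h1 := hlc m (m + ((n + 1 : ℕ) : ℤ)) (by push_cast; omega)
        have e : m + ((n + 1 : ℕ) : ℤ) - 1 = m + n := by push_cast; ring
        rw [e] at h1
        have h2 := hmax' (m + 1)
        by_contra h3
        push Not at h3
        have h4 := h0 (m + n)
        have h5 : q (m + 1) * q (m + n) ≤ q m * q (m + n) := mul_le_mul_of_nonneg_right h2 h4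
        have h6 : q m * q (m + n) < q m * q (m + ((n + 1 : ℕ) : ℤ)) :=
          mul_lt_mul_of_pos_left h3 hpos
        linarith
    have hdn : ∀ n : ℕ, q (m - ((n + 1 : ℕ) : ℤ)) ≤ q (m - n) := by
      intro n
      rcases Nat.eq_zero_or_pos n with rfl | hn
      · simpa using hmax' (m - 1)
      · have h1 := hlc (m - ((n + 1 : ℕ) : ℤ)) m (by push_cast; omega)
        have e : m - ((n + 1 : ℕ) : ℤ) + 1 = m - n := by push_cast; ring
        rw [e] at h1
        have h2 := hmax' (m - 1)
        by_contra h3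
        push Not at h3
        have h4 := h0 (m - n)
        have h5 : q (m - n) * q (m - 1) ≤ q (m - n) * q m := mul_le_mul_of_nonneg_left h2 h4
        have h6 : q (m - n) * q m < q (m - ((n + 1 : ℕ) : ℤ)) * q m :=
          mul_lt_mul_of_pos_right h3 hpos
        linarith
    have ha1 : Antitone fun n : ℕ => q (m + n) := antitone_nat_of_succ_le hup
    have ha2 : Antitone fun n : ℕ => q (m - n) := antitone_nat_of_succ_le hdn
    set K : ℕ := 2 * N with hK
    have hsub : Finset.Icc (-(N : ℤ)) N ⊆ Finset.Icc (m - K) (m + K) := by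
      intro b hb
      simp only [Finset.mem_Icc] at hb hm ⊢
      rw [hK]; push_cast; omega
    rw [Finset.sum_subset hsub fun b _ hb => by rw [hN b hb, mul_zero], sum_Icc_sym]
    have e1 : ∑ n ∈ Finset.range (K + 1), sg (m + n) * q (m + n) =
        sg m * ∑ n ∈ Finset.range (K + 1), (-1 : ℝ) ^ n * q (m + n) := by
      rw [Finset.mul_sum]
      exact Finset.sum_congr rfl fun n _ => by rw [sg_add_nat]; ring
    have e2 : ∑ n ∈ Finset.range (K + 1), sg (m - n) * q (m - n) =
        sg m * ∑ n ∈ Finset.range (K + 1), (-1 : ℝ) ^ n * q (m - n) := by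
      rw [Finset.mul_sum]
      exact Finset.sum_congr rfl fun n _ => by rw [sg_sub_nat]; ring
    rw [e1, e2, ← mul_add, ← mul_sub, abs_mul, abs_sg, one_mul]
    have r1 := alt_range (fun n => h0 (m + n)) ha1 (K + 1)
    have r2 := alt_range (fun n => h0 (m - n)) ha2 (K + 1)
    simp only [Nat.cast_zero, add_zero, sub_zero] at r1 r2
    have := hM m
    rw [abs_le]
    constructor <;> linarith [r1.1, r1.2, r2.1, r2.2]

/-! ### averaging over the cut variables -/

/-- weight of an open dual edge given the heights -/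
def aw (c : ℝ) (p : Pr2) (e : Edge) : ℝ :=
  if p.2 (fA e) = p.2 (fB e) then (if p.1 (src e) = p.1 (tgt e) then c - 1 else 1) else 0

/-- weight of a cut edge given the heights -/
def bw (p : Pr2) (e : Edge) : ℝ := if p.1 (src e) = p.1 (tgt e) then 1 else 0

theorem aw_add_bw {F : Finset P2} {p : Pr2} (hp : Valid2 F p) (c : ℝ) {e : Edge}
    (he : e ∈ intEdges F) : aw c p e + bw p e = w6 c p e := by
  unfold aw bw w6
  by_cases a : p.1 (src e) = p.1 (tgt e) <;> by_cases b : p.2 (fA e) = p.2 (fB e)
  · simp [a, b]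
  · simp [a, b]
  · simp [a, b]
  · rcases hp.ice he with h | h
    · exact absurd h a
    · exact absurd h b

theorem ew_zOf (c : ℝ) (p : Pr2) (T : Finset Edge) (e : Edge) :
    ew c (p.1, p.2, zOf T) e = if e ∈ T then aw c p e else bw p e := by
  unfold ew aw bw
  by_cases h : e ∈ T
  · have : zOf T e = false := zOf_false.2 h
    simp [this, h]
  · have : zOf T e = true := zOf_true.2 h
    simp [this, h]

/-- normalised average over the cut variables of the edges in `E0` -/
def avgW (c : ℝ) (E0 : Finset Edge) (p : Pr2) (G : (Edge → Bool) → ℝ) : ℝ :=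
  (∑ T ∈ E0.powerset, (∏ e ∈ E0, (if e ∈ T then aw c p e else bw p e)) * G (zOf T)) /
    ∏ e ∈ E0, w6 c p e

theorem sum_z_avg {c : ℝ} (hc : 1 ≤ c) {F : Finset P2} {p : Pr2} (hp : Valid2 F p)
    {E0 : Finset Edge} (hE : E0 ⊆ intEdges F) (G : (Edge → Bool) → ℝ)
    (hG : ∀ z z' : Edge → Bool, (∀ e ∈ E0, z e = z' e) → G z = G z') :
    ∑ T ∈ (intEdges F).powerset, wt c F (p.1, p.2, zOf T) * G (zOf T) =
      wt6 c F p * avgW c E0 p G := by
  classical
  set E1 : Finset Edge := intEdges F \ E0 with hE1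
  have hdisj : Disjoint E0 E1 := Finset.disjoint_sdiff
  have hunion : E0 ∪ E1 = intEdges F := Finset.union_sdiff_of_subset hE
  have hsplit : ∑ T ∈ (intEdges F).powerset, wt c F (p.1, p.2, zOf T) * G (zOf T) =
      ∑ q ∈ E0.powerset ×ˢ E1.powerset,
        ((∏ e ∈ E0, (if e ∈ q.1 then aw c p e else bw p e)) * G (zOf q.1)) *
          ∏ e ∈ E1, (if e ∈ q.2 then aw c p e else bw p e) := by
    refine Finset.sum_nbij' (fun T => (T ∩ E0, T ∩ E1)) (fun q => q.1 ∪ q.2) ?_ ?_ ?_ ?_ ?_
    · intro T hT
      simp only [Finset.mem_product, Finset.mem_powerset]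
      exact ⟨Finset.inter_subset_right, Finset.inter_subset_right⟩
    · rintro ⟨T0, T1⟩ h
      simp only [Finset.mem_product, Finset.mem_powerset] at h ⊢
      rw [← hunion]
      exact Finset.union_subset_union h.1 h.2
    · intro T hT
      rw [Finset.mem_powerset] at hT
      simp only
      rw [← Finset.inter_union_distrib_left, hunion, Finset.inter_eq_left.2 hT]
    · rintro ⟨T0, T1⟩ h
      simp only [Finset.mem_product, Finset.mem_powerset] at h
      refine Prod.ext ?_ ?_
      · ext e
        simp only [Finset.mem_inter, Finset.mem_union]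
        constructor
        · rintro ⟨h1 | h1, h2⟩
          · exact h1
          · exact absurd h2 (Finset.disjoint_right.1 hdisj (h.2 h1))
        · exact fun h1 => ⟨Or.inl h1, h.1 h1⟩
      · ext e
        simp only [Finset.mem_inter, Finset.mem_union]
        constructor
        · rintro ⟨h1 | h1, h2⟩
          · exact absurd h2 (Finset.disjoint_left.1 hdisj (h.1 h1))
          · exact h1
        · exact fun h1 => ⟨Or.inr h1, h.2 h1⟩
    · intro T hT
      simp only
      have h1 : wt c F (p.1, p.2, zOf T) =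
          (∏ e ∈ E0, (if e ∈ T ∩ E0 then aw c p e else bw p e)) *
            ∏ e ∈ E1, (if e ∈ T ∩ E1 then aw c p e else bw p e) := by
        unfold wt
        rw [← hunion, Finset.prod_union hdisj]
        congr 1
        · refine Finset.prod_congr rfl fun e he => ?_
          rw [ew_zOf]
          simp [he]
        · refine Finset.prod_congr rfl fun e he => ?_
          rw [ew_zOf]
          simp [he]
      have h2 : G (zOf T) = G (zOf (T ∩ E0)) := by
        refine hG _ _ fun e he => ?_
        unfold zOf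
        simp [he]
      rw [h1, h2]
      ring
  rw [hsplit, Finset.sum_product]
  simp only
  have h3 : ∑ T1 ∈ E1.powerset, ∏ e ∈ E1, (if e ∈ T1 then aw c p e else bw p e) =
      ∏ e ∈ E1, w6 c p e := by
    have h4 : ∀ e ∈ E1, w6 c p e = aw c p e + bw p e := fun e he =>
      (aw_add_bw hp c (Finset.mem_sdiff.1 he).1).symm
    rw [Finset.prod_congr rfl h4, Finset.prod_add]
    refine Finset.sum_congr rfl fun T hT => ?_
    rw [Finset.mem_powerset] at hT
    rw [← Finset.prod_sdiff hT, mul_comm]
    congr 1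
    · exact Finset.prod_congr rfl fun e he => by rw [if_pos he]
    · exact Finset.prod_congr rfl fun e he => by rw [if_neg (Finset.mem_sdiff.1 he).2]
  have h5 : ∀ T0 ∈ E0.powerset, ∑ T1 ∈ E1.powerset,
      ((∏ e ∈ E0, (if e ∈ T0 then aw c p e else bw p e)) * G (zOf T0)) *
          ∏ e ∈ E1, (if e ∈ T1 then aw c p e else bw p e) =
      ((∏ e ∈ E0, (if e ∈ T0 then aw c p e else bw p e)) * G (zOf T0)) *
        ∏ e ∈ E1, w6 c p e := fun T0 _ => by rw [← Finset.mul_sum, h3]
  rw [Finset.sum_congr rfl h5, ← Finset.sum_mul]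
  unfold avgW wt6
  have h6 : (∏ e ∈ E0, w6 c p e) ≠ 0 :=
    (Finset.prod_pos fun e _ => w6_pos (lt_of_lt_of_le one_pos hc) p e).ne'
  have h7 : ∏ e ∈ intEdges F, w6 c p e = (∏ e ∈ E0, w6 c p e) * ∏ e ∈ E1, w6 c p e := by
    rw [← hunion, Finset.prod_union hdisj]
  rw [h7]
  field_simp

end Crest.Agent.R161.Mod991
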