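import Crest.Agent.R161.Mod4_991

/-!
# Row 161: mod-4 observables in finite volume, patterns (helper991)

`abs_E_sg4_le`: for `d` local on `box m` there is a constant `C` with
`|E c F (fun ω => sg4 ω * d (norm0 ω))| ≤ C * Pr c F {ω | ω.1 (0,0) = 0}` for all `F ⊇ box (m+1)`.
-/

set_option autoImplicit false

noncomputable section

namespace Crest.Agent.R161.Mod991

open Finset hiding box
open Crest.Agent.R161.Geo729 Crest.Agent.R161.Defs372 Crest.Agent.R161.Ht132
open Crest.Agent.R161.LcD991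

/-! ### geometry -/

theorem mem_box {n : ℕ} {v : P2} :
    v ∈ box n ↔ (-(n : ℤ) ≤ v.1 ∧ v.1 ≤ n - 1) ∧ (-(n : ℤ) ≤ v.2 ∧ v.2 ≤ n - 1) := by
  unfold box
  rw [Finset.mem_product, Finset.mem_Icc, Finset.mem_Icc]

/-- edges with lower-left site in `box m` -/
def E0 (m : ℕ) : Finset Edge := box m ×ˢ Finset.univ

theorem mem_E0 {m : ℕ} {e : Edge} : e ∈ E0 m ↔ e.1 ∈ box m := by
  simp [E0]

theorem E0_sites {m : ℕ} {e : Edge} (he : e ∈ E0 m) :
    src e ∈ box (m + 1) ∧ tgt e ∈ box (m + 1) ∧ fA e ∈ box (m + 1) ∧ fB e ∈ box (m + 1) := by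
  rw [mem_E0, mem_box] at he
  obtain ⟨⟨a, b⟩, t⟩ := e
  simp only at he
  cases t
  · simp only [mem_box, src_mk, tgt_h, fA_mk, fB_h]; push_cast; omega
  · simp only [mem_box, src_mk, tgt_v, fA_mk, fB_v]; push_cast; omega

theorem E0_sub {m : ℕ} {F : Finset P2} (hF : box (m + 1) ⊆ F) : E0 m ⊆ intEdges F := by
  intro e he
  obtain ⟨_, _, h3, h4⟩ := E0_sites he
  exact mem_intEdges.2 ⟨hF h3, hF h4⟩

/-- the sites of `box n` -/
def Is (n : ℕ) : Finset Site := (box n).disjSum (box n)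

theorem inl_mem_Is {n : ℕ} {v : P2} : (Sum.inl v : Site) ∈ Is n ↔ v ∈ box n := by
  simp [Is]

theorem inr_mem_Is {n : ℕ} {v : P2} : (Sum.inr v : Site) ∈ Is n ↔ v ∈ box n := by
  simp [Is]

theorem step_corner {F : Finset P2} {p : Pr2} (hp : Valid2 F p) {g v w : P2} (hg : g ∈ F)
    (hv : Geo729.IsCorner v g) (hw : Geo729.IsCorner w g) : |p.1 v - p.1 w| ≤ 2 := by
  have h1 := hp.corner g hg v hv
  have h2 := hp.corner g hg w hw
  rw [abs_le]
  rcases abs_eq (by norm_num : (0 : ℤ) ≤ 1) |>.1 h1 with h1 | h1 <;>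
  rcases abs_eq (by norm_num : (0 : ℤ) ≤ 1) |>.1 h2 with h2 | h2 <;>
  constructor <;> linarith

theorem lip_vert {F : Finset P2} {p : Pr2} (hp : Valid2 F p) {N : ℕ} (hF : box N ⊆ F) (n : ℕ) :
    ∀ v : P2, v ∈ box N → v.1.natAbs + v.2.natAbs = n → |p.1 v - p.1 (0, 0)| ≤ 2 * n := by
  induction n with
  | zero =>
    rintro ⟨a, b⟩ _ h
    have ha : a = 0 := by simp only at h; omega
    have hb : b = 0 := by simp only at h; omega
    subst ha hb
    simp
  | succ n ih =>
    rintro ⟨a, b⟩ hv h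
    simp only at h
    rw [mem_box] at hv
    simp only at hv
    -- choose the previous point
    have key : ∃ w g : P2, w ∈ box N ∧ w.1.natAbs + w.2.natAbs = n ∧ g ∈ box N ∧
        Geo729.IsCorner (a, b) g ∧ Geo729.IsCorner w g := by
      rcases lt_trichotomy a 0 with ha | ha | ha
      · refine ⟨(a + 1, b), (a, b), ?_, ?_, ?_, Or.inl rfl, Or.inr (Or.inl rfl)⟩
        · rw [mem_box]; simp only; omega
        · simp only; omega
        · rw [mem_box]; simp only; omega
      · rcases lt_trichotomy b 0 with hb | hb | hb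
        · refine ⟨(a, b + 1), (a, b), ?_, ?_, ?_, Or.inl rfl, Or.inr (Or.inr (Or.inl rfl))⟩
          · rw [mem_box]; simp only; omega
          · simp only; omega
          · rw [mem_box]; simp only; omega
        · omega
        · refine ⟨(a, b - 1), (a, b - 1), ?_, ?_, ?_, ?_, Or.inl rfl⟩
          · rw [mem_box]; simp only; omega
          · simp only; omega
          · rw [mem_box]; simp only; omega
          · refine Or.inr (Or.inr (Or.inl ?_)); simp
      · refine ⟨(a - 1, b), (a - 1, b), ?_, ?_, ?_, ?_, Or.inl rfl⟩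
        · rw [mem_box]; simp only; omega
        · simp only; omega
        · rw [mem_box]; simp only; omega
        · refine Or.inr (Or.inl ?_); simp
    obtain ⟨w, g, hw, hwn, hg, hc1, hc2⟩ := key
    have h1 := ih w hw hwn
    have h2 := step_corner hp (hF hg) hc1 hc2
    have h3 : p.1 (a, b) - p.1 (0, 0) = (p.1 (a, b) - p.1 w) + (p.1 w - p.1 (0, 0)) := by ring
    rw [h3]
    refine (abs_add_le _ _).trans ?_
    push_cast
    linarith

/-- bound for the gradients in `box N` -/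
theorem lip_site {F : Finset P2} {p : Pr2} (hp : Valid2 F p) {N : ℕ} (hF : box N ⊆ F) {x : Site}
    (hx : x ∈ Is N) : |toH p x - p.1 (0, 0)| ≤ 4 * N + 1 := by
  have key : ∀ v : P2, v ∈ box N → |p.1 v - p.1 (0, 0)| ≤ 4 * N := by
    intro v hv
    have h1 := lip_vert hp hF _ v hv rfl
    rw [mem_box] at hv
    have h2 : ((v.1.natAbs + v.2.natAbs : ℕ) : ℤ) ≤ 2 * N := by omega
    linarith
  rcases x with v | f
  · rw [inl_mem_Is] at hx
    rw [toH_inl]
    linarith [key v hx]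
  · rw [inr_mem_Is] at hx
    rw [toH_inr]
    have h1 := key f hx
    have h2 := hp.corner f (hF hx) f (Or.inl rfl)
    have h3 : p.2 f - p.1 (0, 0) = -(p.1 f - p.2 f) + (p.1 f - p.1 (0, 0)) := by ring
    rw [h3]
    refine (abs_add_le _ _).trans ?_
    rw [abs_neg, h2]
    linarith

/-! ### patterns -/

open Classical in
/-- normalised pattern on the sites of `box N` -/
def pat (N : ℕ) (p : Pr2) : Site → ℤ := fun x => if x ∈ Is N then toH p x - p.1 (0, 0) else 0

open Classical in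
/-- extension by zero -/
def extP (N : ℕ) (g : {x // x ∈ Is N} → ℤ) : Site → ℤ := fun x => if h : x ∈ Is N then g ⟨x, h⟩ else 0

open Classical in
/-- a finite set containing all patterns -/
def PatF (N : ℕ) : Finset (Site → ℤ) :=
  (Fintype.piFinset fun _ : {x // x ∈ Is N} => Finset.Icc (-(4 * (N : ℤ) + 1)) (4 * N + 1)).image
    (extP N)

theorem pat_mem {F : Finset P2} {p : Pr2} (hp : Valid2 F p) {N : ℕ} (hF : box N ⊆ F) :
    pat N p ∈ PatF N := by
  classical
  unfold PatF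
  rw [Finset.mem_image]
  refine ⟨fun x => toH p x.1 - p.1 (0, 0), ?_, ?_⟩
  · rw [Fintype.mem_piFinset]
    intro x
    rw [Finset.mem_Icc]
    exact abs_le.1 (lip_site hp hF x.2)
  · funext x
    unfold extP pat
    by_cases h : x ∈ Is N <;> simp [h]

theorem PatF_off {N : ℕ} {π : Site → ℤ} (h : π ∈ PatF N) {x : Site} (hx : x ∉ Is N) : π x = 0 := by
  classical
  unfold PatF at h
  rw [Finset.mem_image] at h
  obtain ⟨g, _, rfl⟩ := h
  unfold extP
  simp [hx]

open Classical in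
theorem sum_pat_fiber {c : ℝ} {F : Finset P2} {N : ℕ} (hN : 0 < N) {π : Site → ℤ}
    (hπ : π ∈ PatF N) (hπ0 : π (Sum.inl (0, 0)) = 0) :
    ∑ p ∈ (conf2 F).filter (fun p => pat N p = π), wt6 c F p * sg (p.1 (0, 0) / 2) =
      ∑ b ∈ Finset.Icc (-((hb F).toNat : ℤ)) (hb F).toNat, sg b * Zp c F (Is N) π b := by
  classical
  have h0 : (0, 0) ∈ box N := by rw [mem_box]; simp only; omega
  have h0' : (Sum.inl (0, 0) : Site) ∈ Is N := inl_mem_Is.2 h0
  have hhb : (0 : ℤ) ≤ hb F := by unfold hb; positivity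
  have e1 : ∀ b : ℤ, ∀ p : Pr2, (pat N p = π ∧ p.1 (0, 0) = 2 * b) ↔
      (∀ x ∈ Is N, toH p x = π x + 2 * b) := by
    intro b p
    constructor
    · rintro ⟨rfl, h2⟩ x hx
      unfold pat
      rw [if_pos hx, h2]
      ring
    · intro h
      have h2 : p.1 (0, 0) = 2 * b := by
        have := h _ h0'
        rw [hπ0, toH_inl] at this
        linarith
      refine ⟨?_, h2⟩
      funext x
      unfold pat
      by_cases hx : x ∈ Is N
      · rw [if_pos hx, h x hx, h2]; ring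
      · rw [if_neg hx, PatF_off hπ hx]
  have e2 : ∀ b : ℤ, sg b * Zp c F (Is N) π b =
      ∑ p ∈ (conf2 F).filter (fun p => pat N p = π),
        (if p.1 (0, 0) = 2 * b then wt6 c F p * sg (p.1 (0, 0) / 2) else 0) := by
    intro b
    rw [← Finset.sum_filter, Finset.filter_filter, Zp_eq, Finset.mul_sum]
    refine Finset.sum_congr ?_ fun p hp => ?_
    · ext p
      simp only [Finset.mem_filter, e1]
    · rw [Finset.mem_filter] at hp
      rw [hp.2.2, mul_comm]
      congr 2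
      omega
  rw [Finset.sum_congr rfl fun b _ => e2 b, Finset.sum_comm]
  refine Finset.sum_congr rfl fun p hp => ?_
  have hp' := mem_conf2.1 (Finset.mem_filter.1 hp).1
  obtain ⟨r, hr⟩ := hp'.even (0, 0)
  have h3 := (valid_mk hp' (Finset.empty_subset _)).abs_vert (0, 0)
  simp only at h3
  rw [Finset.sum_eq_single r]
  · rw [if_pos (by omega)]
  · intro b _ hbr
    rw [if_neg]
    intro h4
    apply hbr
    omega
  · intro h4
    exfalso
    apply h4
    rw [Finset.mem_Icc]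
    rw [abs_le] at h3
    omega

open Classical in
theorem abs_sum_pat_le {c : ℝ} (hc : 1 ≤ c) {F : Finset P2} {N : ℕ} (hN : 0 < N)
    {π : Site → ℤ} (hπ : π ∈ PatF N) :
    |∑ p ∈ (conf2 F).filter (fun p => pat N p = π), wt6 c F p * sg (p.1 (0, 0) / 2)| ≤
      Z6 c F * Pr c F {ω | ω.1 (0, 0) = 0} := by
  classical
  have h0 : (0, 0) ∈ box N := by rw [mem_box]; simp only; omega
  have h0' : (Sum.inl (0, 0) : Site) ∈ Is N := inl_mem_Is.2 h0
  by_cases hπ0 : π (Sum.inl (0, 0)) = 0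
  · rw [sum_pat_fiber hN hπ hπ0]
    refine alt_lc (fun b => Zp_nonneg hc F _ _ b) (fun a b hab => Zp_lc hc F _ _ hab) ?_
      fun b => Zp_le hc F (0, 0) h0' hπ0 b
    intro b hb'
    rw [Zp_eq, Finset.filter_false_of_mem, Finset.sum_empty]
    intro p hp hpx
    apply hb'
    have h1 := hpx _ h0'
    rw [hπ0, toH_inl] at h1
    have h2 := (valid_mk (mem_conf2.1 hp) (Finset.empty_subset _)).abs_vert (0, 0)
    simp only at h2
    rw [abs_le] at h2
    rw [Finset.mem_Icc]
    have hhb : (0 : ℤ) ≤ hb F := by unfold hb; positivity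
    omega
  · rw [Finset.filter_false_of_mem, Finset.sum_empty, abs_zero]
    · refine mul_nonneg (Z6_pos hc F).le ?_
      have := (slc_site hc F (0, 0)).nonneg 0
      simpa using this
    · rintro p _ rfl
      apply hπ0
      unfold pat
      rw [if_pos h0', toH_inl, sub_self]

/-! ### the conditional average as a function of the pattern -/

/-- the average over the cut variables, as a function of the pattern -/
def Dpat (c : ℝ) (m : ℕ) (d : Cfg → ℝ) (π : Site → ℤ) : ℝ :=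
  avgW c (E0 m) (ofH π) (fun z => d ((ofH π).1, (ofH π).2, z))

theorem avgW_congr {c : ℝ} {E : Finset Edge} {p p' : Pr2} {G G' : (Edge → Bool) → ℝ}
    (ha : ∀ e ∈ E, aw c p e = aw c p' e) (hb' : ∀ e ∈ E, bw p e = bw p' e)
    (hw : ∀ e ∈ E, w6 c p e = w6 c p' e) (hG : ∀ z, G z = G' z) :
    avgW c E p G = avgW c E p' G' := by
  unfold avgW
  rw [Finset.prod_congr rfl hw]
  congr 1
  refine Finset.sum_congr rfl fun T _ => ?_
  rw [hG]
  congr 1
  refine Finset.prod_congr rfl fun e he => ?_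
  rw [ha e he, hb' e he]

theorem pat_vert {N : ℕ} (p : Pr2) {v : P2} (hv : v ∈ box N) :
    (ofH (pat N p)).1 v = p.1 v - p.1 (0, 0) := by
  unfold ofH pat
  simp only
  rw [if_pos (inl_mem_Is.2 hv), toH_inl]

theorem pat_face {N : ℕ} (p : Pr2) {f : P2} (hf : f ∈ box N) :
    (ofH (pat N p)).2 f = p.2 f - p.1 (0, 0) := by
  unfold ofH pat
  simp only
  rw [if_pos (inr_mem_Is.2 hf), toH_inr]

theorem box_succ {m : ℕ} {v : P2} (hv : v ∈ box m) : v ∈ box (m + 1) := by
  rw [mem_box] at hv ⊢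
  push_cast
  omega

theorem d_pat {m : ℕ} (p : Pr2) {d : Cfg → ℝ} (hd : Loc (box m : Set P2) d) (z : Edge → Bool) :
    d (norm0 (p.1, p.2, z)) = d ((ofH (pat (m + 1) p)).1, (ofH (pat (m + 1) p)).2, z) := by
  refine hd _ _ fun v hv' => ⟨?_, ?_, fun b => rfl⟩
  · exact (sub_eq_add_neg (p.1 v) (p.1 (0, 0))).symm.trans (pat_vert p (box_succ hv')).symm
  · exact (sub_eq_add_neg (p.2 v) (p.1 (0, 0))).symm.trans (pat_face p (box_succ hv')).symm

theorem avgW_pat {c : ℝ} {m : ℕ} (p : Pr2) {d : Cfg → ℝ} (hd : Loc (box m : Set P2) d) :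
    avgW c (E0 m) p (fun z => d (norm0 (p.1, p.2, z))) = Dpat c m d (pat (m + 1) p) := by
  unfold Dpat
  refine avgW_congr ?_ ?_ ?_ fun z => d_pat p hd z
  · intro e he
    obtain ⟨h1, h2, h3, h4⟩ := E0_sites he
    unfold aw
    rw [pat_vert p h1, pat_vert p h2, pat_face p h3, pat_face p h4]
    simp only [sub_left_inj]
  · intro e he
    obtain ⟨h1, h2, h3, h4⟩ := E0_sites he
    unfold bw
    rw [pat_vert p h1, pat_vert p h2]
    simp only [sub_left_inj]
  · intro e he
    obtain ⟨h1, h2, h3, h4⟩ := E0_sites he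
    unfold w6
    rw [pat_vert p h1, pat_vert p h2, pat_face p h3, pat_face p h4]
    simp only [sub_left_inj]

/-- sign of the base height mod 4 -/
def sg4 (ω : Cfg) : ℝ := if (4 : ℤ) ∣ ω.1 (0, 0) then 1 else -1

theorem sg4_eq {ω : Cfg} (h : Even (ω.1 (0, 0))) : sg4 ω = sg (ω.1 (0, 0) / 2) := by
  obtain ⟨r, hr⟩ := h
  unfold sg4 sg
  have e : ω.1 (0, 0) / 2 = r := by omega
  rw [e]
  by_cases h : Even r
  · rw [if_pos h, if_pos]
    obtain ⟨s, hs⟩ := h
    exact ⟨s, by omega⟩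
  · rw [if_neg h, if_neg]
    rintro ⟨s, hs⟩
    apply h
    exact ⟨s, by omega⟩

/-- **Main finite-volume estimate.** -/
theorem abs_E_sg4_le {c : ℝ} (hc : 1 ≤ c) {m : ℕ} {d : Cfg → ℝ} (hd : Loc (box m : Set P2) d)
    {F : Finset P2} (hF : box (m + 1) ⊆ F) :
    |E c F (fun ω => sg4 ω * d (norm0 ω))| ≤
      (∑ π ∈ PatF (m + 1), |Dpat c m d π|) * Pr c F {ω | ω.1 (0, 0) = 0} := by
  classical
  have hZ := Z6_pos hc F
  have e1 : E c F (fun ω => sg4 ω * d (norm0 ω)) =
      (∑ p ∈ conf2 F, wt6 c F p * sg (p.1 (0, 0) / 2) * Dpat c m d (pat (m + 1) p)) / Z6 c F := by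
    rw [E_eq_div, sum_conf, Z_eq]
    congr 1
    refine Finset.sum_congr rfl fun p hp => ?_
    have hp' := mem_conf2.1 hp
    have h1 := sum_z_avg hc hp' (E0_sub hF) (fun z => d (norm0 (p.1, p.2, z))) (by
      intro z z' hz
      refine hd _ _ fun v hv => ⟨rfl, rfl, fun b => ?_⟩
      exact hz (v, b) (mem_E0.2 hv))
    rw [avgW_pat p hd] at h1
    have h2 : ∀ T ∈ (intEdges F).powerset,
        wt c F (p.1, p.2, zOf T) * (sg4 (p.1, p.2, zOf T) * d (norm0 (p.1, p.2, zOf T))) =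
        sg (p.1 (0, 0) / 2) * (wt c F (p.1, p.2, zOf T) * d (norm0 (p.1, p.2, zOf T))) := by
      intro T _
      rw [sg4_eq (hp'.even (0, 0))]
      ring
    rw [Finset.sum_congr rfl h2, ← Finset.mul_sum, h1]
    ring
  have e2 : ∑ p ∈ conf2 F, wt6 c F p * sg (p.1 (0, 0) / 2) * Dpat c m d (pat (m + 1) p) =
      ∑ π ∈ PatF (m + 1), Dpat c m d π *
        ∑ p ∈ (conf2 F).filter (fun p => pat (m + 1) p = π), wt6 c F p * sg (p.1 (0, 0) / 2) := by
    rw [← Finset.sum_fiberwise_of_maps_to (g := pat (m + 1)) (t := PatF (m + 1))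
      fun p hp => pat_mem (mem_conf2.1 hp) hF]
    refine Finset.sum_congr rfl fun π _ => ?_
    rw [Finset.mul_sum]
    refine Finset.sum_congr rfl fun p hp => ?_
    rw [(Finset.mem_filter.1 hp).2]
    ring
  rw [e1, e2, abs_div, abs_of_pos hZ, div_le_iff₀ hZ, Finset.sum_mul, Finset.sum_mul]
  refine (Finset.abs_sum_le_sum_abs _ _).trans (Finset.sum_le_sum fun π hπ => ?_)
  rw [abs_mul]
  have h3 := abs_sum_pat_le hc (F := F) (Nat.succ_pos m) hπ
  calc |Dpat c m d π| * _ ≤ |Dpat c m d π| * (Z6 c F * Pr c F {ω | ω.1 (0, 0) = 0}) :=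
        mul_le_mul_of_nonneg_left h3 (abs_nonneg _)
    _ = _ := by ring

end Crest.Agent.R161.Mod991
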