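import Mathlib

/-!
Row 161, moment method (abstract part): convergence of all moments to the moments of a centred
Gaussian implies convergence of the characteristic function.  Everything is stated for a family
of positive normalised functionals given by finite weights.
-/

set_option autoImplicit false

namespace Crest.Agent.R161.MomA729

open Filter Topology Finset

/-- Taylor remainder bound `|e^{ix} - Σ_{k<n} (ix)^k/k!| ≤ |x|^n/n!`. -/
theorem taylor_exp_I (n : ℕ) : ∀ x : ℝ,
    ‖Complex.exp (Complex.I * x) - ∑ k ∈ range n, (Complex.I * x) ^ k / (k.factorial : ℂ)‖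
      ≤ |x| ^ n / n.factorial := by
  induction n with
  | zero =>
    intro x
    have : ‖Complex.exp (Complex.I * x)‖ = 1 := by
      rw [mul_comm]; exact Complex.norm_exp_ofReal_mul_I x
    simp [this]
  | succ n ih =>
    -- reduce to `x ≥ 0` bound on both sides through the function `x ↦ f (s x)`
    have key : ∀ s : ℝ, |s| = 1 → ∀ x : ℝ, 0 ≤ x →
        ‖Complex.exp (Complex.I * (s * x : ℝ)) -
          ∑ k ∈ range (n + 1), (Complex.I * (s * x : ℝ)) ^ k / (k.factorial : ℂ)‖
          ≤ x ^ (n + 1) / (n + 1).factorial := by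
      intro s hs x hx
      let f : ℝ → ℂ := fun y => Complex.exp (Complex.I * (s * y : ℝ)) -
          ∑ k ∈ range (n + 1), (Complex.I * (s * y : ℝ)) ^ k / (k.factorial : ℂ)
      let f' : ℝ → ℂ := fun y => (Complex.I * s) * (Complex.exp (Complex.I * (s * y : ℝ)) -
          ∑ k ∈ range n, (Complex.I * (s * y : ℝ)) ^ k / (k.factorial : ℂ))
      have hlin : ∀ y : ℝ, HasDerivAt (fun y : ℝ => Complex.I * ((s * y : ℝ) : ℂ))
          (Complex.I * s) y := by
        intro y
        have h1 : HasDerivAt (fun y : ℝ => ((s * y : ℝ) : ℂ)) ((s : ℝ) : ℂ) y := by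
          have := (hasDerivAt_id y).const_mul s
          simpa using this.ofReal_comp
        exact h1.const_mul _
      have hderiv : ∀ y : ℝ, HasDerivAt f (f' y) y := by
        intro y
        have h1 : HasDerivAt (fun y : ℝ => Complex.exp (Complex.I * ((s * y : ℝ) : ℂ)))
            (Complex.exp (Complex.I * ((s * y : ℝ) : ℂ)) * (Complex.I * s)) y := (hlin y).cexp
        have h2 : HasDerivAt (fun y : ℝ => ∑ k ∈ range (n + 1),
            (Complex.I * (s * y : ℝ)) ^ k / (k.factorial : ℂ))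
            (∑ k ∈ range n, (Complex.I * (s * y : ℝ)) ^ k / (k.factorial : ℂ) * (Complex.I * s)) y := by
          have h3 : HasDerivAt (fun y : ℝ => ∑ k ∈ range (n + 1),
              (Complex.I * (s * y : ℝ)) ^ k / (k.factorial : ℂ))
              (∑ k ∈ range (n + 1), (k : ℂ) * (Complex.I * (s * y : ℝ)) ^ (k - 1) *
                (Complex.I * s) / (k.factorial : ℂ)) y := by
            apply HasDerivAt.fun_sum
            intro k _
            exact (((hlin y).pow k).div_const _)
          convert h3 using 1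
          rw [Finset.sum_range_succ']
          simp only [Nat.cast_zero, zero_mul, zero_div, add_zero]
          apply Finset.sum_congr rfl
          intro k _
          rw [Nat.factorial_succ]
          have hk : ((k + 1 : ℕ) : ℂ) ≠ 0 := by exact_mod_cast Nat.succ_ne_zero k
          have hk' : ((k.factorial : ℕ) : ℂ) ≠ 0 := by exact_mod_cast Nat.factorial_ne_zero k
          simp only [Nat.add_sub_cancel, Nat.cast_mul]
          field_simp
        have h4 := h1.sub h2
        have h5 : f' y = Complex.exp (Complex.I * ((s * y : ℝ) : ℂ)) * (Complex.I * s) -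
            ∑ k ∈ range n, (Complex.I * (s * y : ℝ)) ^ k / (k.factorial : ℂ) * (Complex.I * s) := by
          simp only [f']
          rw [← Finset.sum_mul]
          ring
        rw [h5]
        exact h4
      have hB : ∀ y : ℝ, HasDerivAt (fun y : ℝ => y ^ (n + 1) / ((n + 1).factorial : ℝ))
          (y ^ n / (n.factorial : ℝ)) y := by
        intro y
        have h := (hasDerivAt_pow (n + 1) y).div_const ((n + 1).factorial : ℝ)
        refine h.congr_deriv ?_
        rw [Nat.factorial_succ]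
        push_cast
        have hk : ((n : ℝ) + 1) ≠ 0 := by positivity
        have hk' : ((n.factorial : ℕ) : ℝ) ≠ 0 := by exact_mod_cast Nat.factorial_ne_zero n
        field_simp
      have hmain := image_norm_le_of_norm_deriv_right_le_deriv_boundary
        (f := f) (f' := f') (a := 0) (b := x)
        (B := fun y : ℝ => y ^ (n + 1) / ((n + 1).factorial : ℝ))
        (B' := fun y : ℝ => y ^ n / (n.factorial : ℝ))
        (fun y _ => (hderiv y).continuousAt.continuousWithinAt)
        (fun y _ => (hderiv y).hasDerivWithinAt)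
        (by
          simp only [f]
          rw [Finset.sum_range_succ']
          simp)
        (fun y => hB y)
        (by
          intro y hy
          simp only [f']
          rw [norm_mul, norm_mul, Complex.norm_I, Complex.norm_real, Real.norm_eq_abs, hs, one_mul,
            one_mul]
          refine (ih (s * y)).trans ?_
          rw [abs_mul, hs, one_mul, abs_of_nonneg hy.1])
      exact hmain (Set.right_mem_Icc.mpr hx)
    intro x
    rcases le_total 0 x with hx | hx
    · have := key 1 (by simp) x hx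
      simpa [abs_of_nonneg hx] using this
    · have := key (-1) (by simp) (-x) (by linarith)
      have h2 : ((-1 : ℝ) * -x) = x := by ring
      rw [h2] at this
      rwa [abs_of_nonpos hx]

/-- The moments of the centred Gaussian with variance `v`. -/
noncomputable def gm (v : ℝ) (n : ℕ) : ℝ :=
  if Even n then (n.factorial : ℝ) / (2 ^ (n / 2) * (n / 2).factorial) * v ^ (n / 2) else 0

theorem gm_zero (v : ℝ) : gm v 0 = 1 := by simp [gm]

theorem gm_odd (v : ℝ) {n : ℕ} (hn : ¬ Even n) : gm v n = 0 := by simp [gm, hn]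

theorem gm_two_mul (v : ℝ) (n : ℕ) :
    gm v (2 * n) = ((2 * n).factorial : ℝ) / (2 ^ n * n.factorial) * v ^ n := by
  have : Even (2 * n) := even_two_mul n
  simp [gm, this]

/-- Partial sums of the moment series are partial sums of `exp (-s²v/2)`. -/
theorem sum_gm (v s : ℝ) (n : ℕ) :
    ∑ k ∈ range (2 * n), (Complex.I * s) ^ k / (k.factorial : ℂ) * (gm v k : ℂ) =
      ∑ j ∈ range n, ((-(s ^ 2 * v / 2) : ℝ) : ℂ) ^ j / (j.factorial : ℂ) := by
  induction n with
  | zero => simp
  | succ n ih =>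
    rw [show 2 * (n + 1) = 2 * n + 1 + 1 by ring, Finset.sum_range_succ, Finset.sum_range_succ, ih,
      Finset.sum_range_succ (n := n)]
    have h1 : ¬ Even (2 * n + 1) := by simp
    rw [gm_odd v h1, gm_two_mul]
    simp only [Complex.ofReal_zero, mul_zero, add_zero]
    congr 1
    have hk' : ((n.factorial : ℕ) : ℂ) ≠ 0 := by exact_mod_cast Nat.factorial_ne_zero n
    have hk2 : (((2 * n).factorial : ℕ) : ℂ) ≠ 0 := by exact_mod_cast Nat.factorial_ne_zero (2 * n)
    have h2 : ((2 : ℂ) ^ n) ≠ 0 := pow_ne_zero _ two_ne_zero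
    have h3 : ((-(s ^ 2 * v / 2) : ℝ) : ℂ) ^ n = (Complex.I * s) ^ (2 * n) * (v : ℂ) ^ n / 2 ^ n := by
      rw [pow_mul, mul_pow, Complex.I_sq, ← mul_pow, ← div_pow]
      congr 1
      push_cast
      ring
    rw [h3]
    push_cast
    field_simp

theorem gm_even_bound (v s : ℝ) (n : ℕ) :
    |s| ^ (2 * n) / ((2 * n).factorial : ℝ) * gm v (2 * n) = (s ^ 2 * v / 2) ^ n / n.factorial := by
  rw [gm_two_mul]
  have hk' : ((n.factorial : ℕ) : ℝ) ≠ 0 := by exact_mod_cast Nat.factorial_ne_zero n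
  have hk2 : (((2 * n).factorial : ℕ) : ℝ) ≠ 0 := by exact_mod_cast Nat.factorial_ne_zero (2 * n)
  rw [pow_mul, sq_abs, div_pow, mul_pow]
  field_simp

variable {ι : Type*} {Ω : ι → Type*} [∀ i, Fintype (Ω i)]

/-- Characteristic function versus truncated moment series. -/
theorem charFun_sub_le {Ω : Type*} [Fintype Ω] (p : Ω → ℝ) (hp : ∀ ω, 0 ≤ p ω) (X : Ω → ℝ)
    (s : ℝ) (n : ℕ) :
    ‖∑ ω, (p ω : ℂ) * Complex.exp (Complex.I * (s * X ω : ℝ)) -
        ∑ k ∈ range (2 * n), (Complex.I * s) ^ k / (k.factorial : ℂ) * ((∑ ω, p ω * X ω ^ k : ℝ) : ℂ)‖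
      ≤ |s| ^ (2 * n) / ((2 * n).factorial : ℝ) * ∑ ω, p ω * X ω ^ (2 * n) := by
  have h1 : ∑ k ∈ range (2 * n), (Complex.I * s) ^ k / (k.factorial : ℂ) *
      ((∑ ω, p ω * X ω ^ k : ℝ) : ℂ) =
      ∑ ω, (p ω : ℂ) * ∑ k ∈ range (2 * n), (Complex.I * (s * X ω : ℝ)) ^ k / (k.factorial : ℂ) := by
    simp_rw [Finset.mul_sum]
    rw [Finset.sum_comm]
    apply Finset.sum_congr rfl
    intro k _
    push_cast
    rw [Finset.mul_sum]
    apply Finset.sum_congr rfl
    intro ω _
    ring
  rw [h1, ← Finset.sum_sub_distrib, Finset.mul_sum]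
  refine (norm_sum_le _ _).trans (Finset.sum_le_sum fun ω _ => ?_)
  rw [← mul_sub, norm_mul, Complex.norm_real, Real.norm_eq_abs, abs_of_nonneg (hp ω)]
  refine (mul_le_mul_of_nonneg_left (taylor_exp_I (2 * n) (s * X ω)) (hp ω)).trans (le_of_eq ?_)
  rw [abs_mul, mul_pow, pow_mul |X ω|, sq_abs, ← pow_mul]
  ring

/-- **Method of moments** for a centred Gaussian limit with variance `v` (finite probability
spaces, any filter). -/
theorem tendsto_charFun (l : Filter ι) (p : ∀ i, Ω i → ℝ) (hp : ∀ i ω, 0 ≤ p i ω)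
    (X : ∀ i, Ω i → ℝ) (v : ℝ)
    (h : ∀ n : ℕ, Tendsto (fun i => ∑ ω, p i ω * X i ω ^ n) l (𝓝 (gm v n))) (s : ℝ) :
    Tendsto (fun i => ∑ ω, (p i ω : ℂ) * Complex.exp (Complex.I * (s * X i ω : ℝ))) l
      (𝓝 (Complex.exp ((-(s ^ 2 * v / 2) : ℝ) : ℂ))) := by
  rw [Metric.tendsto_nhds]
  intro ε hε
  -- tails of the two series
  have hx1 : Tendsto (fun n : ℕ => (s ^ 2 * v / 2) ^ n / (n.factorial : ℝ)) atTop (𝓝 0) :=
    FloorSemiring.tendsto_pow_div_factorial_atTop _
  have hx2 : Tendsto (fun n : ℕ => ∑ j ∈ range n, ((-(s ^ 2 * v / 2) : ℝ) : ℂ) ^ j /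
      (j.factorial : ℂ)) atTop (𝓝 (Complex.exp ((-(s ^ 2 * v / 2) : ℝ) : ℂ))) := by
    have := (NormedSpace.expSeries_div_hasSum_exp
      (((-(s ^ 2 * v / 2) : ℝ) : ℂ))).tendsto_sum_nat
    rwa [← Complex.exp_eq_exp_ℂ] at this
  have e1 := (Metric.tendsto_nhds.mp hx1) (ε / 4) (by positivity)
  have e2 := (Metric.tendsto_nhds.mp hx2) (ε / 4) (by positivity)
  obtain ⟨n, hn1, hn2⟩ := (e1.and e2).exists
  -- finitely many moments
  have hm : Tendsto (fun i => ∑ k ∈ range (2 * n), (Complex.I * s) ^ k / (k.factorial : ℂ) *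
      ((∑ ω, p i ω * X i ω ^ k : ℝ) : ℂ)) l
      (𝓝 (∑ k ∈ range (2 * n), (Complex.I * s) ^ k / (k.factorial : ℂ) * (gm v k : ℂ))) := by
    apply tendsto_finsetSum
    intro k _
    exact ((Complex.continuous_ofReal.tendsto _).comp (h k)).const_mul _
  have hm2 : Tendsto (fun i => |s| ^ (2 * n) / ((2 * n).factorial : ℝ) *
      ∑ ω, p i ω * X i ω ^ (2 * n)) l (𝓝 ((s ^ 2 * v / 2) ^ n / (n.factorial : ℝ))) := by
    have := (h (2 * n)).const_mul (|s| ^ (2 * n) / ((2 * n).factorial : ℝ))
    rwa [gm_even_bound] at this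
  have e3 := (Metric.tendsto_nhds.mp hm) (ε / 4) (by positivity)
  have e4 : ∀ᶠ i in l, |s| ^ (2 * n) / ((2 * n).factorial : ℝ) *
      ∑ ω, p i ω * X i ω ^ (2 * n) < ε / 4 := by
    have h0 : (s ^ 2 * v / 2) ^ n / (n.factorial : ℝ) < ε / 4 := by
      rw [Real.dist_eq, sub_zero] at hn1
      exact (le_abs_self _).trans_lt hn1
    exact hm2.eventually (gt_mem_nhds h0)
  filter_upwards [e3, e4] with i h3 h4
  rw [sum_gm] at h3
  have h5 := charFun_sub_le (p i) (hp i) (X i) s n
  calc dist (∑ ω, (p i ω : ℂ) * Complex.exp (Complex.I * (s * X i ω : ℝ)))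
        (Complex.exp ((-(s ^ 2 * v / 2) : ℝ) : ℂ))
      ≤ dist (∑ ω, (p i ω : ℂ) * Complex.exp (Complex.I * (s * X i ω : ℝ)))
          (∑ k ∈ range (2 * n), (Complex.I * s) ^ k / (k.factorial : ℂ) *
            ((∑ ω, p i ω * X i ω ^ k : ℝ) : ℂ)) +
        dist (∑ k ∈ range (2 * n), (Complex.I * s) ^ k / (k.factorial : ℂ) *
            ((∑ ω, p i ω * X i ω ^ k : ℝ) : ℂ))
          (Complex.exp ((-(s ^ 2 * v / 2) : ℝ) : ℂ)) := dist_triangle _ _ _
    _ ≤ dist (∑ ω, (p i ω : ℂ) * Complex.exp (Complex.I * (s * X i ω : ℝ)))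
          (∑ k ∈ range (2 * n), (Complex.I * s) ^ k / (k.factorial : ℂ) *
            ((∑ ω, p i ω * X i ω ^ k : ℝ) : ℂ)) +
        (dist (∑ k ∈ range (2 * n), (Complex.I * s) ^ k / (k.factorial : ℂ) *
            ((∑ ω, p i ω * X i ω ^ k : ℝ) : ℂ))
          (∑ j ∈ range n, ((-(s ^ 2 * v / 2) : ℝ) : ℂ) ^ j / (j.factorial : ℂ)) +
        dist (∑ j ∈ range n, ((-(s ^ 2 * v / 2) : ℝ) : ℂ) ^ j / (j.factorial : ℂ))
          (Complex.exp ((-(s ^ 2 * v / 2) : ℝ) : ℂ))) := by
          gcongr
          exact dist_triangle _ _ _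
    _ < ε / 4 + (ε / 4 + ε / 4) := by
          gcongr
          rw [dist_eq_norm]
          exact h5.trans_lt h4
    _ < ε := by linarith

end Crest.Agent.R161.MomA729
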