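import Crest.Agent.R161.FlatLim_123
import Crest.Agent.R161.FlatLC_123
import Crest.Agent.R161.LC_760

/-!
Row 161 (helper123): log-concavity of height differences in the plane state.

* `pd P a b d = P(relH a - relH b = d)`
* `pd_lc` : `pd d₁ * pd d₂ ≤ pd (d₁ + 2) * pd (d₂ - 2)` for `2 ≤ d₂ - d₁`
* `slc_pd` : symmetric log-concave law of `(relH a - relH b) / 2` (faces of equal parity)
* `second_moment_le` : `E (relH a - relH b)² ≤ 2592 (2 R + 1)² / δ²` if
  `δ ≤ P(|relH a - relH b| ≤ R)`.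
-/

set_option autoImplicit false

noncomputable section

open Filter Topology MeasureTheory
open Crest.ProbabilityR.SixVertex
open Crest.Agent.R150.Base357 Crest.Agent.R150.Hgt989 Crest.Agent.R150.Pln989
open Crest.Agent.R150.Pls989
open Crest.Agent.R161.LC760

namespace Crest.Agent.R161.Flat123

/-- height difference -/
def hd (ω : Conf) (a b : ℤ × ℤ) : ℤ := relH ω a.1 a.2 - relH ω b.1 b.2

/-- indicator of a value of the height difference -/
def Fd (a b : ℤ × ℤ) (d : ℤ) (ω : Conf) : ℝ := if hd ω a b = d then 1 else 0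

/-- law of the height difference -/
def pd (P : Measure Conf) (a b : ℤ × ℤ) (d : ℤ) : ℝ := ∫ ω, Fd a b d ω ∂P

lemma loc_Fd {a b : ℤ × ℤ} {R : ℕ} (ha : |a.1| ≤ (R : ℤ) ∧ |a.2| ≤ (R : ℤ))
    (hb : |b.1| ≤ (R : ℤ) ∧ |b.2| ≤ (R : ℤ)) (d : ℤ) :
    ∀ ω ω' : Conf, (∀ v ∈ box R, ω v = ω' v) → Fd a b d ω = Fd a b d ω' := by
  intro ω ω' h
  unfold Fd hd
  rw [relH_congr h ha.1 ha.2, relH_congr h hb.1 hb.2]

/-- the flat-ended expectation of `Fd` -/
lemma EFk_Fd {R k L : ℕ} [NeZero (2 * L)] {c : ℝ} {a b : ℤ × ℤ}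
    (ha : |a.1| ≤ (R : ℤ)) (hb : |b.1| ≤ (R : ℤ)) (d : ℤ) :
    EFk R k L c (Fd a b d) =
      Zd (ev (2 * L)) c (col (mm R (mk R k)) (mk R k + R + 1) a.1, (a.2 : ZMod (2 * L)))
        (col (mm R (mk R k)) (mk R k + R + 1) b.1, (b.2 : ZMod (2 * L))) d /
        ∑ σ : CC (mm R (mk R k)) (2 * L), wg (ev (2 * L)) c σ := by
  classical
  unfold EFk EF Zd
  congr 1
  refine Finset.sum_congr rfl fun σ _ => ?_
  by_cases h0 : wg (ev (2 * L)) c σ = 0
  · rw [h0]; simp
  · congr 1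
    have hg := good_of_wg h0
    have hA : mk R k + R + 1 ≤ mm R (mk R k) := by rw [mm_eq]; omega
    have ha' := abs_le.1 ha
    have hb' := abs_le.1 hb
    have e1 := relH_lf ev_succ hg hA (p := a.1) (by push_cast; omega)
      (by rw [mm_eq]; push_cast; omega) a.2
    have e2 := relH_lf ev_succ hg hA (p := b.1) (by push_cast; omega)
      (by rw [mm_eq]; push_cast; omega) b.2
    unfold Fd hd
    rw [e1, e2]
    simp only [sub_sub_sub_cancel_right]

lemma den_nonneg {M N : ℕ} [NeZero N] {e : ZMod N → Bool} {c : ℝ} (hc : 0 ≤ c) :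
    0 ≤ ∑ σ : CC M N, wg e c σ := Finset.sum_nonneg fun σ _ => wg_nonneg hc σ

/-- **Log-concavity in the plane state.** -/
theorem pd_lc {c : ℝ} (hc : 1 ≤ c) {P : Measure Conf} (hP : IsPlane c P) (a b : ℤ × ℤ)
    {d₁ d₂ : ℤ} (hd : 2 ≤ d₂ - d₁) :
    pd P a b d₁ * pd P a b d₂ ≤ pd P a b (d₁ + 2) * pd P a b (d₂ - 2) := by
  have hc0 : 0 < c := by linarith
  obtain ⟨R, hR⟩ : ∃ R : ℕ, R = a.1.natAbs + a.2.natAbs + b.1.natAbs + b.2.natAbs := ⟨_, rfl⟩
  have ha : |a.1| ≤ (R : ℤ) ∧ |a.2| ≤ (R : ℤ) := by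
    rw [Int.abs_eq_natAbs, Int.abs_eq_natAbs]; constructor <;> omega
  have hb : |b.1| ≤ (R : ℤ) ∧ |b.2| ≤ (R : ℤ) := by
    rw [Int.abs_eq_natAbs, Int.abs_eq_natAbs]; constructor <;> omega
  obtain ⟨B1, h11, h12⟩ := iter_flat hc0 hP (loc_Fd ha hb d₁)
  obtain ⟨B2, h21, h22⟩ := iter_flat hc0 hP (loc_Fd ha hb d₂)
  obtain ⟨B3, h31, h32⟩ := iter_flat hc0 hP (loc_Fd ha hb (d₁ + 2))
  obtain ⟨B4, h41, h42⟩ := iter_flat hc0 hP (loc_Fd ha hb (d₂ - 2))
  refine le_of_tendsto_of_tendsto (h12.mul h22) (h32.mul h42) ?_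
  filter_upwards [eventually_ge_atTop 2] with L hL
  have : NeZero (2 * L) := ⟨by omega⟩
  refine le_of_tendsto_of_tendsto' ((h11 L hL).mul (h21 L hL)) ((h31 L hL).mul (h41 L hL)) ?_
  intro k
  simp only [EFk_Fd ha.1 hb.1]
  rw [div_mul_div_comm, div_mul_div_comm]
  refine div_le_div_of_nonneg_right (Zd_lc ev_succ hc _ _ hd) ?_
  exact mul_nonneg (den_nonneg hc0.le) (den_nonneg hc0.le)

lemma pd_nonneg (P : Measure Conf) (a b : ℤ × ℤ) (d : ℤ) : 0 ≤ pd P a b d :=
  integral_nonneg fun ω => by unfold Fd; simp only [Pi.zero_apply]; split_ifs <;> norm_num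

lemma dx_flip (ω : Conf) (v : ℤ × ℤ) : dx (Crest.Agent.R150.Pls989.flip ω) v = - dx ω v := by
  unfold dx Crest.Agent.R150.Pls989.flip
  cases (ω v).2 <;> simp

lemma dy_flip (ω : Conf) (v : ℤ × ℤ) : dy (Crest.Agent.R150.Pls989.flip ω) v = - dy ω v := by
  unfold dy Crest.Agent.R150.Pls989.flip
  cases (ω v).1 <;> simp

lemma signedSum_neg (f : ℤ → ℤ) (a b : ℤ) : signedSum (fun i => - f i) a b = - signedSum f a b := by
  unfold signedSum
  rw [Finset.sum_neg_distrib, Finset.sum_neg_distrib]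
  ring

lemma relH_flip (ω : Conf) (p q : ℤ) : relH (Crest.Agent.R150.Pls989.flip ω) p q = - relH ω p q := by
  unfold relH
  simp only [dx_flip, dy_flip]
  rw [signedSum_neg, signedSum_neg]
  ring

lemma pd_neg {c : ℝ} {P : Measure Conf} (hP : IsPlane c P) (a b : ℤ × ℤ) (d : ℤ) :
    pd P a b (-d) = pd P a b d := by
  unfold pd
  conv_lhs => rw [← hP.flip]
  have hL : Loc (Fd a b (-d)) := by
    obtain ⟨R, hR⟩ : ∃ R : ℕ, R = a.1.natAbs + a.2.natAbs + b.1.natAbs + b.2.natAbs := ⟨_, rfl⟩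
    have ha : |a.1| ≤ (R : ℤ) ∧ |a.2| ≤ (R : ℤ) := by
      rw [Int.abs_eq_natAbs, Int.abs_eq_natAbs]; constructor <;> omega
    have hb : |b.1| ≤ (R : ℤ) ∧ |b.2| ≤ (R : ℤ) := by
      rw [Int.abs_eq_natAbs, Int.abs_eq_natAbs]; constructor <;> omega
    exact ⟨R, loc_Fd ha hb _⟩
  rw [integral_map measurable_flip.aemeasurable (Loc.continuous hL).aestronglyMeasurable]
  refine integral_congr_ae (Eventually.of_forall fun ω => ?_)
  simp only
  unfold Fd hd
  rw [relH_flip, relH_flip]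
  have : (-relH ω a.1 a.2 - -relH ω b.1 b.2 = -d) ↔ (relH ω a.1 a.2 - relH ω b.1 b.2 = d) := by
    constructor <;> intro h <;> linarith
  by_cases h : relH ω a.1 a.2 - relH ω b.1 b.2 = d
  · rw [if_pos h, if_pos (this.2 h)]
  · rw [if_neg h, if_neg (fun h' => h (this.1 h'))]

/-- parity of relative heights -/
lemma relH_par (w : Conf) (p q : ℤ) : (relH w p q - (p + q)) % 2 = 0 := by
  have hodd : ∀ x : ℤ, |x| = 1 → (x - 1) % 2 = 0 := by
    intro x hx
    rcases (abs_eq (by norm_num)).1 hx with h | h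
    · rw [h]; rfl
    · rw [h]; rfl
  have h0 : ∀ p : ℤ, (relH w p 0 - p) % 2 = 0 := by
    have hstep : ∀ p : ℤ, relH w (p + 1) 0 = relH w p 0 + dx w (p + 1, 0) := by
      intro p
      unfold relH
      rw [signedSum_succ (fun i => dx w (i, 0)) 1 (p + 1)]
      simp [signedSum_self]
    intro p
    induction p using Int.induction_on with
    | zero => simp
    | succ p ih =>
      rw [hstep]
      have := hodd _ (abs_dx w ((p : ℤ) + 1, 0))
      omega
    | pred p ih =>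
      have h1 := hstep (-(p:ℤ) - 1)
      rw [sub_add_cancel] at h1
      have := hodd _ (abs_dx w (-(p:ℤ), 0))
      omega
  induction q using Int.induction_on with
  | zero => simpa using h0 p
  | succ q ih =>
    rw [relH_succ_snd]
    have := hodd _ (abs_dy w (p, (q : ℤ) + 1))
    omega
  | pred q ih =>
    have h1 := relH_succ_snd w p (-(q:ℤ) - 1)
    rw [sub_add_cancel] at h1
    have := hodd _ (abs_dy w (p, -(q:ℤ)))
    omega

/-- the height difference is even for faces of equal parity -/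
lemma hd_even (w : Conf) {a b : ℤ × ℤ} (hab : Even (a.1 + a.2 - (b.1 + b.2))) :
    Even (hd w a b) := by
  unfold hd
  rw [Int.even_iff] at hab ⊢
  have h1 := relH_par w a.1 a.2
  have h2 := relH_par w b.1 b.2
  omega

/-- a bound for height differences -/
def Dd (a b : ℤ × ℤ) : ℕ := (a.1 - b.1).natAbs + (a.2 - b.2).natAbs

lemma abs_hd_le {w : Conf} (h : Ice w) (a b : ℤ × ℤ) : |hd w a b| ≤ (Dd a b : ℤ) := by
  unfold hd Dd
  refine (abs_relH_sub h b.1 b.2 a.1 a.2).trans ?_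
  push_cast
  simp

lemma loc_Fd' (a b : ℤ × ℤ) (d : ℤ) : Loc (Fd a b d) := by
  obtain ⟨R, hR⟩ : ∃ R : ℕ, R = a.1.natAbs + a.2.natAbs + b.1.natAbs + b.2.natAbs := ⟨_, rfl⟩
  have ha : |a.1| ≤ (R : ℤ) ∧ |a.2| ≤ (R : ℤ) := by
    rw [Int.abs_eq_natAbs, Int.abs_eq_natAbs]; constructor <;> omega
  have hb : |b.1| ≤ (R : ℤ) ∧ |b.2| ≤ (R : ℤ) := by
    rw [Int.abs_eq_natAbs, Int.abs_eq_natAbs]; constructor <;> omega
  exact ⟨R, loc_Fd ha hb _⟩

/-- expectation of a function of the height difference -/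
lemma integral_hd {c : ℝ} {P : Measure Conf} (hP : IsPlane c P) {a b : ℤ × ℤ}
    (hab : Even (a.1 + a.2 - (b.1 + b.2))) (g : ℤ → ℝ) :
    ∫ ω, g (hd ω a b) ∂P =
      ∑ k ∈ Finset.Icc (-(Dd a b : ℤ)) (Dd a b), g (2 * k) * pd P a b (2 * k) := by
  have := hP.prob
  have h1 : ∀ k, g (2 * k) * pd P a b (2 * k) = ∫ ω, g (2 * k) * Fd a b (2 * k) ω ∂P := by
    intro k
    rw [integral_const_mul]
    rfl
  simp only [h1]
  rw [← integral_finsetSum]
  · refine integral_congr_ae ?_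
    filter_upwards [hP.ice] with ω hω
    obtain ⟨r, hr⟩ := hd_even ω hab
    have hb := abs_le.1 (abs_hd_le hω a b)
    have h0 : (0 : ℤ) ≤ Dd a b := by positivity
    rw [Finset.sum_eq_single r]
    · unfold Fd
      rw [if_pos (by rw [hr]; ring), mul_one, hr]
      congr 1; ring
    · intro k _ hk
      unfold Fd
      rw [if_neg, mul_zero]
      intro h
      apply hk
      omega
    · intro hr'
      exfalso
      apply hr'
      rw [Finset.mem_Icc]
      omega
  · intro k _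
    exact ((Loc.integrable (loc_Fd' a b _) P).const_mul _)

/-- **The law of half the height difference is symmetric and log-concave.** -/
theorem slc_pd {c : ℝ} (hc : 1 ≤ c) {P : Measure Conf} (hP : IsPlane c P) {a b : ℤ × ℤ}
    (hab : Even (a.1 + a.2 - (b.1 + b.2))) : SLC fun k => pd P a b (2 * k) := by
  have := hP.prob
  refine ⟨fun k => pd_nonneg _ _ _ _, fun k => ?_, fun i j hij => ?_, ?_⟩
  · rw [show 2 * -k = -(2 * k) by ring, pd_neg hP]
  · have := pd_lc hc hP a b (d₁ := 2 * (i - 1)) (d₂ := 2 * (j + 1)) (by linarith)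
    rw [show 2 * (i - 1) + 2 = 2 * i by ring, show 2 * (j + 1) - 2 = 2 * j by ring] at this
    exact this
  · have h1 : ∑ k ∈ Finset.Icc (-(Dd a b : ℤ)) (Dd a b), pd P a b (2 * k) = 1 := by
      have := integral_hd hP hab (fun _ => 1)
      simp only [one_mul] at this
      rw [← this]
      simp
    rw [← h1]
    refine hasSum_sum_of_ne_finset_zero fun k hk => ?_
    unfold pd
    rw [← integral_zero Conf ℝ (μ := P)]
    refine integral_congr_ae ?_
    filter_upwards [hP.ice] with ω hω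
    unfold Fd
    rw [if_neg]
    intro h
    apply hk
    have hb := abs_le.1 (abs_hd_le hω a b)
    rw [Finset.mem_Icc]
    omega

/-- **Tightness bounds the second moment.** -/
theorem second_moment_le {c : ℝ} (hc : 1 ≤ c) {P : Measure Conf} (hP : IsPlane c P)
    {a b : ℤ × ℤ} (hab : Even (a.1 + a.2 - (b.1 + b.2))) {R : ℕ} {δ : ℝ} (hδ : 0 < δ)
    (h : δ ≤ P.real {ω | |hd ω a b| ≤ R}) :
    ∫ ω, ((hd ω a b : ℤ) : ℝ) ^ 2 ∂P ≤ 2592 * (2 * R + 1) ^ 2 / δ ^ 2 := by
  have := hP.prob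
  have hS := slc_pd hc hP hab
  set p : ℤ → ℝ := fun k => pd P a b (2 * k) with hp
  -- lower bound on p 0
  have hp0 : δ ≤ (2 * R + 1) * p 0 := by
    refine h.trans ?_
    have hm : MeasurableSet {ω : Conf | |hd ω a b| ≤ R} := by
      have h1 : Measurable fun ω : Conf => (hd ω a b : ℤ) := by
        have hL : Loc fun ω => ((hd ω a b : ℤ) : ℝ) := by
          have := (Loc.relH a.1 a.2).sub (Loc.relH b.1 b.2)
          unfold hd
          push_cast
          exact this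
        have h2 := (Loc.continuous hL).measurable
        have h3 : (fun ω : Conf => (hd ω a b : ℤ)) = fun ω => ⌊((hd ω a b : ℤ) : ℝ)⌋ := by
          funext ω; rw [Int.floor_intCast]
        rw [h3]
        exact Int.measurable_floor.comp h2
      exact h1 (MeasurableSet.of_discrete (s := {z : ℤ | |z| ≤ R}))
    have h1 : P.real {ω | |hd ω a b| ≤ R} =
        ∫ ω, (fun z : ℤ => if |z| ≤ (R : ℤ) then (1 : ℝ) else 0) (hd ω a b) ∂P := by
      rw [← integral_indicator_one hm]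
      refine integral_congr_ae (Eventually.of_forall fun ω => ?_)
      simp only [Set.indicator, Set.mem_ofPred_eq, Pi.one_apply]
    rw [h1, integral_hd hP hab (fun z : ℤ => if |z| ≤ (R : ℤ) then (1 : ℝ) else 0)]
    have h2 : ∑ k ∈ Finset.Icc (-(Dd a b : ℤ)) (Dd a b),
        (if |2 * k| ≤ (R : ℤ) then (1 : ℝ) else 0) * pd P a b (2 * k) =
        ∑ k ∈ (Finset.Icc (-(Dd a b : ℤ)) (Dd a b)).filter (fun k => |2 * k| ≤ (R : ℤ)), p k := by
      rw [Finset.sum_filter]
      refine Finset.sum_congr rfl fun k _ => ?_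
      split_ifs <;> simp [hp]
    rw [h2]
    refine hS.window R _ fun k hk => ?_
    have := (Finset.mem_filter.1 hk).2
    rw [abs_mul] at this
    have h3 : |(2 : ℤ)| = 2 := rfl
    rw [h3] at this
    have := abs_nonneg k
    omega
  have hR0 : (0 : ℝ) < 2 * R + 1 := by positivity
  have hp0' : 0 < p 0 := hS.zero_pos
  have h3 : ∫ ω, ((hd ω a b : ℤ) : ℝ) ^ 2 ∂P ≤ 4 * (648 / p 0 ^ 2) := by
    have h4 := integral_hd hP hab (fun z => ((z : ℤ) : ℝ) ^ 2)
    rw [h4]
    have h5 : ∑ k ∈ Finset.Icc (-(Dd a b : ℤ)) (Dd a b), ((2 * k : ℤ) : ℝ) ^ 2 * pd P a b (2 * k) =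
        4 * ∑ k ∈ Finset.Icc (-(Dd a b : ℤ)) (Dd a b), (k : ℝ) ^ 2 * p k := by
      rw [Finset.mul_sum]
      refine Finset.sum_congr rfl fun k _ => ?_
      push_cast
      ring
    rw [h5]
    have h6 := hS.second_moment
    gcongr
    refine le_trans ?_ h6.2
    exact h6.1.sum_le_tsum _ fun k _ => mul_nonneg (by positivity) (hS.nonneg _)
  refine h3.trans ?_
  have h7 : δ ^ 2 ≤ ((2 * R + 1) * p 0) ^ 2 := by
    exact pow_le_pow_left₀ hδ.le hp0 2
  have h8 : 4 * (648 / p 0 ^ 2) = 2592 * (2 * R + 1) ^ 2 / ((2 * R + 1) * p 0) ^ 2 := by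
    field_simp
    ring
  rw [h8]
  exact div_le_div_of_nonneg_left (by positivity) (by positivity) h7

end Crest.Agent.R161.Flat123
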