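import Crest.Agent.R161.BK2_123
import Crest.Agent.R161.PlLC_123
import Crest.Agent.R161.LkV_159
import Crest.Agent.R161.ExInv_792

/-!
Row 161, Step 2 (helper123): **no infinite cluster of the dual percolation `ω*`** in the plane
state: `no_inf : th (Q.map z) 1 r n → 0` for every `r`.
-/

set_option autoImplicit false

noncomputable section

open Filter Topology MeasureTheory
open Crest.Agent.R150.Hgt989 Crest.Agent.R150.Pls989
open Crest.Agent.R161.Geo729 Crest.Agent.R161.Defs372 Crest.Agent.R161.ExInv792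
open Crest.Agent.R161.Lk159 Crest.Agent.R161.BK123

namespace Crest.Agent.R161.Flat123

/-- the variance is unbounded along the diagonal -/
lemma V_unbounded {c : ℝ} {P : Measure Conf} (h : PlaneIn c P) (C : ℝ) :
    ∃ n : ℕ, C < V P ((n : ℤ), -(n : ℤ)) := by
  have hs : 0 < Crest.ProbabilityR.SixVertex.varianceMultiplier c :=
    varianceMultiplier_pos h.cpos
  set s := Crest.ProbabilityR.SixVertex.varianceMultiplier c / Real.pi with hsdef
  have hs0 : 0 < s := div_pos hs Real.pi_pos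
  obtain ⟨R0, hR0, H0⟩ := V_asymp h (ε := s / 2) (by positivity)
  obtain ⟨n0, hn0⟩ := exists_nat_ge R0
  have hnorm : ∀ n : ℕ, ‖(((n : ℤ), -(n : ℤ)) : ℤ × ℤ)‖ = n := by
    intro n
    rw [Prod.norm_def]
    simp
  have hn0pos : (0 : ℝ) < n0 := by linarith
  have htend : Tendsto (fun n : ℕ => s / 2 * Real.log n) atTop atTop :=
    (Real.tendsto_log_atTop.comp tendsto_natCast_atTop_atTop).const_mul_atTop (by positivity)
  obtain ⟨n, hn, hnn⟩ := ((htend.eventually_gt_atTop
    (C + s * Real.log (2 * n0) + s / 2)).and (eventually_ge_atTop n0)).exists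
  refine ⟨n, ?_⟩
  have hn1 : (n0 : ℝ) ≤ n := by exact_mod_cast hnn
  have h1 := H0 ((n : ℤ), -(n : ℤ)) ((n0 : ℤ), -(n0 : ℤ)) (by rw [hnorm]; exact hn0)
    (by rw [hnorm, hnorm]; exact hn1)
  rw [hnorm, hnorm] at h1
  have h2 := (abs_le.1 h1).1
  have h3 : Real.log n ≤ el ((n : ℤ), -(n : ℤ)) :=
    el_ge (by linarith) (by rw [hnorm])
  have h4 : el ((n0 : ℤ), -(n0 : ℤ)) ≤ Real.log (2 * n0) :=
    el_le (by rw [hnorm]; exact hn0pos) (by rw [hnorm])
  have h5 := V_nonneg P ((n0 : ℤ), -(n0 : ℤ))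
  have h6 : Real.log ((n : ℝ) / n0) ≤ Real.log n := by
    have hn2 : (0 : ℝ) < n := by linarith
    refine Real.log_le_log (div_pos hn2 hn0pos) ?_
    rw [div_le_iff₀ hn0pos]
    nlinarith
  have h7 : s * (Real.log n - Real.log (2 * n0)) ≤
      s * (el ((n : ℤ), -(n : ℤ)) - el ((n0 : ℤ), -(n0 : ℤ))) := by
    apply mul_le_mul_of_nonneg_left _ hs0.le
    linarith
  have h8 : s / 2 * (1 + Real.log ((n : ℝ) / n0)) ≤ s / 2 * (1 + Real.log n) := by
    apply mul_le_mul_of_nonneg_left _ (by positivity)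
    linarith
  nlinarith

/-- the 6V face of an AT face -/
def ph (f : P2) : ℤ × ℤ := (f.1 + f.2 + 1, f.2 - f.1)

lemma common_corner {f g : P2} (h : Adj f g) : ∃ v, Geo729.IsCorner v f ∧ Geo729.IsCorner v g := by
  obtain ⟨a, b⟩ := f
  rcases h with rfl | rfl | rfl | rfl
  · exact ⟨(a + 1, b), by simp [Geo729.IsCorner], by simp [Geo729.IsCorner]⟩
  · exact ⟨(a, b), by simp [Geo729.IsCorner], by simp [Geo729.IsCorner]⟩
  · exact ⟨(a, b + 1), by simp [Geo729.IsCorner], by simp [Geo729.IsCorner]⟩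
  · exact ⟨(a, b), by simp [Geo729.IsCorner], by simp [Geo729.IsCorner]⟩

/-- **No infinite `ω*`-cluster in the plane state.** -/
theorem no_inf {c : ℝ} (hc : 1 ≤ c) {P : Measure Conf} (h : PlaneIn c P) {Q : Measure Cfg}
    [IsProbabilityMeasure Q] (hQ : Q.map hts = P.map khmap) (hv : ∀ᵐ ω ∂Q, GValid ω)
    (hT : TInv (Q.map fun ω => ω.2.2)) (hI : Ins (Q.map fun ω => ω.2.2)) (r : ℕ) :
    Tendsto (fun n => th (Q.map fun ω => ω.2.2) 1 r n) atTop (𝓝 0) := by
  have hP := h.plane
  have := hP.prob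
  by_contra hcon
  have hZ : Measurable (fun ω : Cfg => ω.2.2) := measurable_snd.comp measurable_snd
  have hprob : IsProbabilityMeasure (Q.map fun ω : Cfg => ω.2.2) :=
    Measure.isProbabilityMeasure_map hZ.aemeasurable
  have h3 := fun r => thr_tendsto (Q.map fun ω : Cfg => ω.2.2) hT hI r
  obtain ⟨R, δ, hδ, key⟩ := heights (P := Q) (Z := fun ω : Cfg => ω.2.2) hZ
    (H := fun ω : Cfg => ω.2.1) hT h3
    (by
      filter_upwards [hv] with ω hω f g hfg
      obtain ⟨e, he, h4⟩ := hfg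
      have h5 := hω.edge e
      have h6 : ω.2.1 (fA e) = ω.2.1 (fB e) := by
        have := h5
        simp only [EdgeOk, he] at this
        simpa using this
      rcases h4 with ⟨rfl, rfl⟩ | ⟨rfl, rfl⟩
      · exact h6
      · exact h6.symm)
    (by
      filter_upwards [hv] with ω hω f g hfg
      obtain ⟨v, h4, h5⟩ := common_corner hfg
      have e1 := hω.corner f v h4
      have e2 := hω.corner g v h5
      have e3 := abs_sub_le (ω.2.1 f) (ω.1 v) (ω.2.1 g)
      rw [abs_sub_comm] at e1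
      linarith)
    (fun hall => hcon (hall r))
  -- transfer to the six-vertex state
  have key2 : ∀ x y : P2, δ ≤ P.real {ω | |hd ω (ph x) (ph y)| ≤ R} := by
    intro x y
    refine (key x y).trans (le_of_eq ?_)
    have hm : MeasurableSet {p : KH | |p.2 x - p.2 y| ≤ (R : ℤ)} := by
      have h1 : Measurable fun p : KH => p.2 x - p.2 y :=
        ((measurable_pi_apply x).comp measurable_snd).sub
          ((measurable_pi_apply y).comp measurable_snd)
      exact h1 (MeasurableSet.of_discrete (s := {z : ℤ | |z| ≤ R}))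
    have e1 : Q.real {ω : Cfg | |ω.2.1 x - ω.2.1 y| ≤ (R : ℤ)} =
        (Q.map hts).real {p : KH | |p.2 x - p.2 y| ≤ (R : ℤ)} := by
      unfold Measure.real
      rw [Measure.map_apply measurable_hts hm]
      rfl
    have e2 : P.real {ω | |hd ω (ph x) (ph y)| ≤ R} =
        (P.map khmap).real {p : KH | |p.2 x - p.2 y| ≤ (R : ℤ)} := by
      unfold Measure.real
      rw [Measure.map_apply measurable_khmap hm]
      rfl
    rw [e2, ← hQ, ← e1]
  obtain ⟨n, hn⟩ := V_unbounded h (2592 * (2 * R + 1) ^ 2 / δ ^ 2)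
  have h4 := second_moment_le hc hP (a := ph ((n : ℤ), 0)) (b := ph (0, 0))
    (by simp only [ph]; rw [Int.even_iff]; omega) hδ (key2 ((n : ℤ), 0) (0, 0))
  have h5 := integral_sq_sub hP (ph (0, 0)) (ph ((n : ℤ), 0))
  have h6 : ph ((n : ℤ), 0) - ph (0, 0) = ((n : ℤ), -(n : ℤ)) := by
    unfold ph
    ext <;> simp
  rw [h6] at h5
  have h7 : ∫ ω, ((hd ω (ph ((n : ℤ), 0)) (ph (0, 0)) : ℤ) : ℝ) ^ 2 ∂P =
      V P ((n : ℤ), -(n : ℤ)) := by
    rw [← h5]
    refine integral_congr_ae (Eventually.of_forall fun ω => ?_)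
    simp only [hd, Lk159.H]
    push_cast
    rfl
  rw [h7] at h4
  linarith

end Crest.Agent.R161.Flat123
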