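import Crest.Agent.R161.Mod4c_991
import Crest.Agent.R161.NuInv_421

/-!
# Row 161, leaf L1 (helper991): plus-cut percolation, finite volume → `nu P`, and FKG

* `tendsto_nu` : `Pr c F {plusMap ∈ A} → (nu P).real A` along domains for local `A`
* `fkgLoc_nu` : `FKGLoc (nu P)` from the finite-volume association of increasing local events
-/

set_option autoImplicit false

noncomputable section

namespace Crest.Agent.R161.Mod991

open Finset hiding box
open MeasureTheory Filter Topology
open Crest.Agent.R161.Geo729 Crest.Agent.R161.Defs372 Crest.Agent.R161.Ifc372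
open Crest.Agent.R161.Ring421

/-- event of the plus-cut percolation -/
def PEv (A : Set (Edge → Bool)) : Set Cfg := {ω | plusMap ω ∈ A}

open Classical in
/-- indicator of an event of the plus-cut percolation -/
def indE (A : Set (Edge → Bool)) (ω : Cfg) : ℝ := if ω ∈ PEv A then 1 else 0

theorem Pr_eq_indE (c : ℝ) (F : Finset P2) (A : Set (Edge → Bool)) :
    Pr c F (PEv A) = E c F (indE A) := rfl

theorem plusMap_congr {ω ω' : Cfg} {e : Edge} (h1 : ω.1 e.1 = ω'.1 e.1)
    (h2 : ω.2.2 e = ω'.2.2 e) : plusMap ω e = plusMap ω' e := by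
  unfold plusMap plusE
  have : src e = e.1 := rfl
  rw [this, h1, h2]

theorem loc_indE {S : Finset Edge} {A : Set (Edge → Bool)} (hA : LocOn S A) :
    Loc ((S.image Prod.fst : Finset P2) : Set P2) (indE A) := by
  intro ω ω' h
  have key : plusMap ω ∈ A ↔ plusMap ω' ∈ A := by
    refine hA _ _ fun e he => ?_
    have h1 : e.1 ∈ ((S.image Prod.fst : Finset P2) : Set P2) := by
      exact_mod_cast Finset.mem_image_of_mem _ he
    obtain ⟨a, _, b⟩ := h e.1 h1
    exact plusMap_congr a (b e.2)
  unfold indE PEv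
  by_cases h1 : plusMap ω ∈ A
  · exact (if_pos h1).trans (if_pos (key.1 h1)).symm
  · exact (if_neg h1).trans (if_neg fun h2 => h1 (key.2 h2)).symm

theorem indE_addH_four (A : Set (Edge → Bool)) (ω : Cfg) : indE A (addH 4 ω) = indE A ω := by
  have h := NuInv421.plusMap_addH_four 1 ω
  have key : plusMap (addH 4 ω) ∈ A ↔ plusMap ω ∈ A := by
    rw [← h]
    norm_num
  unfold indE PEv
  by_cases h1 : plusMap ω ∈ A
  · exact (if_pos (key.2 h1)).trans (if_pos h1).symm
  · exact (if_neg fun h2 => h1 (key.1 h2)).trans (if_neg h1).symm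

theorem integral_indE {P : Measure Cfg} {A : Set (Edge → Bool)} (hA : MeasurableSet A) :
    ∫ ω, indE A ω ∂(Psym P) = (nu P).real A := by
  classical
  have h1 : (indE A) = Set.indicator (plusMap ⁻¹' A) (fun _ => (1 : ℝ)) := by
    funext ω
    unfold indE PEv
    by_cases h : plusMap ω ∈ A
    · rw [Set.indicator_of_mem (show ω ∈ plusMap ⁻¹' A from h)]
      exact if_pos h
    · rw [Set.indicator_of_notMem (show ω ∉ plusMap ⁻¹' A from h)]
      exact if_neg h
  rw [h1, integral_indicator (NuInv421.measurable_plusMap hA)]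
  simp only [integral_const, smul_eq_mul, mul_one]
  unfold nu Measure.real
  rw [Measure.restrict_apply_univ, Measure.map_apply NuInv421.measurable_plusMap hA]

/-- **Finite volume → infinite volume** for the plus-cut percolation. -/
theorem tendsto_nu {c : ℝ} (hc : 1 ≤ c) {P : Measure Cfg} (hP : IsState c P) (hdel : Deloc c)
    {A : Set (Edge → Bool)} (hA : LocEv A) {ε : ℝ} (hε : 0 < ε) :
    ∃ n : ℕ, ∀ F : Finset P2, Dom F → box n ⊆ F → |Pr c F (PEv A) - (nu P).real A| < ε := by
  obtain ⟨S, hS⟩ := hA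
  obtain ⟨n, hn⟩ := tendsto_psym hc hP hdel (loc_indE hS) (indE_addH_four A) hε
  refine ⟨n, fun F hF hbox => ?_⟩
  have h := hn F hF hbox
  rw [integral_indE hS.measurableSet] at h
  rw [Pr_eq_indE]
  exact h

/-- association of increasing local plus-cut events in finite domains (from 729's `A1`) -/
def AssocFin (c : ℝ) : Prop :=
  ∀ F : Finset P2, Dom F → ∀ A B : Set (Edge → Bool), LocEv A → LocEv B → IncEv A → IncEv B →
    Pr c F (PEv A) * Pr c F (PEv B) ≤ Pr c F (PEv (A ∩ B))

theorem LocEv.inter' {A B : Set (Edge → Bool)} (hA : LocEv A) (hB : LocEv B) :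
    LocEv (A ∩ B) := by
  classical
  obtain ⟨S, hS⟩ := hA
  obtain ⟨T, hT⟩ := hB
  refine ⟨S ∪ T, fun z z' h => ?_⟩
  have h1 := hS z z' fun e he => h e (Finset.mem_union_left _ he)
  have h2 := hT z z' fun e he => h e (Finset.mem_union_right _ he)
  simp only [Set.mem_inter_iff, h1, h2]

/-- **FKG for the plus-cut percolation** of the symmetrised plane state. -/
theorem fkgLoc_nu {c : ℝ} (hc : 1 ≤ c) {P : Measure Cfg} (hP : IsState c P) (hdel : Deloc c)
    (hass : AssocFin c) : FKGLoc (nu P) := by
  intro A B hA hB hA' hB'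
  have hprob := hP.prob
  have hnu : IsProbabilityMeasure (nu P) := NuInv421.nu_prob
  have key : (nu P).real A * (nu P).real B ≤ (nu P).real (A ∩ B) := by
    refine le_of_forall_pos_le_add fun η hη => ?_
    obtain ⟨n1, h1⟩ := tendsto_nu hc hP hdel hA (ε := η / 3) (by linarith)
    obtain ⟨n2, h2⟩ := tendsto_nu hc hP hdel hB (ε := η / 3) (by linarith)
    obtain ⟨n3, h3⟩ := tendsto_nu hc hP hdel (LocEv.inter' hA hB) (ε := η / 3) (by linarith)
    set F : Finset P2 := box (max n1 (max n2 n3)) with hF
    have hD : Dom F := Aut373.dom_box _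
    have hbm : ∀ a b : ℕ, a ≤ b → box a ⊆ box b := by
      intro a b hab v hv
      rw [mem_box] at hv ⊢
      omega
    have k1 := h1 F hD (hbm _ _ (by omega))
    have k2 := h2 F hD (hbm _ _ (by omega))
    have k3 := h3 F hD (hbm _ _ (by omega))
    have k4 := hass F hD A B hA hB hA' hB'
    rw [abs_lt] at k1 k2 k3
    have hA0 : 0 ≤ (nu P).real A := measureReal_nonneg
    have hB0 : 0 ≤ (nu P).real B := measureReal_nonneg
    have hA1 : (nu P).real A ≤ 1 := measureReal_le_one
    have hB1 : (nu P).real B ≤ 1 := measureReal_le_one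
    have pA : 0 ≤ Pr c F (PEv A) := E_nonneg hc fun ω _ => by split_ifs <;> norm_num
    have pA1 : Pr c F (PEv A) ≤ 1 := by
      rw [← E_const hc F 1]
      exact E_mono hc fun ω _ => by split_ifs <;> norm_num
    have e1 : (nu P).real B * ((nu P).real A - Pr c F (PEv A)) ≤ 1 * (η / 3) := by
      refine (mul_le_mul_of_nonneg_left (by linarith [k1.1] : _ ≤ η / 3) hB0).trans ?_
      exact mul_le_mul_of_nonneg_right hB1 (by linarith)
    have e2 : Pr c F (PEv A) * ((nu P).real B - Pr c F (PEv B)) ≤ 1 * (η / 3) := by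
      refine (mul_le_mul_of_nonneg_left (by linarith [k2.1] : _ ≤ η / 3) pA).trans ?_
      exact mul_le_mul_of_nonneg_right pA1 (by linarith)
    have e3 : (nu P).real A * (nu P).real B =
        (nu P).real B * ((nu P).real A - Pr c F (PEv A)) +
          Pr c F (PEv A) * ((nu P).real B - Pr c F (PEv B)) +
          Pr c F (PEv A) * Pr c F (PEv B) := by ring
    rw [e3]
    linarith [k3.2]
  have e : ∀ C : Set (Edge → Bool), nu P C = ENNReal.ofReal ((nu P).real C) := fun C => by
    rw [Measure.real, ENNReal.ofReal_toReal (measure_ne_top _ _)]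
  rw [e A, e B, e (A ∩ B), ← ENNReal.ofReal_mul measureReal_nonneg]
  exact ENNReal.ofReal_le_ofReal key

end Crest.Agent.R161.Mod991
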