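import Mathlib.Analysis.InnerProductSpace.Basic
import Mathlib.Analysis.SpecialFunctions.Pow.Real
import Mathlib.Algebra.Polynomial.AlgebraMap

/-!
R161, STEP 5/6: the abstract reflection-positivity engine (helper695).

`V` = space of functionals living on one side of a reflection line, with the (semi-definite)
reflection form as inner product, `T` = translation away from the line by one lattice unit
(symmetric, bounded orbits, positive for the form).  No spectral theorem, no complex analysis.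

Main result: `propagation`: with `u = T ^ n`
`‖⟪A, u B⟫‖ ≤ ∑_{j=1}^p C(p,j) ‖⟪A, u^(j+1) B⟫‖ + ‖A‖ ‖B‖ / √(2p+1)`.
-/

set_option autoImplicit false

namespace Crest.Agent.R161.RP695

open scoped InnerProductSpace

variable {V : Type*} [SeminormedAddCommGroup V] [InnerProductSpace ℂ V]

/-- a "reflection positive translation": symmetric, positive, with bounded orbits -/
structure IsRPT (T : V →ₗ[ℂ] V) : Prop where
  symm : ∀ x y : V, ⟪T x, y⟫_ℂ = ⟪x, T y⟫_ℂ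
  pos : ∀ x : V, 0 ≤ (⟪x, T x⟫_ℂ).re
  bdd : ∀ x : V, ∃ C : ℝ, ∀ n : ℕ, ‖(T ^ n) x‖ ≤ C

lemma re_inner_self (x : V) : (⟪x, x⟫_ℂ).re = ‖x‖ ^ 2 := by
  rw [inner_self_eq_norm_sq_to_K]
  norm_cast

namespace IsRPT

variable {T : V →ₗ[ℂ] V}

lemma pow_symm (h : IsRPT T) (n : ℕ) (x y : V) : ⟪(T ^ n) x, y⟫_ℂ = ⟪x, (T ^ n) y⟫_ℂ := by
  induction n generalizing x y with
  | zero => simp
  | succ n ih =>
    rw [pow_succ, Module.End.mul_apply, ih, h.symm, ← Module.End.mul_apply, ← pow_succ']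
    rw [pow_succ]

lemma pow_pos_form (h : IsRPT T) (n : ℕ) (x : V) : 0 ≤ (⟪x, (T ^ n) x⟫_ℂ).re := by
  rcases Nat.even_or_odd' n with ⟨k, hk | hk⟩
  · have : (T ^ n) x = (T ^ k) ((T ^ k) x) := by
      rw [← Module.End.mul_apply, ← pow_add, hk, two_mul]
    rw [this, ← h.pow_symm, re_inner_self]
    positivity
  · have : (T ^ n) x = (T ^ k) (T ((T ^ k) x)) := by
      rw [← Module.End.mul_apply T, ← Module.End.mul_apply, ← pow_succ', ← pow_add, hk]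
      congr 2
      ring
    rw [this, ← h.pow_symm]
    exact h.pos _

/-- powers of an RP translation are RP translations -/
lemma pow (h : IsRPT T) (n : ℕ) : IsRPT (T ^ n) where
  symm := h.pow_symm n
  pos := h.pow_pos_form n
  bdd := fun x => by
    obtain ⟨C, hC⟩ := h.bdd x
    refine ⟨C, fun m => ?_⟩
    rw [← pow_mul]
    exact hC _

lemma norm_sq_pow (h : IsRPT T) (n : ℕ) (x : V) :
    ‖(T ^ n) x‖ ^ 2 ≤ ‖x‖ * ‖(T ^ (2 * n)) x‖ := by
  have h1 : ((‖(T ^ n) x‖ : ℝ) ^ 2 : ℝ) = (⟪(T ^ n) x, (T ^ n) x⟫_ℂ).re := by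
    rw [inner_self_eq_norm_sq_to_K]
    norm_cast
  rw [h1, h.pow_symm, ← Module.End.mul_apply, ← pow_add, ← two_mul]
  exact (Complex.re_le_norm _).trans (norm_inner_le_norm _ _)

/-- contraction -/
lemma contr (h : IsRPT T) (x : V) : ‖T x‖ ≤ ‖x‖ := by
  obtain ⟨C, hC⟩ := h.bdd x
  have hC0 : 0 ≤ C := (norm_nonneg _).trans (hC 0)
  -- `‖T x‖ ^ (2^k) ≤ ‖x‖^(2^k - 1) * ‖T^(2^k) x‖`
  have key : ∀ k : ℕ, ‖T x‖ ^ (2 ^ k) ≤ ‖x‖ ^ (2 ^ k - 1) * ‖(T ^ (2 ^ k)) x‖ := by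
    intro k
    induction k with
    | zero => simp
    | succ k ih =>
      have e1 : (2 : ℕ) ^ (k + 1) = 2 ^ k * 2 := pow_succ 2 k
      have e2 : (2 : ℕ) ^ (k + 1) - 1 = (2 ^ k - 1) * 2 + 1 := by
        have : 1 ≤ 2 ^ k := Nat.one_le_two_pow
        omega
      calc ‖T x‖ ^ (2 ^ (k + 1)) = (‖T x‖ ^ (2 ^ k)) ^ 2 := by rw [e1, pow_mul]
        _ ≤ (‖x‖ ^ (2 ^ k - 1) * ‖(T ^ (2 ^ k)) x‖) ^ 2 := by gcongr
        _ = ‖x‖ ^ ((2 ^ k - 1) * 2) * ‖(T ^ (2 ^ k)) x‖ ^ 2 := by ring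
        _ ≤ ‖x‖ ^ ((2 ^ k - 1) * 2) * (‖x‖ * ‖(T ^ (2 * 2 ^ k)) x‖) := by
            gcongr
            exact h.norm_sq_pow _ _
        _ = ‖x‖ ^ (2 ^ (k + 1) - 1) * ‖(T ^ (2 ^ (k + 1))) x‖ := by
            rw [e2, e1, mul_comm 2 (2 ^ k)]
            ring
  by_contra hlt
  push Not at hlt
  have hTx : 0 < ‖T x‖ := (norm_nonneg _).trans_lt hlt
  rcases (norm_nonneg x).eq_or_lt with h0 | h0
  · have := key 1
    rw [← h0] at this
    simp at this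
    have h2 : 0 < ‖T x‖ ^ 2 := by positivity
    linarith
  · have hr : 1 < ‖T x‖ / ‖x‖ := (one_lt_div h0).2 hlt
    have hb : ∀ k : ℕ, (‖T x‖ / ‖x‖) ^ (2 ^ k) ≤ C / ‖x‖ := by
      intro k
      have hk := (key k).trans (mul_le_mul_of_nonneg_left (hC (2 ^ k)) (by positivity))
      have e2 : ‖x‖ ^ (2 ^ k) = ‖x‖ ^ (2 ^ k - 1) * ‖x‖ := by
        rw [← pow_succ]
        congr 1
        have : 1 ≤ 2 ^ k := Nat.one_le_two_pow
        omega
      rw [div_pow, div_le_div_iff₀ (by positivity) h0, e2]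
      calc ‖T x‖ ^ 2 ^ k * ‖x‖ ≤ (‖x‖ ^ (2 ^ k - 1) * C) * ‖x‖ := by gcongr
        _ = C * (‖x‖ ^ (2 ^ k - 1) * ‖x‖) := by ring
    obtain ⟨n, hn⟩ := pow_unbounded_of_one_lt (C / ‖x‖) hr
    have hn2 : (‖T x‖ / ‖x‖) ^ n ≤ (‖T x‖ / ‖x‖) ^ (2 ^ n) :=
      pow_le_pow_right₀ hr.le (Nat.lt_two_pow_self).le
    exact absurd (hb n) (not_le.2 (hn.trans_le hn2))

lemma inner_T_le (h : IsRPT T) (x : V) : (⟪x, T x⟫_ℂ).re ≤ ‖x‖ ^ 2 :=
  calc (⟪x, T x⟫_ℂ).re ≤ ‖⟪x, T x⟫_ℂ‖ := Complex.re_le_norm _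
    _ ≤ ‖x‖ * ‖T x‖ := norm_inner_le_norm _ _
    _ ≤ ‖x‖ * ‖x‖ := by gcongr; exact h.contr x
    _ = ‖x‖ ^ 2 := by ring

/-- `1 - T` is positive -/
lemma pos_one_sub (h : IsRPT T) (x : V) : 0 ≤ (⟪x, (1 - T) x⟫_ℂ).re := by
  have := h.inner_T_le x
  rw [LinearMap.sub_apply, inner_sub_right, Complex.sub_re, Module.End.one_apply,
    re_inner_self]
  linarith

lemma symm_one_sub (h : IsRPT T) (x y : V) : ⟪(1 - T) x, y⟫_ℂ = ⟪x, (1 - T) y⟫_ℂ := by
  simp [inner_sub_left, inner_sub_right, h.symm]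

lemma comm_one_sub (T : V →ₗ[ℂ] V) : Commute T (1 - T) :=
  (Commute.one_right T).sub_right (Commute.refl T)

lemma symm_one_sub_pow (h : IsRPT T) (k : ℕ) (x y : V) :
    ⟪((1 - T) ^ k) x, y⟫_ℂ = ⟪x, ((1 - T) ^ k) y⟫_ℂ := by
  induction k generalizing x y with
  | zero => simp
  | succ n ih =>
    rw [pow_succ, Module.End.mul_apply, ih, h.symm_one_sub, ← Module.End.mul_apply, ← pow_succ']
    rw [pow_succ]

/-- `⟪x, T (1-T) x⟫ ≥ 0` -/
lemma pos_T_one_sub (h : IsRPT T) (x : V) : 0 ≤ (⟪x, (T * (1 - T)) x⟫_ℂ).re := by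
  have e : T * (1 - T) = (1 - T) * (T * (1 - T)) + T * ((1 - T) * T) := by
    noncomm_ring
  rw [e, LinearMap.add_apply, inner_add_right, Complex.add_re]
  have h1 : 0 ≤ (⟪x, ((1 - T) * (T * (1 - T))) x⟫_ℂ).re := by
    rw [Module.End.mul_apply, ← h.symm_one_sub, Module.End.mul_apply]
    exact h.pos _
  have h2 : 0 ≤ (⟪x, (T * ((1 - T) * T)) x⟫_ℂ).re := by
    rw [Module.End.mul_apply, ← h.symm, Module.End.mul_apply]
    exact h.pos_one_sub _
  linarith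

/-- positivity of `T^a (1-T)^k` -/
lemma pos_mixed (h : IsRPT T) (a k : ℕ) (x : V) :
    0 ≤ (⟪x, (T ^ a * (1 - T) ^ k) x⟫_ℂ).re := by
  have hc : Commute T (1 - T) := comm_one_sub T
  -- reduce to parities
  obtain ⟨a', ea⟩ : ∃ a', a = 2 * a' + a % 2 := ⟨a / 2, by omega⟩
  obtain ⟨k', ek⟩ : ∃ k', k = 2 * k' + k % 2 := ⟨k / 2, by omega⟩
  obtain ⟨S, hS⟩ : ∃ S : V →ₗ[ℂ] V, S = T ^ a' * (1 - T) ^ k' := ⟨_, rfl⟩
  have hSs : ∀ u v : V, ⟪S u, v⟫_ℂ = ⟪u, S v⟫_ℂ := by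
    intro u v
    rw [hS, Module.End.mul_apply, h.pow_symm, h.symm_one_sub_pow, ← Module.End.mul_apply,
      ((hc.pow_pow a' k').eq)]
  have hdec : T ^ a * (1 - T) ^ k = S * ((T ^ (a % 2) * (1 - T) ^ (k % 2)) * S) := by
    have e1 : T ^ a = T ^ a' * T ^ (a % 2) * T ^ a' := by
      rw [← pow_add, ← pow_add]
      congr 1
      omega
    have e2 : (1 - T) ^ k = (1 - T) ^ k' * (1 - T) ^ (k % 2) * (1 - T) ^ k' := by
      rw [← pow_add, ← pow_add]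
      congr 1
      omega
    have c1 := (hc.pow_pow a' k').eq
    have c2 := (hc.pow_pow (a % 2) k').eq
    have c3 := (hc.pow_pow a' (k % 2)).eq
    rw [e1, e2, hS]
    calc T ^ a' * T ^ (a % 2) * T ^ a' * ((1 - T) ^ k' * (1 - T) ^ (k % 2) * (1 - T) ^ k')
        = T ^ a' * T ^ (a % 2) * (T ^ a' * (1 - T) ^ k') * (1 - T) ^ (k % 2) * (1 - T) ^ k' := by
          noncomm_ring
      _ = T ^ a' * (T ^ (a % 2) * (1 - T) ^ k') * T ^ a' * (1 - T) ^ (k % 2) * (1 - T) ^ k' := by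
          rw [c1]; noncomm_ring
      _ = T ^ a' * (1 - T) ^ k' * T ^ (a % 2) * (T ^ a' * (1 - T) ^ (k % 2)) * (1 - T) ^ k' := by
          rw [c2]; noncomm_ring
      _ = T ^ a' * (1 - T) ^ k' * (T ^ (a % 2) * (1 - T) ^ (k % 2) *
            (T ^ a' * (1 - T) ^ k')) := by
          rw [c3]; noncomm_ring
  rw [hdec, Module.End.mul_apply, ← hSs, Module.End.mul_apply]
  rcases Nat.mod_two_eq_zero_or_one a with ha | ha <;>
    rcases Nat.mod_two_eq_zero_or_one k with hk | hk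
  · rw [ha, hk]
    simp only [pow_zero, one_mul, Module.End.one_apply]
    rw [re_inner_self]
    positivity
  · rw [ha, hk]
    simp only [pow_zero, one_mul, pow_one]
    exact h.pos_one_sub _
  · rw [ha, hk]
    simp only [pow_zero, mul_one, pow_one]
    exact h.pos _
  · rw [ha, hk]
    simp only [pow_one]
    exact h.pos_T_one_sub _

/-- telescoping bound: `J ⟪x, T^(a+1) (1-T)^(J-1) x⟫ ≤ ⟪x, T^a x⟫` -/
lemma telescope (h : IsRPT T) (a J : ℕ) (x : V) :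
    (J + 1 : ℝ) * (⟪x, (T ^ (a + 1) * (1 - T) ^ J) x⟫_ℂ).re ≤ (⟪x, (T ^ a) x⟫_ℂ).re := by
  -- c j := <x, T^(a+1) (1-T)^j x> is antitone and sum_{j ≤ J} c j = <x, T^a (1 - (1-T)^(J+1)) x>
  set c : ℕ → ℝ := fun j => (⟪x, (T ^ (a + 1) * (1 - T) ^ j) x⟫_ℂ).re with hcdef
  have hanti : ∀ j, c (j + 1) ≤ c j := by
    intro j
    have e : T ^ (a + 1) * (1 - T) ^ j - T ^ (a + 1) * (1 - T) ^ (j + 1)
        = T ^ (a + 2) * (1 - T) ^ j := by
      have : (1 - T) ^ j - (1 - T) ^ (j + 1) = T * (1 - T) ^ j := by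
        rw [pow_succ' (1 - T) j]; noncomm_ring
      rw [← mul_sub, this, ← mul_assoc, ← pow_succ]
    have h2 : c j - c (j + 1) = (⟪x, (T ^ (a + 2) * (1 - T) ^ j) x⟫_ℂ).re := by
      rw [← e, LinearMap.sub_apply, inner_sub_right, Complex.sub_re]
    have h3 := h.pos_mixed (a + 2) j x
    linarith
  have hanti' : Antitone c := antitone_nat_of_succ_le hanti
  have hsum : ∀ n : ℕ, ∑ j ∈ Finset.range n, c j
      = (⟪x, (T ^ a) x⟫_ℂ).re - (⟪x, (T ^ a * (1 - T) ^ n) x⟫_ℂ).re := by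
    intro n
    induction n with
    | zero => simp
    | succ n ih =>
      rw [Finset.sum_range_succ, ih]
      have e : T ^ a * (1 - T) ^ n - T ^ a * (1 - T) ^ (n + 1) = T ^ (a + 1) * (1 - T) ^ n := by
        have : (1 - T) ^ n - (1 - T) ^ (n + 1) = T * (1 - T) ^ n := by
          rw [pow_succ' (1 - T) n]; noncomm_ring
        rw [← mul_sub, this, ← mul_assoc, ← pow_succ]
      have h2 : (⟪x, (T ^ a * (1 - T) ^ n) x⟫_ℂ).re - (⟪x, (T ^ a * (1 - T) ^ (n + 1)) x⟫_ℂ).re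
          = c n := by
        rw [hcdef]
        simp only
        rw [← e, LinearMap.sub_apply, inner_sub_right, Complex.sub_re]
      linarith
  have h1 := hsum (J + 1)
  have h2 : (J + 1 : ℝ) * c J ≤ ∑ j ∈ Finset.range (J + 1), c j := by
    have : ∑ _j ∈ Finset.range (J + 1), c J ≤ ∑ j ∈ Finset.range (J + 1), c j :=
      Finset.sum_le_sum fun j hj => hanti' (Nat.lt_succ_iff.1 (Finset.mem_range.1 hj))
    simpa using this
  have h3 := h.pos_mixed a (J + 1) x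
  linarith

/-- the remainder `T (1-T)^p x` is small -/
lemma remainder (h : IsRPT T) (p : ℕ) (x : V) :
    ‖(T * (1 - T) ^ p) x‖ ≤ ‖x‖ / √(2 * p + 1) := by
  have hc : Commute T (1 - T) := comm_one_sub T
  have h1 : ‖(T * (1 - T) ^ p) x‖ ^ 2
      = (⟪x, (T ^ 2 * (1 - T) ^ (2 * p) : V →ₗ[ℂ] V) x⟫_ℂ).re := by
    have e : T ^ 2 * (1 - T) ^ (2 * p) = (1 - T) ^ p * (T * (T * (1 - T) ^ p)) := by
      have c1 := ((Commute.pow_right hc p)).eq
      calc T ^ 2 * (1 - T) ^ (2 * p) = T * (T * (1 - T) ^ p) * (1 - T) ^ p := by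
            rw [two_mul, pow_add, pow_two]; noncomm_ring
        _ = T * ((1 - T) ^ p * T) * (1 - T) ^ p := by rw [c1]
        _ = (T * (1 - T) ^ p) * (T * (1 - T) ^ p) := by noncomm_ring
        _ = ((1 - T) ^ p * T) * (T * (1 - T) ^ p) := by rw [c1]
        _ = (1 - T) ^ p * (T * (T * (1 - T) ^ p)) := by noncomm_ring
    rw [← re_inner_self, e]
    have e3 : ((1 - T) ^ p * (T * (T * (1 - T) ^ p))) x
        = ((1 - T) ^ p) (T ((T * (1 - T) ^ p) x)) := rfl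
    rw [e3, ← h.symm_one_sub_pow, ← h.symm]
    rfl
  have h2 := h.telescope 1 (2 * p) x
  have h3 : (⟪x, (T ^ 1) x⟫_ℂ).re ≤ ‖x‖ ^ 2 := by
    rw [pow_one]; exact h.inner_T_le x
  have h4 : ‖(T * (1 - T) ^ p) x‖ ^ 2 ≤ ‖x‖ ^ 2 / (2 * p + 1) := by
    rw [h1, le_div_iff₀ (by positivity)]
    push_cast at h2
    linarith
  have h5 : ‖x‖ ^ 2 / (2 * p + 1) = (‖x‖ / √(2 * p + 1)) ^ 2 := by
    rw [div_pow, Real.sq_sqrt (by positivity)]
  rw [h5] at h4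
  exact (abs_le_of_sq_le_sq' h4 (by positivity)).2

/-- binomial identity `u = ∑_{j=1}^p (-1)^{j+1} C(p,j) u^{j+1} + u (1-u)^p` -/
lemma binomial (T : V →ₗ[ℂ] V) (p : ℕ) :
    T = (∑ j ∈ Finset.range p, ((-1 : ℂ) ^ j * (p.choose (j + 1) : ℂ)) • T ^ (j + 2))
      + T * (1 - T) ^ p := by
  have h1 : (1 - T) ^ p = ∑ m ∈ Finset.range (p + 1), ((-1 : ℂ) ^ m * (p.choose m : ℂ)) • T ^ m := by
    have e : (1 - T) = (-T) + 1 := by abel
    rw [e, (Commute.one_right (-T)).add_pow]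
    refine Finset.sum_congr rfl fun m _ => ?_
    rw [one_pow, mul_one, neg_pow, ← nsmul_eq_mul', mul_smul, ← Nat.cast_smul_eq_nsmul ℂ,
      smul_comm]
    congr 1
    rcases Nat.even_or_odd m with hm | hm
    · simp [hm.neg_one_pow]
    · simp [hm.neg_one_pow]
  rw [h1, Finset.sum_range_succ', mul_add, Finset.mul_sum]
  simp only [pow_zero, Nat.choose_zero_right, Nat.cast_one, mul_one, one_smul]
  rw [← add_assoc, ← Finset.sum_add_distrib]
  have : ∀ j ∈ Finset.range p, ((-1 : ℂ) ^ j * (p.choose (j + 1) : ℂ)) • T ^ (j + 2)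
      + T * (((-1 : ℂ) ^ (j + 1) * (p.choose (j + 1) : ℂ)) • T ^ (j + 1)) = 0 := by
    intro j _
    rw [mul_smul_comm, ← pow_succ', ← add_smul]
    have : (-1 : ℂ) ^ j * (p.choose (j + 1) : ℂ) + (-1 : ℂ) ^ (j + 1) * (p.choose (j + 1) : ℂ) = 0 := by
      ring
    rw [this, zero_smul]
  rw [Finset.sum_eq_zero this, zero_add]

/-- **Propagation inequality.** -/
theorem propagation (h : IsRPT T) (p : ℕ) (A B : V) :
    ‖⟪A, T B⟫_ℂ‖ ≤ (∑ j ∈ Finset.range p, (p.choose (j + 1) : ℝ) * ‖⟪A, (T ^ (j + 2)) B⟫_ℂ‖)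
      + ‖A‖ * ‖B‖ / √(2 * p + 1) := by
  have hb := binomial T p
  have h1 : ⟪A, T B⟫_ℂ = (∑ j ∈ Finset.range p,
      ((-1 : ℂ) ^ j * (p.choose (j + 1) : ℂ)) * ⟪A, (T ^ (j + 2)) B⟫_ℂ)
      + ⟪A, (T * (1 - T) ^ p) B⟫_ℂ := by
    conv_lhs => rw [hb]
    rw [LinearMap.add_apply, inner_add_right, LinearMap.sum_apply, inner_sum]
    congr 1
    refine Finset.sum_congr rfl fun j _ => ?_
    rw [LinearMap.smul_apply, inner_smul_right]
  rw [h1]
  refine (norm_add_le _ _).trans (add_le_add ?_ ?_)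
  · refine (norm_sum_le _ _).trans (Finset.sum_le_sum fun j _ => ?_)
    rw [norm_mul, norm_mul, norm_pow, norm_neg, norm_one, one_pow, one_mul]
    simp
  · refine (norm_inner_le_norm _ _).trans ?_
    rw [mul_div_assoc]
    gcongr
    exact h.remainder p B

/-- Propagation with `n`-step translations. -/
theorem propagation_pow (h : IsRPT T) (n p : ℕ) (A B : V) :
    ‖⟪A, (T ^ n) B⟫_ℂ‖ ≤ (∑ j ∈ Finset.range p, (p.choose (j + 1) : ℝ) *
        ‖⟪A, (T ^ (n * (j + 2))) B⟫_ℂ‖) + ‖A‖ * ‖B‖ / √(2 * p + 1) := by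
  simpa only [← pow_mul] using (h.pow n).propagation p A B

end IsRPT

end Crest.Agent.R161.RP695
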