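import Crest.Agent.R161.Ray_369
import Crest.Agent.R161.RP_695
import Mathlib.Algebra.Polynomial.AlgebraMap
import Mathlib.Algebra.Polynomial.Eval.Degree
import Mathlib.Data.Nat.Factorial.BigOperators

/-!
From a reflection positive translation (`IsRPT`, helper695) to the polynomial bound
`PolyBound (k ↦ ⟪A, T^k B⟫) (‖A‖ ‖B‖)` used by the Ray lemma.  The proof is Bernstein's:
a polynomial nonnegative on `[0,1]` is, up to a constant `O(1/n)`, a nonnegative combination of
`x^k (1-x)^(n-k)`.
-/

set_option autoImplicit false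

open Polynomial Filter Topology
open scoped InnerProductSpace

namespace Crest.Agent.R161.OS369

open Crest.Agent.R161.Ray369 Crest.Agent.R161.RP695

/-! ### Bernstein estimate -/

/-- `k(k-1)⋯(k-j+1) / (n(n-1)⋯(n-j+1))` is close to `(k/n)^j`. -/
theorem ratio_est {d n k : ℕ} (hn : 2 * d + 1 ≤ n) (hk : k ≤ n) :
    ∀ j ≤ d, |((k.descFactorial j : ℝ) / (n.descFactorial j : ℝ)) - ((k : ℝ) / n) ^ j| ≤
      (j : ℝ) * (2 * d / n) := by
  have hn0 : (0 : ℝ) < n := by
    have : 0 < n := by omega
    exact_mod_cast this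
  intro j
  induction j with
  | zero => intro _; simp
  | succ j ih =>
    intro hj
    have hj' := ih (by omega)
    have hnj : (0 : ℝ) < (n : ℝ) - j := by
      have : (j : ℝ) < n := by
        have : j < n := by omega
        exact_mod_cast this
      linarith
    have hnj2 : ((n - j : ℕ) : ℝ) = (n : ℝ) - j := by
      rw [Nat.cast_sub (by omega)]
    set a : ℝ := ((k - j : ℕ) : ℝ) / ((n - j : ℕ) : ℝ) with ha
    set b : ℝ := (k : ℝ) / n with hb
    have ha0 : 0 ≤ a := by positivity
    have ha1 : a ≤ 1 := by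
      rw [ha, div_le_one (by rw [hnj2]; exact hnj)]
      exact_mod_cast Nat.sub_le_sub_right hk j
    have hb0 : 0 ≤ b := by positivity
    have hb1 : b ≤ 1 := by
      rw [hb, div_le_one hn0]
      exact_mod_cast hk
    have hab : |a - b| ≤ 2 * d / n := by
      by_cases hkj : j ≤ k
      · have hkj2 : ((k - j : ℕ) : ℝ) = (k : ℝ) - j := by
          rw [Nat.cast_sub hkj]
        have h1 : b - a = (j : ℝ) * ((n : ℝ) - k) / (n * ((n : ℝ) - j)) := by
          rw [ha, hb, hnj2, hkj2]
          field_simp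
          ring
        have h2 : 0 ≤ b - a := by
          rw [h1]
          have : (k : ℝ) ≤ n := by exact_mod_cast hk
          have : 0 ≤ (n : ℝ) - k := by linarith
          positivity
        rw [abs_sub_comm, abs_of_nonneg h2, h1]
        rw [div_le_div_iff₀ (by positivity) hn0]
        have h3 : (j : ℝ) ≤ d := by exact_mod_cast (by omega : j ≤ d)
        have h4 : (2 * d + 1 : ℝ) ≤ n := by exact_mod_cast hn
        have h5 : (k : ℝ) ≤ n := by exact_mod_cast hk
        have h6 : (0 : ℝ) ≤ k := by positivity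
        have h7 : (0 : ℝ) ≤ j := by positivity
        -- j (n-k) n ≤ 2 d n (n - j)
        have h8 : (n : ℝ) ≤ 2 * ((n : ℝ) - j) := by linarith
        calc (j : ℝ) * ((n : ℝ) - k) * n ≤ d * n * (2 * ((n : ℝ) - j)) := by
              apply mul_le_mul _ h8 hn0.le (by positivity)
              apply mul_le_mul h3 (by linarith) (by linarith) (by positivity)
          _ = 2 * d * (n * ((n : ℝ) - j)) := by ring
      · have h1 : a = 0 := by
          rw [ha, Nat.sub_eq_zero_of_le (by omega)]
          simp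
        rw [h1, zero_sub, abs_neg, abs_of_nonneg hb0, hb]
        gcongr
        have : k ≤ 2 * d := by omega
        exact_mod_cast this
    have hr0 : (0 : ℝ) ≤ (k.descFactorial j : ℝ) / (n.descFactorial j : ℝ) := by positivity
    have e1 : ((k.descFactorial (j + 1) : ℝ) / (n.descFactorial (j + 1) : ℝ)) =
        a * ((k.descFactorial j : ℝ) / (n.descFactorial j : ℝ)) := by
      rw [Nat.descFactorial_succ, Nat.descFactorial_succ, ha]
      push_cast
      rw [mul_div_mul_comm]
    rw [e1, pow_succ]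
    calc |a * ((k.descFactorial j : ℝ) / (n.descFactorial j : ℝ)) - b ^ j * b|
        = |a * (((k.descFactorial j : ℝ) / (n.descFactorial j : ℝ)) - b ^ j) +
            b ^ j * (a - b)| := by congr 1; ring
      _ ≤ |a * (((k.descFactorial j : ℝ) / (n.descFactorial j : ℝ)) - b ^ j)| +
            |b ^ j * (a - b)| := abs_add_le _ _
      _ = a * |((k.descFactorial j : ℝ) / (n.descFactorial j : ℝ)) - b ^ j| +
            b ^ j * |a - b| := by
          rw [abs_mul, abs_mul, abs_of_nonneg ha0, abs_of_nonneg (by positivity : 0 ≤ b ^ j)]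
      _ ≤ 1 * ((j : ℝ) * (2 * d / n)) + 1 * (2 * d / n) := by
          gcongr
          exact pow_le_one₀ hb0 hb1
      _ = ((j + 1 : ℕ) : ℝ) * (2 * d / n) := by push_cast; ring

/-- the Bernstein expansion of `X ^ j` in degree `n`. -/
theorem X_pow_bernstein {n j : ℕ} (hj : j ≤ n) :
    (X : ℝ[X]) ^ j = ∑ k ∈ Finset.range (n + 1),
      Polynomial.C ((n.choose k : ℝ) * ((k.descFactorial j : ℝ) / (n.descFactorial j : ℝ))) *
        (X ^ k * (1 - X) ^ (n - k)) := by
  have h1 : (X : ℝ[X]) ^ j = X ^ j * (X + (1 - X)) ^ (n - j) := by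
    rw [add_sub_cancel, one_pow, mul_one]
  have h2 : ∀ k ∈ Finset.range (n + 1), k ∉ (Finset.range (n - j + 1)).map (addLeftEmbedding j) →
      Polynomial.C ((n.choose k : ℝ) * ((k.descFactorial j : ℝ) / (n.descFactorial j : ℝ))) *
        ((X : ℝ[X]) ^ k * (1 - X) ^ (n - k)) = 0 := by
    intro k hk hk2
    have : k < j := by
      by_contra hcon
      push Not at hcon
      apply hk2
      rw [Finset.mem_map]
      refine ⟨k - j, ?_, ?_⟩
      · rw [Finset.mem_range] at hk ⊢
        omega
      · simp only [addLeftEmbedding_apply]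
        omega
    rw [Nat.descFactorial_of_lt this]
    simp
  conv_lhs => rw [h1, add_pow, Finset.mul_sum]
  rw [← Finset.sum_subset (s₁ := (Finset.range (n - j + 1)).map (addLeftEmbedding j)) _ h2]
  · rw [Finset.sum_map]
    refine Finset.sum_congr rfl fun i hi => ?_
    have hi' : i ≤ n - j := Nat.lt_succ_iff.1 (Finset.mem_range.1 hi)
    simp only [addLeftEmbedding_apply]
    have e1 : n - j - i = n - (j + i) := by omega
    -- coefficient identity
    have e2 : ((n.choose (j + i) : ℝ) * (((j + i).descFactorial j : ℝ) /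
        (n.descFactorial j : ℝ))) = ((n - j).choose i : ℝ) := by
      have hpos : (0 : ℝ) < (n.descFactorial j : ℝ) := by
        exact_mod_cast Nat.descFactorial_pos.2 hj
      rw [mul_div_assoc', div_eq_iff hpos.ne']
      have h3 : n.choose (j + i) * (j + i).choose j = n.choose j * (n - j).choose i := by
        have := Nat.choose_mul (n := n) (k := j + i) (s := j) (by omega)
        simpa using this
      have h4 : (j + i).descFactorial j = j.factorial * (j + i).choose j :=
        Nat.descFactorial_eq_factorial_mul_choose _ _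
      have h5 : n.descFactorial j = j.factorial * n.choose j :=
        Nat.descFactorial_eq_factorial_mul_choose _ _
      rw [h4, h5]
      have h6 : ((n.choose (j + i) : ℝ) * ((j + i).choose j : ℝ)) =
          (n.choose j : ℝ) * ((n - j).choose i : ℝ) := by exact_mod_cast h3
      push_cast
      calc (n.choose (j + i) : ℝ) * ((j.factorial : ℝ) * ((j + i).choose j : ℝ))
          = (j.factorial : ℝ) * ((n.choose (j + i) : ℝ) * ((j + i).choose j : ℝ)) := by ring
        _ = (j.factorial : ℝ) * ((n.choose j : ℝ) * ((n - j).choose i : ℝ)) := by rw [h6]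
        _ = _ := by ring
    rw [e2, e1, pow_add]
    simp only [map_natCast]
    ring
  · intro k hk
    rw [Finset.mem_map] at hk
    obtain ⟨i, hi, rfl⟩ := hk
    rw [Finset.mem_range] at hi ⊢
    simp only [addLeftEmbedding_apply]
    omega

/-- **Bernstein positivity.** A linear functional nonnegative on all `X^a (1-X)^k` is nonnegative
on all polynomials that are nonnegative on `[0,1]`. -/
theorem bernstein_pos (L : ℝ[X] →ₗ[ℝ] ℝ) (hL : ∀ a k : ℕ, 0 ≤ L (X ^ a * (1 - X) ^ k))
    (q : ℝ[X]) (hq : ∀ x ∈ Set.Icc (0 : ℝ) 1, 0 ≤ q.eval x) : 0 ≤ L q := by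
  classical
  set d := q.natDegree with hd
  set K : ℝ := (∑ j ∈ Finset.range (d + 1), |q.coeff j| * (j * (2 * d))) * L 1 with hK
  have hL1 : 0 ≤ L 1 := by simpa using hL 0 0
  have key : ∀ n : ℕ, 2 * d + 1 ≤ n → -(K * (1 / (n : ℝ))) ≤ L q := by
    intro n hn
    have hn0 : (0 : ℝ) < n := by
      have : 0 < n := by omega
      exact_mod_cast this
    have hexp : q = ∑ k ∈ Finset.range (n + 1),
        Polynomial.C ((n.choose k : ℝ) * ∑ j ∈ Finset.range (d + 1), q.coeff j *
          ((k.descFactorial j : ℝ) / (n.descFactorial j : ℝ))) * (X ^ k * (1 - X) ^ (n - k)) := by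
      conv_lhs => rw [q.as_sum_range_C_mul_X_pow]
      rw [← hd]
      have : ∀ j ∈ Finset.range (d + 1), Polynomial.C (q.coeff j) * (X : ℝ[X]) ^ j =
          ∑ k ∈ Finset.range (n + 1), Polynomial.C (q.coeff j * ((n.choose k : ℝ) *
            ((k.descFactorial j : ℝ) / (n.descFactorial j : ℝ)))) * (X ^ k * (1 - X) ^ (n - k)) := by
        intro j hj
        have hj' : j ≤ n := by
          have := Finset.mem_range.1 hj
          omega
        conv_lhs => rw [X_pow_bernstein hj', Finset.mul_sum]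
        refine Finset.sum_congr rfl fun k _ => ?_
        rw [← mul_assoc, ← Polynomial.C_mul]
      rw [Finset.sum_congr rfl this, Finset.sum_comm]
      refine Finset.sum_congr rfl fun k _ => ?_
      rw [← Finset.sum_mul, ← map_sum]
      congr 2
      rw [Finset.mul_sum]
      exact Finset.sum_congr rfl fun j _ => by ring
    have hLq : L q = ∑ k ∈ Finset.range (n + 1),
        ((n.choose k : ℝ) * ∑ j ∈ Finset.range (d + 1), q.coeff j *
          ((k.descFactorial j : ℝ) / (n.descFactorial j : ℝ))) * L (X ^ k * (1 - X) ^ (n - k)) := by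
      conv_lhs => rw [hexp]
      rw [map_sum]
      refine Finset.sum_congr rfl fun k _ => ?_
      rw [← Polynomial.smul_eq_C_mul, map_smul, smul_eq_mul]
    have hL1' : L 1 = ∑ k ∈ Finset.range (n + 1), (n.choose k : ℝ) *
        L (X ^ k * (1 - X) ^ (n - k)) := by
      have h1 := X_pow_bernstein (n := n) (j := 0) (Nat.zero_le _)
      rw [pow_zero] at h1
      conv_lhs => rw [h1]
      rw [map_sum]
      refine Finset.sum_congr rfl fun k _ => ?_
      rw [← Polynomial.smul_eq_C_mul, map_smul, smul_eq_mul]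
      simp
    have hcoef : ∀ k ∈ Finset.range (n + 1),
        -(∑ j ∈ Finset.range (d + 1), |q.coeff j| * (j * (2 * d))) * (1 / (n : ℝ)) ≤
          ∑ j ∈ Finset.range (d + 1), q.coeff j *
            ((k.descFactorial j : ℝ) / (n.descFactorial j : ℝ)) := by
      intro k hk
      have hkn : k ≤ n := Nat.lt_succ_iff.1 (Finset.mem_range.1 hk)
      have hx : (k : ℝ) / n ∈ Set.Icc (0 : ℝ) 1 := by
        refine ⟨by positivity, ?_⟩
        rw [div_le_one hn0]
        exact_mod_cast hkn
      have h1 : 0 ≤ ∑ j ∈ Finset.range (d + 1), q.coeff j * ((k : ℝ) / n) ^ j := by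
        have := hq _ hx
        rwa [eval_eq_sum_range] at this
      have h2 : ∑ j ∈ Finset.range (d + 1), q.coeff j * ((k : ℝ) / n) ^ j -
          ∑ j ∈ Finset.range (d + 1), q.coeff j *
            ((k.descFactorial j : ℝ) / (n.descFactorial j : ℝ)) ≤
          ∑ j ∈ Finset.range (d + 1), |q.coeff j| * (j * (2 * d / n)) := by
        rw [← Finset.sum_sub_distrib]
        refine Finset.sum_le_sum fun j hj => ?_
        rw [← mul_sub]
        have h3 := ratio_est hn hkn j (Nat.lt_succ_iff.1 (Finset.mem_range.1 hj))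
        rw [abs_sub_comm] at h3
        calc q.coeff j * (((k : ℝ) / n) ^ j - (k.descFactorial j : ℝ) / (n.descFactorial j : ℝ))
            ≤ |q.coeff j * (((k : ℝ) / n) ^ j -
                (k.descFactorial j : ℝ) / (n.descFactorial j : ℝ))| := le_abs_self _
          _ = |q.coeff j| * |((k : ℝ) / n) ^ j -
                (k.descFactorial j : ℝ) / (n.descFactorial j : ℝ)| := abs_mul _ _
          _ ≤ _ := by gcongr
      have h4 : (∑ j ∈ Finset.range (d + 1), |q.coeff j| * (j * (2 * d))) * (1 / (n : ℝ)) =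
          ∑ j ∈ Finset.range (d + 1), |q.coeff j| * (j * (2 * d / n)) := by
        rw [Finset.sum_mul]
        exact Finset.sum_congr rfl fun j _ => by ring
      rw [neg_mul, h4]
      linarith
    rw [hLq, hK, hL1']
    rw [Finset.mul_sum, Finset.sum_mul, ← Finset.sum_neg_distrib]
    refine Finset.sum_le_sum fun k hk => ?_
    have h5 := hcoef k hk
    have h6 := hL k (n - k)
    calc -((∑ j ∈ Finset.range (d + 1), |q.coeff j| * (j * (2 * d))) *
          ((n.choose k : ℝ) * L (X ^ k * (1 - X) ^ (n - k))) * (1 / (n : ℝ)))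
        = ((n.choose k : ℝ) * (-(∑ j ∈ Finset.range (d + 1), |q.coeff j| * (j * (2 * d))) *
            (1 / (n : ℝ)))) * L (X ^ k * (1 - X) ^ (n - k)) := by ring
      _ ≤ _ := by gcongr
  have hlim : Tendsto (fun n : ℕ => -(K * (1 / (n : ℝ)))) atTop (𝓝 (-(K * 0))) :=
    (tendsto_one_div_atTop_nhds_zero_nat.const_mul K).neg
  rw [mul_zero, neg_zero] at hlim
  exact le_of_tendsto hlim (eventually_atTop.2 ⟨2 * d + 1, fun n hn => key n hn⟩)

/-! ### The polynomial bound for RP translations -/

section RPT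

variable {V : Type*} [SeminormedAddCommGroup V] [InnerProductSpace ℂ V] {T : V →ₗ[ℂ] V}

/-- evaluation of a real polynomial at `T` -/
noncomputable def ev (T : V →ₗ[ℂ] V) (q : ℝ[X]) : V →ₗ[ℂ] V :=
  Polynomial.aeval T (q.map (algebraMap ℝ ℂ))

theorem ev_add (q r : ℝ[X]) : ev T (q + r) = ev T q + ev T r := by
  simp [ev, Polynomial.map_add]

theorem ev_mul (q r : ℝ[X]) : ev T (q * r) = ev T q * ev T r := by
  simp [ev, Polynomial.map_mul]

theorem ev_smul (a : ℝ) (q : ℝ[X]) : ev T (a • q) = (a : ℂ) • ev T q := by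
  simp only [ev, Polynomial.smul_eq_C_mul, Polynomial.map_mul, Polynomial.map_C, map_mul,
    Polynomial.aeval_C]
  rw [Algebra.algebraMap_eq_smul_one, smul_mul_assoc, one_mul]
  rfl

theorem ev_X_pow (a : ℕ) : ev T (X ^ a) = T ^ a := by
  simp [ev]

theorem ev_mixed (a k : ℕ) : ev T (X ^ a * (1 - X) ^ k) = T ^ a * (1 - T) ^ k := by
  simp [ev]

theorem ev_one : ev T 1 = 1 := by simp [ev]

theorem ev_symm (h : IsRPT T) (q : ℝ[X]) (x y : V) : ⟪ev T q x, y⟫_ℂ = ⟪x, ev T q y⟫_ℂ := by
  induction q using Polynomial.induction_on' with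
  | add p q hp hq =>
    rw [ev_add, LinearMap.add_apply, LinearMap.add_apply, inner_add_left, inner_add_right, hp, hq]
  | monomial n a =>
    have : (Polynomial.monomial n a : ℝ[X]) = a • X ^ n := by
      rw [Polynomial.smul_eq_C_mul, Polynomial.C_mul_X_pow_eq_monomial]
    rw [this, ev_smul, ev_X_pow, LinearMap.smul_apply, LinearMap.smul_apply, inner_smul_left,
      inner_smul_right, h.pow_symm, Complex.conj_ofReal]

/-- the functional `q ↦ Re ⟪x, q(T) x⟫`. -/
noncomputable def Lx (T : V →ₗ[ℂ] V) (x : V) : ℝ[X] →ₗ[ℝ] ℝ where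
  toFun q := (⟪x, ev T q x⟫_ℂ).re
  map_add' q r := by rw [ev_add, LinearMap.add_apply, inner_add_right, Complex.add_re]
  map_smul' a q := by
    rw [ev_smul, LinearMap.smul_apply, inner_smul_right, Complex.re_ofReal_mul]
    rfl

theorem ev_pos (h : IsRPT T) (x : V) (q : ℝ[X]) (hq : ∀ y ∈ Set.Icc (0 : ℝ) 1, 0 ≤ q.eval y) :
    0 ≤ (⟪x, ev T q x⟫_ℂ).re :=
  bernstein_pos (Lx T x) (fun a k => by
    change 0 ≤ (⟪x, ev T (X ^ a * (1 - X) ^ k) x⟫_ℂ).re
    rw [ev_mixed]
    exact h.pos_mixed a k x) q hq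

theorem norm_ev_le (h : IsRPT T) (x : V) (p : ℝ[X]) (B : ℝ)
    (hp : ∀ y ∈ Set.Icc (0 : ℝ) 1, |p.eval y| ≤ B) : ‖ev T p x‖ ≤ B * ‖x‖ := by
  have hB : 0 ≤ B := (abs_nonneg _).trans (hp 0 ⟨le_refl _, zero_le_one⟩)
  have h1 := ev_pos h x ((B ^ 2) • (1 : ℝ[X]) + (-1 : ℝ) • (p * p)) (fun y hy => by
    have := hp y hy
    simp only [eval_add, eval_smul, eval_one, smul_eq_mul, mul_one, eval_mul, neg_mul, one_mul]
    have h2 : p.eval y * p.eval y = |p.eval y| ^ 2 := by rw [sq_abs]; ring
    rw [h2]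
    have h3 : |p.eval y| ^ 2 ≤ B ^ 2 := by gcongr
    linarith)
  have h2 : (⟪x, ev T ((B ^ 2) • (1 : ℝ[X]) + (-1 : ℝ) • (p * p)) x⟫_ℂ).re =
      B ^ 2 * ‖x‖ ^ 2 - ‖ev T p x‖ ^ 2 := by
    rw [ev_add, ev_smul, ev_smul, ev_one, ev_mul, LinearMap.add_apply, LinearMap.smul_apply,
      LinearMap.smul_apply, inner_add_right, inner_smul_right, inner_smul_right,
      Module.End.one_apply, Module.End.mul_apply, ← ev_symm h, Complex.add_re,
      Complex.re_ofReal_mul, Complex.re_ofReal_mul, re_inner_self, re_inner_self]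
    ring
  rw [h2] at h1
  have h3 : ‖ev T p x‖ ^ 2 ≤ (B * ‖x‖) ^ 2 := by rw [mul_pow]; linarith
  exact (abs_le_of_sq_le_sq' h3 (by positivity)).2

/-- **Reflection positive translations satisfy the polynomial bound.** -/
theorem polyBound (h : IsRPT T) (x y : V) :
    PolyBound (fun k => ⟪x, (T ^ k) y⟫_ℂ) (‖x‖ * ‖y‖) := by
  intro s c B hB
  set p : ℝ[X] := ∑ k ∈ s, c k • X ^ k with hp
  have h1 : ev T p = ∑ k ∈ s, (c k : ℂ) • T ^ k := by
    rw [hp]
    clear_value p
    clear hp hB
    classical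
    induction s using Finset.induction_on with
    | empty => simp [ev]
    | insert i s hi ih =>
      rw [Finset.sum_insert hi, Finset.sum_insert hi, ev_add, ih, ev_smul, ev_X_pow]
  have h2 : ∑ k ∈ s, (c k : ℂ) * ⟪x, (T ^ k) y⟫_ℂ = ⟪x, ev T p y⟫_ℂ := by
    rw [h1, LinearMap.sum_apply, inner_sum]
    exact Finset.sum_congr rfl fun k _ => by rw [LinearMap.smul_apply, inner_smul_right]
  rw [h2]
  have h3 := norm_ev_le h y p B (fun u hu => by
    have := hB u hu
    rw [hp]
    simpa [eval_finsetSum] using this)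
  calc ‖⟪x, ev T p y⟫_ℂ‖ ≤ ‖x‖ * ‖ev T p y‖ := norm_inner_le_norm _ _
    _ ≤ ‖x‖ * (B * ‖y‖) := by gcongr
    _ = ‖x‖ * ‖y‖ * B := by ring

end RPT

end Crest.Agent.R161.OS369
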