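import Crest.Agent.R161.Ray_369

/-!
Peeling (STEP 6), abstract form.

Three rigid groups `0 = R` (right), `1 = U` (up), `2 = D` (down) of functionals around a static
part (`3`, containing the observable `O` and the left-middle part of the ring).  `c n z` is the
correlation at stage `n` (mesh `δ n`) when the groups are displaced by `z : Fin 3 → ℤ × ℤ`.
Hypotheses: whenever a group is extremal in one of the eight directions `e`, moving it along `e`
gives a sequence with the polynomial bound; when the three groups are all far left, `c` is small.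
Conclusion: `c n 0 → 0`.
-/

set_option autoImplicit false

open Filter Topology

namespace Crest.Agent.R161.Peel369

open Crest.Agent.R161.Ray369

/-- integer scalar product -/
def dot (e z : ℤ × ℤ) : ℤ := e.1 * z.1 + e.2 * z.2

/-- the eight directions -/
def Dir8 : Set (ℤ × ℤ) := {e | e ≠ 0 ∧ |e.1| ≤ 1 ∧ |e.2| ≤ 1}

/-- displaced position of a group (the static group `3` does not move) -/
def pos4 (z : Fin 3 → ℤ × ℤ) (Y : Fin 4) : ℤ × ℤ :=
  if h : (Y : ℕ) < 3 then z ⟨Y, h⟩ else 0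

/-- real positions -/
def pos4R (u : Fin 3 → ℝ × ℝ) (Y : Fin 4) : ℝ × ℝ :=
  if h : (Y : ℕ) < 3 then u ⟨Y, h⟩ else 0

def dotR (e : ℤ × ℤ) (u : ℝ × ℝ) : ℝ := e.1 * u.1 + e.2 * u.2

/-- Data of a peeling problem. -/
structure PeelData where
  c : ℕ → (Fin 3 → ℤ × ℤ) → ℂ
  δ : ℕ → ℝ
  δpos : ∀ n, 0 < δ n
  δlim : Tendsto δ atTop (𝓝 0)
  C : ℝ
  /-- lattice margin -/
  κ : ℤ
  κ0 : 0 ≤ κ
  /-- `hi n Y e`: upper bound of `e · p` on the support of group `Y` at home -/
  hi : ℕ → Fin 4 → ℤ × ℤ → ℤ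
  /-- lower bound of the first coordinate on the support of `O` -/
  loO : ℕ → ℤ
  L : ℝ
  Lpos : 0 < L
  g : ℝ
  gpos : 0 < g
  hi_le : ∀ n Y, ∀ e ∈ Dir8, (hi n Y e : ℝ) * δ n ≤ L * (|(e.1 : ℝ)| + |(e.2 : ℝ)|)
  loO_ge : ∀ n, -L ≤ (loO n : ℝ) * δ n
  /-- `D` is below the static part -/
  home_D : ∀ n, (hi n 3 (0, -1) : ℝ) * δ n + g ≤ -(hi n 2 (0, 1) : ℝ) * δ n
  /-- `U` is above the static part and above `D` -/
  home_U : ∀ n, ∀ Y : Fin 4, Y = 2 ∨ Y = 3 →
    (hi n Y (0, 1) : ℝ) * δ n + g ≤ -(hi n 1 (0, -1) : ℝ) * δ n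
  /-- `R` is to the right of everything -/
  home_R : ∀ n, ∀ Y : Fin 4, Y ≠ 0 → (hi n Y (1, 0) : ℝ) * δ n + g ≤ -(hi n 0 (-1, 0) : ℝ) * δ n
  pb : ∀ n, ∀ e ∈ Dir8, ∀ (X : Fin 3) (z : Fin 3 → ℤ × ℤ),
    (∀ Y : Fin 4, Y ≠ X.castSucc →
      hi n Y e + dot e (pos4 z Y) + κ ≤ -hi n X.castSucc (-e) + dot e (z X)) →
    PolyBound (fun k : ℕ => c n (Function.update z X (z X + (k : ℤ) • e))) C
  ε : ℕ → ℝ
  εlim : Tendsto ε atTop (𝓝 0)
  base : ∀ n z, (∀ X : Fin 3, hi n X.castSucc (1, 0) + (z X).1 + κ ≤ loO n) → ‖c n z‖ ≤ ε n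

namespace PeelData

variable (P : PeelData)

/-- `N u`: the correlation tends to `0` for all sequences of displacements converging to `u`. -/
def N (u : Fin 3 → ℝ × ℝ) : Prop :=
  ∀ z : ℕ → Fin 3 → ℤ × ℤ,
    (∀ X, Tendsto (fun n => P.δ n * ((z n X).1 : ℝ)) atTop (𝓝 (u X).1) ∧
      Tendsto (fun n => P.δ n * ((z n X).2 : ℝ)) atTop (𝓝 (u X).2)) →
    Tendsto (fun n => P.c n (z n)) atTop (𝓝 0)

/-- macroscopic extremality with margin `η`, uniformly in `n`: at real positions `u`, group `X` is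
extremal in the direction `e` -/
def Ext (u : Fin 3 → ℝ × ℝ) (X : Fin 3) (e : ℤ × ℤ) (η : ℝ) : Prop :=
  ∀ n, ∀ Y : Fin 4, Y ≠ X.castSucc →
    (P.hi n Y e : ℝ) * P.δ n + dotR e (pos4R u Y) + η ≤
      -(P.hi n X.castSucc (-e) : ℝ) * P.δ n + dotR e (u X)

/-- far apart groups are extremal -/
theorem ext_of_far {u : Fin 3 → ℝ × ℝ} {X : Fin 3} {e : ℤ × ℤ} (he : e ∈ Dir8) {η : ℝ}
    (h : ∀ Y : Fin 4, Y ≠ X.castSucc →
      dotR e (pos4R u Y) + 2 * P.L * (|(e.1 : ℝ)| + |(e.2 : ℝ)|) + η ≤ dotR e (u X)) :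
    P.Ext u X e η := by
  intro n Y hY
  have h1 := P.hi_le n Y e he
  have he' : -e ∈ Dir8 := by
    obtain ⟨h1, h2, h3⟩ := he
    refine ⟨neg_ne_zero.2 h1, ?_, ?_⟩ <;> simpa using by assumption
  have h2 := P.hi_le n X.castSucc (-e) he'
  simp only [Prod.fst_neg, Prod.snd_neg, Int.cast_neg, abs_neg] at h2
  have h3 := h Y hY
  linarith

/-- one-dimensional propagation along a ray -/
theorem N_ray {u : Fin 3 → ℝ × ℝ} {X : Fin 3} {e : ℤ × ℤ} (he : e ∈ Dir8) {η : ℝ} (hη : 0 < η)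
    (hext : P.Ext u X e η) {a b : ℝ} (ha : 0 ≤ a) (hab : a < b)
    (hN : ∀ t ∈ Set.Ioo a b,
      P.N (Function.update u X ((u X).1 + t * e.1, (u X).2 + t * e.2))) :
    ∀ t : ℝ, 0 ≤ t → P.N (Function.update u X ((u X).1 + t * e.1, (u X).2 + t * e.2)) := by
  intro t ht z hz
  set s : ℝ := η / 4 with hs
  have hs0 : 0 < s := by positivity
  -- shifted base point
  set m : ℕ → ℕ := fun n => ⌊(t + s) / P.δ n⌋₊ with hm
  set w : ℕ → Fin 3 → ℤ × ℤ := fun n => Function.update (z n) X (z n X - (m n : ℤ) • e) with hw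
  have hwX : ∀ n, w n X = z n X - (m n : ℤ) • e := fun n => by simp [hw]
  have hwY : ∀ n Y, Y ≠ X → w n Y = z n Y := fun n Y hY => by simp [hw, hY]
  -- convergence of `δ m` to `t + s`
  have hfl : ∀ r : ℝ, 0 ≤ r → Tendsto (fun n => P.δ n * (⌊r / P.δ n⌋₊ : ℝ)) atTop (𝓝 r) := by
    intro r hr
    have h1 : Tendsto (fun n => r - P.δ n) atTop (𝓝 (r - 0)) := P.δlim.const_sub r
    rw [sub_zero] at h1
    refine tendsto_of_tendsto_of_tendsto_of_le_of_le h1 tendsto_const_nhds ?_ ?_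
    · intro n
      have hδ := P.δpos n
      have := Nat.lt_floor_add_one (r / P.δ n)
      rw [div_lt_iff₀ hδ] at this
      simp only
      nlinarith
    · intro n
      have hδ := P.δpos n
      have := Nat.floor_le (div_nonneg hr hδ.le)
      rw [le_div_iff₀ hδ] at this
      simp only
      nlinarith
  have hmlim : Tendsto (fun n => P.δ n * (m n : ℝ)) atTop (𝓝 (t + s)) := hfl _ (by positivity)
  have hδinv : ∀ᶠ n in atTop, P.δ n * (P.κ : ℝ) ≤ s := by
    have h1 : Tendsto (fun n => P.δ n * (P.κ : ℝ)) atTop (𝓝 (0 * (P.κ : ℝ))) :=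
      P.δlim.mul_const _
    rw [zero_mul] at h1
    exact h1.eventually (ge_mem_nhds hs0)
  -- polynomial bound along the ray
  have hpb : ∀ᶠ n in atTop, PolyBound
      (fun k : ℕ => P.c n (Function.update (w n) X (w n X + (k : ℤ) • e))) P.C := by
    have hx : ∀ Y : Fin 3, ∀ᶠ n in atTop,
        |P.δ n * ((z n Y).1 : ℝ) -
          ((Function.update u X ((u X).1 + t * e.1, (u X).2 + t * e.2)) Y).1| ≤ s / 8 ∧
        |P.δ n * ((z n Y).2 : ℝ) -
          ((Function.update u X ((u X).1 + t * e.1, (u X).2 + t * e.2)) Y).2| ≤ s / 8 := by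
      intro Y
      have h1 := (hz Y).1
      have h2 := (hz Y).2
      rw [tendsto_iff_norm_sub_tendsto_zero] at h1 h2
      filter_upwards [h1.eventually (ge_mem_nhds (by positivity : (0 : ℝ) < s / 8)),
        h2.eventually (ge_mem_nhds (by positivity : (0 : ℝ) < s / 8))] with n h3 h4
      exact ⟨h3, h4⟩
    have hmm : ∀ᶠ n in atTop, |P.δ n * (m n : ℝ) - (t + s)| ≤ s / 8 := by
      rw [tendsto_iff_norm_sub_tendsto_zero] at hmlim
      exact hmlim.eventually (ge_mem_nhds (by positivity))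
    filter_upwards [hx 0, hx 1, hx 2, hmm, hδinv] with n h0 h1 h2 hmn hκ
    have hall : ∀ Y : Fin 3, |P.δ n * ((z n Y).1 : ℝ) -
          ((Function.update u X ((u X).1 + t * e.1, (u X).2 + t * e.2)) Y).1| ≤ s / 8 ∧
        |P.δ n * ((z n Y).2 : ℝ) -
          ((Function.update u X ((u X).1 + t * e.1, (u X).2 + t * e.2)) Y).2| ≤ s / 8 := by
      intro Y
      fin_cases Y
      · exact h0
      · exact h1
      · exact h2
    refine P.pb n e he X (w n) fun Y hY => ?_
    have hδ := P.δpos n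
    have hE := hext n Y hY
    obtain ⟨-, he1, he2⟩ := he
    have he1' : |(e.1 : ℝ)| ≤ 1 := by exact_mod_cast he1
    have he2' : |(e.2 : ℝ)| ≤ 1 := by exact_mod_cast he2
    -- position of X
    have hX1 : |P.δ n * ((w n X).1 : ℝ) - ((u X).1 - s * e.1)| ≤ s / 4 := by
      have h3 := (hall X).1
      simp only [Function.update_self] at h3
      rw [hwX]
      simp only [Prod.fst_sub, Prod.smul_fst, smul_eq_mul, Int.cast_sub, Int.cast_mul,
        Int.cast_natCast]
      have h5 : |(P.δ n * (m n : ℝ) - (t + s)) * e.1| ≤ s / 8 := by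
        rw [abs_mul]
        calc |P.δ n * (m n : ℝ) - (t + s)| * |(e.1 : ℝ)| ≤ s / 8 * 1 := by gcongr
          _ = s / 8 := mul_one _
      calc |P.δ n * (((z n X).1 : ℝ) - (m n : ℝ) * e.1) - ((u X).1 - s * e.1)|
          = |(P.δ n * ((z n X).1 : ℝ) - ((u X).1 + t * e.1)) -
              (P.δ n * (m n : ℝ) - (t + s)) * e.1| := by congr 1; ring
        _ ≤ s / 8 + s / 8 := (abs_sub _ _).trans (add_le_add h3 h5)
        _ = s / 4 := by ring
    have hX2 : |P.δ n * ((w n X).2 : ℝ) - ((u X).2 - s * e.2)| ≤ s / 4 := by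
      have h3 := (hall X).2
      simp only [Function.update_self] at h3
      rw [hwX]
      simp only [Prod.snd_sub, Prod.smul_snd, smul_eq_mul, Int.cast_sub, Int.cast_mul,
        Int.cast_natCast]
      have h5 : |(P.δ n * (m n : ℝ) - (t + s)) * e.2| ≤ s / 8 := by
        rw [abs_mul]
        calc |P.δ n * (m n : ℝ) - (t + s)| * |(e.2 : ℝ)| ≤ s / 8 * 1 := by gcongr
          _ = s / 8 := mul_one _
      calc |P.δ n * (((z n X).2 : ℝ) - (m n : ℝ) * e.2) - ((u X).2 - s * e.2)|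
          = |(P.δ n * ((z n X).2 : ℝ) - ((u X).2 + t * e.2)) -
              (P.δ n * (m n : ℝ) - (t + s)) * e.2| := by congr 1; ring
        _ ≤ s / 8 + s / 8 := (abs_sub _ _).trans (add_le_add h3 h5)
        _ = s / 4 := by ring
    have hdX : dotR e (u X) - 2 * s - s / 2 ≤ P.δ n * (dot e (w n X) : ℝ) := by
      have e1 : P.δ n * (dot e (w n X) : ℝ) - (dotR e (u X) - s * (e.1 ^ 2 + e.2 ^ 2)) =
          e.1 * (P.δ n * ((w n X).1 : ℝ) - ((u X).1 - s * e.1)) +
          e.2 * (P.δ n * ((w n X).2 : ℝ) - ((u X).2 - s * e.2)) := by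
        simp only [dot, dotR]
        push_cast
        ring
      have e2 : |(e.1 : ℝ) * (P.δ n * ((w n X).1 : ℝ) - ((u X).1 - s * e.1)) +
          e.2 * (P.δ n * ((w n X).2 : ℝ) - ((u X).2 - s * e.2))| ≤ s / 2 := by
        refine (abs_add_le _ _).trans ?_
        rw [abs_mul, abs_mul]
        have h6 : |(e.1 : ℝ)| * |P.δ n * ((w n X).1 : ℝ) - ((u X).1 - s * e.1)| ≤ 1 * (s / 4) := by
          gcongr
        have h7 : |(e.2 : ℝ)| * |P.δ n * ((w n X).2 : ℝ) - ((u X).2 - s * e.2)| ≤ 1 * (s / 4) := by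
          gcongr
        linarith
      rw [← e1] at e2
      have h8 := (abs_le.1 e2).1
      have h9 : (e.1 : ℝ) ^ 2 ≤ 1 := by
        rw [← sq_abs]
        exact pow_le_one₀ (abs_nonneg _) he1'
      have h10 : (e.2 : ℝ) ^ 2 ≤ 1 := by
        rw [← sq_abs]
        exact pow_le_one₀ (abs_nonneg _) he2'
      nlinarith
    -- position of Y
    have hdY : P.δ n * (dot e (pos4 (w n) Y) : ℝ) ≤ dotR e (pos4R u Y) + s / 4 := by
      unfold pos4 pos4R
      by_cases hY3 : (Y : ℕ) < 3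
      · rw [dif_pos hY3, dif_pos hY3]
        have hne : (⟨Y, hY3⟩ : Fin 3) ≠ X := by
          intro h
          apply hY
          rw [← h]
          rfl
        rw [hwY n _ hne]
        have h3 := hall ⟨Y, hY3⟩
        simp only [Function.update_of_ne hne] at h3
        have e1 : P.δ n * (dot e (z n ⟨Y, hY3⟩) : ℝ) - dotR e (u ⟨Y, hY3⟩) =
            e.1 * (P.δ n * ((z n ⟨Y, hY3⟩).1 : ℝ) - (u ⟨Y, hY3⟩).1) +
            e.2 * (P.δ n * ((z n ⟨Y, hY3⟩).2 : ℝ) - (u ⟨Y, hY3⟩).2) := by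
          simp only [dot, dotR]
          push_cast
          ring
        have e2 : |(e.1 : ℝ) * (P.δ n * ((z n ⟨Y, hY3⟩).1 : ℝ) - (u ⟨Y, hY3⟩).1) +
            e.2 * (P.δ n * ((z n ⟨Y, hY3⟩).2 : ℝ) - (u ⟨Y, hY3⟩).2)| ≤ s / 4 := by
          refine (abs_add_le _ _).trans ?_
          rw [abs_mul, abs_mul]
          have h6 : |(e.1 : ℝ)| * |P.δ n * ((z n ⟨Y, hY3⟩).1 : ℝ) - (u ⟨Y, hY3⟩).1| ≤
              1 * (s / 8) := by
            gcongr
            exact h3.1
          have h7 : |(e.2 : ℝ)| * |P.δ n * ((z n ⟨Y, hY3⟩).2 : ℝ) - (u ⟨Y, hY3⟩).2| ≤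
              1 * (s / 8) := by
            gcongr
            exact h3.2
          linarith
        rw [← e1] at e2
        have h8 := (abs_le.1 e2).2
        linarith
      · rw [dif_neg hY3, dif_neg hY3]
        simp only [dot, dotR, Prod.fst_zero, Prod.snd_zero, mul_zero, add_zero, Int.cast_zero]
        linarith
    -- conclude
    have hfin : ((P.hi n Y e + dot e (pos4 (w n) Y) + P.κ : ℤ) : ℝ) * P.δ n ≤
        ((-P.hi n X.castSucc (-e) + dot e (w n X) : ℤ) : ℝ) * P.δ n := by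
      push_cast
      nlinarith
    have := le_of_mul_le_mul_right hfin hδ
    exact_mod_cast this
  -- smallness on the interval
  have hsmall : ∀ r ∈ Set.Ioo (a + s) (b + s), Tendsto (fun n =>
      P.c n (Function.update (w n) X (w n X + ((⌊r / P.δ n⌋₊ : ℕ) : ℤ) • e))) atTop (𝓝 0) := by
    intro r hr
    have hr0 : 0 ≤ r := by linarith [hr.1]
    refine hN (r - s) ⟨by linarith [hr.1], by linarith [hr.2]⟩ _ fun Y => ?_
    by_cases hYX : Y = X
    · subst hYX
      simp only [Function.update_self]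
      rw [show (fun n => P.δ n * (((w n Y + ((⌊r / P.δ n⌋₊ : ℕ) : ℤ) • e).1 : ℤ) : ℝ)) =
        fun n => P.δ n * ((z n Y).1 : ℝ) + (P.δ n * (⌊r / P.δ n⌋₊ : ℝ) - P.δ n * (m n : ℝ)) * e.1 by
          funext n
          rw [hwX]
          simp only [Prod.fst_add, Prod.fst_sub, Prod.smul_fst, smul_eq_mul]
          push_cast
          ring,
        show (fun n => P.δ n * (((w n Y + ((⌊r / P.δ n⌋₊ : ℕ) : ℤ) • e).2 : ℤ) : ℝ)) =
        fun n => P.δ n * ((z n Y).2 : ℝ) + (P.δ n * (⌊r / P.δ n⌋₊ : ℝ) - P.δ n * (m n : ℝ)) * e.2 by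
          funext n
          rw [hwX]
          simp only [Prod.snd_add, Prod.snd_sub, Prod.smul_snd, smul_eq_mul]
          push_cast
          ring]
      have h1 := (hz Y).1
      have h2 := (hz Y).2
      simp only [Function.update_self] at h1 h2
      constructor
      · have := h1.add (((hfl r hr0).sub hmlim).mul_const (e.1 : ℝ))
        convert this using 2
        ring
      · have := h2.add (((hfl r hr0).sub hmlim).mul_const (e.2 : ℝ))
        convert this using 2
        ring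
    · simp only [Function.update_of_ne hYX]
      have h1 := hz Y
      simp only [Function.update_of_ne hYX] at h1
      simpa only [hwY _ _ hYX] using h1
  have hray := ray (f := fun n k => P.c n (Function.update (w n) X (w n X + (k : ℤ) • e)))
    hpb (Eventually.of_forall P.δpos) P.δlim (by positivity : 0 ≤ a + s) (by linarith) hsmall
    (t + s) (by positivity)
  refine hray.congr fun n => ?_
  congr 1
  funext Y
  by_cases hYX : Y = X
  · subst hYX
    simp only [Function.update_self]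
    rw [hwX]
    simp only [hm]
    abel
  · simp only [Function.update_of_ne hYX]
    exact hwY n Y hYX

/-- positions of the three groups -/
def ps (w u d : ℝ × ℝ) : Fin 3 → ℝ × ℝ := ![w, u, d]

theorem ps_update0 (w u d x : ℝ × ℝ) : Function.update (ps w u d) 0 x = ps x u d := by
  funext i
  fin_cases i <;> simp [ps]

theorem ps_update1 (w u d x : ℝ × ℝ) : Function.update (ps w u d) 1 x = ps w x d := by
  funext i
  fin_cases i <;> simp [ps]

theorem ps_update2 (w u d x : ℝ × ℝ) : Function.update (ps w u d) 2 x = ps w u x := by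
  funext i
  fin_cases i <;> simp [ps]

@[simp] theorem ps_0 (w u d : ℝ × ℝ) : ps w u d 0 = w := rfl
@[simp] theorem ps_1 (w u d : ℝ × ℝ) : ps w u d 1 = u := rfl
@[simp] theorem ps_2 (w u d : ℝ × ℝ) : ps w u d 2 = d := rfl

@[simp] theorem pos4R_0 (w u d : ℝ × ℝ) : pos4R (ps w u d) 0 = w := rfl
@[simp] theorem pos4R_1 (w u d : ℝ × ℝ) : pos4R (ps w u d) 1 = u := rfl
@[simp] theorem pos4R_2 (w u d : ℝ × ℝ) : pos4R (ps w u d) 2 = d := rfl
@[simp] theorem pos4R_3 (w u d : ℝ × ℝ) : pos4R (ps w u d) 3 = 0 := rfl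

/-- all three groups far left -/
theorem N_base (w u d : ℝ × ℝ) (hw : w.1 ≤ -(3 * P.L)) (hu : u.1 ≤ -(3 * P.L))
    (hd : d.1 ≤ -(3 * P.L)) : P.N (ps w u d) := by
  intro z hz
  have hL := P.Lpos
  have hκ : ∀ᶠ n in atTop, P.δ n * (P.κ : ℝ) ≤ P.L / 4 := by
    have h1 : Tendsto (fun n => P.δ n * (P.κ : ℝ)) atTop (𝓝 (0 * (P.κ : ℝ))) :=
      P.δlim.mul_const _
    rw [zero_mul] at h1
    exact h1.eventually (ge_mem_nhds (by positivity))
  have hzx : ∀ X : Fin 3, ∀ᶠ n in atTop, P.δ n * ((z n X).1 : ℝ) ≤ -(3 * P.L) + P.L / 4 := by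
    intro X
    have h1 := (hz X).1
    have h2 : (ps w u d X).1 < -(3 * P.L) + P.L / 4 := by
      fin_cases X
      · change w.1 < _
        linarith
      · change u.1 < _
        linarith
      · change d.1 < _
        linarith
    filter_upwards [h1.eventually (gt_mem_nhds h2)] with n h3 using h3.le
  refine squeeze_zero_norm' ?_ P.εlim
  filter_upwards [hκ, hzx 0, hzx 1, hzx 2] with n h1 h2 h3 h4
  refine P.base n (z n) fun X => ?_
  have hX : P.δ n * ((z n X).1 : ℝ) ≤ -(3 * P.L) + P.L / 4 := by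
    fin_cases X
    · exact h2
    · exact h3
    · exact h4
  have hδ := P.δpos n
  have h5 := P.hi_le n X.castSucc (1, 0) (by simp [Dir8])
  have h6 := P.loO_ge n
  simp only [Int.cast_one, abs_one, Int.cast_zero, abs_zero, add_zero, mul_one] at h5
  have h7 : ((P.hi n X.castSucc (1, 0) + (z n X).1 + P.κ : ℤ) : ℝ) * P.δ n ≤
      ((P.loO n : ℤ) : ℝ) * P.δ n := by
    push_cast
    nlinarith
  have := le_of_mul_le_mul_right h7 hδ
  exact_mod_cast this

/-- version of `N_ray` returning to the start -/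
theorem N_back {u : Fin 3 → ℝ × ℝ} {X : Fin 3} {e : ℤ × ℤ} (he : e ∈ Dir8) {η : ℝ} (hη : 0 < η)
    (hext : P.Ext u X e η) {a b : ℝ} (ha : 0 ≤ a) (hab : a < b)
    (hN : ∀ t ∈ Set.Ioo a b,
      P.N (Function.update u X ((u X).1 + t * e.1, (u X).2 + t * e.2))) : P.N u := by
  have := P.N_ray he hη hext ha hab hN 0 le_rfl
  simpa using this

private theorem dirs : ((0, -1) : ℤ × ℤ) ∈ Dir8 ∧ ((0, 1) : ℤ × ℤ) ∈ Dir8 ∧
    ((1, 0) : ℤ × ℤ) ∈ Dir8 ∧ ((-1, 0) : ℤ × ℤ) ∈ Dir8 ∧ ((1, 1) : ℤ × ℤ) ∈ Dir8 ∧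
    ((-1, 1) : ℤ × ℤ) ∈ Dir8 ∧ ((1, -1) : ℤ × ℤ) ∈ Dir8 ∧ ((-1, -1) : ℤ × ℤ) ∈ Dir8 := by
  simp [Dir8]

/-- claim A: `D` at home, the others up-left -/
theorem N_A (w u : ℝ × ℝ) (hw1 : w.1 ≤ -(3 * P.L)) (hw2 : -w.1 ≤ w.2)
    (hu1 : u.1 ≤ -(3 * P.L)) (hu2 : -u.1 ≤ u.2) : P.N (ps w u 0) := by
  have hL := P.Lpos
  -- (i) `D` at `(0,-t)`
  have h1 : ∀ t : ℝ, 5 * P.L ≤ t → P.N (ps w u (0, -t)) := by
    intro t ht
    refine P.N_back (X := 2) (e := (-1, -1)) dirs.2.2.2.2.2.2.2 (η := P.L / 2) (by positivity) ?_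
      (a := 3 * P.L) (b := 4 * P.L) (by positivity) (by linarith) ?_
    · refine P.ext_of_far dirs.2.2.2.2.2.2.2 fun Y hY => ?_
      fin_cases Y
      · change dotR (-1, -1) w + _ + _ ≤ dotR (-1, -1) ((0, -t) : ℝ × ℝ)
        simp [dotR]
        linarith
      · change dotR (-1, -1) u + _ + _ ≤ dotR (-1, -1) ((0, -t) : ℝ × ℝ)
        simp [dotR]
        linarith
      · exact absurd rfl hY
      · change dotR (-1, -1) 0 + _ + _ ≤ dotR (-1, -1) ((0, -t) : ℝ × ℝ)
        simp [dotR]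
        linarith
    · intro s hs
      rw [ps_update2]
      refine P.N_base _ _ _ hw1 hu1 ?_
      simp
      linarith [hs.1]
  -- (ii) home
  refine P.N_back (X := 2) (e := (0, -1)) dirs.1 (η := min P.g P.L) (lt_min P.gpos hL) ?_
    (a := 5 * P.L) (b := 6 * P.L) (by positivity) (by linarith) ?_
  · intro n Y hY
    have hg : min P.g P.L ≤ P.g := min_le_left _ _
    have hl : min P.g P.L ≤ P.L := min_le_right _ _
    have e1 : (-(0, -1) : ℤ × ℤ) = (0, 1) := rfl
    have h5 := P.hi_le n 2 (0, 1) dirs.2.1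
    simp only [Int.cast_zero, abs_zero, Int.cast_one, abs_one, zero_add, mul_one] at h5
    rw [e1]
    fin_cases Y
    · have h6 := P.hi_le n 0 (0, -1) dirs.1
      simp only [Int.cast_zero, abs_zero, Int.cast_neg, Int.cast_one, abs_neg, abs_one, zero_add,
        mul_one] at h6
      change (P.hi n 0 (0, -1) : ℝ) * P.δ n + dotR (0, -1) w + _ ≤
        -(P.hi n 2 (0, 1) : ℝ) * P.δ n + dotR (0, -1) 0
      simp [dotR]
      linarith
    · have h6 := P.hi_le n 1 (0, -1) dirs.1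
      simp only [Int.cast_zero, abs_zero, Int.cast_neg, Int.cast_one, abs_neg, abs_one, zero_add,
        mul_one] at h6
      change (P.hi n 1 (0, -1) : ℝ) * P.δ n + dotR (0, -1) u + _ ≤
        -(P.hi n 2 (0, 1) : ℝ) * P.δ n + dotR (0, -1) 0
      simp [dotR]
      linarith
    · exact absurd rfl hY
    · have h6 := P.home_D n
      change (P.hi n 3 (0, -1) : ℝ) * P.δ n + dotR (0, -1) 0 + _ ≤
        -(P.hi n 2 (0, 1) : ℝ) * P.δ n + dotR (0, -1) 0
      simp [dotR]
      linarith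
  · intro s hs
    rw [ps_update2]
    have := h1 s hs.1.le
    simpa using this

/-- claim B: `D` at home, `U` up-left, `R` further left -/
theorem N_B (w u : ℝ × ℝ) (hw1 : w.1 ≤ -(3 * P.L)) (hu1 : u.1 ≤ -(3 * P.L)) (hu2 : -u.1 ≤ u.2)
    (hwu : -u.1 + u.2 + 5 * P.L ≤ -w.1 + w.2) : P.N (ps w u 0) := by
  have hL := P.Lpos
  -- (i)
  have h1 : ∀ w : ℝ × ℝ, w.1 ≤ -(3 * P.L) → u.2 + 3 * P.L ≤ w.2 → P.N (ps w u 0) := by
    intro w hw1 hw2
    refine P.N_back (X := 0) (e := (0, 1)) dirs.2.1 (η := P.L / 2) (by positivity) ?_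
      (a := |w.1| + |w.2|) (b := |w.1| + |w.2| + 1) (by positivity) (by linarith) ?_
    · refine P.ext_of_far dirs.2.1 fun Y hY => ?_
      fin_cases Y
      · exact absurd rfl hY
      · change dotR (0, 1) u + _ + _ ≤ dotR (0, 1) w
        simp [dotR]
        linarith
      · change dotR (0, 1) 0 + _ + _ ≤ dotR (0, 1) w
        simp [dotR]
        linarith
      · change dotR (0, 1) 0 + _ + _ ≤ dotR (0, 1) w
        simp [dotR]
        linarith
    · intro s hs
      rw [ps_update0]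
      refine P.N_A _ _ (by simpa using hw1) ?_ hu1 hu2
      simp
      have h2 := neg_abs_le w.1
      have h3 := neg_abs_le w.2
      linarith [hs.1]
  refine P.N_back (X := 0) (e := (-1, 1)) dirs.2.2.2.2.2.1 (η := P.L / 2) (by positivity) ?_
      (a := |u.2| + |w.2| + 3 * P.L) (b := |u.2| + |w.2| + 3 * P.L + 1) (by positivity)
      (by linarith) ?_
  · refine P.ext_of_far dirs.2.2.2.2.2.1 fun Y hY => ?_
    fin_cases Y
    · exact absurd rfl hY
    · change dotR (-1, 1) u + _ + _ ≤ dotR (-1, 1) w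
      simp [dotR]
      linarith
    · change dotR (-1, 1) 0 + _ + _ ≤ dotR (-1, 1) w
      simp [dotR]
      linarith
    · change dotR (-1, 1) 0 + _ + _ ≤ dotR (-1, 1) w
      simp [dotR]
      linarith
  · intro s hs
    rw [ps_update0]
    have h2 := neg_abs_le w.2
    have h3 := le_abs_self u.2
    have h4 := abs_nonneg w.2
    have h5 := abs_nonneg u.2
    refine h1 _ ?_ ?_
    · simp
      linarith [hs.1]
    · simp
      linarith [hs.1]

/-- claim C: `U, D` at home, `R` far down-left -/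
theorem N_C (w : ℝ × ℝ) (hw2 : w.2 ≤ -(3 * P.L)) (hw1 : 22 * P.L ≤ -w.1 + w.2) :
    P.N (ps w 0 0) := by
  have hL := P.Lpos
  -- (ii) `U` at `(0, 13 L + τ)`
  have h1 : ∀ τ : ℝ, 0 ≤ τ → τ ≤ P.L → P.N (ps w (0, 13 * P.L + τ) 0) := by
    intro τ hτ0 hτ1
    have hray := P.N_ray (u := ps w (-(4 * P.L), 9 * P.L + τ) 0) (X := 1) (e := (1, 1))
      dirs.2.2.2.2.1 (η := P.L / 2) (by positivity) ?_ (a := 0) (b := P.L) le_rfl (by linarith) ?_
      (4 * P.L) (by positivity)
    · rw [ps_update1] at hray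
      have : ((ps w (-(4 * P.L), 9 * P.L + τ) 0 1).1 + 4 * P.L * (((1, 1) : ℤ × ℤ).1 : ℝ),
        (ps w (-(4 * P.L), 9 * P.L + τ) 0 1).2 + 4 * P.L * (((1, 1) : ℤ × ℤ).2 : ℝ)) =
        ((0, 13 * P.L + τ) : ℝ × ℝ) := by
        simp
        ring
      rw [this] at hray
      exact hray
    · refine P.ext_of_far dirs.2.2.2.2.1 fun Y hY => ?_
      fin_cases Y
      · change dotR (1, 1) w + _ + _ ≤ dotR (1, 1) ((-(4 * P.L), 9 * P.L + τ) : ℝ × ℝ)
        simp [dotR]
        linarith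
      · exact absurd rfl hY
      · change dotR (1, 1) 0 + _ + _ ≤ dotR (1, 1) ((-(4 * P.L), 9 * P.L + τ) : ℝ × ℝ)
        simp [dotR]
        linarith
      · change dotR (1, 1) 0 + _ + _ ≤ dotR (1, 1) ((-(4 * P.L), 9 * P.L + τ) : ℝ × ℝ)
        simp [dotR]
        linarith
    · intro s hs
      rw [ps_update1]
      refine P.N_B _ _ (by linarith) ?_ ?_ ?_
      · simp
        linarith [hs.2]
      · simp
        linarith [hs.1]
      · simp
        linarith
  refine P.N_back (X := 1) (e := (0, 1)) dirs.2.1 (η := min P.g P.L) (lt_min P.gpos hL) ?_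
    (a := 13 * P.L) (b := 14 * P.L) (by positivity) (by linarith) ?_
  · intro n Y hY
    have hg : min P.g P.L ≤ P.g := min_le_left _ _
    have hl : min P.g P.L ≤ P.L := min_le_right _ _
    have e1 : (-(0, 1) : ℤ × ℤ) = (0, -1) := rfl
    have h5 := P.hi_le n 1 (0, -1) dirs.1
    simp only [Int.cast_zero, abs_zero, Int.cast_neg, Int.cast_one, abs_neg, abs_one, zero_add,
      mul_one] at h5
    rw [e1]
    fin_cases Y
    · have h6 := P.hi_le n 0 (0, 1) dirs.2.1
      simp only [Int.cast_zero, abs_zero, Int.cast_one, abs_one, zero_add, mul_one] at h6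
      change (P.hi n 0 (0, 1) : ℝ) * P.δ n + dotR (0, 1) w + _ ≤
        -(P.hi n 1 (0, -1) : ℝ) * P.δ n + dotR (0, 1) 0
      simp [dotR]
      linarith
    · exact absurd rfl hY
    · have h6 := P.home_U n 2 (Or.inl rfl)
      change (P.hi n 2 (0, 1) : ℝ) * P.δ n + dotR (0, 1) 0 + _ ≤
        -(P.hi n 1 (0, -1) : ℝ) * P.δ n + dotR (0, 1) 0
      simp [dotR]
      linarith
    · have h6 := P.home_U n 3 (Or.inr rfl)
      change (P.hi n 3 (0, 1) : ℝ) * P.δ n + dotR (0, 1) 0 + _ ≤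
        -(P.hi n 1 (0, -1) : ℝ) * P.δ n + dotR (0, 1) 0
      simp [dotR]
      linarith
  · intro s hs
    rw [ps_update1]
    have := h1 (s - 13 * P.L) (by linarith [hs.1]) (by linarith [hs.2])
    simpa using this

/-- **Peeling theorem.** -/
theorem N_home : P.N (ps 0 0 0) := by
  have hL := P.Lpos
  have ext_far : ∀ (w : ℝ × ℝ) (e : ℤ × ℤ), e ∈ Dir8 →
      2 * P.L * (|(e.1 : ℝ)| + |(e.2 : ℝ)|) + P.L / 2 ≤ dotR e w →
      P.Ext (ps w 0 0) 0 e (P.L / 2) := by
    intro w e he h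
    refine P.ext_of_far he fun Y hY => ?_
    have h0 : dotR e 0 = 0 := by simp [dotR]
    fin_cases Y
    · exact absurd rfl hY
    · change dotR e 0 + _ + _ ≤ dotR e w
      linarith
    · change dotR e 0 + _ + _ ≤ dotR e w
      linarith
    · change dotR e 0 + _ + _ ≤ dotR e w
      linarith
  -- (i) left, low
  have h1 : ∀ w : ℝ × ℝ, w.2 ≤ -(3 * P.L) → w.1 ≤ -(5 / 2 * P.L) → P.N (ps w 0 0) := by
    intro w hw2 hw1
    refine P.N_back (X := 0) (e := (-1, 0)) dirs.2.2.2.1 (η := P.L / 2) (by positivity)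
      (ext_far w _ dirs.2.2.2.1 ?_) (a := |w.2| + 22 * P.L) (b := |w.2| + 22 * P.L + 1)
      (by positivity) (by linarith) ?_
    · simp [dotR]
      linarith
    · intro s hs
      rw [ps_update0]
      refine P.N_C _ ?_ ?_
      · simpa using hw2
      · simp
        have := neg_abs_le w.2
        linarith [hs.1]
  -- (ii)
  have h2 : ∀ y t : ℝ, 8 * P.L ≤ y → 0 ≤ t → P.N (ps (-(3 * P.L) + t, -y - t) 0 0) := by
    intro y t hy ht
    have hray := P.N_ray (u := ps (-(3 * P.L), -y) 0 0) (X := 0) (e := (1, -1))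
      dirs.2.2.2.2.2.2.1 (η := P.L / 2) (by positivity)
      (ext_far _ _ dirs.2.2.2.2.2.2.1 ?_) (a := 0) (b := P.L / 2) le_rfl (by positivity) ?_
      t ht
    · rw [ps_update0] at hray
      simpa [sub_eq_add_neg] using hray
    · simp [dotR]
      linarith
    · intro s hs
      rw [ps_update0]
      refine h1 _ ?_ ?_
      · simp
        linarith [hs.1]
      · simp
        linarith [hs.2]
  -- (iii) below, to the right
  have h3 : ∀ x y : ℝ, -(3 * P.L) ≤ x → y ≤ -(3 * P.L) → P.N (ps (x, y) 0 0) := by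
    intro x y hx hy
    refine P.N_back (X := 0) (e := (0, -1)) dirs.1 (η := P.L / 2) (by positivity)
      (ext_far _ _ dirs.1 ?_) (a := |x| + |y| + 20 * P.L) (b := |x| + |y| + 20 * P.L + 1)
      (by positivity) (by linarith) ?_
    · simp [dotR]
      linarith
    · intro s hs
      rw [ps_update0]
      have h4 := h2 (-(y - s) - (x + 3 * P.L)) (x + 3 * P.L) ?_ (by linarith)
      · have e1 : ((-(3 * P.L) + (x + 3 * P.L), -(-(y - s) - (x + 3 * P.L)) - (x + 3 * P.L)) :
          ℝ × ℝ) = (x, y - s) := by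
          ext <;> simp
        rw [e1] at h4
        simpa [sub_eq_add_neg] using h4
      · have := le_abs_self x
        have := le_abs_self y
        linarith [hs.1]
  -- (iv) to the right
  have h4 : ∀ t : ℝ, 5 * P.L ≤ t → P.N (ps (t, 0) 0 0) := by
    intro t ht
    refine P.N_back (X := 0) (e := (1, -1)) dirs.2.2.2.2.2.2.1 (η := P.L / 2) (by positivity)
      (ext_far _ _ dirs.2.2.2.2.2.2.1 ?_) (a := 3 * P.L) (b := 4 * P.L)
      (by positivity) (by linarith) ?_
    · simp [dotR]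
      linarith
    · intro s hs
      rw [ps_update0]
      have := h3 (t + s) (-s) (by linarith [hs.1]) (by linarith [hs.1])
      simpa using this
  -- (v) home
  refine P.N_back (X := 0) (e := (1, 0)) dirs.2.2.1 (η := P.g) P.gpos ?_
    (a := 5 * P.L) (b := 6 * P.L) (by positivity) (by linarith) ?_
  · intro n Y hY
    have h6 := P.home_R n Y (by simpa using hY)
    have e1 : (-(1, 0) : ℤ × ℤ) = (-1, 0) := rfl
    rw [e1]
    have h0 : dotR (1, 0) (pos4R (ps 0 0 0) Y) = 0 := by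
      fin_cases Y
      · exact absurd rfl hY
      · change dotR (1, 0) 0 = 0
        simp [dotR]
      · change dotR (1, 0) 0 = 0
        simp [dotR]
      · change dotR (1, 0) 0 = 0
        simp [dotR]
    rw [h0]
    change _ ≤ -(P.hi n 0 (-1, 0) : ℝ) * P.δ n + dotR (1, 0) 0
    simp [dotR]
    linarith
  · intro s hs
    rw [ps_update0]
    have := h4 s hs.1.le
    simpa using this

/-- **Peeling theorem**, final form: the correlation at home tends to `0`. -/
theorem tendsto_home : Tendsto (fun n => P.c n 0) atTop (𝓝 0) := by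
  refine P.N_home (fun _ => 0) fun X => ?_
  have h0 : ps 0 0 0 X = 0 := by fin_cases X <;> rfl
  rw [h0]
  simp

end PeelData

end Crest.Agent.R161.Peel369
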