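import Crest.Agent.R161.Abs_375

/-!
# Polar decomposition of heights (helper375, R161 STEP 1)

`polar` : `(∏ c) * ∑_{|h| ≤ M} W c h · U |h| · Φ h = ∑_{(a, η)} R c ∅ U (a, η) · av (Φ (σ a))`.
-/

set_option autoImplicit false
set_option linter.unusedSectionVars false
set_option linter.unnecessarySeqFocus false
set_option linter.unusedVariables false

open Finset
open Crest.Agent.R161.Lsm375 Crest.Agent.R161.Gks375 Crest.Agent.R161.Hts375
open Crest.Agent.R161.Abs375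

namespace Crest.Agent.R161.Pol375

section one
variable {S : Type*} [Fintype S] [DecidableEq S]

/-- signs times absolute heights -/
def sm (σ : S → ℤˣ) (a : S → ℤ) : S → ℤ := fun x => (σ x : ℤ) * a x

/-- absolute value -/
def ab (h : S → ℤ) : S → ℤ := fun x => |h x|

/-- `∏_x (1/2)^{[a_x = 0]}` -/
noncomputable def za (a : S → ℤ) : ℝ := ∏ x, if a x = 0 then (1 / 2 : ℝ) else 1

lemma ab_sm (σ : S → ℤˣ) {a : S → ℤ} (ha : 0 ≤ a) : ab (sm σ a) = a := by
  funext x
  unfold ab sm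
  have h0 : 0 ≤ a x := ha x
  rcases Int.units_eq_one_or (σ x) with h | h <;> simp [h, abs_of_nonneg h0]

lemma card_signs {a h : S → ℤ} (hh : ab h = a) :
    (((Finset.univ.filter fun σ : S → ℤˣ => sm σ a = h).card : ℕ) : ℝ) * za a = 1 := by
  classical
  have e : (Finset.univ.filter fun σ : S → ℤˣ => sm σ a = h) =
      Fintype.piFinset (fun x : S => Finset.univ.filter fun u : ℤˣ => (u : ℤ) * a x = h x) := by
    ext σ
    simp only [Finset.mem_filter, Finset.mem_univ, true_and, Fintype.mem_piFinset]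
    constructor
    · intro h1 x; exact congrFun h1 x
    · intro h1; funext x; exact h1 x
  rw [e, Fintype.card_piFinset]
  unfold za
  push_cast
  rw [← Finset.prod_mul_distrib]
  refine Finset.prod_eq_one fun x _ => ?_
  have hx : |h x| = a x := congrFun hh x
  by_cases h0 : a x = 0
  · have h1 : h x = 0 := by rw [h0] at hx; simpa using hx
    simp [h0, h1]
  · have : (Finset.univ.filter fun u : ℤˣ => (u : ℤ) * a x = h x).card = 1 := by
      rw [Finset.card_eq_one]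
      rcases abs_choice (h x) with h2 | h2
      · refine ⟨1, ?_⟩
        ext u
        simp only [Finset.mem_filter, Finset.mem_univ, true_and, Finset.mem_singleton]
        rw [h2] at hx
        constructor
        · intro h3
          rcases Int.units_eq_one_or u with h4 | h4
          · exact h4
          · exfalso; rw [h4] at h3; simp at h3; omega
        · intro h3; rw [h3]; simp [hx]
      · refine ⟨-1, ?_⟩
        ext u
        simp only [Finset.mem_filter, Finset.mem_univ, true_and, Finset.mem_singleton]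
        rw [h2] at hx
        constructor
        · intro h3
          rcases Int.units_eq_one_or u with h4 | h4
          · exfalso; rw [h4] at h3; simp at h3; omega
          · exact h4
        · intro h3; rw [h3]; simp [← hx]
    rw [this]
    simp [h0]

/-- Polar summation for arbitrary functions. -/
theorem sum_polar (M : S → ℤ) (hM : 0 ≤ M) (G : (S → ℤ) → ℝ) :
    ∑ h ∈ Finset.Icc (-M) M, G h =
      ∑ a ∈ Finset.Icc (0 : S → ℤ) M, za a * ∑ σ : S → ℤˣ, G (sm σ a) := by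
  classical
  have hmap : ∀ h ∈ Finset.Icc (-M) M, ab h ∈ Finset.Icc (0 : S → ℤ) M := by
    intro h hh
    rw [Finset.mem_Icc] at hh ⊢
    refine ⟨fun x => abs_nonneg _, fun x => ?_⟩
    exact abs_le.mpr ⟨by have := hh.1 x; simpa using this, hh.2 x⟩
  rw [← Finset.sum_fiberwise_of_maps_to hmap]
  refine Finset.sum_congr rfl fun a ha => ?_
  rw [Finset.mem_Icc] at ha
  have hmap2 : ∀ σ ∈ (Finset.univ : Finset (S → ℤˣ)),
      sm σ a ∈ (Finset.Icc (-M) M).filter (fun h => ab h = a) := by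
    intro σ _
    rw [Finset.mem_filter, Finset.mem_Icc]
    refine ⟨⟨fun x => ?_, fun x => ?_⟩, ab_sm σ ha.1⟩
    · have h1 : |sm σ a x| = a x := congrFun (ab_sm σ ha.1) x
      have h2 : a x ≤ M x := ha.2 x
      have h3 := neg_abs_le (sm σ a x)
      simp only [Pi.neg_apply]
      linarith
    · have h1 : |sm σ a x| = a x := congrFun (ab_sm σ ha.1) x
      have h2 : a x ≤ M x := ha.2 x
      have h3 := le_abs_self (sm σ a x)
      linarith
  rw [← Finset.sum_fiberwise_of_maps_to hmap2, Finset.mul_sum]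
  refine Finset.sum_congr rfl fun h hh => ?_
  rw [Finset.mem_filter] at hh
  have e : ∑ σ ∈ Finset.univ.filter (fun σ : S → ℤˣ => sm σ a = h), G (sm σ a) =
      ((Finset.univ.filter fun σ : S → ℤˣ => sm σ a = h).card : ℝ) * G h := by
    rw [Finset.sum_congr rfl (g := fun _ => G h) (fun σ hσ => by
      rw [Finset.mem_filter] at hσ; rw [hσ.2])]
    rw [Finset.sum_const, nsmul_eq_mul]
  rw [e]
  have := card_signs hh.2
  calc G h = (((Finset.univ.filter fun σ : S → ℤˣ => sm σ a = h).card : ℕ) * za a) * G h := by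
        rw [this, one_mul]
    _ = _ := by ring

end one

section two
variable {V F P : Type*} [Fintype V] [Fintype F] [Fintype P]
  [DecidableEq V] [DecidableEq F] [DecidableEq P]

lemma za_eq_of_valid (G : Geo V F P) {a : V ⊕ F → ℤ} (h : G.Valid a) :
    za a = ∏ v : V, if a (.inl v) = 0 then (1 / 2 : ℝ) else 1 := by
  unfold za
  rw [Fintype.prod_sum_type]
  have : ∏ f : F, (if a (.inr f) = 0 then (1 / 2 : ℝ) else 1) = 1 := by
    refine Finset.prod_eq_one fun f _ => ?_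
    have h1 := h.2.1 f
    have : a (.inr f) ≠ 0 := by
      intro h0; rw [h0] at h1; exact absurd h1 (by decide)
    rw [if_neg this]
  rw [this, mul_one]

/-- the incidence constraints hold -/
def IncOK (G : Geo V F P) (a : V ⊕ F → ℤ) (σ : V ⊕ F → ℤˣ) : Prop :=
  ∀ v f, G.inc v f → 0 < a (.inl v) → σ (.inl v) = σ (.inr f)

lemma ic_Cset (G : Geo V F P) (x : (V ⊕ F → ℤ) × Finset P) (σ : V ⊕ F → ℤˣ) [Decidable (IncOK G x.1 σ)] :
    ic (ii G) (jj G) (Cset G ∅ x) σ =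
      (∏ p ∈ x.2, if σ (.inr (G.f₁ p)) = σ (.inr (G.f₂ p)) then (1 : ℝ) else 0) *
        (if IncOK G x.1 σ then 1 else 0) := by
  classical
  rw [ic_eq]
  have e : (∀ k ∈ Cset G ∅ x, σ (ii G k) = σ (jj G k)) ↔
      (∀ p ∈ x.2, σ (.inr (G.f₁ p)) = σ (.inr (G.f₂ p))) ∧ IncOK G x.1 σ := by
    constructor
    · intro h
      refine ⟨fun p hp => h (.inl p) ((mem_Cset _ _ _ _).2 hp), fun v f hvf ha => ?_⟩
      exact h (.inr (.inl (v, f))) ((mem_Cset _ _ _ _).2 ⟨hvf, ha⟩)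
    · rintro ⟨h1, h2⟩ k hk
      rw [mem_Cset] at hk
      rcases k with p | vf | t
      · exact h1 p hk
      · exact h2 vf.1 vf.2 hk.1 hk.2
      · simp [Act] at hk
  by_cases h1 : ∀ p ∈ x.2, σ (.inr (G.f₁ p)) = σ (.inr (G.f₂ p))
  · have : (∏ p ∈ x.2, if σ (.inr (G.f₁ p)) = σ (.inr (G.f₂ p)) then (1 : ℝ) else 0) = 1 :=
      Finset.prod_eq_one fun p hp => if_pos (h1 p hp)
    rw [this, one_mul]
    by_cases h2 : IncOK G x.1 σ
    · rw [if_pos (e.2 ⟨h1, h2⟩), if_pos h2]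
    · rw [if_neg (fun h => h2 (e.1 h).2), if_neg h2]
  · have : (∏ p ∈ x.2, if σ (.inr (G.f₁ p)) = σ (.inr (G.f₂ p)) then (1 : ℝ) else 0) = 0 := by
      push Not at h1
      obtain ⟨p, hp, hne⟩ := h1
      exact Finset.prod_eq_zero hp (if_neg hne)
    rw [this, zero_mul, if_neg (fun h => h1 (e.1 h).1)]

lemma adj_abs {x y : ℤ} (hx : Even x) (hy : Odd y) (h : |x - y| = 1) : |(|x| - |y|)| = 1 := by
  obtain ⟨r, hr⟩ := hx
  obtain ⟨s, hs⟩ := hy
  rw [abs_eq (by norm_num)] at h ⊢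
  rcases abs_cases x with ⟨h1, h2⟩ | ⟨h1, h2⟩ <;> rcases abs_cases y with ⟨h3, h4⟩ | ⟨h3, h4⟩ <;> omega

lemma valid_sm_iff (G : Geo V F P) {a : V ⊕ F → ℤ} (ha : 0 ≤ a) (σ : V ⊕ F → ℤˣ) :
    G.Valid (sm σ a) ↔ G.Valid a ∧ IncOK G a σ := by
  have hu : ∀ (u : ℤˣ) (z : ℤ), (Even ((u : ℤ) * z) ↔ Even z) ∧ (Odd ((u : ℤ) * z) ↔ Odd z) := by
    intro u z
    rcases Int.units_eq_one_or u with h | h <;> simp [h]
  constructor
  · rintro ⟨h1, h2, h3⟩
    have q1 : ∀ v, Even (a (.inl v)) := fun v => (hu _ _).1.1 (h1 v)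
    have q2 : ∀ f, Odd (a (.inr f)) := fun f => (hu _ _).2.1 (h2 f)
    refine ⟨⟨q1, q2, fun v f hvf => ?_⟩, fun v f hvf hpos => ?_⟩
    · have := adj_abs (h1 v) (h2 f) (h3 v f hvf)
      have e : ∀ x, |sm σ a x| = a x := fun x => congrFun (ab_sm σ ha) x
      rwa [e, e] at this
    · have h4 := h3 v f hvf
      obtain ⟨r, hr⟩ := q1 v
      obtain ⟨s, hs⟩ := q2 f
      have f0 : 0 ≤ a (.inr f) := ha _
      unfold sm at h4
      rw [abs_eq (by norm_num)] at h4
      rcases Int.units_eq_one_or (σ (.inl v)) with h5 | h5 <;>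
        rcases Int.units_eq_one_or (σ (.inr f)) with h6 | h6 <;>
        simp only [h5, h6] at h4 ⊢ <;> push_cast at h4 <;> exfalso <;> omega
  · rintro ⟨⟨h1, h2, h3⟩, h4⟩
    refine ⟨fun v => (hu _ _).1.2 (h1 v), fun f => (hu _ _).2.2 (h2 f), fun v f hvf => ?_⟩
    have h5 := h3 v f hvf
    have h6 := h4 v f hvf
    have v0 : 0 ≤ a (.inl v) := ha _
    have f0 : 0 ≤ a (.inr f) := ha _
    unfold sm
    rcases v0.lt_or_eq with h7 | h7
    · rw [h6 h7, ← mul_sub, abs_mul]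
      rcases Int.units_eq_one_or (σ (.inr f)) with h8 | h8 <;> simp [h8, h5]
    · rw [← h7] at h5 ⊢
      rw [mul_zero, zero_sub, abs_neg, abs_mul]
      rw [zero_sub, abs_neg] at h5
      rcases Int.units_eq_one_or (σ (.inr f)) with h8 | h8 <;> simp [h8, h5]

lemma flat_sm (G : Geo V F P) {a : V ⊕ F → ℤ} (ha : 0 ≤ a) (hv : G.Valid a) {σ : V ⊕ F → ℤˣ}
    (hσ : IncOK G a σ) (p : P) :
    G.Flat (sm σ a) p ↔ G.Flat a p ∧ σ (.inr (G.f₁ p)) = σ (.inr (G.f₂ p)) := by
  obtain ⟨h1, h2, h3⟩ := hv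
  have v1 : 0 ≤ a (.inl (G.v₁ p)) := ha _
  have v2 : 0 ≤ a (.inl (G.v₂ p)) := ha _
  have f1 : 0 ≤ a (.inr (G.f₁ p)) := ha _
  have f2 : 0 ≤ a (.inr (G.f₂ p)) := ha _
  have f1' : a (.inr (G.f₁ p)) ≠ 0 := fun h => by
    have := h2 (G.f₁ p); rw [h] at this; exact absurd this (by decide)
  have f2' : a (.inr (G.f₂ p)) ≠ 0 := fun h => by
    have := h2 (G.f₂ p); rw [h] at this; exact absurd this (by decide)
  have key : ∀ (u w : ℤˣ) (x y : ℤ), 0 ≤ x → 0 ≤ y → (u : ℤ) * x = (w : ℤ) * y → x = y := by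
    intro u w x y hx hy h
    rcases Int.units_eq_one_or u with h5 | h5 <;> rcases Int.units_eq_one_or w with h6 | h6 <;>
      simp only [h5, h6] at h <;> push_cast at h <;> omega
  have key2 : ∀ (u w : ℤˣ) (x y : ℤ), 0 ≤ x → 0 ≤ y → x ≠ 0 → (u : ℤ) * x = (w : ℤ) * y → u = w := by
    intro u w x y hx hy hx0 h
    rcases Int.units_eq_one_or u with h5 | h5 <;> rcases Int.units_eq_one_or w with h6 | h6 <;>
      simp only [h5, h6] at h ⊢ <;> push_cast at h <;> exfalso <;> omega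
  constructor
  · rintro ⟨q1, q2⟩
    unfold sm at q1 q2
    exact ⟨⟨key _ _ _ _ v1 v2 q1, key _ _ _ _ f1 f2 q2⟩, key2 _ _ _ _ f1 f2 f1' q2⟩
  · rintro ⟨⟨q1, q2⟩, q3⟩
    refine ⟨?_, ?_⟩
    · unfold sm
      rcases v1.lt_or_eq with h7 | h7
      · have e1 := hσ _ _ (G.inc₁₁ p) h7
        have e2 := hσ _ _ (G.inc₂₁ p) (by rw [← q1]; exact h7)
        rw [e1, e2, q1]
      · rw [← q1, ← h7]; simp
    · unfold sm
      rw [q2, q3]

/-- weight identity -/
lemma W_sm (G : Geo V F P) {c : P → ℝ} (hc : ∀ p, 1 ≤ c p) {a : V ⊕ F → ℤ} (ha : 0 ≤ a)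
    (σ : V ⊕ F → ℤˣ) [Decidable (IncOK G a σ)] :
    (∏ p, c p) * G.W c (sm σ a) =
      G.W c a * (∏ p, if σ (.inr (G.f₁ p)) = σ (.inr (G.f₂ p)) then c p else 1) *
        (if IncOK G a σ then 1 else 0) := by
  classical
  by_cases h1 : G.Valid a
  swap
  · have e1 : G.W c a = 0 := by unfold Geo.W; rw [if_neg h1]
    have e2 : G.W c (sm σ a) = 0 := by
      unfold Geo.W; rw [if_neg (fun h => h1 ((valid_sm_iff G ha σ).1 h).1)]
    rw [e1, e2]; ring
  by_cases h2 : IncOK G a σ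
  swap
  · have e2 : G.W c (sm σ a) = 0 := by
      unfold Geo.W; rw [if_neg (fun h => h2 ((valid_sm_iff G ha σ).1 h).2)]
    rw [e2, if_neg h2]; ring
  rw [if_pos h2, mul_one]
  unfold Geo.W
  rw [if_pos h1, if_pos ((valid_sm_iff G ha σ).2 ⟨h1, h2⟩), ← Finset.prod_mul_distrib,
    ← Finset.prod_mul_distrib]
  refine Finset.prod_congr rfl fun p _ => ?_
  have hf := flat_sm G ha h1 h2 p
  unfold Geo.wp
  by_cases h3 : G.Flat a p
  · by_cases h4 : σ (.inr (G.f₁ p)) = σ (.inr (G.f₂ p))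
    · rw [if_pos (hf.2 ⟨h3, h4⟩), if_pos h3, if_pos h4]
    · rw [if_neg (fun h => h4 (hf.1 h).2), if_pos h3, if_neg h4]
  · have h4 : σ (.inr (G.f₁ p)) = σ (.inr (G.f₂ p)) := by
      -- not flat: one of the two vertices is positive
      have : 0 < a (.inl (G.v₁ p)) ∨ 0 < a (.inl (G.v₂ p)) := by
        by_contra hcon
        push Not at hcon
        have v1 : 0 ≤ a (.inl (G.v₁ p)) := ha _
        have v2 : 0 ≤ a (.inl (G.v₂ p)) := ha _
        have e1 : a (.inl (G.v₁ p)) = 0 := by omega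
        have e2 : a (.inl (G.v₂ p)) = 0 := by omega
        have f1 : 0 ≤ a (.inr (G.f₁ p)) := ha _
        have f2 : 0 ≤ a (.inr (G.f₂ p)) := ha _
        have k1 := h1.2.2 _ _ (G.inc₁₁ p)
        have k2 := h1.2.2 _ _ (G.inc₁₂ p)
        rw [e1, zero_sub, abs_neg, abs_of_nonneg f1] at k1
        rw [e1, zero_sub, abs_neg, abs_of_nonneg f2] at k2
        exact h3 ⟨by rw [e1, e2], by rw [k1, k2]⟩
      rcases this with h | h
      · rw [← h2 _ _ (G.inc₁₁ p) h, ← h2 _ _ (G.inc₁₂ p) h]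
      · rw [← h2 _ _ (G.inc₂₁ p) h, ← h2 _ _ (G.inc₂₂ p) h]
    rw [if_neg (fun h => h3 (hf.1 h).1), if_neg h3, if_pos h4]
    ring

/-- **Polar identity.** -/
theorem polar (G : Geo V F P) {c : P → ℝ} (hc : ∀ p, 1 ≤ c p) (U : (V ⊕ F → ℤ) → ℝ)
    (M : V ⊕ F → ℤ) (hM : 0 ≤ M) (Φ : (V ⊕ F → ℤ) → ℝ) :
    (∏ p, c p) * ∑ h ∈ Finset.Icc (-M) M, G.W c h * U (ab h) * Φ h =
      ∑ x ∈ (Finset.Icc (0 : V ⊕ F → ℤ) M) ×ˢ (Finset.univ : Finset (Finset P)),
        R G c ∅ U x * av (ii G) (jj G) (Cset G ∅ x) (fun σ => Φ (sm σ x.1)) := by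
  classical
  rw [sum_polar M hM, Finset.mul_sum, Finset.sum_product]
  refine Finset.sum_congr rfl fun a ha => ?_
  rw [Finset.mem_Icc] at ha
  have ha0 : (0 : V ⊕ F → ℤ) ≤ a := ha.1
  -- rewrite the right-hand side
  have hR : ∀ η : Finset P, R G c ∅ U (a, η) *
      av (ii G) (jj G) (Cset G ∅ (a, η)) (fun σ => Φ (sm σ a)) =
      G.W c a * zf a * U a * ((∏ p ∈ η, (c p - 1)) *
        ∑ σ : V ⊕ F → ℤˣ, ic (ii G) (jj G) (Cset G ∅ (a, η)) σ * Φ (sm σ a)) := by
    intro η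
    have := nC_mul_av (ii G) (jj G) (Cset G ∅ (a, η)) (fun σ => Φ (sm σ a))
    unfold aC at this
    rw [← this]
    unfold R
    ring
  simp only [hR]
  rw [← Finset.mul_sum]
  -- sum over eta
  have hη : ∑ η : Finset P, ((∏ p ∈ η, (c p - 1)) *
        ∑ σ : V ⊕ F → ℤˣ, ic (ii G) (jj G) (Cset G ∅ (a, η)) σ * Φ (sm σ a)) =
      ∑ σ : V ⊕ F → ℤˣ, (∏ p, if σ (.inr (G.f₁ p)) = σ (.inr (G.f₂ p)) then c p else 1) *
        (if IncOK G a σ then 1 else 0) * Φ (sm σ a) := by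
    simp only [Finset.mul_sum]
    rw [Finset.sum_comm]
    refine Finset.sum_congr rfl fun σ _ => ?_
    have e1 : ∀ η : Finset P, (∏ p ∈ η, (c p - 1)) *
        (ic (ii G) (jj G) (Cset G ∅ (a, η)) σ * Φ (sm σ a)) =
        (∏ p ∈ η, ((c p - 1) * if σ (.inr (G.f₁ p)) = σ (.inr (G.f₂ p)) then (1 : ℝ) else 0)) *
        ((if IncOK G a σ then 1 else 0) * Φ (sm σ a)) := by
      intro η
      rw [ic_Cset, Finset.prod_mul_distrib]
      ring
    simp only [e1]
    rw [← Finset.sum_mul]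
    have e2 : ∑ η : Finset P,
        (∏ p ∈ η, ((c p - 1) * if σ (.inr (G.f₁ p)) = σ (.inr (G.f₂ p)) then (1 : ℝ) else 0)) =
        ∏ p, if σ (.inr (G.f₁ p)) = σ (.inr (G.f₂ p)) then c p else 1 := by
      have := Finset.prod_one_add (s := (Finset.univ : Finset P))
        (f := fun p => ((c p - 1) * if σ (.inr (G.f₁ p)) = σ (.inr (G.f₂ p)) then (1 : ℝ) else 0))
      rw [Finset.powerset_univ] at this
      rw [← this]
      refine Finset.prod_congr rfl fun p _ => ?_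
      split_ifs <;> ring
    rw [e2]; ring
  rw [hη, Finset.mul_sum, Finset.mul_sum, Finset.mul_sum]
  refine Finset.sum_congr rfl fun σ _ => ?_
  rw [ab_sm σ ha0]
  have hW := W_sm G hc ha0 σ
  have hz : za a * G.W c a = zf a * G.W c a := by
    by_cases hv : G.Valid a
    · congr 1
      rw [za_eq_of_valid G hv]
      unfold zf
      rw [if_pos ha0, one_mul]
    · have : G.W c a = 0 := by unfold Geo.W; rw [if_neg hv]
      rw [this]; ring
  calc (∏ p, c p) * (za a * (G.W c (sm σ a) * U a * Φ (sm σ a)))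
      = za a * ((∏ p, c p) * G.W c (sm σ a)) * (U a * Φ (sm σ a)) := by ring
    _ = (za a * G.W c a) * ((∏ p, if σ (.inr (G.f₁ p)) = σ (.inr (G.f₂ p)) then c p else 1) *
        (if IncOK G a σ then 1 else 0)) * (U a * Φ (sm σ a)) := by rw [hW]; ring
    _ = _ := by rw [hz]; ring

end two

end Crest.Agent.R161.Pol375
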