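import Crest.Agent.R161.Dnv_132
import Crest.Agent.R161.Green2_722
import Crest.Agent.R161.Lap_695
import Crest.Agent.R161.Law_373

/-!
R161 (helper373): algebra of the logarithmic energy form on `f - Δχ`.

* `Test.add`, `Test.sub`, `Test.smul`, `Test.neg`, `Test.lap`
* `plog_lap_right : plog f (-Δψ) = ∫ f ψ`, `plog_comm`, bilinearity
* `plog_sub_lap : plog (f - Δχ) (f - Δχ) = plog f f + 2 ∫ f χ + ∫ χ (-Δχ)`
* `lap_refl : Δ (ψ ∘ ρ) = (Δ ψ) ∘ ρ` for the reflection in `re = x₀`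
-/

set_option autoImplicit false

noncomputable section

namespace Crest.Agent.R161.Pot373

open Finset MeasureTheory Filter Topology
open Crest.Agent.R161.Geo729 Crest.Agent.R161.Defs372 Crest.Agent.R161.Ifc372
open Crest.Agent.R161.Green722 Crest.Agent.R161.Dnv132
open Crest.Agent.R161.Lap695
open scoped ContDiff Laplacian

theorem test_add {f g : ℂ → ℝ} (hf : Test f) (hg : Test g) : Test (fun z => f z + g z) :=
  ⟨hf.smooth.add hg.smooth, hf.supp.add hg.supp⟩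

theorem test_neg {f : ℂ → ℝ} (hf : Test f) : Test (fun z => -f z) :=
  ⟨hf.smooth.neg, hf.supp.neg⟩

theorem test_sub {f g : ℂ → ℝ} (hf : Test f) (hg : Test g) : Test (fun z => f z - g z) := by
  simpa only [sub_eq_add_neg] using test_add hf (test_neg hg)

theorem test_smul {f : ℂ → ℝ} (hf : Test f) (s : ℝ) : Test (fun z => s * f z) :=
  ⟨contDiff_const.mul hf.smooth, hf.supp.mul_left⟩

theorem two_le_infty : (2 : WithTop ℕ∞) ≤ ∞ :=
  WithTop.coe_le_coe.2 (le_top : ((2 : ℕ) : ℕ∞) ≤ ⊤)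

theorem test_zero : Test (fun _ => 0) := ⟨contDiff_const, HasCompactSupport.zero⟩

theorem contDiff_lap {ψ : ℂ → ℝ} (hψ : ContDiff ℝ ∞ ψ) : ContDiff ℝ ∞ (Δ ψ) := by
  have h1 : ContDiff ℝ ∞ (iteratedFDeriv ℝ 2 ψ) := hψ.iteratedFDeriv_right (by
    exact_mod_cast le_rfl)
  have e : (Δ ψ) = fun z => (ContinuousMultilinearMap.apply ℝ (fun _ : Fin 2 => ℂ) ℝ
      (fun _ => 1)) (iteratedFDeriv ℝ 2 ψ z) + (ContinuousMultilinearMap.apply ℝ
      (fun _ : Fin 2 => ℂ) ℝ (fun _ => Complex.I)) (iteratedFDeriv ℝ 2 ψ z) := by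
    funext z
    rw [Lap695.laplacian_eq]
    rfl
  rw [e]
  exact ((ContinuousMultilinearMap.apply ℝ (fun _ : Fin 2 => ℂ) ℝ (fun _ => 1)).contDiff.comp
    h1).add ((ContinuousMultilinearMap.apply ℝ (fun _ : Fin 2 => ℂ) ℝ
      (fun _ => Complex.I)).contDiff.comp h1)

theorem test_lap {ψ : ℂ → ℝ} (hψ : Test ψ) : Test (fun z => -(Δ ψ) z) :=
  test_neg ⟨contDiff_lap hψ.smooth, hasCompactSupport_lapC hψ.supp⟩

theorem exists_tst {f : ℂ → ℝ} (hf : Test f) : ∃ r : ℝ, 0 < r ∧ ∀ r', r ≤ r' → Tst r' f := by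
  obtain ⟨r, hr0, hr⟩ := Riem373.exists_radius hf
  obtain ⟨M, _, hM⟩ := Riem373.exists_bound hf
  refine ⟨r, hr0, fun r' hr' => ⟨hf.smooth.continuous.measurable, ⟨M, hM⟩, fun z hz => ?_⟩⟩
  by_contra h
  exact absurd (hr z h) (not_le.2 (hr'.trans_lt hz))

theorem exists_tst2 {f g : ℂ → ℝ} (hf : Test f) (hg : Test g) : ∃ r : ℝ, Tst r f ∧ Tst r g := by
  obtain ⟨r1, _, h1⟩ := exists_tst hf
  obtain ⟨r2, _, h2⟩ := exists_tst hg
  exact ⟨max r1 r2, h1 _ (le_max_left _ _), h2 _ (le_max_right _ _)⟩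

theorem exists_tst3 {f g h : ℂ → ℝ} (hf : Test f) (hg : Test g) (hh : Test h) :
    ∃ r : ℝ, Tst r f ∧ Tst r g ∧ Tst r h := by
  obtain ⟨r1, _, h1⟩ := exists_tst hf
  obtain ⟨r2, _, h2⟩ := exists_tst hg
  obtain ⟨r3, _, h3⟩ := exists_tst hh
  exact ⟨max r1 (max r2 r3), h1 _ (le_max_left _ _),
    h2 _ ((le_max_left _ _).trans (le_max_right _ _)),
    h3 _ ((le_max_right _ _).trans (le_max_right _ _))⟩

theorem plog_comm {f g : ℂ → ℝ} (hf : Test f) (hg : Test g) : plog f g = plog g f := by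
  obtain ⟨r, h1, h2⟩ := exists_tst2 hf hg
  rw [plog_eq, plog_eq, symm h1 h2]

theorem plog_add_left {f g h : ℂ → ℝ} (hf : Test f) (hg : Test g) (hh : Test h) :
    plog (fun z => f z + g z) h = plog f h + plog g h := by
  obtain ⟨r, h1, h2, h3⟩ := exists_tst3 hf hg hh
  rw [plog_eq, plog_eq, plog_eq, ← mul_add, ← integral_add (integrable_mul_U h1 h3)
    (integrable_mul_U h2 h3)]
  congr 2
  funext z
  ring

theorem plog_add_right {f g h : ℂ → ℝ} (hf : Test f) (hg : Test g) (hh : Test h) :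
    plog h (fun z => f z + g z) = plog h f + plog h g := by
  rw [plog_comm hh (test_add hf hg), plog_add_left hf hg hh, plog_comm hf hh, plog_comm hg hh]

theorem plog_smul_left (s : ℝ) (f h : ℂ → ℝ) :
    plog (fun z => s * f z) h = s * plog f h := by
  rw [plog_eq, plog_eq, mul_left_comm s]
  congr 1
  rw [← integral_const_mul]
  congr 1
  funext z
  ring

theorem plog_smul_right (s : ℝ) (f h : ℂ → ℝ) :
    plog h (fun z => s * f z) = s * plog h f := by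
  rw [plog_eq, plog_eq, mul_left_comm s]
  congr 1
  rw [← integral_const_mul]
  congr 1
  funext z
  have : Dnv132.U (fun z => s * f z) z = s * Dnv132.U f z := by
    unfold Dnv132.U
    rw [← integral_const_mul]
    congr 1
    funext w
    ring
  rw [this]
  ring

theorem U_lap {ψ : ℂ → ℝ} (hψ : Test ψ) (z : ℂ) :
    Dnv132.U (fun w => -(Δ ψ) w) z = -(2 * Real.pi) * ψ z := by
  have h := LP_lap hψ.smooth hψ.supp z
  unfold LP at h
  unfold Dnv132.U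
  have e : ∀ w, Real.log ‖z - w‖ * -(Δ ψ) w = -(Real.log ‖z - w‖ * (Δ ψ) w) := fun w => by ring
  simp only [e]
  rw [integral_neg]
  have h2 := Real.pi_pos
  field_simp at h
  linarith

/-- `⟨f, G (-Δψ)⟩ = ∫ f ψ` -/
theorem plog_lap_right {f ψ : ℂ → ℝ} (hψ : Test ψ) :
    plog f (fun z => -(Δ ψ) z) = ∫ z, f z * ψ z := by
  rw [plog_eq, ← integral_const_mul]
  congr 1
  funext z
  rw [U_lap hψ]
  have h2 := Real.pi_pos
  field_simp

theorem plog_lap_left {f ψ : ℂ → ℝ} (hf : Test f) (hψ : Test ψ) :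
    plog (fun z => -(Δ ψ) z) f = ∫ z, f z * ψ z := by
  rw [plog_comm (test_lap hψ) hf, plog_lap_right hψ]

theorem plog_lap {ψ : ℂ → ℝ} (hψ : Test ψ) :
    plog (fun z => -(Δ ψ) z) (fun z => -(Δ ψ) z) = ∫ z, ψ z * -(Δ ψ) z := by
  rw [plog_lap_right hψ]
  congr 1
  funext z
  ring

/-- **expansion of the energy** -/
theorem plog_sub_lap {f χ : ℂ → ℝ} (hf : Test f) (hχ : Test χ) :
    plog (fun z => f z + -(Δ χ) z) (fun z => f z + -(Δ χ) z) =
      plog f f + 2 * (∫ z, f z * χ z) + ∫ z, χ z * -(Δ χ) z := by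
  have hl := test_lap hχ
  rw [plog_add_left hf hl (test_add hf hl), plog_add_right hf hl hf, plog_add_right hf hl hl,
    plog_lap_right hχ, plog_lap_left hf hχ, plog_lap hχ]
  ring

/-- the Laplacian has integral zero -/
theorem integral_lap {ψ : ℂ → ℝ} (hψ : Test ψ) : ∫ z, -(Δ ψ) z = 0 := by
  have h := green_onC (v := fun _ => (1 : ℝ)) isOpen_univ contDiffOn_const hψ.smooth hψ.supp
    (Set.subset_univ _)
  simp only [one_mul] at h
  rw [integral_neg, h]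
  have : (Δ (fun _ : ℂ => (1 : ℝ))) = fun _ => 0 := InnerProductSpace.laplacian_const
  rw [this]
  simp

/-! ### reflection -/

/-- reflection in the line `re = x₀` -/
def rfl' (x₀ : ℝ) (z : ℂ) : ℂ := 2 * (x₀ : ℂ) - (starRingEnd ℂ) z

theorem rfl'_re (x₀ : ℝ) (z : ℂ) : (rfl' x₀ z).re = 2 * x₀ - z.re := by simp [rfl']

theorem rfl'_im (x₀ : ℝ) (z : ℂ) : (rfl' x₀ z).im = z.im := by simp [rfl']

theorem rfl'_rfl' (x₀ : ℝ) (z : ℂ) : rfl' x₀ (rfl' x₀ z) = z := by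
  apply Complex.ext
  · rw [rfl'_re, rfl'_re]; ring
  · rw [rfl'_im, rfl'_im]

theorem contDiff_rfl' (x₀ : ℝ) : ContDiff ℝ ∞ (rfl' x₀) := by
  unfold rfl'
  exact contDiff_const.sub Complex.conjCLE.contDiff

theorem continuous_rfl' (x₀ : ℝ) : Continuous (rfl' x₀) := (contDiff_rfl' x₀).continuous

/-- the reflection as a homeomorphism -/
def rflH (x₀ : ℝ) : ℂ ≃ₜ ℂ where
  toFun := rfl' x₀
  invFun := rfl' x₀
  left_inv := rfl'_rfl' x₀
  right_inv := rfl'_rfl' x₀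
  continuous_toFun := continuous_rfl' x₀
  continuous_invFun := continuous_rfl' x₀

theorem mp_rfl' (x₀ : ℝ) : MeasurePreserving (rfl' x₀) := by
  have h1 : MeasurePreserving (fun z : ℂ => (starRingEnd ℂ) z) :=
    (Complex.conjLIE.measurePreserving : _)
  have h2 : MeasurePreserving (fun z : ℂ => 2 * (x₀ : ℂ) - z) :=
    Measure.measurePreserving_sub_left volume (2 * (x₀ : ℂ))
  exact h2.comp h1

theorem integral_rfl' (x₀ : ℝ) (F : ℂ → ℝ) : ∫ z, F (rfl' x₀ z) = ∫ z, F z :=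
  (mp_rfl' x₀).integral_comp (rflH x₀).measurableEmbedding F

theorem test_rfl' (x₀ : ℝ) {f : ℂ → ℝ} (hf : Test f) : Test (fun z => f (rfl' x₀ z)) :=
  ⟨hf.smooth.comp (contDiff_rfl' x₀), hf.supp.comp_homeomorph (rflH x₀)⟩

theorem lap5_rfl' (x₀ δ : ℝ) (ψ : ℂ → ℝ) (z : ℂ) :
    lap5 δ (fun w => ψ (rfl' x₀ w)) z = lap5 δ ψ (rfl' x₀ z) := by
  unfold lap5
  have e1 : rfl' x₀ (z + δ) = rfl' x₀ z - δ := by
    unfold rfl'; rw [map_add, Complex.conj_ofReal]; ring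
  have e2 : rfl' x₀ (z - δ) = rfl' x₀ z + δ := by
    unfold rfl'; rw [map_sub, Complex.conj_ofReal]; ring
  have e3 : rfl' x₀ (z + δ * Complex.I) = rfl' x₀ z + δ * Complex.I := by
    unfold rfl'; rw [map_add, map_mul, Complex.conj_ofReal, Complex.conj_I]; ring
  have e4 : rfl' x₀ (z - δ * Complex.I) = rfl' x₀ z - δ * Complex.I := by
    unfold rfl'; rw [map_sub, map_mul, Complex.conj_ofReal, Complex.conj_I]; ring
  simp only [e1, e2, e3, e4]
  ring

/-- **the Laplacian commutes with the reflection** -/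
theorem lap_rfl' (x₀ : ℝ) {ψ : ℂ → ℝ} (hψ : Test ψ) (z : ℂ) :
    (Δ (fun w => ψ (rfl' x₀ w))) z = (Δ ψ) (rfl' x₀ z) := by
  obtain ⟨C, hC0, hC⟩ := lap5_sub_le hψ.smooth hψ.supp
  obtain ⟨C', hC'0, hC'⟩ := lap5_sub_le (test_rfl' x₀ hψ).smooth (test_rfl' x₀ hψ).supp
  set D : ℝ := (Δ (fun w => ψ (rfl' x₀ w))) z - (Δ ψ) (rfl' x₀ z) with hD
  have h1 : ∀ δ : ℝ, 0 < δ → |D| ≤ (C + C') * δ ^ 2 := by
    intro δ hδ
    have h2 := hC δ (rfl' x₀ z) hδ.le
    have h3 := hC' δ z hδ.le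
    rw [lap5_rfl'] at h3
    have h4 : |δ ^ 2 * D| ≤ C * δ ^ 4 + C' * δ ^ 4 := by
      have e : δ ^ 2 * D = (lap5 δ ψ (rfl' x₀ z) - δ ^ 2 * (Δ ψ) (rfl' x₀ z)) -
          (lap5 δ ψ (rfl' x₀ z) - δ ^ 2 * (Δ (fun w => ψ (rfl' x₀ w))) z) := by
        rw [hD]; ring
      rw [e]
      exact (abs_sub _ _).trans (add_le_add h2 h3)
    rw [abs_mul, abs_of_pos (by positivity : (0 : ℝ) < δ ^ 2)] at h4
    have h5 : 0 < δ ^ 2 := by positivity
    refine le_of_mul_le_mul_left ?_ h5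
    calc δ ^ 2 * |D| ≤ C * δ ^ 4 + C' * δ ^ 4 := h4
      _ = δ ^ 2 * ((C + C') * δ ^ 2) := by ring
  have h2 : Tendsto (fun δ : ℝ => (C + C') * δ ^ 2) (𝓝[>] 0) (𝓝 ((C + C') * 0 ^ 2)) := by
    have : Continuous fun δ : ℝ => (C + C') * δ ^ 2 := by fun_prop
    exact (this.tendsto 0).mono_left nhdsWithin_le_nhds
  have h3 : |D| ≤ (C + C') * 0 ^ 2 := by
    refine ge_of_tendsto h2 ?_
    filter_upwards [self_mem_nhdsWithin] with δ hδ using h1 δ hδ
  have h4 : |D| = 0 := le_antisymm (by simpa using h3) (abs_nonneg _)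
  rw [abs_eq_zero] at h4
  linarith

/-! ### the half plane identity -/

section Half

variable {f ψ : ℂ → ℝ} {x₀ : ℝ}

/-- odd reflection -/
def odd (x₀ : ℝ) (f : ℂ → ℝ) (z : ℂ) : ℝ := f z + -f (rfl' x₀ z)

theorem test_odd (hf : Test f) : Test (odd x₀ f) := test_add hf (test_neg (test_rfl' x₀ hf))

theorem integral_odd (hf : Test f) : ∫ z, odd x₀ f z = 0 := by
  have h1 : Integrable f := hf.smooth.continuous.integrable_of_hasCompactSupport hf.supp
  have h2 : Integrable (fun z => f (rfl' x₀ z)) :=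
    (test_rfl' x₀ hf).smooth.continuous.integrable_of_hasCompactSupport (test_rfl' x₀ hf).supp
  have h3 : Integrable (fun z => -f (rfl' x₀ z)) := h2.neg
  unfold odd
  rw [integral_add h1 h3, integral_neg, integral_rfl']
  ring

/-- the reflected function, with a sign -/
def nref (x₀ : ℝ) (ψ : ℂ → ℝ) (z : ℂ) : ℝ := -ψ (rfl' x₀ z)

theorem test_nref (hψ : Test ψ) : Test (nref x₀ ψ) := test_neg (test_rfl' x₀ hψ)

theorem lap_nref (hψ : Test ψ) (z : ℂ) : (Δ (nref x₀ ψ)) z = -(Δ ψ) (rfl' x₀ z) := by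
  have h1 : nref x₀ ψ = -(fun w => ψ (rfl' x₀ w)) := rfl
  rw [h1, InnerProductSpace.laplacian_neg, Pi.neg_apply, lap_rfl' x₀ hψ]

theorem integral_odd_nref (f ψ : ℂ → ℝ) :
    ∫ z, odd x₀ f z * nref x₀ ψ z = ∫ z, odd x₀ f z * ψ z := by
  rw [← integral_rfl' x₀]
  congr 1
  funext z
  simp only [odd, nref, rfl'_rfl']
  ring

theorem integral_odd_mul (hfx : ∀ z : ℂ, z.re < x₀ → f z = 0) (hψx : ∀ z : ℂ, z.re ≤ x₀ → ψ z = 0) :
    ∫ z, odd x₀ f z * ψ z = ∫ z, f z * ψ z := by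
  congr 1
  funext z
  by_cases hz : z.re ≤ x₀
  · rw [hψx z hz, mul_zero, mul_zero]
  · rw [odd, hfx (rfl' x₀ z) (by rw [rfl'_re]; linarith)]
    ring

theorem integral_nref_lap (hψ : Test ψ) :
    ∫ z, nref x₀ ψ z * -(Δ (nref x₀ ψ)) z = ∫ z, ψ z * -(Δ ψ) z := by
  rw [← integral_rfl' x₀]
  congr 1
  funext z
  rw [lap_nref hψ]
  simp only [nref, rfl'_rfl']
  ring

theorem lap_zero_of_open {χ : ℂ → ℝ} {V : Set ℂ} (hV : IsOpen V) (h : ∀ z ∈ V, χ z = 0) {z : ℂ}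
    (hz : z ∈ V) : (Δ χ) z = 0 := by
  have h1 : χ =ᶠ[𝓝 z] fun _ => (0 : ℝ) := by
    filter_upwards [hV.mem_nhds hz] with y hy using h y hy
  rw [(InnerProductSpace.laplacian_congr_nhds h1).eq_of_nhds]
  have : (Δ (fun _ : ℂ => (0 : ℝ))) = fun _ => 0 := InnerProductSpace.laplacian_const
  rw [this]

/-- cross terms vanish -/
theorem integral_add_lap (hψ : Test ψ) (hψx : ∀ z : ℂ, z.re ≤ x₀ → ψ z = 0) :
    ∫ z, (ψ z + nref x₀ ψ z) * -(Δ (fun w => ψ w + nref x₀ ψ w)) z =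
      2 * ∫ z, ψ z * -(Δ ψ) z := by
  have hn := test_nref (x₀ := x₀) hψ
  have h1 : ∀ z, (Δ (fun w => ψ w + nref x₀ ψ w)) z = (Δ ψ) z + (Δ (nref x₀ ψ)) z := by
    intro z
    exact ContDiffAt.laplacian_add ((hψ.smooth.of_le two_le_infty).contDiffAt)
      ((hn.smooth.of_le two_le_infty).contDiffAt)
  have hR : IsOpen {z : ℂ | x₀ < z.re} := isOpen_lt continuous_const Complex.continuous_re
  have hL : IsOpen {z : ℂ | z.re < x₀} := isOpen_lt Complex.continuous_re continuous_const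
  have hnx : ∀ z : ℂ, x₀ ≤ z.re → nref x₀ ψ z = 0 := by
    intro z hz
    rw [nref, hψx _ (by rw [rfl'_re]; linarith), neg_zero]
  have h2 : ∀ z, (ψ z + nref x₀ ψ z) * -(Δ (fun w => ψ w + nref x₀ ψ w)) z =
      ψ z * -(Δ ψ) z + nref x₀ ψ z * -(Δ (nref x₀ ψ)) z := by
    intro z
    rw [h1]
    have c1 : ψ z * (Δ (nref x₀ ψ)) z = 0 := by
      by_cases hz : z.re ≤ x₀
      · rw [hψx z hz, zero_mul]
      · rw [lap_zero_of_open hR (fun w hw => hnx w (le_of_lt hw)) (not_le.1 hz), mul_zero]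
    have c2 : nref x₀ ψ z * (Δ ψ) z = 0 := by
      by_cases hz : x₀ ≤ z.re
      · rw [hnx z hz, zero_mul]
      · rw [lap_zero_of_open hL (fun w hw => hψx w (le_of_lt hw)) (not_le.1 hz), mul_zero]
    linear_combination -c1 - c2
  simp only [h2]
  have hi : ∀ χ : ℂ → ℝ, Test χ → Integrable (fun z => χ z * -(Δ χ) z) := by
    intro χ hχ
    refine (hχ.smooth.continuous.mul (test_lap hχ).smooth.continuous).integrable_of_hasCompactSupport
      hχ.supp.mul_right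
  rw [integral_add (hi _ hψ) (hi _ hn), integral_nref_lap hψ]
  ring

/-- energies of the four terms -/
theorem energy_one (hf : Test f) (hψ : Test ψ) (hfx : ∀ z : ℂ, z.re < x₀ → f z = 0)
    (hψx : ∀ z : ℂ, z.re ≤ x₀ → ψ z = 0) :
    plog (fun z => odd x₀ f z + -(Δ ψ) z) (fun z => odd x₀ f z + -(Δ ψ) z) =
      plog (odd x₀ f) (odd x₀ f) + (2 * (∫ z, f z * ψ z) + ∫ z, ψ z * -(Δ ψ) z) := by
  rw [plog_sub_lap (test_odd hf) hψ, integral_odd_mul hfx hψx]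
  ring

theorem energy_two (hf : Test f) (hψ : Test ψ) (hfx : ∀ z : ℂ, z.re < x₀ → f z = 0)
    (hψx : ∀ z : ℂ, z.re ≤ x₀ → ψ z = 0) :
    plog (fun z => odd x₀ f z + -(Δ (nref x₀ ψ)) z) (fun z => odd x₀ f z + -(Δ (nref x₀ ψ)) z) =
      plog (odd x₀ f) (odd x₀ f) + (2 * (∫ z, f z * ψ z) + ∫ z, ψ z * -(Δ ψ) z) := by
  rw [plog_sub_lap (test_odd hf) (test_nref hψ), integral_odd_nref, integral_odd_mul hfx hψx,
    integral_nref_lap hψ]
  ring

theorem energy_three (hf : Test f) (hψ : Test ψ) (hfx : ∀ z : ℂ, z.re < x₀ → f z = 0)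
    (hψx : ∀ z : ℂ, z.re ≤ x₀ → ψ z = 0) :
    plog (fun z => odd x₀ f z + -(Δ (fun w => ψ w + nref x₀ ψ w)) z)
        (fun z => odd x₀ f z + -(Δ (fun w => ψ w + nref x₀ ψ w)) z) =
      plog (odd x₀ f) (odd x₀ f) + 2 * (2 * (∫ z, f z * ψ z) + ∫ z, ψ z * -(Δ ψ) z) := by
  have hn := test_nref (x₀ := x₀) hψ
  rw [plog_sub_lap (test_odd hf) (test_add hψ hn), integral_add_lap hψ hψx]
  have hi : ∀ χ : ℂ → ℝ, Test χ → Integrable (fun z => odd x₀ f z * χ z) := by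
    intro χ hχ
    exact ((test_odd (x₀ := x₀) hf).smooth.continuous.mul
      hχ.smooth.continuous).integrable_of_hasCompactSupport hχ.supp.mul_left
  have e : ∫ z, odd x₀ f z * (ψ z + nref x₀ ψ z) = 2 * ∫ z, f z * ψ z := by
    have e1 : ∀ z, odd x₀ f z * (ψ z + nref x₀ ψ z) =
        odd x₀ f z * ψ z + odd x₀ f z * nref x₀ ψ z := fun z => by ring
    simp only [e1]
    rw [integral_add (hi _ hψ) (hi _ hn), integral_odd_nref, integral_odd_mul hfx hψx]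
    ring
  rw [e]
  ring

end Half

end Crest.Agent.R161.Pot373
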