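import Crest.Agent.R161.Spr2_868

/-!
# Spread at scales at least `M1` (helper770; the proof is helper868's, with a lower bound on `M`)
-/

set_option autoImplicit false

noncomputable section

namespace Crest.Agent.R161.Spr868

open Filter Topology MeasureTheory Set Metric
open Crest.Agent.R161.Green722 Crest.Agent.R161.Dnv132
open Crest.Agent.R161.Geo729 Crest.Agent.R161.Defs372 Crest.Agent.R161.Ifc372
open Crest.Agent.R161.Flip228 (Lin)

variable {c : ℝ} {P : Measure Cfg}

/-- **Spread.** -/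
theorem spread_ge [IsProbabilityMeasure P] (hc : 0 < c) (hP : PlaneGauss c P) {L η : ℝ} (hL : 0 < L)
    (hη : 0 < η) (M1 : ℕ) : ∃ M : ℕ, M1 ≤ M ∧ 1 ≤ M ∧ ∃ N0 : ℕ, ∀ N : ℕ, N0 ≤ N →
      P.real {ω | |XN N ω - XN (M * N) ω| ≤ L} ≤ η := by
  -- the number of terms
  obtain ⟨J, hJ⟩ := exists_nat_gt (16 / η)
  have hJ0 : (0 : ℝ) < J := lt_trans (by positivity) hJ
  have hJ1 : 1 ≤ J := by
    rcases Nat.eq_zero_or_pos J with h | h
    · rw [h] at hJ0; simp at hJ0
    · exact h
  set h : ℝ := (J * L)⁻¹ with hh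
  have hh0 : 0 < h := by positivity
  -- the required variance
  have hk := kap_pos hc
  obtain ⟨M0, hM0, hM⟩ := plog_gt (2 * (16 / η) / (h ^ 2 * kap c))
  obtain ⟨M, hMdef⟩ : ∃ M, M = max M0 M1 := ⟨_, rfl⟩
  have hM1 : 1 ≤ M := by omega
  refine ⟨M, by omega, hM1, ?_⟩
  have hr : (0 : ℝ) < (M : ℝ)⁻¹ := inv_pos.2 (by exact_mod_cast hM1)
  have hr1 : (M : ℝ)⁻¹ ≤ 1 := inv_le_one_of_one_le₀ (by exact_mod_cast hM1)
  have hpl := hM M (by omega)
  set v := kap c * plog (fr (M : ℝ)⁻¹) (fr (M : ℝ)⁻¹) with hv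
  have hvb : 16 / η < h ^ 2 * v / 2 := by
    rw [hv]
    rw [div_lt_iff₀ (by positivity)] at hpl
    nlinarith
  -- limits of the cosines
  have hlim : ∀ s : ℝ, Tendsto (fun N : ℕ => ∫ ω, Real.cos (s * (XN N ω - XN (M * N) ω)) ∂P) atTop
      (𝓝 (Real.exp (-(s ^ 2 * v / 2)))) := by
    intro s
    have h1 := hP.law _ (fr_test hr) (fr_integral hr hr1) s
    have h2 : Tendsto (fun N : ℕ => ((M * N : ℕ) : ℝ)⁻¹) atTop (𝓝[>] 0) :=
      tendsto_inv_nat.comp (tendsto_id.const_mul_atTop' (by omega))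
    refine ((h1.comp h2).congr' ?_)
    filter_upwards [eventually_ge_atTop 1] with N hN
    simp only [Function.comp]
    congr 1
    funext ω
    rw [X_fr hN hM1]
  have hlim2 : Tendsto (fun N : ℕ => 4 * ((J : ℝ)⁻¹ ^ 2 * ∑ j ∈ Finset.range J,
      ∑ k ∈ Finset.range J, ∫ ω, Real.cos ((((j : ℝ) - k) * h) * (XN N ω - XN (M * N) ω)) ∂P)) atTop
      (𝓝 (4 * ((J : ℝ)⁻¹ ^ 2 * ∑ j ∈ Finset.range J, ∑ k ∈ Finset.range J,
        Real.exp (-((((j : ℝ) - k) * h) ^ 2 * v / 2))))) := by
    refine Tendsto.const_mul _ (Tendsto.const_mul _ ?_)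
    exact tendsto_finsetSum _ fun j _ => tendsto_finsetSum _ fun k _ => hlim _
  have hbound : 4 * ((J : ℝ)⁻¹ ^ 2 * ∑ j ∈ Finset.range J, ∑ k ∈ Finset.range J,
        Real.exp (-((((j : ℝ) - k) * h) ^ 2 * v / 2))) < η := by
    have hv0 : 0 < v := by
      by_contra hcon
      push Not at hcon
      have : h ^ 2 * v / 2 ≤ 0 := by
        have := mul_nonpos_of_nonneg_of_nonpos (sq_nonneg h) hcon
        linarith
      have h16 : 0 < 16 / η := by positivity
      linarith
    have h1 : ∀ j ∈ Finset.range J, ∑ k ∈ Finset.range J,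
        Real.exp (-((((j : ℝ) - k) * h) ^ 2 * v / 2)) ≤ 1 + J * (η / 16) := by
      intro j hj
      rw [← Finset.add_sum_erase _ _ hj]
      refine add_le_add ?_ ?_
      · rw [sub_self]
        simp
      · have h3 : ∀ k ∈ (Finset.range J).erase j,
            Real.exp (-((((j : ℝ) - k) * h) ^ 2 * v / 2)) ≤ η / 16 := by
          intro k hk
          have hne : j ≠ k := fun h => (Finset.mem_erase.1 hk).1 h.symm
          have h4 : (1 : ℝ) ≤ ((j : ℝ) - k) ^ 2 := by
            have h5 : (1 : ℤ) ≤ ((j : ℤ) - k) ^ 2 := by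
              have : (j : ℤ) - k ≠ 0 := by omega
              have := sq_pos_of_ne_zero this
              omega
            exact_mod_cast h5
          have h5 : 16 / η ≤ (((j : ℝ) - k) * h) ^ 2 * v / 2 := by
            rw [mul_pow]
            have h6 : h ^ 2 * v ≤ ((j : ℝ) - k) ^ 2 * h ^ 2 * v := by
              have : 0 ≤ h ^ 2 * v := by positivity
              nlinarith
            linarith
          have h7 : Real.exp (-((((j : ℝ) - k) * h) ^ 2 * v / 2)) ≤ Real.exp (-(16 / η)) :=
            Real.exp_le_exp.2 (by linarith)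
          refine h7.trans ?_
          rw [Real.exp_neg]
          have h8 : 16 / η ≤ Real.exp (16 / η) := by
            have := Real.add_one_le_exp (16 / η)
            linarith
          have h9 : η / 16 = (16 / η)⁻¹ := by rw [inv_div]
          rw [h9]
          exact inv_anti₀ (by positivity) h8
        have h10 := Finset.sum_le_card_nsmul _ _ _ h3
        refine h10.trans ?_
        rw [nsmul_eq_mul]
        apply mul_le_mul_of_nonneg_right _ (by positivity)
        have h11 := Finset.card_erase_le (s := Finset.range J) (a := j)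
        rw [Finset.card_range] at h11
        exact_mod_cast h11
    have h2 := Finset.sum_le_sum h1
    rw [Finset.sum_const, Finset.card_range, nsmul_eq_mul] at h2
    calc 4 * ((J : ℝ)⁻¹ ^ 2 * ∑ j ∈ Finset.range J, ∑ k ∈ Finset.range J,
        Real.exp (-((((j : ℝ) - k) * h) ^ 2 * v / 2)))
        ≤ 4 * ((J : ℝ)⁻¹ ^ 2 * (J * (1 + J * (η / 16)))) := by gcongr
      _ = 4 / J + η / 4 := by
          field_simp
          ring
      _ < η / 4 + η / 4 + η / 4 + η / 4 := by
          have : 4 / (J : ℝ) < η / 4 := by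
            rw [div_lt_div_iff₀ hJ0 (by norm_num)]
            rw [div_lt_iff₀ hη] at hJ
            linarith
          linarith
      _ = η := by ring
  obtain ⟨N0, hN0⟩ := (hlim2.eventually_lt_const hbound).exists_forall_of_atTop
  refine ⟨N0, fun N hN => ?_⟩
  have h1 := prob_le (P := P) (Z := fun ω => XN N ω - XN (M * N) ω)
    ((measurable_XN N).sub (measurable_XN (M * N))) hL hJ1
  exact h1.trans (hN0 N hN).le

end Crest.Agent.R161.Spr868
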