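import Crest.Agent.R161.RPar_770
import Crest.Agent.R161.Spr3_770

/-!
# Input (R) (helper770, R161 block E)

`rIn : 1 ≤ c → IsState c P → FKGLoc (nu P) → PlaneGauss c P → RIn c P`.
-/

set_option autoImplicit false

noncomputable section

namespace Crest.Agent.R161.Ann770

open Finset hiding box
open MeasureTheory
open Crest.Agent.R161.Geo729 Crest.Agent.R161.Defs372 Crest.Agent.R161.Dmp341
open Crest.Agent.R161.Hull374 Crest.Agent.R161.Dual374 Crest.Agent.R161.Ifc372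
open Crest.Agent.R161.Exp760 (DF doms mem_doms)
open Crest.Agent.R161.Out868 Crest.Agent.R161.Blk696
open Crest.Agent.R161.Ring421 Crest.Agent.R161.NuInv421 Crest.Agent.R161.Spr868
open Crest.Agent.R161.Flip228 (Lin)
open Crest.Agent.R161.Aut373 (Neut lim_neut loc_integrable)

variable {c : ℝ} {P : Measure Cfg}

/-! ### local neutral functionals -/

theorem loc_Lin (S : Finset P2) (a : P2 → ℝ) : Loc (S : Set P2) (Lin S a) := by
  intro ω ω' h
  unfold Lin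
  exact Finset.sum_congr rfl fun v hv => by rw [(h v (by exact_mod_cast hv)).1]

theorem Lin_addH (S : Finset P2) (a : P2 → ℝ) (ω : Cfg) (r : ℤ) :
    Lin S a (addH r ω) = Lin S a ω + (∑ v ∈ S, a v) * r := by
  unfold Lin addH
  rw [Finset.sum_mul, ← Finset.sum_add_distrib]
  refine Finset.sum_congr rfl fun v _ => ?_
  push_cast
  ring

/-- difference of two averages -/
theorem neut_sub {S T : Finset P2} {a b : P2 → ℝ} (ha : ∑ v ∈ S, a v = 1) (hb : ∑ v ∈ T, b v = 1) :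
    Neut (fun ω => Lin S a ω - Lin T b ω) := by
  intro ω _ r _
  simp only [Lin_addH, ha, hb]
  ring

theorem loc_sub (S T : Finset P2) (a b : P2 → ℝ) :
    Loc ((S ∪ T : Finset P2) : Set P2) (fun ω => Lin S a ω - Lin T b ω) := by
  intro ω ω' h
  have h1 := loc_Lin S a ω ω' (fun v hv => h v (by
    rw [Finset.coe_union]; exact Or.inl hv))
  have h2 := loc_Lin T b ω ω' (fun v hv => h v (by
    rw [Finset.coe_union]; exact Or.inr hv))
  simp only [h1, h2]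

theorem loc_comp {α β : Type*} {S : Set P2} {f : Cfg → α} (h : Loc S f) (g : α → β) :
    Loc S (fun ω => g (f ω)) := fun ω ω' hh => by simp only [h ω ω' hh]

theorem neut_comp {α β : Type*} {f : Cfg → α} (h : Neut f) (g : α → β) :
    Neut (fun ω => g (f ω)) := fun ω hω a ha => by simp only [h ω hω a ha]

/-- the event depends on the cut edges only -/
theorem loc_z {S : Finset Edge} {A : Set (Edge → Bool)} (hA : LocOn S A) :
    Loc ((S.image Prod.fst : Finset P2) : Set P2) (indP fun ω => ω.2.2 ∈ A) := by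
  intro ω ω' h
  refine indP_congr (hA _ _ ?_)
  rintro ⟨v, b⟩ he
  exact (h v (by
    simp only [Finset.coe_image, Set.mem_image, Finset.mem_coe]
    exact ⟨(v, b), he, rfl⟩)).2.2 b

theorem neut_z (A : Set (Edge → Bool)) : Neut (indP fun ω => ω.2.2 ∈ A) := fun _ _ _ _ => rfl

/-- limits along boxes -/
theorem lim_box (hP : IsState c P) {S : Finset P2} {f : Cfg → ℝ} (hf : Loc (S : Set P2) f)
    (hn : Neut f) {ε : ℝ} (hε : 0 < ε) : ∃ n0 : ℕ, ∀ n : ℕ, n0 ≤ n →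
      |E c (box n) f - ∫ ω, f ω ∂P| < ε := by
  obtain ⟨n0, h⟩ := lim_neut hP hf hn hε
  exact ⟨n0, fun n hn => h (box n) (dom_box n) (box_mono hn)⟩

open Classical in
/-- plus-cut edges are cut edges -/
theorem nu_le_z [IsProbabilityMeasure P] (hP : IsState c P) {A : Set (Edge → Bool)} (hA : LocEv A)
    (hI : IncEv A) : (nu P).real A ≤ ∫ ω, indP (fun ω => ω.2.2 ∈ A) ω ∂P := by
  obtain ⟨S, hS⟩ := hA
  rw [nu_real (LocEv.measurableSet ⟨S, hS⟩)]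
  refine integral_mono (loc_integrable hP (loc_GA hS)) (loc_integrable hP (loc_z hS)) fun ω => ?_
  have key : ∀ ω' : Cfg, ω'.2.2 = ω.2.2 → (if plusMap ω' ∈ A then (1 : ℝ) else 0) ≤
      indP (fun ω => ω.2.2 ∈ A) ω := by
    intro ω' h
    split_ifs with h1
    · rw [indP_of]
      refine hI (plusMap ω') _ (fun e he => ?_) h1
      rw [← h]
      exact ((plusMap_true _ e).1 he).1
    · exact indP_nonneg _ _
  have k1 := key ω rfl
  have k2 := key (addH 2 ω) rfl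
  unfold GA
  linarith

/-! ### the second moment error -/

theorem VN_sub_int {N : ℕ} {D : Finset P2} (h : ball (0, 0) N ⊆ D) : VN N ⊆ intVerts D := by
  intro v hv
  rw [mem_VN] at hv
  rw [mem_intVerts, intV_iff]
  intro f hf
  refine Finset.mem_coe.2 (h ?_)
  rw [Out868.mem_ball]
  obtain ⟨a, b⟩ := v
  obtain ⟨f1, f2⟩ := f
  simp only [Geo729.IsCorner, Prod.mk.injEq] at hf
  simp only at hv ⊢
  omega

theorem WN_not_int {N : ℕ} {D : Finset P2} (h : D ⊆ ball (0, 0) (2 * N)) {v : P2}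
    (hv : v ∈ WN N) : v ∉ intVerts D := by
  intro hv'
  rw [mem_intVerts] at hv'
  rw [mem_WN] at hv
  have h1 := h (Finset.mem_coe.1 hv'.1)
  rw [Out868.mem_ball] at h1
  push_cast at h1
  omega

open Classical in
/-- second moment bound for the two hulls at scale `N` -/
theorem sm_at {F : Finset P2} (hc : 1 ≤ c) {H : Cfg → Finset P2} {N : ℕ} (hN : 1 ≤ N)
    {A B : Finset P2 → Cfg → Prop} (hH : IsHull c F H (hulls (0, 0) N (2 * N)) A B) :
    E c F (fun ω => if H ω ∈ hulls (0, 0) N (2 * N) then (XN N ω - level (H ω) ω) ^ 2 else 0) ≤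
      E c F (fun ω => (XN N ω - YN N ω) ^ 2) := by
  refine le_trans ?_ (sm_hull hc hH (V := VN N) (W := WN N) (a := aN N) (b := bN N) ?_ (sum_aN hN) ?_)
  · refine E_mono hc fun ω _ => ?_
    split_ifs
    · have := sq_nonneg ((level (H ω) ω : ℝ) - Lin (WN N) (bN N) ω)
      unfold XN
      linarith
    · exact le_rfl
  · intro D hD
    exact VN_sub_int (mem_doms.1 hD).2.1
  · intro D hD v hv
    exact WN_not_int (mem_doms.1 hD).1 hv

open Classical in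
/-- the levels of two hulls agree only if the averages are close or far from a level -/
theorem eq_le {F : Finset P2} (hc : 1 ≤ c) {H₁ H₂ : Cfg → Finset P2} {𝒟₁ 𝒟₂ : Finset (Finset P2)}
    {X₁ X₂ : Cfg → ℝ} {L : ℝ} (hL : 0 < L) :
    E c F (fun ω => if (H₁ ω ∈ 𝒟₁ ∧ H₂ ω ∈ 𝒟₂) ∧ level (H₁ ω) ω = level (H₂ ω) ω then 1 else 0) ≤
      E c F (indP fun ω => |X₁ ω - X₂ ω| ≤ 2 * L) +
      (E c F (fun ω => if H₁ ω ∈ 𝒟₁ then (X₁ ω - level (H₁ ω) ω) ^ 2 else 0) +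
        E c F (fun ω => if H₂ ω ∈ 𝒟₂ then (X₂ ω - level (H₂ ω) ω) ^ 2 else 0)) / L ^ 2 := by
  have h1 : (E c F (fun ω => if H₁ ω ∈ 𝒟₁ then (X₁ ω - level (H₁ ω) ω) ^ 2 else 0) +
        E c F (fun ω => if H₂ ω ∈ 𝒟₂ then (X₂ ω - level (H₂ ω) ω) ^ 2 else 0)) / L ^ 2 =
      E c F (fun ω => (L ^ 2)⁻¹ * ((if H₁ ω ∈ 𝒟₁ then (X₁ ω - level (H₁ ω) ω) ^ 2 else 0) +
        (if H₂ ω ∈ 𝒟₂ then (X₂ ω - level (H₂ ω) ω) ^ 2 else 0))) := by
    rw [E_smul, E_add]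
    ring
  rw [h1, ← E_add]
  refine E_mono hc fun ω _ => ?_
  have hL2 : 0 < L ^ 2 := by positivity
  have hn1 : 0 ≤ (if H₁ ω ∈ 𝒟₁ then (X₁ ω - level (H₁ ω) ω) ^ 2 else 0) := by
    split_ifs
    · exact sq_nonneg _
    · exact le_rfl
  have hn2 : 0 ≤ (if H₂ ω ∈ 𝒟₂ then (X₂ ω - level (H₂ ω) ω) ^ 2 else 0) := by
    split_ifs
    · exact sq_nonneg _
    · exact le_rfl
  by_cases h : (H₁ ω ∈ 𝒟₁ ∧ H₂ ω ∈ 𝒟₂) ∧ level (H₁ ω) ω = level (H₂ ω) ω
  · rw [if_pos h]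
    by_cases hX : |X₁ ω - X₂ ω| ≤ 2 * L
    · rw [indP_of (A := fun ω => |X₁ ω - X₂ ω| ≤ 2 * L) hX]
      have : 0 ≤ (L ^ 2)⁻¹ * ((if H₁ ω ∈ 𝒟₁ then (X₁ ω - level (H₁ ω) ω) ^ 2 else 0) +
        (if H₂ ω ∈ 𝒟₂ then (X₂ ω - level (H₂ ω) ω) ^ 2 else 0)) := by positivity
      linarith
    · rw [indP_of_not (A := fun ω => |X₁ ω - X₂ ω| ≤ 2 * L) hX, zero_add, if_pos h.1.1,
        if_pos h.1.2, h.2]
      push Not at hX
      set l : ℝ := (level (H₂ ω) ω : ℝ) with hl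
      rw [inv_mul_eq_div, le_div_iff₀ hL2, one_mul]
      have h2 : (2 * L) ^ 2 < (X₁ ω - X₂ ω) ^ 2 := by
        rw [← sq_abs (X₁ ω - X₂ ω)]
        exact pow_lt_pow_left₀ hX (by positivity) two_ne_zero
      nlinarith [sq_nonneg ((X₁ ω - l) + (X₂ ω - l))]
  · rw [if_neg h]
    have := indP_nonneg (fun ω => |X₁ ω - X₂ ω| ≤ 2 * L) ω
    positivity

/-! ### (R) -/

open Classical in
/-- **(R).** -/
theorem rIn (hc : 1 ≤ c) (hP : IsState c P) (hF : FKGLoc (nu P)) (hG : PlaneGauss c P) :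
    RIn c P := by
  have := hP.prob
  intro c3 hc3
  obtain ⟨K0, hK0, Nv, hNv⟩ := second_moment hG
  set t : ℝ := c3 ^ 2 / 24 with ht
  have ht0 : 0 < t := by positivity
  set L0 : ℝ := 1 + 2 * (K0 + 1) / t with hL0
  have hL1 : 1 ≤ L0 := by
    have : 0 ≤ 2 * (K0 + 1) / t := by positivity
    linarith
  have hLp : 0 < L0 := by linarith
  have hLt : 2 * (K0 + 1) / L0 ^ 2 ≤ t := by
    rw [div_le_iff₀ (by positivity)]
    have h1 : t * L0 = t + 2 * (K0 + 1) := by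
      rw [hL0]
      field_simp
    have h2 : t * L0 ≤ t * L0 ^ 2 := mul_le_mul_of_nonneg_left (by nlinarith) ht0.le
    linarith
  obtain ⟨M, hM3, _, Ns, hNs⟩ := spread_ge (P := P) (by linarith : (0 : ℝ) < c) hG
    (L := 2 * L0) (η := t) (by positivity) ht0 3
  refine ⟨2 * M, max 1 (max Nv Ns), 4 * M, by omega, fun n hn hcirc => ?_⟩
  have hn1 : 1 ≤ n := (le_max_left _ _).trans hn
  have hnv : Nv ≤ n := ((le_max_left _ _).trans (le_max_right _ _)).trans hn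
  have hns : Ns ≤ n := ((le_max_right _ _).trans (le_max_right _ _)).trans hn
  set n₁ : ℕ := 2 * n with hn₁
  set n₂ : ℕ := M * n₁ with hn₂
  have hMn : 3 * n₁ ≤ n₂ := Nat.mul_le_mul_right _ hM3
  -- the two circuits
  set A : Set (Edge → Bool) := CircZ (0, 0) n₁ (2 * n₁) ∩ CircZ (0, 0) n₂ (2 * n₂) with hA
  have hAloc : LocEv A := (locEv_circZ _ _ _).inter (locEv_circZ _ _ _)
  have hAinc : IncEv A := (incEv_circZ _ _ _).inter (incEv_circZ _ _ _)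
  have hlow : c3 ^ 2 ≤ ∫ ω, indP (fun ω => ω.2.2 ∈ A) ω ∂P := by
    refine le_trans ?_ (nu_le_z hP hAloc hAinc)
    have h1 : c3 ≤ (nu P).real (CircZ (0, 0) n₁ (2 * n₁)) := hcirc n₁ (by omega) (by
      have : 2 * n ≤ 2 * M * n := Nat.mul_le_mul_right _ (by omega)
      omega)
    have h2 : c3 ≤ (nu P).real (CircZ (0, 0) n₂ (2 * n₂)) := hcirc n₂ (by omega) (by
      rw [hn₂, hn₁]
      exact le_of_eq (by ring))
    have h3 := hF _ _ (locEv_circZ (0, 0) n₁ (2 * n₁)) (locEv_circZ (0, 0) n₂ (2 * n₂))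
      (incEv_circZ (0, 0) n₁ (2 * n₁)) (incEv_circZ (0, 0) n₂ (2 * n₂))
    have h4 : (nu P).real (CircZ (0, 0) n₁ (2 * n₁)) * (nu P).real (CircZ (0, 0) n₂ (2 * n₂)) ≤
        (nu P).real A := by
      unfold Measure.real
      rw [← ENNReal.toReal_mul]
      exact ENNReal.toReal_mono (measure_ne_top _ _) h3
    calc c3 ^ 2 = c3 * c3 := sq c3
      _ ≤ _ := mul_le_mul h1 h2 hc3.le (hc3.le.trans h1)
      _ ≤ _ := h4
  -- the error
  set e : ℝ := min 1 t with he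
  have he0 : 0 < e := lt_min one_pos ht0
  have he1 : e ≤ 1 := min_le_left _ _
  have het : e ≤ t := min_le_right _ _
  obtain ⟨S, hS⟩ := hAloc
  have hN1 : 1 ≤ n₁ := by omega
  have hN2 : 1 ≤ n₂ := by omega
  obtain ⟨m1, hm1⟩ := lim_box hP (loc_z hS) (neut_z A) he0
  obtain ⟨m2, hm2⟩ := lim_box hP (loc_comp (loc_sub (VN n₁) (VN n₂) (aN n₁) (aN n₂))
    (fun r : ℝ => if |r| ≤ 2 * (L0) then (1 : ℝ) else 0))
    (neut_comp (neut_sub (sum_aN hN1) (sum_aN hN2))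
    (fun r : ℝ => if |r| ≤ 2 * (L0) then (1 : ℝ) else 0)) he0
  obtain ⟨m3, hm3⟩ := lim_box hP (loc_comp (loc_sub (VN n₁) (WN n₁) (aN n₁) (bN n₁))
    (fun r : ℝ => r ^ 2)) (neut_comp (neut_sub (sum_aN hN1) (sum_bN hN1)) (fun r : ℝ => r ^ 2)) he0
  obtain ⟨m4, hm4⟩ := lim_box hP (loc_comp (loc_sub (VN n₂) (WN n₂) (aN n₂) (bN n₂))
    (fun r : ℝ => r ^ 2)) (neut_comp (neut_sub (sum_aN hN2) (sum_bN hN2)) (fun r : ℝ => r ^ 2)) he0
  set m : ℕ := m1 + m2 + m3 + m4 + 2 * n₂ with hm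
  have g1 := hm1 m (by omega)
  have g2 := hm2 m (by omega)
  have g3 := hm3 m (by omega)
  have g4 := hm4 m (by omega)
  set F : Finset P2 := box m with hFd
  have hball : ball (0, 0) (2 * n₂) ⊆ F := by
    rw [ball_zero]
    exact box_mono (by omega)
  -- bounds
  have b1 : c3 ^ 2 - e ≤ E c F (indP fun ω => ω.2.2 ∈ A) := by
    have := (abs_lt.1 g1).1
    linarith
  have b2 : E c F (indP fun ω => |XN n₁ ω - XN n₂ ω| ≤ 2 * L0) ≤ t + e := by
    have h1 : ∫ ω, (if |Lin (VN n₁) (aN n₁) ω - Lin (VN n₂) (aN n₂) ω| ≤ 2 * L0 then (1 : ℝ)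
        else 0) ∂P ≤ t := by
      have h2 := hNs n₁ (by omega)
      refine le_trans (le_of_eq ?_) h2
      have hms : MeasurableSet {ω | |XN n₁ ω - XN (M * n₁) ω| ≤ 2 * L0} :=
        measurableSet_le ((measurable_XN n₁).sub (measurable_XN (M * n₁))).abs measurable_const
      have h3 : (fun ω => if |Lin (VN n₁) (aN n₁) ω - Lin (VN n₂) (aN n₂) ω| ≤ 2 * L0 then (1 : ℝ)
        else 0) = {ω | |XN n₁ ω - XN (M * n₁) ω| ≤ 2 * L0}.indicator (fun _ => (1 : ℝ)) := by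
        funext ω
        rw [Set.indicator_apply]
        rfl
      rw [h3, integral_indicator hms, integral_const, smul_eq_mul, mul_one]
      simp [Measure.real]
    have h4 := (abs_lt.1 g2).2
    have h5 : E c F (indP fun ω => |XN n₁ ω - XN n₂ ω| ≤ 2 * L0) =
        E c F (fun ω => if |Lin (VN n₁) (aN n₁) ω - Lin (VN n₂) (aN n₂) ω| ≤ 2 * L0 then (1 : ℝ)
        else 0) := rfl
    rw [h5]
    linarith
  have b3 : E c F (fun ω => (XN n₁ ω - YN n₁ ω) ^ 2) ≤ K0 + 1 := by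
    have h1 := hNv n₁ (by omega)
    have h2 := (abs_lt.1 g3).2
    have h3 : E c F (fun ω => (XN n₁ ω - YN n₁ ω) ^ 2) =
      E c F (fun ω => (Lin (VN n₁) (aN n₁) ω - Lin (WN n₁) (bN n₁) ω) ^ 2) := rfl
    have h4 : ∫ ω, (XN n₁ ω - YN n₁ ω) ^ 2 ∂P =
      ∫ ω, (Lin (VN n₁) (aN n₁) ω - Lin (WN n₁) (bN n₁) ω) ^ 2 ∂P := rfl
    rw [h3]
    rw [h4] at h1
    linarith
  have b4 : E c F (fun ω => (XN n₂ ω - YN n₂ ω) ^ 2) ≤ K0 + 1 := by
    have h1 := hNv n₂ (by omega)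
    have h2 := (abs_lt.1 g4).2
    have h3 : E c F (fun ω => (XN n₂ ω - YN n₂ ω) ^ 2) =
      E c F (fun ω => (Lin (VN n₂) (aN n₂) ω - Lin (WN n₂) (bN n₂) ω) ^ 2) := rfl
    have h4 : ∫ ω, (XN n₂ ω - YN n₂ ω) ^ 2 ∂P =
      ∫ ω, (Lin (VN n₂) (aN n₂) ω - Lin (WN n₂) (bN n₂) ω) ^ 2 ∂P := rfl
    rw [h3]
    rw [h4] at h1
    linarith
  -- the hulls
  have hball1 : ball (0, 0) (2 * n₁) ⊆ F := (ball_mono _ (by omega)).trans hball
  have c1 := sm_at hc hN1 (inner_isHull c (F := F) (x := (0, 0)) (n := n₁) (m := 2 * n₁) hN1 hball1)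
  have c2 := sm_at hc hN2 (outer_isHull c (F := F) (x := (0, 0)) (n := n₂) (m := 2 * n₂) hN2 hball)
  have c3' := eq_le (c := c) (F := F) hc (H₁ := DI (0, 0) n₁ (2 * n₁))
    (H₂ := DF (ball (0, 0) (2 * n₂)) (0, 0)) (𝒟₁ := hulls (0, 0) n₁ (2 * n₁))
    (𝒟₂ := hulls (0, 0) n₂ (2 * n₂)) (X₁ := XN n₁) (X₂ := XN n₂) hLp
  have hboth : E c F (fun ω => if DI (0, 0) n₁ (2 * n₁) ω ∈ hulls (0, 0) n₁ (2 * n₁) ∧
      DF (ball (0, 0) (2 * n₂)) (0, 0) ω ∈ hulls (0, 0) n₂ (2 * n₂) then (1 : ℝ) else 0) =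
      E c F (indP fun ω => ω.2.2 ∈ A) := by
    refine E_congr fun ω _ => ?_
    have h1 := DI_mem_hulls (x := ((0, 0) : P2)) (m := 2 * n₁) hN1 (ω := ω)
    have h2 := DF_mem_hulls (x := ((0, 0) : P2)) (m := 2 * n₂) hN2 (ω := ω)
    have h3 : (DI (0, 0) n₁ (2 * n₁) ω ∈ hulls (0, 0) n₁ (2 * n₁) ∧
      DF (ball (0, 0) (2 * n₂)) (0, 0) ω ∈ hulls (0, 0) n₂ (2 * n₂)) ↔ ω.2.2 ∈ A := by
      rw [h1, h2]
      rfl
    by_cases h : ω.2.2 ∈ A
    · rw [if_pos (h3.2 h), indP_of (A := fun ω => ω.2.2 ∈ A) h]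
    · rw [if_neg (fun hh => h (h3.1 hh)), indP_of_not (A := fun ω => ω.2.2 ∈ A) h]
  have hsmall : (E c F (fun ω => if DI (0, 0) n₁ (2 * n₁) ω ∈ hulls (0, 0) n₁ (2 * n₁) then
        (XN n₁ ω - level (DI (0, 0) n₁ (2 * n₁) ω) ω) ^ 2 else 0) +
      E c F (fun ω => if DF (ball (0, 0) (2 * n₂)) (0, 0) ω ∈ hulls (0, 0) n₂ (2 * n₂) then
        (XN n₂ ω - level (DF (ball (0, 0) (2 * n₂)) (0, 0) ω) ω) ^ 2 else 0)) / L0 ^ 2 ≤ t := by
    refine le_trans ?_ hLt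
    apply div_le_div_of_nonneg_right _ (by positivity)
    linarith
  have hc3t : c3 ^ 2 = 24 * t := by rw [ht]; ring
  have htot : 23 * t ≤ E c F (fun ω => if DI (0, 0) n₁ (2 * n₁) ω ∈ hulls (0, 0) n₁ (2 * n₁) ∧
      DF (ball (0, 0) (2 * n₂)) (0, 0) ω ∈ hulls (0, 0) n₂ (2 * n₂) then (1 : ℝ) else 0) := by
    rw [hboth]
    linarith
  have hgp := good_pair (c := c) hc (F := F) (x := (0, 0)) (n₁ := n₁) (m₁ := 2 * n₁) (n₂ := n₂)
    (m₂ := 2 * n₂) hN1 (by omega) hball (θ := 1 / 3) (by linarith) (by linarith)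
  obtain ⟨D₁, hD₁, D₂, hD₂, N, hgood⟩ := hgp
  exact rAt_of_pair hc hn1 le_rfl (by omega : 2 * n₁ + 1 ≤ n₂)
    (le_of_eq (by rw [hn₂, hn₁]; ring) : 2 * n₂ ≤ 4 * M * n)
    (by
      have : 4 * 3 * n ≤ 4 * M * n := Nat.mul_le_mul_right _ (by omega)
      omega) hD₁ hD₂ hgood

end Crest.Agent.R161.Ann770
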