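import Crest.Agent.R161.Two_770
import Crest.Agent.R161.Blk3_696

/-!
# From the good pair to (R) at one scale (helper770, R161 block E: F3)

* `pr_cut_sum` : `P_F(∃ q, CutAt D q ∧ p q) = ∑_k 1_{p (2k)} zQ (2k) * Z D / Z F`;
* `r_of_ratio` : `z_2 ≥ z_0 / 2` implies the odd part is at least a third;
* `rAt_of_pair` : a good pair at larger scale gives `RAt`.
-/

set_option autoImplicit false

noncomputable section

namespace Crest.Agent.R161.Ann770

open Finset hiding box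
open Crest.Agent.R161.Geo729 Crest.Agent.R161.Defs372 Crest.Agent.R161.Dmp341
open Crest.Agent.R161.Hull374 Crest.Agent.R161.Dual374 Crest.Agent.R161.Ifc372
open Crest.Agent.R161.Exp760 (DF doms mem_doms)
open Crest.Agent.R161.Out868 Crest.Agent.R161.Blk696

/-! ### sums over symmetric windows -/

theorem sum_sym {a : ℤ → ℝ} (ha : ∀ k, a (-k) = a k) (n : ℕ) :
    ∑ k ∈ Finset.Icc (-(n : ℤ)) n, a k = a 0 + 2 * ∑ k ∈ Finset.range n, a ((k : ℤ) + 1) := by
  induction n with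
  | zero => simp
  | succ n ih =>
    have e1 : Finset.Icc (-((n + 1 : ℕ) : ℤ)) ((n + 1 : ℕ) : ℤ) =
        insert (-((n + 1 : ℕ) : ℤ)) (insert ((n + 1 : ℕ) : ℤ) (Finset.Icc (-(n : ℤ)) n)) := by
      ext x
      simp only [Finset.mem_Icc, Finset.mem_insert, Nat.cast_add, Nat.cast_one]
      omega
    rw [e1, Finset.sum_insert, Finset.sum_insert, ih, Finset.sum_range_succ, ha]
    · push_cast
      ring
    · simp
    · simp only [Finset.mem_insert, Finset.mem_Icc, Nat.cast_add, Nat.cast_one]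
      omega

theorem sum_even_range (a : ℤ → ℝ) (n : ℕ) :
    ∑ k ∈ Finset.range (2 * n + 1), (if Even ((k : ℤ) + 1) then a ((k : ℤ) + 1) else 0) =
      ∑ k ∈ Finset.range n, a (2 * (k : ℤ) + 2) := by
  induction n with
  | zero => simp
  | succ n ih =>
    rw [show 2 * (n + 1) + 1 = (2 * n + 1) + 1 + 1 by ring, Finset.sum_range_succ,
      Finset.sum_range_succ, ih, Finset.sum_range_succ]
    have h1 : Even (((2 * n + 1 : ℕ) : ℤ) + 1) := ⟨(n : ℤ) + 1, by push_cast; ring⟩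
    have h2 : ¬ Even (((2 * n + 1 + 1 : ℕ) : ℤ) + 1) := by
      rw [Int.not_even_iff_odd]
      exact ⟨(n : ℤ) + 1, by push_cast; ring⟩
    rw [if_pos h1, if_neg h2, add_zero]
    have h3 : ((2 * n + 1 : ℕ) : ℤ) + 1 = 2 * (n : ℤ) + 2 := by push_cast; ring
    rw [h3]

theorem sum_odd_range (a : ℤ → ℝ) (n : ℕ) :
    ∑ k ∈ Finset.range (2 * n + 1), (if ¬ Even ((k : ℤ) + 1) then a ((k : ℤ) + 1) else 0) =
      ∑ k ∈ Finset.range (n + 1), a (2 * (k : ℤ) + 1) := by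
  induction n with
  | zero => simp
  | succ n ih =>
    rw [show 2 * (n + 1) + 1 = (2 * n + 1) + 1 + 1 by ring, Finset.sum_range_succ,
      Finset.sum_range_succ, ih, Finset.sum_range_succ _ (n + 1)]
    have h1 : Even (((2 * n + 1 : ℕ) : ℤ) + 1) := ⟨(n : ℤ) + 1, by push_cast; ring⟩
    have h2 : ¬ Even (((2 * n + 1 + 1 : ℕ) : ℤ) + 1) := by
      rw [Int.not_even_iff_odd]
      exact ⟨(n : ℤ) + 1, by push_cast; ring⟩
    rw [if_neg (not_not.2 h1), if_pos h2, add_zero]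
    have h3 : ((2 * n + 1 + 1 : ℕ) : ℤ) + 1 = 2 * ((n + 1 : ℕ) : ℤ) + 1 := by push_cast; ring
    rw [h3]

theorem sum_even_window {a : ℤ → ℝ} (ha : ∀ k, a (-k) = a k) (n : ℕ) :
    ∑ k ∈ Finset.Icc (-((2 * n + 1 : ℕ) : ℤ)) ((2 * n + 1 : ℕ) : ℤ), (if Even k then a k else 0) =
      a 0 + 2 * ∑ k ∈ Finset.range n, a (2 * (k : ℤ) + 2) := by
  have h := sum_sym (a := fun k => if Even k then a k else 0)
    (fun k => by simp only [even_neg, ha]) (2 * n + 1)
  beta_reduce at h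
  rw [h, sum_even_range, if_pos Even.zero]

theorem sum_odd_window {a : ℤ → ℝ} (ha : ∀ k, a (-k) = a k) (n : ℕ) :
    ∑ k ∈ Finset.Icc (-((2 * n + 1 : ℕ) : ℤ)) ((2 * n + 1 : ℕ) : ℤ), (if ¬ Even k then a k else 0) =
      2 * ∑ k ∈ Finset.range (n + 1), a (2 * (k : ℤ) + 1) := by
  have h := sum_sym (a := fun k => if ¬ Even k then a k else 0)
    (fun k => by simp only [even_neg, ha]) (2 * n + 1)
  beta_reduce at h
  rw [h, sum_odd_range, if_neg (not_not.2 Even.zero), zero_add]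

/-! ### the law of the level -/

open Classical in
theorem pr_cut_sum {c : ℝ} {F D : Finset P2} (hne : D.Nonempty) (hsep : Sep D F)
    (p : ℤ → Prop) {n : ℕ} (hn : hb F ≤ 2 * (n : ℤ)) :
    Pr c F {ω | ∃ q, CutAt D q ω ∧ p q} = ∑ k ∈ Finset.Icc (-(n : ℤ)) n,
      if p (2 * k) then zQ c (F \ D) (tch D) (2 * k) * Z c D / Z c F else 0 := by
  have h1 : ∀ k ∈ Finset.Icc (-(n : ℤ)) n,
      (if p (2 * k) then zQ c (F \ D) (tch D) (2 * k) * Z c D / Z c F else 0) =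
      E c F (fun ω => if p (2 * k) ∧ CutAt D (2 * k) ω then 1 else 0) := by
    intro k _
    by_cases hp : p (2 * k)
    · rw [if_pos hp, ← pr_cutAt c hsep (even_two_mul k)]
      unfold Pr
      refine E_congr fun ω _ => ?_
      simp only [Set.mem_setOf_eq, hp, true_and]
    · rw [if_neg hp]
      simp only [hp, false_and, if_false]
      unfold E
      simp
  rw [Finset.sum_congr rfl h1, ← E_sum]
  unfold Pr
  refine E_congr fun ω hω => ?_
  simp only [Set.mem_setOf_eq]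
  by_cases h : ∃ q, CutAt D q ω ∧ p q
  · obtain ⟨q, hq, hpq⟩ := h
    rw [if_pos ⟨q, hq, hpq⟩]
    obtain ⟨r, hr⟩ := hq.even
    have hr2 : q = 2 * r := by rw [hr]; ring
    have hb := bdV_nonempty hne
    have hlev : level D ω = q := hq.level_eq hb
    rw [Finset.sum_eq_single r]
    · rw [if_pos ⟨by rw [← hr2]; exact hpq, by rw [← hr2]; exact hq⟩]
    · intro k _ hk
      rw [if_neg]
      rintro ⟨_, h3⟩
      apply hk
      have h4 := h3.level_eq hb
      omega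
    · intro hr'
      exfalso
      apply hr'
      obtain ⟨v, hv, hlv⟩ := level_of_mem hb ω
      have h5 := abs_le.1 (hω.abs_vert v)
      rw [Finset.mem_Icc]
      omega
  · rw [if_neg h]
    symm
    refine Finset.sum_eq_zero fun k _ => ?_
    rw [if_neg]
    rintro ⟨h3, h4⟩
    exact h ⟨_, h4, h3⟩

/-- `z_2 ≥ z_0 / 2` implies: the odd part of the level law is at least a third. -/
theorem r_of_ratio {c : ℝ} (hc : 1 ≤ c) {F D : Finset P2} (hne : D.Nonempty) (hsep : Sep D F)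
    (h : 1 / 2 * zQ c (F \ D) (tch D) 0 ≤ zQ c (F \ D) (tch D) 2) :
    1 / 3 * Pr c F {ω | ∃ q, CutAt D q ω} ≤ Pr c F {ω | ∃ q, CutAt D q ω ∧ ¬ (4 : ℤ) ∣ q} := by
  classical
  set a : ℤ → ℝ := fun k => zQ c (F \ D) (tch D) (2 * k) with ha
  have hS : SLC a := slc_zQ hc (F \ D) (tch D)
  set N : ℕ := (hb F).toNat with hN
  have hbF : 0 ≤ hb F := by unfold hb; positivity
  have hNb : (N : ℤ) = hb F := Int.toNat_of_nonneg hbF
  have hn : hb F ≤ 2 * ((2 * N + 1 : ℕ) : ℤ) := by push_cast; omega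
  set w : ℝ := Z c D / Z c F with hw
  have hw0 : 0 ≤ w := div_nonneg (Z_pos hc _).le (Z_pos hc _).le
  have hpar : ∀ k : ℤ, (4 : ℤ) ∣ 2 * k ↔ Even k := by
    intro k
    constructor
    · rintro ⟨m, hm⟩; exact ⟨m, by omega⟩
    · rintro ⟨m, hm⟩; exact ⟨m, by omega⟩
  have e1 : Pr c F {ω | ∃ q, CutAt D q ω ∧ ¬ (4 : ℤ) ∣ q} =
      (2 * ∑ k ∈ Finset.range (N + 1), a (2 * (k : ℤ) + 1)) * w := by
    rw [pr_cut_sum hne hsep (fun q => ¬ (4 : ℤ) ∣ q) hn, ← sum_odd_window hS.symm, Finset.sum_mul]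
    refine Finset.sum_congr rfl fun k _ => ?_
    simp only [hpar]
    by_cases hk : Even k
    · simp only [hk, not_true, if_false, zero_mul]
    · simp only [hk, not_false_iff, if_true]
      rw [hw]
      ring
  have e2 : Pr c F {ω | ∃ q, CutAt D q ω} =
      (a 0 + 2 * ∑ k ∈ Finset.range N, a (2 * (k : ℤ) + 2)) * w +
      (2 * ∑ k ∈ Finset.range (N + 1), a (2 * (k : ℤ) + 1)) * w := by
    have e3 : {ω : Cfg | ∃ q, CutAt D q ω} = {ω | ∃ q, CutAt D q ω ∧ True} := by simp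
    rw [e3, pr_cut_sum hne hsep (fun _ => True) hn, ← sum_odd_window hS.symm,
      ← sum_even_window hS.symm, Finset.sum_mul, Finset.sum_mul, ← Finset.sum_add_distrib]
    refine Finset.sum_congr rfl fun k _ => ?_
    by_cases hk : Even k
    · simp only [hk, not_true, if_false, if_true, zero_mul, add_zero]
      rw [hw]
      ring
    · simp only [hk, not_false_iff, if_true, if_false, zero_mul, zero_add]
      rw [hw]
      ring
  have h2 := hS.parity (r := 1 / 2) (by norm_num) (by simpa [ha] using h) N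
  rw [e1, e2]
  have h3 : 1 / 3 * (a 0 + 2 * ∑ k ∈ Finset.range N, a (2 * (k : ℤ) + 2)) +
      1 / 3 * (2 * ∑ k ∈ Finset.range (N + 1), a (2 * (k : ℤ) + 1)) ≤
      2 * ∑ k ∈ Finset.range (N + 1), a (2 * (k : ℤ) + 1) := by
    linarith
  nlinarith [mul_le_mul_of_nonneg_right h3 hw0]

/-- A good pair at larger scales gives `RAt`. -/
theorem rAt_of_pair {c : ℝ} (hc : 1 ≤ c) {x : P2} {n n₁ m₁ n₂ m₂ K : ℕ} (h0 : 1 ≤ n)
    (h1 : 2 * n ≤ n₁) (h12 : m₁ + 1 ≤ n₂) (h2 : m₂ ≤ K) (hK : 2 * n + 1 ≤ K) {D₁ D₂ : Finset P2}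
    (hD₁ : D₁ ∈ hulls x n₁ m₁) (hD₂ : D₂ ∈ hulls x n₂ m₂) {N : ℕ}
    (hgood : zQ c (D₂ \ D₁) (tch D₁) 0 ≤ 1 / 3 * ∑ k ∈ Finset.Icc (-(N : ℤ)) N,
      zQ c (D₂ \ D₁) (tch D₁) (2 * k)) :
    RAt c (ball x K) x n (2 * n) (1 / 3) := by
  intro D hD hn hm
  obtain ⟨a1, a2, a3⟩ := mem_doms.1 hD₁
  obtain ⟨b1, b2, b3⟩ := mem_doms.1 hD₂
  have hsep : Sep D₁ D₂ := sep_of_balls h12 a1 b2
  have hsep2 : Sep D (ball x K) := sep_of_balls hK hm subset_rfl
  have hne : D.Nonempty := ⟨x, hn (self_mem_ball h0)⟩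
  refine r_of_ratio hc hne hsep2 ?_
  have hS : SLC (fun k : ℤ => zQ c (D₂ \ D₁) (tch D₁) (2 * k)) := slc_zQ hc _ _
  have hp : 0 < zQ c (D₂ \ D₁) (tch D₁) 0 := zQ_zero_pos hc _ _
  have h3 := hS.ratio (by simpa using hp) (θ := 1 / 3) (by norm_num) N (by simpa using hgood)
  have h4 : 1 / 2 * zQ c (D₂ \ D₁) (tch D₁) 0 ≤ zQ c (D₂ \ D₁) (tch D₁) 2 := by
    have : ((1 : ℝ) - 1 / 3) / (1 + 1 / 3) = 1 / 2 := by norm_num
    rw [this] at h3
    simpa using h3
  have h5 := rho_annulus hc (D' := D) (H := D₁) (D := D₂) (F := ball x K)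
    (hm.trans ((ball_mono x h1).trans a2)) hsep (b1.trans (ball_mono x h2))
  have hq : 0 < zQ c (ball x K \ D) (tch D) 0 := zQ_zero_pos hc _ _
  have h6 : 1 / 2 * zQ c (D₂ \ D₁) (tch D₁) 0 * zQ c (ball x K \ D) (tch D) 0 ≤
      zQ c (D₂ \ D₁) (tch D₁) 0 * zQ c (ball x K \ D) (tch D) 2 :=
    (mul_le_mul_of_nonneg_right h4 hq.le).trans h5
  have h7 : zQ c (D₂ \ D₁) (tch D₁) 0 * (1 / 2 * zQ c (ball x K \ D) (tch D) 0) ≤
      zQ c (D₂ \ D₁) (tch D₁) 0 * zQ c (ball x K \ D) (tch D) 2 := by linarith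
  exact le_of_mul_le_mul_left h7 hp

end Crest.Agent.R161.Ann770
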