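import Crest.Agent.R161.Defs_372
import Crest.Agent.R161.Sym_597
import Crest.Agent.R161.RPfin_695

/-!
R161, block F (helper597): reflection positivity of the finite-volume measures.

* `Refl.act R ω` : reflected configuration; `Refl.Sym R F` : `F` is symmetric; `valid_act`, `wt_act`,
  `E_act`, `EC_act` : invariance of the finite-volume law.
* `RLoc R Φ` : `Φ` depends on the closed right side only (vertices and faces of side `≥ 0`, edges
  strictly on the right and edges lying along the line; *not* on cut variables of edges crossing the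
  line).
* `rp_fin` : for `1 ≤ c`, `F` symmetric and `RLoc R Φ`, `E_F[conj (Φ ∘ θ) Φ]` is a nonnegative real.
-/

set_option autoImplicit false

noncomputable section

namespace Crest.Agent.R161.RPconc597

open Finset Crest.Agent.R161.Geo729 Crest.Agent.R161.Defs372 Crest.Agent.R161.Sym597
open Crest.Agent.R161.RPfin695
open scoped ComplexConjugate

variable (R : Refl)

/-- reflected configuration -/
def act (ω : Cfg) : Cfg := (fun v => ω.1 (R.V v), fun f => ω.2.1 (R.Fc f), fun e => ω.2.2 (R.E e))

@[simp] theorem act_1 (ω : Cfg) (v : P2) : (act R ω).1 v = ω.1 (R.V v) := rfl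
@[simp] theorem act_21 (ω : Cfg) (v : P2) : (act R ω).2.1 v = ω.2.1 (R.Fc v) := rfl
@[simp] theorem act_22 (ω : Cfg) (e : Edge) : (act R ω).2.2 e = ω.2.2 (R.E e) := rfl

@[simp] theorem act_act (ω : Cfg) : act R (act R ω) = ω := by
  refine Prod.ext ?_ (Prod.ext ?_ ?_)
  · funext v; simp [R.V_invol]
  · funext v; simp [R.F_invol]
  · funext v; simp [R.E_invol]

/-- the face set is symmetric -/
def Symm (F : Finset P2) : Prop := ∀ f, f ∈ F → R.Fc f ∈ F

variable {R}

theorem Symm.iff {F : Finset P2} (h : Symm R F) (f : P2) : R.Fc f ∈ F ↔ f ∈ F :=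
  ⟨fun h1 => by have := h _ h1; rwa [R.F_invol] at this, h f⟩

theorem Symm.intVerts {F : Finset P2} (h : Symm R F) (v : P2) :
    R.V v ∈ intVerts F ↔ v ∈ intVerts F := by
  rw [mem_intVerts, mem_intVerts, intV_iff, intV_iff]
  constructor
  · intro h1 f hf
    have := h1 (R.Fc f) ((R.corner v f).2 hf)
    exact (h.iff f).1 this
  · intro h1 f hf
    have h2 : Geo729.IsCorner (R.V v) (R.Fc (R.Fc f)) := by rwa [R.F_invol]
    have := h1 (R.Fc f) ((R.corner v _).1 h2)
    exact (h.iff f).1 this

theorem Symm.intEdges {F : Finset P2} (h : Symm R F) (e : Edge) :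
    R.E e ∈ intEdges F ↔ e ∈ intEdges F := by
  rw [mem_intEdges, mem_intEdges]
  rcases R.edge_f e with ⟨h1, h2⟩ | ⟨h1, h2⟩
  · rw [h1, h2, h.iff, h.iff]
  · rw [h1, h2, h.iff, h.iff, and_comm]

theorem valid_act {F : Finset P2} (h : Symm R F) {ω : Cfg} (hω : Valid F ω) :
    Valid F (act R ω) where
  zero v hv := hω.zero _ (by rwa [h.intVerts])
  even v := hω.even _
  off f hf := hω.off _ (by rwa [h.iff])
  corner f hf v hv := hω.corner _ ((h.iff f).2 hf) _ ((R.corner v f).2 hv)
  cut e he := hω.cut _ (by rwa [h.intEdges])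

/-- edge weight as a function of the data -/
def ewf (c : ℝ) (z : Bool) (a b p q : ℤ) : ℝ :=
  if z then (if a = b then 1 else 0) else (if p = q then (if a = b then c - 1 else 1) else 0)

theorem ew_eq (c : ℝ) (ω : Cfg) (e : Edge) :
    ew c ω e = ewf c (ω.2.2 e) (ω.1 (src e)) (ω.1 (tgt e)) (ω.2.1 (fA e)) (ω.2.1 (fB e)) := rfl

theorem ewf_swap_v (c : ℝ) (z : Bool) (a b p q : ℤ) : ewf c z a b p q = ewf c z b a p q := by
  unfold ewf
  by_cases h : a = b
  · rw [if_pos h, if_pos h.symm, if_pos h, if_pos h.symm]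
  · rw [if_neg h, if_neg (Ne.symm h), if_neg h, if_neg (Ne.symm h)]

theorem ewf_swap_f (c : ℝ) (z : Bool) (a b p q : ℤ) : ewf c z a b p q = ewf c z a b q p := by
  unfold ewf
  by_cases h : p = q
  · rw [if_pos h, if_pos h.symm]
  · rw [if_neg h, if_neg (Ne.symm h)]

theorem ew_act (c : ℝ) (ω : Cfg) (e : Edge) : ew c (act R ω) e = ew c ω (R.E e) := by
  rw [ew_eq, ew_eq]
  simp only [act_1, act_21, act_22]
  rcases R.edge_v e with ⟨h1, h2⟩ | ⟨h1, h2⟩ <;> rcases R.edge_f e with ⟨h3, h4⟩ | ⟨h3, h4⟩ <;>
    simp only [h1, h2, h3, h4]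
  · rw [ewf_swap_f]
  · rw [ewf_swap_v]
  · rw [ewf_swap_f, ewf_swap_v]

theorem wt_act (c : ℝ) {F : Finset P2} (h : Symm R F) (ω : Cfg) :
    wt c F (act R ω) = wt c F ω := by
  unfold wt
  simp only [ew_act]
  refine Finset.prod_nbij' R.E R.E ?_ ?_ ?_ ?_ ?_
  · intro e he; exact (h.intEdges e).2 he
  · intro e he; exact (h.intEdges e).2 he
  · intro e _; exact R.E_invol e
  · intro e _; exact R.E_invol e
  · intro e _; rfl

theorem sum_conf_act {M : Type*} [AddCommMonoid M] {F : Finset P2} (h : Symm R F) (g : Cfg → M) :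
    ∑ ω ∈ conf F, g (act R ω) = ∑ ω ∈ conf F, g ω := by
  refine Finset.sum_nbij' (act R) (act R) ?_ ?_ ?_ ?_ ?_
  · intro e he; exact mem_conf.2 (valid_act h (mem_conf.1 he))
  · intro e he; exact mem_conf.2 (valid_act h (mem_conf.1 he))
  · intro e _; exact act_act R e
  · intro e _; exact act_act R e
  · intro e _; rfl

theorem pr_act (c : ℝ) {F : Finset P2} (h : Symm R F) (ω : Cfg) : pr c F (act R ω) = pr c F ω := by
  by_cases hω : Valid F ω
  · rw [pr_of_valid c hω, pr_of_valid c (valid_act h hω), wt_act c h]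
  · have : ¬ Valid F (act R ω) := fun h1 => hω (by simpa using valid_act h h1)
    rw [pr_of_not_valid c hω, pr_of_not_valid c this]

theorem E_act (c : ℝ) {F : Finset P2} (h : Symm R F) (f : Cfg → ℝ) :
    E c F (fun ω => f (act R ω)) = E c F f := by
  unfold E
  rw [← sum_conf_act h]
  refine Finset.sum_congr rfl fun ω _ => ?_
  simp only [pr_act c h, act_act]

theorem EC_act (c : ℝ) {F : Finset P2} (h : Symm R F) (f : Cfg → ℂ) :
    EC c F (fun ω => f (act R ω)) = EC c F f := by
  unfold EC
  rw [← sum_conf_act h]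
  refine Finset.sum_congr rfl fun ω _ => ?_
  simp only [pr_act c h, act_act]

/-! ### right-sided functionals -/

variable (R)

/-- edges seen by right-sided functionals: strictly on the right, or along the line -/
def Keep (e : Edge) : Prop := 0 < R.se e ∨ (R.se e = 0 ∧ R.sv (src e) = 0)

instance (e : Edge) : Decidable (Keep R e) := by unfold Keep; infer_instance

/-- agreement on the closed right side -/
def AgreeR (ω ω' : Cfg) : Prop :=
  (∀ v, 0 ≤ R.sv v → ω.1 v = ω'.1 v) ∧ (∀ f, 0 ≤ R.sf f → ω.2.1 f = ω'.2.1 f) ∧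
    ∀ e, Keep R e → ω.2.2 e = ω'.2.2 e

/-- right-sided functional -/
def RLoc {α : Type*} (Φ : Cfg → α) : Prop := ∀ ω ω', AgreeR R ω ω' → Φ ω = Φ ω'

/-- restriction to the closed right side -/
def mask (ω : Cfg) : Cfg :=
  (fun v => if 0 ≤ R.sv v then ω.1 v else 0, fun f => if 0 ≤ R.sf f then ω.2.1 f else 1,
    fun e => if Keep R e then ω.2.2 e else true)

/-- restriction to the line -/
def lin (ω : Cfg) : Cfg :=
  (fun v => if R.sv v = 0 then ω.1 v else 0, fun f => if R.sf f = 0 then ω.2.1 f else 1,
    fun e => if R.se e = 0 then ω.2.2 e else true)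

/-- glue a left half (given through its mirror image `x`) and a right half `y`; `t` = set of edges
crossing the line whose dual is open -/
def glue (x y : Cfg) (t : Finset Edge) : Cfg :=
  (fun v => if 0 ≤ R.sv v then y.1 v else x.1 (R.V v),
    fun f => if 0 ≤ R.sf f then y.2.1 f else x.2.1 (R.Fc f),
    fun e => if e ∈ t then false else if 0 ≤ R.se e then y.2.2 e else x.2.2 (R.E e))

/-- interior edges crossing the line -/
def cr (F : Finset P2) : Finset Edge :=
  (intEdges F).filter fun e => R.se e = 0 ∧ R.sv (src e) ≠ 0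

/-- interior edges along the line -/
def al (F : Finset P2) : Finset Edge :=
  (intEdges F).filter fun e => R.se e = 0 ∧ R.sv (src e) = 0

/-- interior edges strictly on the right -/
def ri (F : Finset P2) : Finset Edge := (intEdges F).filter fun e => 0 < R.se e

/-- interior edges strictly on the left -/
def le (F : Finset P2) : Finset Edge := (intEdges F).filter fun e => R.se e < 0

variable {R}

theorem agreeR_mask (ω : Cfg) : AgreeR R (mask R ω) ω :=
  ⟨fun v hv => by simp [mask, hv], fun f hf => by simp [mask, hf], fun e he => by simp [mask, he]⟩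

theorem prod_split (F : Finset P2) (g : Edge → ℝ) :
    ∏ e ∈ intEdges F, g e =
      (∏ e ∈ le R F, g e) * (∏ e ∈ ri R F, g e) * (∏ e ∈ al R F, g e) * (∏ e ∈ cr R F, g e) := by
  classical
  have h1 := Finset.prod_filter_mul_prod_filter_not (intEdges F) (fun e => R.se e < 0) g
  have h2 := Finset.prod_filter_mul_prod_filter_not
    ((intEdges F).filter fun e => ¬ R.se e < 0) (fun e => 0 < R.se e) g
  have h3 := Finset.prod_filter_mul_prod_filter_not
    (((intEdges F).filter fun e => ¬ R.se e < 0).filter fun e => ¬ 0 < R.se e)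
    (fun e => R.sv (src e) = 0) g
  rw [← h1, ← h2, ← h3]
  have e1 : ((intEdges F).filter fun e => ¬ R.se e < 0).filter (fun e => 0 < R.se e) = ri R F := by
    ext e; simp only [ri, mem_filter]; constructor
    · rintro ⟨⟨h, _⟩, h'⟩; exact ⟨h, h'⟩
    · rintro ⟨h, h'⟩; exact ⟨⟨h, by omega⟩, h'⟩
  have e2 : (((intEdges F).filter fun e => ¬ R.se e < 0).filter fun e => ¬ 0 < R.se e).filter
      (fun e => R.sv (src e) = 0) = al R F := by
    ext e; simp only [al, mem_filter]; constructor
    · rintro ⟨⟨⟨h, h1⟩, h2⟩, h'⟩; exact ⟨h, by omega, h'⟩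
    · rintro ⟨h, h1, h'⟩; exact ⟨⟨⟨h, by omega⟩, by omega⟩, h'⟩
  have e3 : (((intEdges F).filter fun e => ¬ R.se e < 0).filter fun e => ¬ 0 < R.se e).filter
      (fun e => ¬ R.sv (src e) = 0) = cr R F := by
    ext e; simp only [cr, mem_filter]; constructor
    · rintro ⟨⟨⟨h, h1⟩, h2⟩, h'⟩; exact ⟨h, by omega, h'⟩
    · rintro ⟨h, h1, h'⟩; exact ⟨⟨⟨h, by omega⟩, by omega⟩, h'⟩
  rw [e1, e2, e3]
  change (∏ e ∈ le R F, g e) * _ = _
  ring

/-! ### validity of the glued configuration -/

/-- line agreement -/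
structure LineEq (R : Refl) (x y : Cfg) : Prop where
  v : ∀ v, R.sv v = 0 → x.1 v = y.1 v
  f : ∀ f, R.sf f = 0 → x.2.1 f = y.2.1 f
  e : ∀ e, R.se e = 0 → x.2.2 e = y.2.2 e

theorem lin_eq_iff {x y : Cfg} : lin R x = lin R y ↔ LineEq R x y := by
  constructor
  · intro h
    refine ⟨fun v hv => ?_, fun v hv => ?_, fun v hv => ?_⟩
    · have := congrFun (congrArg Prod.fst h) v
      simpa [lin, hv] using this
    · have := congrFun (congrArg (fun a => a.2.1) h) v
      simpa [lin, hv] using this
    · have := congrFun (congrArg (fun a => a.2.2) h) v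
      simpa [lin, hv] using this
  · intro h
    refine Prod.ext ?_ (Prod.ext ?_ ?_)
    · funext v
      by_cases hv : R.sv v = 0
      · simp [lin, hv, h.v v hv]
      · simp [lin, hv]
    · funext v
      by_cases hv : R.sf v = 0
      · simp [lin, hv, h.f v hv]
      · simp [lin, hv]
    · funext v
      by_cases hv : R.se v = 0
      · simp [lin, hv, h.e v hv]
      · simp [lin, hv]

theorem mem_cr {F : Finset P2} {e : Edge} :
    e ∈ cr R F ↔ e ∈ intEdges F ∧ R.se e = 0 ∧ R.sv (src e) ≠ 0 := by
  simp [cr]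

theorem valid_glue {F : Finset P2} (h : Symm R F) {ω₁ ω₂ : Cfg} (h1 : Valid F ω₁)
    (h2 : Valid F ω₂) (hl : LineEq R (mask R ω₁) (mask R ω₂)) {t : Finset Edge} (ht : t ⊆ cr R F) :
    Valid F (glue R (mask R ω₁) (mask R ω₂) t) := by
  refine ⟨?_, ?_, ?_, ?_, ?_⟩
  · intro v hv
    simp only [glue, mask]
    split_ifs with h3 h4
    · exact h2.zero v hv
    · exact h1.zero _ (by rwa [h.intVerts])
    · rfl
  · intro v
    simp only [glue, mask]
    split_ifs with h3 h4
    · exact h2.even v
    · exact h1.even _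
    · exact Even.zero
  · intro f hf
    simp only [glue, mask]
    split_ifs with h3 h4
    · exact h2.off f hf
    · exact h1.off _ (by rwa [h.iff])
    · rfl
  · intro f hf v hv
    have hs := R.corner_side v f hv
    by_cases hv0 : R.sv v = 0
    · -- line vertex
      have e1 : (glue R (mask R ω₁) (mask R ω₂) t).1 v = ω₂.1 v := by simp [glue, mask, hv0]
      have e1' : ω₂.1 v = ω₁.1 v := by
        have := hl.v v hv0
        simpa [mask, hv0] using this.symm
      rw [e1]
      by_cases hf0 : 0 ≤ R.sf f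
      · have e2 : (glue R (mask R ω₁) (mask R ω₂) t).2.1 f = ω₂.2.1 f := by simp [glue, mask, hf0]
        rw [e2]
        exact h2.corner f hf v hv
      · have e2 : (glue R (mask R ω₁) (mask R ω₂) t).2.1 f = ω₁.2.1 (R.Fc f) := by
          simp only [glue, mask, hf0, if_false, R.sf_F]
          rw [if_pos (by omega)]
        rw [e2, e1']
        have := h1.corner (R.Fc f) ((h.iff f).2 hf) (R.V v) ((R.corner v f).2 hv)
        rwa [R.V_fix v hv0] at this
    · by_cases hf0 : R.sf f = 0
      · have e1 : (glue R (mask R ω₁) (mask R ω₂) t).2.1 f = ω₂.2.1 f := by simp [glue, mask, hf0]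
        have e1' : ω₂.2.1 f = ω₁.2.1 f := by
          have := hl.f f hf0
          simpa [mask, hf0] using this.symm
        rw [e1]
        by_cases hv1 : 0 ≤ R.sv v
        · have e2 : (glue R (mask R ω₁) (mask R ω₂) t).1 v = ω₂.1 v := by simp [glue, mask, hv1]
          rw [e2]
          exact h2.corner f hf v hv
        · have e2 : (glue R (mask R ω₁) (mask R ω₂) t).1 v = ω₁.1 (R.V v) := by
            simp only [glue, mask, hv1, if_false, R.sv_V]
            rw [if_pos (by omega)]
          rw [e2, e1']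
          have := h1.corner (R.Fc f) ((h.iff f).2 hf) (R.V v) ((R.corner v f).2 hv)
          rwa [R.F_fix f hf0] at this
      · rcases lt_or_gt_of_ne hv0 with hv1 | hv1
        · have hf1 : R.sf f < 0 := by
            rcases lt_or_gt_of_ne hf0 with h3 | h3
            · exact h3
            · nlinarith
          have e1 : (glue R (mask R ω₁) (mask R ω₂) t).1 v = ω₁.1 (R.V v) := by
            simp only [glue, mask, R.sv_V]
            rw [if_neg (by omega), if_pos (by omega)]
          have e2 : (glue R (mask R ω₁) (mask R ω₂) t).2.1 f = ω₁.2.1 (R.Fc f) := by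
            simp only [glue, mask, R.sf_F]
            rw [if_neg (by omega), if_pos (by omega)]
          rw [e1, e2]
          exact h1.corner (R.Fc f) ((h.iff f).2 hf) (R.V v) ((R.corner v f).2 hv)
        · have hf1 : 0 < R.sf f := by
            rcases lt_or_gt_of_ne hf0 with h3 | h3
            · nlinarith
            · exact h3
          have e1 : (glue R (mask R ω₁) (mask R ω₂) t).1 v = ω₂.1 v := by
            simp only [glue, mask]
            rw [if_pos (by omega), if_pos (by omega)]
          have e2 : (glue R (mask R ω₁) (mask R ω₂) t).2.1 f = ω₂.2.1 f := by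
            simp only [glue, mask]
            rw [if_pos (by omega), if_pos (by omega)]
          rw [e1, e2]
          exact h2.corner f hf v hv
  · intro e he
    have het : e ∉ t := fun h3 => he (mem_cr.1 (ht h3)).1
    simp only [glue, mask, if_neg het]
    split_ifs with h3 h4 h5
    · exact h2.cut e he
    · rfl
    · exact h1.cut _ (by rwa [h.intEdges])
    · rfl

/-! ### the bijection -/

/-- data of a configuration: mirror image of the left half, right half, open crossing edges -/
def toHalves (R : Refl) (F : Finset P2) (ω : Cfg) : Cfg × Cfg × Finset Edge :=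
  (mask R (act R ω), mask R ω, (cr R F).filter fun e => ω.2.2 e = false)

theorem se_eq_zero_E {e : Edge} (h : R.se e = 0) : R.E e = e := R.E_fix e h

theorem glue_toHalves {F : Finset P2} {ω : Cfg} (hω : Valid F ω) :
    glue R (mask R (act R ω)) (mask R ω) ((cr R F).filter fun e => ω.2.2 e = false) = ω := by
  refine Prod.ext ?_ (Prod.ext ?_ ?_)
  · funext v
    simp only [glue, mask, act_1, R.sv_V, R.V_invol]
    split_ifs with h1 h2
    · rfl
    · rfl
    · omega
  · funext v
    simp only [glue, mask, act_21, R.sf_F, R.F_invol]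
    split_ifs with h1 h2
    · rfl
    · rfl
    · omega
  · funext e
    simp only [glue, mask, act_22, R.E_invol, mem_filter]
    by_cases h1 : e ∈ cr R F
    · by_cases h2 : ω.2.2 e = false
      · simp [h1, h2]
      · have h3 : ω.2.2 e = true := by simpa using h2
        have h4 := (mem_cr.1 h1).2
        have h5 : ¬ Keep R e := by
          unfold Keep
          rintro (h6 | h6)
          · omega
          · exact h4.2 h6.2
        simp [h3, h4.1, h5]
    · simp only [h1, false_and, if_false]
      by_cases h2 : 0 ≤ R.se e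
      · rw [if_pos h2]
        by_cases h3 : Keep R e
        · rw [if_pos h3]
        · rw [if_neg h3]
          -- crossing edge which is not interior
          have h4 : R.se e = 0 ∧ R.sv (src e) ≠ 0 := by
            unfold Keep at h3
            push Not at h3
            have h5 : R.se e = 0 := by omega
            exact ⟨h5, h3.2 h5⟩
          have h5 : e ∉ intEdges F := fun h6 => h1 (mem_cr.2 ⟨h6, h4⟩)
          exact (hω.cut e h5).symm
      · rw [if_neg h2]
        have h3 : Keep R (R.E e) := Or.inl (by rw [R.se_E]; omega)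
        rw [if_pos h3]

theorem mask_glue {x y : Cfg} (hy : mask R y = y) {F : Finset P2} {t : Finset Edge}
    (ht : t ⊆ cr R F) : mask R (glue R x y t) = y := by
  conv_rhs => rw [← hy]
  refine Prod.ext ?_ (Prod.ext ?_ ?_)
  · funext v
    simp only [glue, mask]
    split_ifs <;> rfl
  · funext v
    simp only [glue, mask]
    split_ifs <;> rfl
  · funext e
    simp only [glue, mask]
    by_cases h1 : Keep R e
    · rw [if_pos h1, if_pos h1]
      have h2 : e ∉ t := fun h3 => by
        have h4 := (mem_cr.1 (ht h3)).2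
        rcases h1 with h1 | h1
        · omega
        · exact h4.2 h1.2
      rw [if_neg h2]
      have h3 : 0 ≤ R.se e := by
        rcases h1 with h1 | h1
        · omega
        · omega
      rw [if_pos h3]
    · rw [if_neg h1, if_neg h1]

theorem act_glue {x y : Cfg} (hl : LineEq R x y) {F : Finset P2} {t : Finset Edge}
    (ht : t ⊆ cr R F) : act R (glue R x y t) = glue R y x t := by
  refine Prod.ext ?_ (Prod.ext ?_ ?_)
  · funext v
    simp only [glue, act_1, R.sv_V, R.V_invol]
    rcases lt_trichotomy (R.sv v) 0 with h | h | h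
    · rw [if_pos (by omega), if_neg (by omega)]
    · rw [if_pos (by omega), if_pos (by omega), R.V_fix v h, hl.v v h]
    · rw [if_neg (by omega), if_pos (by omega)]
  · funext v
    simp only [glue, act_21, R.sf_F, R.F_invol]
    rcases lt_trichotomy (R.sf v) 0 with h | h | h
    · rw [if_pos (by omega), if_neg (by omega)]
    · rw [if_pos (by omega), if_pos (by omega), R.F_fix v h, hl.f v h]
    · rw [if_neg (by omega), if_pos (by omega)]
  · funext e
    simp only [glue, act_22, R.se_E, R.E_invol]
    have hE : R.E e ∈ t ↔ e ∈ t := by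
      constructor
      · intro h
        have h1 := (mem_cr.1 (ht h)).2.1
        rw [R.se_E] at h1
        rwa [R.E_fix e (by omega)] at h
      · intro h
        have h1 := (mem_cr.1 (ht h)).2.1
        rwa [R.E_fix e (by omega)]
    by_cases h0 : e ∈ t
    · simp [h0, hE]
    · simp only [hE, h0, if_false]
      rcases lt_trichotomy (R.se e) 0 with h | h | h
      · rw [if_pos (by omega), if_neg (by omega)]
      · rw [if_pos (by omega), if_pos (by omega), R.E_fix e h, hl.e e h]
      · rw [if_neg (by omega), if_pos (by omega)]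

theorem LineEq.symm {x y : Cfg} (h : LineEq R x y) : LineEq R y x :=
  ⟨fun v hv => (h.v v hv).symm, fun v hv => (h.f v hv).symm, fun v hv => (h.e v hv).symm⟩

theorem lineEq_mask_act (ω : Cfg) : LineEq R (mask R (act R ω)) (mask R ω) := by
  refine ⟨fun v hv => ?_, fun v hv => ?_, fun v hv => ?_⟩
  · simp [mask, hv, R.V_fix v hv]
  · simp [mask, hv, R.F_fix v hv]
  · simp only [mask, act_22, R.E_fix v hv]

theorem filter_glue {x y : Cfg} (hy : mask R y = y) {F : Finset P2} {t : Finset Edge}
    (ht : t ⊆ cr R F) : ((cr R F).filter fun e => (glue R x y t).2.2 e = false) = t := by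
  ext e
  rw [mem_filter]
  simp only [glue]
  constructor
  · rintro ⟨h1, h2⟩
    by_contra h3
    have h4 := (mem_cr.1 h1).2
    rw [if_neg h3, if_pos (by omega)] at h2
    have h5 : (mask R y).2.2 e = true := by
      simp only [mask]
      rw [if_neg]
      unfold Keep
      rintro (h6 | h6)
      · omega
      · exact h4.2 h6.2
    rw [hy, h2] at h5
    exact absurd h5 (by simp)
  · intro h
    exact ⟨ht h, by simp [h]⟩

open Classical in
/-- right halves of valid configurations -/
def halves (R : Refl) (F : Finset P2) : Finset Cfg := (conf F).image (mask R)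

theorem mask_mask (ω : Cfg) : mask R (mask R ω) = mask R ω := by
  refine Prod.ext ?_ (Prod.ext ?_ ?_)
  · funext v
    simp only [mask]
    split_ifs <;> rfl
  · funext v
    simp only [mask]
    split_ifs <;> rfl
  · funext v
    simp only [mask]
    split_ifs <;> rfl

theorem mem_halves {F : Finset P2} {x : Cfg} :
    x ∈ halves R F ↔ ∃ ω, Valid F ω ∧ mask R ω = x := by
  classical
  simp [halves, mem_conf]

open Classical in
/-- **Splitting of the configuration sum.** -/
theorem sum_conf_split {M : Type*} [AddCommMonoid M] {F : Finset P2} (h : Symm R F)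
    (g : Cfg → M) :
    ∑ ω ∈ conf F, g ω = ∑ x ∈ halves R F, ∑ y ∈ halves R F,
      if lin R x = lin R y then ∑ t ∈ (cr R F).powerset, g (glue R x y t) else 0 := by
  have h1 : ∑ x ∈ halves R F, ∑ y ∈ halves R F,
      (if lin R x = lin R y then ∑ t ∈ (cr R F).powerset, g (glue R x y t) else 0) =
      ∑ p ∈ ((halves R F) ×ˢ (halves R F) ×ˢ (cr R F).powerset).filter
        (fun p => lin R p.1 = lin R p.2.1), g (glue R p.1 p.2.1 p.2.2) := by
    rw [Finset.sum_filter, Finset.sum_product]
    refine Finset.sum_congr rfl fun x _ => ?_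
    rw [Finset.sum_product]
    refine Finset.sum_congr rfl fun y _ => ?_
    by_cases hxy : lin R x = lin R y
    · simp [hxy]
    · simp [hxy]
  rw [h1]
  refine Finset.sum_bij' (fun ω _ => toHalves R F ω) (fun p _ => glue R p.1 p.2.1 p.2.2)
    ?_ ?_ ?_ ?_ ?_
  · intro ω hω
    have hω' := mem_conf.1 hω
    simp only [toHalves, mem_filter, mem_product, mem_powerset]
    refine ⟨⟨mem_halves.2 ⟨_, valid_act h hω', rfl⟩, mem_halves.2 ⟨_, hω', rfl⟩,
      Finset.filter_subset _ _⟩, lin_eq_iff.2 (lineEq_mask_act ω)⟩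
  · rintro ⟨x, y, t⟩ hp
    simp only [mem_filter, mem_product, mem_powerset] at hp
    obtain ⟨⟨hx, hy, ht⟩, hl⟩ := hp
    obtain ⟨ω₁, h1, rfl⟩ := mem_halves.1 hx
    obtain ⟨ω₂, h2, rfl⟩ := mem_halves.1 hy
    exact mem_conf.2 (valid_glue h h1 h2 (lin_eq_iff.1 hl) ht)
  · intro ω hω
    exact glue_toHalves (mem_conf.1 hω)
  · rintro ⟨x, y, t⟩ hp
    simp only [mem_filter, mem_product, mem_powerset] at hp
    obtain ⟨⟨hx, hy, ht⟩, hl⟩ := hp
    obtain ⟨ω₁, h1, rfl⟩ := mem_halves.1 hx
    obtain ⟨ω₂, h2, rfl⟩ := mem_halves.1 hy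
    simp only [toHalves]
    rw [act_glue (lin_eq_iff.1 hl) ht, mask_glue (mask_mask ω₁) ht, mask_glue (mask_mask ω₂) ht,
      filter_glue (mask_mask ω₂) ht]
  · intro ω hω
    rw [show glue R (toHalves R F ω).1 (toHalves R F ω).2.1 (toHalves R F ω).2.2 = ω from
      glue_toHalves (mem_conf.1 hω)]

/-! ### weights -/

/-- weight of a half -/
def wh (R : Refl) (c : ℝ) (F : Finset P2) (x : Cfg) : ℝ := ∏ e ∈ ri R F, ew c x e

/-- the face of `{fA e, fB e}` on the right -/
def rf (R : Refl) (e : Edge) : P2 := if 0 < R.sf (fA e) then fA e else fB e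

/-- the endpoint of `e` on the right -/
def rv (R : Refl) (e : Edge) : P2 := if 0 < R.sv (src e) then src e else tgt e

/-- kernel of an edge along the line -/
def kal (R : Refl) (c : ℝ) (e : Edge) (x y : Cfg) : ℝ :=
  ewf c (y.2.2 e) (y.1 (src e)) (y.1 (tgt e)) (x.2.1 (rf R e)) (y.2.1 (rf R e))

/-- kernel of a crossing edge whose dual is closed (`z = true`) -/
def kcr1 (R : Refl) (e : Edge) (x y : Cfg) : ℝ :=
  if x.1 (rv R e) = y.1 (rv R e) then 1 else 0

/-- kernel of a crossing edge whose dual is open (`z = false`) -/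
def kcr0 (R : Refl) (c : ℝ) (e : Edge) (x y : Cfg) : ℝ :=
  if y.2.1 (fA e) = y.2.1 (fB e) then (if x.1 (rv R e) = y.1 (rv R e) then c - 1 else 1) else 0

theorem wt_glue {F : Finset P2} (h : Symm R F) (c : ℝ) {x y : Cfg} (hl : LineEq R x y)
    {t : Finset Edge} (ht : t ⊆ cr R F) (hy : ∀ e ∈ cr R F, y.2.2 e = true) :
    wt c F (glue R x y t) = wh R c F x * wh R c F y * (∏ e ∈ al R F, kal R c e x y) *
      ((∏ e ∈ t, kcr0 R c e x y) * (∏ e ∈ cr R F \ t, kcr1 R e x y)) := by
  unfold wt
  rw [prod_split (R := R)]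
  have hnt : ∀ e, R.se e ≠ 0 ∨ R.sv (src e) = 0 → e ∉ t := by
    intro e he h3
    have h4 := (mem_cr.1 (ht h3)).2
    rcases he with he | he
    · exact he h4.1
    · exact h4.2 he
  congr 1
  · congr 1
    · congr 1
      · -- left
        unfold wh
        refine Finset.prod_nbij' R.E R.E ?_ ?_ ?_ ?_ ?_
        · intro e he
          simp only [le, ri, mem_filter] at he ⊢
          exact ⟨(h.intEdges e).2 he.1, by rw [R.se_E]; omega⟩
        · intro e he
          simp only [le, ri, mem_filter] at he ⊢
          exact ⟨(h.intEdges e).2 he.1, by rw [R.se_E]; omega⟩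
        · intro e _; exact R.E_invol e
        · intro e _; exact R.E_invol e
        · intro e he
          simp only [le, mem_filter] at he
          have h1 : ew c (glue R x y t) e = ew c (act R (glue R x y t)) (R.E e) := by
            rw [ew_act, R.E_invol]
          rw [h1, act_glue hl ht, ew_eq, ew_eq]
          have h2 := R.pos (R.E e) (by rw [R.se_E]; omega)
          have h3 : R.E e ∉ t := hnt _ (Or.inl (by rw [R.se_E]; omega))
          have h4 : 0 ≤ R.se (R.E e) := by rw [R.se_E]; omega
          simp only [glue, h2, h3, h4, if_true, if_false]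
      · unfold wh
        refine Finset.prod_congr rfl fun e he => ?_
        simp only [ri, mem_filter] at he
        rw [ew_eq, ew_eq]
        have h2 := R.pos e he.2
        have h3 : e ∉ t := hnt _ (Or.inl (by omega))
        have h4 : 0 ≤ R.se e := by omega
        simp only [glue, h2, h3, h4, if_true, if_false]
    · refine Finset.prod_congr rfl fun e he => ?_
      simp only [al, mem_filter] at he
      obtain ⟨_, he1, he2⟩ := he
      rw [ew_eq]
      unfold kal
      have h3 : e ∉ t := hnt _ (Or.inr he2)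
      rcases R.line e he1 with ⟨l1, l2, l3, l4⟩ | ⟨l1, l2, l3, l4⟩
      · have e1 : (glue R x y t).2.2 e = y.2.2 e := by simp [glue, h3, he1]
        have e2 : (glue R x y t).1 (src e) = y.1 (src e) := by simp [glue, l1]
        have e3 : (glue R x y t).1 (tgt e) = y.1 (tgt e) := by simp [glue, l2]
        rw [e1, e2, e3]
        unfold rf
        by_cases h5 : 0 < R.sf (fA e)
        · have e4 : (glue R x y t).2.1 (fA e) = y.2.1 (fA e) := by simp [glue, h5.le]
          have e5 : (glue R x y t).2.1 (fB e) = x.2.1 (fA e) := by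
            simp only [glue]
            rw [l3, R.sf_F, if_neg (by omega), R.F_invol]
          rw [if_pos h5, e4, e5, ewf_swap_f]
        · have h6 : R.sf (fA e) < 0 := by omega
          have e4 : (glue R x y t).2.1 (fA e) = x.2.1 (fB e) := by
            simp only [glue]
            rw [if_neg (by omega), l3]
          have e5 : (glue R x y t).2.1 (fB e) = y.2.1 (fB e) := by
            simp only [glue]
            rw [if_pos]
            rw [l3, R.sf_F]
            omega
          rw [if_neg h5, e4, e5]
      · exact absurd he2 l4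
  · -- crossing
    rw [← Finset.prod_sdiff ht, mul_comm]
    congr 1
    · refine Finset.prod_congr rfl fun e he => ?_
      obtain ⟨_, he1, he2⟩ := mem_cr.1 (ht he)
      rcases R.line e he1 with ⟨l1, l2, l3, l4⟩ | ⟨l1, l2, l3, l4⟩
      · exact absurd l1 he2
      · rw [ew_eq]
        have e1 : (glue R x y t).2.2 e = false := by simp [glue, he]
        have e2 : (glue R x y t).2.1 (fA e) = y.2.1 (fA e) := by simp [glue, l1]
        have e3 : (glue R x y t).2.1 (fB e) = y.2.1 (fB e) := by simp [glue, l2]
        rw [e1, e2, e3]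
        unfold kcr0 rv
        by_cases h5 : 0 < R.sv (src e)
        · have e4 : (glue R x y t).1 (src e) = y.1 (src e) := by simp [glue, h5.le]
          have e5 : (glue R x y t).1 (tgt e) = x.1 (src e) := by
            simp only [glue]
            rw [l3, R.sv_V, if_neg (by omega), R.V_invol]
          rw [if_pos h5, e4, e5, ewf_swap_v]
          rfl
        · have e4 : (glue R x y t).1 (src e) = x.1 (tgt e) := by
            simp only [glue]
            rw [if_neg (by omega), l3]
          have e5 : (glue R x y t).1 (tgt e) = y.1 (tgt e) := by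
            simp only [glue]
            rw [if_pos]
            rw [l3, R.sv_V]
            omega
          rw [if_neg h5, e4, e5]
          rfl
    · refine Finset.prod_congr rfl fun e he => ?_
      obtain ⟨he', hnt'⟩ := Finset.mem_sdiff.1 he
      obtain ⟨_, he1, he2⟩ := mem_cr.1 he'
      rcases R.line e he1 with ⟨l1, l2, l3, l4⟩ | ⟨l1, l2, l3, l4⟩
      · exact absurd l1 he2
      · rw [ew_eq]
        have e1 : (glue R x y t).2.2 e = true := by
          simp [glue, hnt', he1, hy e he']
        rw [e1]
        unfold kcr1 rv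
        by_cases h5 : 0 < R.sv (src e)
        · have e4 : (glue R x y t).1 (src e) = y.1 (src e) := by simp [glue, h5.le]
          have e5 : (glue R x y t).1 (tgt e) = x.1 (src e) := by
            simp only [glue]
            rw [l3, R.sv_V, if_neg (by omega), R.V_invol]
          rw [if_pos h5, e4, e5, ewf_swap_v]
          rfl
        · have e4 : (glue R x y t).1 (src e) = x.1 (tgt e) := by
            simp only [glue]
            rw [if_neg (by omega), l3]
          have e5 : (glue R x y t).1 (tgt e) = y.1 (tgt e) := by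
            simp only [glue]
            rw [if_pos]
            rw [l3, R.sv_V]
            omega
          rw [if_neg h5, e4, e5]
          rfl

theorem mask_cr (ω : Cfg) {F : Finset P2} : ∀ e ∈ cr R F, (mask R ω).2.2 e = true := by
  intro e he
  obtain ⟨_, h1, h2⟩ := mem_cr.1 he
  simp only [mask]
  rw [if_neg]
  unfold Keep
  rintro (h6 | h6)
  · omega
  · exact h2 h6.2

/-- the kernel -/
def ker (R : Refl) (c : ℝ) (F : Finset P2) (x y : Cfg) : ℝ :=
  (∏ e ∈ al R F, kal R c e x y) * ∏ e ∈ cr R F, (kcr0 R c e x y + kcr1 R e x y)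

theorem sum_wt_glue {F : Finset P2} (h : Symm R F) (c : ℝ) {x y : Cfg} (hl : LineEq R x y)
    (hy : ∀ e ∈ cr R F, y.2.2 e = true) :
    ∑ t ∈ (cr R F).powerset, wt c F (glue R x y t) =
      wh R c F x * wh R c F y * ker R c F x y := by
  unfold ker
  rw [Finset.prod_add, Finset.mul_sum, Finset.mul_sum]
  refine Finset.sum_congr rfl fun t ht => ?_
  rw [wt_glue h c hl (Finset.mem_powerset.1 ht) hy]
  ring

theorem posKer_kal {c : ℝ} (hc : 1 ≤ c) {F : Finset P2} {e : Edge} (he : e ∈ al R F) :
    PosKer (fun x : halves R F => lin R x.1) (fun x y => kal R c e x.1 y.1) := by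
  classical
  simp only [al, mem_filter] at he
  obtain ⟨_, he1, he2⟩ := he
  have l2 : R.sv (tgt e) = 0 := by
    rcases R.line e he1 with ⟨l1, l2, l3, l4⟩ | ⟨l1, l2, l3, l4⟩
    · exact l2
    · exact absurd he2 l4
  -- fibre functions
  let A : Cfg → ℝ := fun μ => if μ.2.2 e then (if μ.1 (src e) = μ.1 (tgt e) then 1 else 0) else 0
  let B : Cfg → ℝ := fun μ => if μ.2.2 e then 0 else (if μ.1 (src e) = μ.1 (tgt e) then c - 1 else 1)
  have hA : ∀ μ, 0 ≤ A μ := by
    intro μ; simp only [A]; split_ifs <;> norm_num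
  have hB : ∀ μ, 0 ≤ B μ := by
    intro μ; simp only [B]; split_ifs <;> linarith
  have h1 : PosKer (fun x : halves R F => lin R x.1) (fun x y => A (lin R x.1) +
      B (lin R x.1) * (if x.1.2.1 (rf R e) = y.1.2.1 (rf R e) then 1 else 0)) :=
    (PosKer.fiber A hA).add ((PosKer.fiber B hB).mul
      (PosKer.eqKer (fun x : halves R F => x.1.2.1 (rf R e))
        (Finset.univ.image fun x : halves R F => x.1.2.1 (rf R e))
        (fun x => Finset.mem_image_of_mem _ (Finset.mem_univ x))))
  refine h1.congr fun x y hxy => ?_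
  have hxy' := lin_eq_iff.1 hxy
  simp only [kal, ewf, A, B, lin, he1, he2, l2, if_true, hxy'.v _ he2, hxy'.v _ l2, hxy'.e _ he1]
  by_cases h2 : y.1.2.2 e = true
  · simp [h2]
  · simp only [h2, if_false]
    split_ifs <;> simp_all

theorem posKer_kcr {c : ℝ} (hc : 1 ≤ c) {F : Finset P2} {e : Edge} (he : e ∈ cr R F) :
    PosKer (fun x : halves R F => lin R x.1)
      (fun x y => kcr0 R c e x.1 y.1 + kcr1 R e x.1 y.1) := by
  classical
  obtain ⟨_, he1, he2⟩ := mem_cr.1 he
  obtain ⟨l1, l2⟩ : R.sf (fA e) = 0 ∧ R.sf (fB e) = 0 := by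
    rcases R.line e he1 with ⟨l1, l2, l3, l4⟩ | ⟨l1, l2, l3, l4⟩
    · exact absurd l1 he2
    · exact ⟨l1, l2⟩
  let A : Cfg → ℝ := fun μ => if μ.2.1 (fA e) = μ.2.1 (fB e) then 1 else 0
  let B : Cfg → ℝ := fun μ => if μ.2.1 (fA e) = μ.2.1 (fB e) then c - 1 else 1
  have hA : ∀ μ, 0 ≤ A μ := by
    intro μ; simp only [A]; split_ifs <;> norm_num
  have hB : ∀ μ, 0 ≤ B μ := by
    intro μ; simp only [B]; split_ifs <;> linarith
  have h1 : PosKer (fun x : halves R F => lin R x.1) (fun x y => A (lin R x.1) +
      B (lin R x.1) * (if x.1.1 (rv R e) = y.1.1 (rv R e) then 1 else 0)) :=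
    (PosKer.fiber A hA).add ((PosKer.fiber B hB).mul
      (PosKer.eqKer (fun x : halves R F => x.1.1 (rv R e))
        (Finset.univ.image fun x : halves R F => x.1.1 (rv R e))
        (fun x => Finset.mem_image_of_mem _ (Finset.mem_univ x))))
  refine h1.congr fun x y hxy => ?_
  have hxy' := lin_eq_iff.1 hxy
  simp only [kcr0, kcr1, A, B, lin, l1, l2, if_true, hxy'.f _ l1, hxy'.f _ l2]
  split_ifs <;> ring

theorem posKer_ker {c : ℝ} (hc : 1 ≤ c) (F : Finset P2) :
    PosKer (fun x : halves R F => lin R x.1) (fun x y => ker R c F x.1 y.1) :=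
  (PosKer.prod _ fun _ he => posKer_kal hc he).mul (PosKer.prod _ fun _ he => posKer_kcr hc he)

/-- **Reflection positivity in finite volume.** -/
theorem rp_fin {c : ℝ} (hc : 1 ≤ c) {F : Finset P2} (h : Symm R F) {Φ : Cfg → ℂ}
    (hΦ : RLoc R Φ) :
    ∃ r : ℝ, 0 ≤ r ∧ EC c F (fun ω => conj (Φ (act R ω)) * Φ ω) = (r : ℂ) := by
  classical
  have h1 : EC c F (fun ω => conj (Φ (act R ω)) * Φ ω) =
      ((Z c F)⁻¹ : ℝ) * ∑ ω ∈ conf F, (wt c F ω : ℂ) * (conj (Φ (act R ω)) * Φ ω) := by
    unfold EC
    rw [Finset.mul_sum]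
    refine Finset.sum_congr rfl fun ω hω => ?_
    rw [pr_of_valid c (mem_conf.1 hω)]
    push_cast
    ring
  have h2 : ∑ ω ∈ conf F, (wt c F ω : ℂ) * (conj (Φ (act R ω)) * Φ ω) =
      ∑ x : halves R F, ∑ y : halves R F, if lin R x.1 = lin R y.1 then
        ((wh R c F x.1 * wh R c F y.1 * ker R c F x.1 y.1 : ℝ) : ℂ) *
          (conj (Φ x.1) * Φ y.1) else 0 := by
    rw [sum_conf_split h, ← Finset.sum_coe_sort]
    refine Finset.sum_congr rfl fun x _ => ?_
    rw [← Finset.sum_coe_sort]
    refine Finset.sum_congr rfl fun y _ => ?_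
    split_ifs with hxy
    · have hl := lin_eq_iff.1 hxy
      obtain ⟨ω₁, _, hω₁⟩ := mem_halves.1 x.2
      obtain ⟨ω₂, _, hω₂⟩ := mem_halves.1 y.2
      have hx : mask R x.1 = x.1 := by rw [← hω₁, mask_mask]
      have hy : mask R y.1 = y.1 := by rw [← hω₂, mask_mask]
      have hy' : ∀ e ∈ cr R F, y.1.2.2 e = true := by rw [← hω₂]; exact mask_cr _
      rw [← sum_wt_glue h c hl hy', Complex.ofReal_sum, Finset.sum_mul]
      refine Finset.sum_congr rfl fun t ht => ?_
      have ht' := Finset.mem_powerset.1 ht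
      have e1 : Φ (glue R x.1 y.1 t) = Φ y.1 := by
        rw [← hΦ _ _ (agreeR_mask (glue R x.1 y.1 t)), mask_glue hy ht']
      have e2 : Φ (act R (glue R x.1 y.1 t)) = Φ x.1 := by
        rw [act_glue hl ht', ← hΦ _ _ (agreeR_mask (glue R y.1 x.1 t)), mask_glue hx ht']
      rw [e1, e2]
    · rfl
  obtain ⟨r, hr, hr'⟩ := rp_nonneg (fun x : halves R F => lin R x.1) (fun x => wh R c F x.1)
    (fun x y => ker R c F x.1 y.1) (posKer_ker hc F) (fun x => Φ x.1)
  refine ⟨(Z c F)⁻¹ * r, mul_nonneg (inv_nonneg.2 (Z_pos hc F).le) hr, ?_⟩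
  rw [h1, h2, hr']
  push_cast
  ring

end Crest.Agent.R161.RPconc597
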