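import Crest.Agent.R161.Aut_373
import Crest.Agent.R161.Rect_597
import Crest.Agent.R161.RPsys_695

/-!
R161, block F (helper373): reflection positivity of the infinite state.

* `NN` : neutral local functionals, `VV R α` : local functionals of charge `α` of the closed right
  side of `R`
* `rp_state : 0 ≤ re ∫ conj (F ∘ θ) F dP`
* `sys` : the reflection positive system (`RPSys`, helper695) of the state for every
  `Step R R' a` (8 directions, all lines) and every charge `α`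
* `sys_B_le : re B(F,F) ≤ ∫ ‖F‖²`
* `mem_VV` : membership from the sites of a functional, `left_mem` for left functionals
-/

set_option autoImplicit false

noncomputable section

namespace Crest.Agent.R161.RPlim373

open Finset MeasureTheory
open Crest.Agent.R161.Geo729 Crest.Agent.R161.Defs372 Crest.Agent.R161.Sym597
open Crest.Agent.R161.RPconc597 Crest.Agent.R161.Rect597 Crest.Agent.R161.Aut373
open Crest.Agent.R161.RPsys695
open scoped ComplexConjugate

/-- the functional depends on finitely many sites -/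
def FinLoc {β : Type*} (F : Cfg → β) : Prop := ∃ S : Finset P2, Loc (S : Set P2) F

theorem FinLoc.comp {β γ : Type*} {F : Cfg → β} (h : FinLoc F) (g : β → γ) :
    FinLoc (fun ω => g (F ω)) := by
  obtain ⟨S, hS⟩ := h
  exact ⟨S, loc_comp hS g⟩

theorem FinLoc.map₂ {β γ δ : Type*} {F : Cfg → β} {G : Cfg → γ} (hF : FinLoc F) (hG : FinLoc G)
    (m : β → γ → δ) : FinLoc (fun ω => m (F ω) (G ω)) := by
  classical
  obtain ⟨S, hS⟩ := hF
  obtain ⟨T, hT⟩ := hG
  refine ⟨S ∪ T, ?_⟩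
  rw [Finset.coe_union]
  exact loc_map₂ hS hT m

theorem FinLoc.cfg {β : Type*} {F : Cfg → β} (h : FinLoc F) (σ : Aut) :
    FinLoc (fun ω => F (σ.cfg ω)) := by
  obtain ⟨S, hS⟩ := h
  exact ⟨_, loc_cfg hS σ⟩

theorem FinLoc.act {β : Type*} {F : Cfg → β} (h : FinLoc F) (R : Refl) :
    FinLoc (fun ω => F (act R ω)) := h.cfg (Aut.ofRefl R)

theorem FinLoc.trans {β : Type*} {F : Cfg → β} (h : FinLoc F) (a : P2) :
    FinLoc (fun ω => F (trans a ω)) := h.cfg (Aut.tr a)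

theorem FinLoc.const {β : Type*} (b : β) : FinLoc (fun _ : Cfg => b) :=
  ⟨∅, fun _ _ _ => rfl⟩

theorem FinLoc.measurable {β : Type*} [MeasurableSpace β] [Nonempty β] {F : Cfg → β}
    (h : FinLoc F) : Measurable F := by
  obtain ⟨S, hS⟩ := h
  exact loc_measurable hS

theorem FinLoc.integrable {β : Type*} [NormedAddCommGroup β] [MeasurableSpace β] [BorelSpace β]
    [SecondCountableTopology β] {c : ℝ} {P : Measure Cfg} (hP : IsState c P) {F : Cfg → β}
    (h : FinLoc F) : Integrable F P := by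
  obtain ⟨S, hS⟩ := h
  exact loc_integrable hP hS

theorem _root_.Crest.Agent.R161.Aut373.Neut.act {β : Type*} {f : Cfg → β} (h : Neut f) (R : Refl) :
    Neut (fun ω => f (RPconc597.act R ω)) := h.cfg (Aut.ofRefl R)

theorem _root_.Crest.Agent.R161.Aut373.Chg.act {α : ℝ} {f : Cfg → ℂ} (h : Chg α f) (R : Refl) :
    Chg α (fun ω => f (RPconc597.act R ω)) := h.cfg (Aut.ofRefl R)

theorem _root_.Crest.Agent.R161.Aut373.Chg.trans {α : ℝ} {f : Cfg → ℂ} (h : Chg α f) (a : P2) :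
    Chg α (fun ω => f (Defs372.trans a ω)) := h.cfg (Aut.tr a)

theorem _root_.Crest.Agent.R161.Aut373.Neut.trans {β : Type*} {f : Cfg → β} (h : Neut f) (a : P2) :
    Neut (fun ω => f (Defs372.trans a ω)) := h.cfg (Aut.tr a)

/-- neutral local functionals -/
def NN : Submodule ℂ (Cfg → ℂ) where
  carrier := {F | FinLoc F ∧ Neut F}
  add_mem' {F G} hF hG :=
    ⟨hF.1.map₂ hG.1 (· + ·), fun ω hω a ha => by
      simp only [Pi.add_apply]
      rw [hF.2 ω hω a ha, hG.2 ω hω a ha]⟩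
  zero_mem' := ⟨FinLoc.const 0, fun _ _ _ _ => rfl⟩
  smul_mem' r F hF := ⟨hF.1.comp (r • ·), hF.2.comp (r • ·)⟩

theorem mem_NN {F : Cfg → ℂ} : F ∈ NN ↔ FinLoc F ∧ Neut F := Iff.rfl

theorem rloc_add {R : Refl} {F G : Cfg → ℂ} (hF : RLoc R F) (hG : RLoc R G) : RLoc R (F + G) :=
  fun ω ω' h => by
    simp only [Pi.add_apply]
    rw [hF ω ω' h, hG ω ω' h]

theorem rloc_comp {β γ : Type*} {R : Refl} {F : Cfg → β} (hF : RLoc R F) (g : β → γ) :
    RLoc R (fun ω => g (F ω)) :=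
  fun ω ω' h => by
    simp only
    rw [hF ω ω' h]

/-- local functionals of charge `α` of the closed right side of the line -/
def VV (R : Refl) (α : ℝ) : Submodule ℂ (Cfg → ℂ) where
  carrier := {F | FinLoc F ∧ RLoc R F ∧ Chg α F}
  add_mem' {F G} hF hG := ⟨hF.1.map₂ hG.1 (· + ·), rloc_add hF.2.1 hG.2.1, hF.2.2.add hG.2.2⟩
  zero_mem' := ⟨FinLoc.const 0, fun _ _ _ => rfl, fun _ _ _ _ => by simp⟩
  smul_mem' r F hF := ⟨hF.1.comp (r • ·), rloc_comp hF.2.1 (r • ·), hF.2.2.smul r⟩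

theorem mem_VV {R : Refl} {α : ℝ} {F : Cfg → ℂ} :
    F ∈ VV R α ↔ FinLoc F ∧ RLoc R F ∧ Chg α F := Iff.rfl

variable {c : ℝ} {P : Measure Cfg}

/-- complex form of the limit -/
theorem limC_neut (hP : IsState c P) {f : Cfg → ℝ} (hf : FinLoc f)
    (hn : Neut f) {ε : ℝ} (hε : 0 < ε) : ∃ n : ℕ, ∀ F : Finset P2, Dom F → Defs372.box n ⊆ F →
      |Defs372.E c F f - ∫ ω, f ω ∂P| < ε := by
  obtain ⟨S, hS⟩ := hf
  exact lim_neut hP hS hn hε

theorem EC_re (F : Finset P2) (f : Cfg → ℂ) : (EC c F f).re = Defs372.E c F (fun ω => (f ω).re) := by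
  unfold EC Defs372.E
  rw [Complex.re_sum]
  refine Finset.sum_congr rfl fun ω _ => ?_
  rw [Complex.re_ofReal_mul]

theorem integral_re {f : Cfg → ℂ} (hf : Integrable f P) : (∫ ω, f ω ∂P).re = ∫ ω, (f ω).re ∂P := by
  have := _root_.integral_re hf (𝕜 := ℂ)
  simpa using this.symm

/-- charge bookkeeping -/
theorem pair_neut {α : ℝ} {F G : Cfg → ℂ} (hF : Chg α F) (hG : Chg α G) (R : Refl) :
    Neut (fun ω => conj (F (act R ω)) * G ω) := by
  have h := ((hF.act R).conj.mul hG)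
  rw [neg_add_cancel] at h
  exact h.neut

/-- **Reflection positivity of the state.** -/
theorem rp_state (hc : 1 ≤ c) (hP : IsState c P) {R : Refl} (hR : SymDom R) {α : ℝ}
    {F : Cfg → ℂ} (hF : F ∈ VV R α) : 0 ≤ (∫ ω, conj (F (act R ω)) * F ω ∂P).re := by
  obtain ⟨h1, h2, h3⟩ := hF
  have hloc : FinLoc (fun ω => conj (F (act R ω)) * F ω) :=
    ((h1.act R).comp conj).map₂ h1 (· * ·)
  have hneut := pair_neut h3 h3 R
  rw [integral_re (hloc.integrable hP)]
  refine le_of_forall_pos_le_add fun ε hε => ?_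
  obtain ⟨n, hn⟩ := limC_neut hP (hloc.comp Complex.re) (hneut.comp Complex.re) hε
  obtain ⟨D, hD1, hD2, hD3⟩ := hR n
  have h4 := hn D hD1 hD2
  obtain ⟨r, hr0, hr⟩ := rp_fin hc hD3 h2
  have h5 : Defs372.E c D (fun ω => (conj (F (act R ω)) * F ω).re) = r := by
    rw [← EC_re, hr, Complex.ofReal_re]
  rw [h5] at h4
  have := (abs_lt.1 h4).2
  linarith

theorem integral_act (hP : IsState c P) (R : Refl) {f : Cfg → ℂ}
    (hf : FinLoc f) (hn : Neut f) : ∫ ω, f (act R ω) ∂P = ∫ ω, f ω ∂P := by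
  obtain ⟨S, hS⟩ := hf
  exact integral_aut_complex hP (Aut.ofRefl R) hS hn

theorem integral_trans (hP : IsState c P) (a : P2) {f : Cfg → ℂ}
    (hf : FinLoc f) (hn : Neut f) : ∫ ω, f (trans a ω) ∂P = ∫ ω, f ω ∂P := by
  obtain ⟨S, hS⟩ := hf
  exact integral_aut_complex hP (Aut.tr a) hS hn

theorem integral_act_real (hP : IsState c P) (R : Refl) {f : Cfg → ℝ}
    (hf : FinLoc f) (hn : Neut f) : ∫ ω, f (act R ω) ∂P = ∫ ω, f ω ∂P := by
  obtain ⟨S, hS⟩ := hf
  exact integral_aut hP (Aut.ofRefl R) hS hn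

theorem integral_trans_real (hP : IsState c P) (a : P2) {f : Cfg → ℝ}
    (hf : FinLoc f) (hn : Neut f) : ∫ ω, f (trans a ω) ∂P = ∫ ω, f ω ∂P := by
  obtain ⟨S, hS⟩ := hf
  exact integral_aut hP (Aut.tr a) hS hn

theorem trans_iterate (a : P2) (n : ℕ) (ω : Cfg) : (trans a)^[n] ω = trans (n • a) ω := by
  induction n generalizing ω with
  | zero => simp [trans_zero]
  | succ n ih =>
    rw [Function.iterate_succ_apply, ih, trans_trans, succ_nsmul]

/-- elementary bound `|∫ conj A B| ≤ (∫ |A|² + ∫ |B|²) / 2` -/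
theorem norm_integral_le (hP : IsState c P) {A B : Cfg → ℂ} (hA : FinLoc A) (hB : FinLoc B) :
    ‖∫ ω, conj (A ω) * B ω ∂P‖ ≤ ((∫ ω, ‖A ω‖ ^ 2 ∂P) + ∫ ω, ‖B ω‖ ^ 2 ∂P) / 2 := by
  have hA2 : Integrable (fun ω => ‖A ω‖ ^ 2) P := (hA.comp (fun z => ‖z‖ ^ 2)).integrable hP
  have hB2 : Integrable (fun ω => ‖B ω‖ ^ 2) P := (hB.comp (fun z => ‖z‖ ^ 2)).integrable hP
  have hAB : Integrable (fun ω => conj (A ω) * B ω) P :=
    (FinLoc.map₂ hA hB (fun x y => conj x * y)).integrable hP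
  calc ‖∫ ω, conj (A ω) * B ω ∂P‖ ≤ ∫ ω, ‖conj (A ω) * B ω‖ ∂P := norm_integral_le_integral_norm _
    _ ≤ ∫ ω, (‖A ω‖ ^ 2 + ‖B ω‖ ^ 2) / 2 ∂P := by
        refine integral_mono hAB.norm ((hA2.add hB2).div_const 2) fun ω => ?_
        simp only [norm_mul, RCLike.norm_conj]
        nlinarith [sq_nonneg (‖A ω‖ - ‖B ω‖)]
    _ = ((∫ ω, ‖A ω‖ ^ 2 ∂P) + ∫ ω, ‖B ω‖ ^ 2 ∂P) / 2 := by
        rw [integral_div, integral_add hA2 hB2]

/-- **The reflection positive system of the state** (direction `a`, line `R`, charge `α`). -/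
def sys (hc : 1 ≤ c) (hP : IsState c P) {R R' : Refl} {a : P2} (h : Step R R' a)
    (hR : SymDom R) (hR' : SymDom R') (α : ℝ) : RPSys Cfg where
  E F := ∫ ω, F ω ∂P
  N := NN
  V := VV R α
  θ := act R
  τ := trans a
  θθ := act_act R
  τθτ := h.τθτ
  mem_N F hF G hG := ⟨((hF.1.act R).comp conj).map₂ hG.1 (· * ·), pair_neut hF.2.2 hG.2.2 R⟩
  mem_V F hF := ⟨hF.1.trans a, h.rloc hF.2.1, hF.2.2.trans a⟩
  E_add F hF G hG := integral_add (hF.1.integrable hP) (hG.1.integrable hP)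
  E_smul r F _ := by
    simp only [Pi.smul_apply, smul_eq_mul]
    exact integral_const_mul r F
  E_conj F _ G _ := integral_conj
  E_θ F hF G hG := by
    have h1 := integral_act hP R (f := fun ω => conj (F ω) * G (act R ω))
      ((hF.1.comp conj).map₂ (hG.1.act R) (· * ·))
      (by
        have := (hF.2.2.conj.mul (hG.2.2.act R))
        rw [neg_add_cancel] at this
        exact this.neut)
    rw [← h1]
    refine integral_congr_ae (Filter.Eventually.of_forall fun ω => ?_)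
    simp only [act_act]
  E_τ F hF := integral_trans hP a hF.1 hF.2
  rp0 F hF := rp_state hc hP hR hF
  rp1 F hF := by
    have h1 := rp_state hc hP hR' (F := fun ω => F (trans a ω)) (α := α)
      ⟨hF.1.trans a, h.rloc' hF.2.1, hF.2.2.trans a⟩
    simp only [h.trans_act] at h1
    exact h1
  bdd F hF := by
    refine ⟨∫ ω, ‖F ω‖ ^ 2 ∂P, fun n => ?_⟩
    have hF1 : FinLoc F := hF.1
    have hF3 : Chg α F := hF.2.2
    have e1 : ∀ ω, (trans a)^[n] ω = trans (n • a) ω := trans_iterate a n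
    simp only [e1]
    have hA : FinLoc (fun ω => F (trans (n • a) (act R ω))) := (hF1.trans _).act R
    have hB : FinLoc (fun ω => F (trans (n • a) ω)) := hF1.trans _
    have hsq : FinLoc (fun ω => ‖F ω‖ ^ 2) := hF1.comp (fun z => ‖z‖ ^ 2)
    have hnq : Neut (fun ω => ‖F ω‖ ^ 2) := hF3.neut_norm.comp (fun x => x ^ 2)
    have h1 := norm_integral_le hP hA hB
    have h2 : ∫ ω, ‖F (trans (n • a) ω)‖ ^ 2 ∂P = ∫ ω, ‖F ω‖ ^ 2 ∂P :=
      integral_trans_real hP (n • a) hsq hnq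
    have h3 : ∫ ω, ‖F (trans (n • a) (act R ω))‖ ^ 2 ∂P = ∫ ω, ‖F ω‖ ^ 2 ∂P := by
      rw [← h2]
      exact integral_act_real hP R (hsq.trans _) (hnq.trans _)
    rw [h2, h3] at h1
    refine (Complex.re_le_norm _).trans (h1.trans (le_of_eq (by ring)))

section
variable (hc : 1 ≤ c) (hP : IsState c P) {R R' : Refl} {a : P2} (h : Step R R' a)
    (hR : SymDom R) (hR' : SymDom R') (α : ℝ)

@[simp] theorem sys_E (F : Cfg → ℂ) : (sys hc hP h hR hR' α).E F = ∫ ω, F ω ∂P := rfl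
@[simp] theorem sys_N : (sys hc hP h hR hR' α).N = NN := rfl
@[simp] theorem sys_V : (sys hc hP h hR hR' α).V = VV R α := rfl
@[simp] theorem sys_θ : (sys hc hP h hR hR' α).θ = act R := rfl
@[simp] theorem sys_τ : (sys hc hP h hR hR' α).τ = trans a := rfl

theorem sys_B (F G : Cfg → ℂ) :
    (sys hc hP h hR hR' α).B F G = ∫ ω, conj (F (act R ω)) * G ω ∂P := rfl

end

/-- the form is bounded by the `L²` norm -/
theorem B_le (hP : IsState c P) (R : Refl) {α : ℝ} {F : Cfg → ℂ} (hF : FinLoc F) (hα : Chg α F) :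
    (∫ ω, conj (F (act R ω)) * F ω ∂P).re ≤ ∫ ω, ‖F ω‖ ^ 2 ∂P := by
  have h1 := norm_integral_le hP (hF.act R) hF
  have h3 : ∫ ω, ‖F (act R ω)‖ ^ 2 ∂P = ∫ ω, ‖F ω‖ ^ 2 ∂P :=
    integral_act_real hP R (hF.comp (fun z => ‖z‖ ^ 2)) (hα.neut_norm.comp (fun x => x ^ 2))
  rw [h3] at h1
  exact (Complex.re_le_norm _).trans (h1.trans (le_of_eq (by ring)))

/-! ### membership from sites -/

/-- all the data at the site `v` (vertex, face, two edges) is on the right side of the line -/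
def RSite (R : Refl) (v : P2) : Prop := 0 ≤ R.sv v ∧ 0 ≤ R.sf v ∧ ∀ b : Bool, Keep R (v, b)

theorem rloc_of_loc {β : Type*} {R : Refl} {S : Set P2} {F : Cfg → β} (hF : Loc S F)
    (hS : ∀ v ∈ S, RSite R v) : RLoc R F := by
  intro ω ω' h
  refine hF ω ω' fun v hv => ?_
  obtain ⟨h1, h2, h3⟩ := hS v hv
  exact ⟨h.1 v h1, h.2.1 v h2, fun b => h.2.2 _ (h3 b)⟩

/-- a functional of the left side, reflected -/
theorem rloc_act_of_loc {β : Type*} {R : Refl} {S : Set P2} {F : Cfg → β} (hF : Loc S F)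
    (hS : ∀ v ∈ S, 0 ≤ R.sv (R.V v) ∧ 0 ≤ R.sf (R.Fc v) ∧ ∀ b : Bool, Keep R (R.E (v, b))) :
    RLoc R (fun ω => F (act R ω)) := by
  intro ω ω' h
  refine hF _ _ fun v hv => ?_
  obtain ⟨h1, h2, h3⟩ := hS v hv
  exact ⟨h.1 _ h1, h.2.1 _ h2, fun b => h.2.2 _ (h3 b)⟩

end Crest.Agent.R161.RPlim373
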