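import Mathlib.Analysis.SpecialFunctions.Exp
import Mathlib.Analysis.SpecialFunctions.Pow.Real
import Mathlib.Analysis.SpecialFunctions.ExpDeriv
import Mathlib.Analysis.SpecificLimits.Normed
import Mathlib.Analysis.Normed.Algebra.Exponential
import Mathlib.Analysis.Complex.Basic
import Mathlib.Topology.Order.Compact
import Mathlib.Tactic

/-!
Ray lemma (abstract part of STEP 6).

`PolyBound f C`: the sequence `f : ℕ → ℂ` is bounded by `C` as a linear functional on polynomials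
with the sup norm of `[0,1]` (this is what reflection positivity gives for
`f k = E[A · τ_{k e} B]`).  The Ray lemma: if `PolyBound (f n) C`, `δ n → 0⁺` and
`f n ⌊t / δ n⌋ → 0` for all `t` in a nonempty open interval of `(0,∞)`, then the same holds for
every `t > 0`.
-/

set_option autoImplicit false

open Filter Topology

namespace Crest.Agent.R161.Ray369

/-- Uniform approximability of `g` on `[0,∞)` by finite combinations of `E ↦ exp (-t E)`, `t ∈ U`. -/
def Appr (U : Set ℝ) (g : ℝ → ℝ) : Prop :=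
  ∀ ε : ℝ, 0 < ε → ∃ (J : Finset ℝ) (c : ℝ → ℝ), (∀ t ∈ J, t ∈ U) ∧
    ∀ E : ℝ, 0 ≤ E → |g E - ∑ t ∈ J, c t * Real.exp (-t * E)| ≤ ε

theorem Appr.base {U : Set ℝ} {t : ℝ} (ht : t ∈ U) : Appr U (fun E => Real.exp (-t * E)) := by
  intro ε hε
  refine ⟨{t}, fun _ => 1, by simpa using ht, fun E _ => ?_⟩
  simp [hε.le]

theorem Appr.add {U : Set ℝ} {g h : ℝ → ℝ} (hg : Appr U g) (hh : Appr U h) :
    Appr U (fun E => g E + h E) := by
  classical
  intro ε hε
  obtain ⟨J, c, hJ, hc⟩ := hg (ε / 2) (by positivity)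
  obtain ⟨K, d, hK, hd⟩ := hh (ε / 2) (by positivity)
  refine ⟨J ∪ K, fun t => (if t ∈ J then c t else 0) + (if t ∈ K then d t else 0), ?_, ?_⟩
  · intro t ht
    rcases Finset.mem_union.1 ht with h | h
    · exact hJ t h
    · exact hK t h
  · intro E hE
    have h1 : ∑ t ∈ J ∪ K, ((if t ∈ J then c t else 0) + (if t ∈ K then d t else 0)) *
        Real.exp (-t * E) = (∑ t ∈ J, c t * Real.exp (-t * E)) + ∑ t ∈ K, d t * Real.exp (-t * E) := by
      simp_rw [add_mul, Finset.sum_add_distrib, ite_mul, zero_mul]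
      rw [Finset.sum_ite_mem, Finset.sum_ite_mem]
      congr 2
      · simp
      · simp
    rw [h1]
    have h2 := hc E hE
    have h3 := hd E hE
    calc |g E + h E - ((∑ t ∈ J, c t * Real.exp (-t * E)) + ∑ t ∈ K, d t * Real.exp (-t * E))|
        = |(g E - ∑ t ∈ J, c t * Real.exp (-t * E)) + (h E - ∑ t ∈ K, d t * Real.exp (-t * E))| := by
          congr 1; ring
      _ ≤ _ := (abs_add_le _ _).trans (by linarith)

theorem Appr.smul {U : Set ℝ} {g : ℝ → ℝ} (hg : Appr U g) (a : ℝ) :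
    Appr U (fun E => a * g E) := by
  intro ε hε
  obtain ⟨J, c, hJ, hc⟩ := hg (ε / (|a| + 1)) (by positivity)
  refine ⟨J, fun t => a * c t, hJ, fun E hE => ?_⟩
  have h1 : ∑ t ∈ J, a * c t * Real.exp (-t * E) = a * ∑ t ∈ J, c t * Real.exp (-t * E) := by
    rw [Finset.mul_sum]
    exact Finset.sum_congr rfl fun t _ => by ring
  rw [h1, ← mul_sub, abs_mul]
  have h2 := hc E hE
  calc |a| * |g E - ∑ t ∈ J, c t * Real.exp (-t * E)| ≤ (|a| + 1) * (ε / (|a| + 1)) := by
        apply mul_le_mul (by linarith) h2 (abs_nonneg _) (by positivity)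
    _ = ε := by field_simp

theorem Appr.sum {U : Set ℝ} {ι : Type*} (s : Finset ι) {g : ι → ℝ → ℝ}
    (hg : ∀ i ∈ s, Appr U (g i)) : Appr U (fun E => ∑ i ∈ s, g i E) := by
  classical
  induction s using Finset.induction_on with
  | empty =>
    intro ε hε
    exact ⟨∅, fun _ => 0, by simp, fun E _ => by simp [hε.le]⟩
  | insert i s hi ih =>
    simp_rw [Finset.sum_insert hi]
    exact (hg i (Finset.mem_insert_self i s)).add
      (ih fun j hj => hg j (Finset.mem_insert_of_mem hj))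

theorem Appr.lim {U : Set ℝ} {g : ℝ → ℝ}
    (hg : ∀ ε : ℝ, 0 < ε → ∃ h : ℝ → ℝ, Appr U h ∧ ∀ E : ℝ, 0 ≤ E → |g E - h E| ≤ ε) :
    Appr U g := by
  intro ε hε
  obtain ⟨h, hh, hgh⟩ := hg (ε / 2) (by positivity)
  obtain ⟨J, c, hJ, hc⟩ := hh (ε / 2) (by positivity)
  refine ⟨J, c, hJ, fun E hE => ?_⟩
  have h1 := hgh E hE
  have h2 := hc E hE
  calc |g E - ∑ t ∈ J, c t * Real.exp (-t * E)|
      = |(g E - h E) + (h E - ∑ t ∈ J, c t * Real.exp (-t * E))| := by congr 1; ring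
    _ ≤ _ := (abs_add_le _ _).trans (by linarith)

/-- transitivity -/
theorem Appr.trans {U V : Set ℝ} (hUV : ∀ t ∈ V, Appr U (fun E => Real.exp (-t * E)))
    {g : ℝ → ℝ} (hg : Appr V g) : Appr U g := by
  refine Appr.lim fun ε hε => ?_
  obtain ⟨J, c, hJ, hc⟩ := hg ε hε
  exact ⟨fun E => ∑ t ∈ J, c t * Real.exp (-t * E),
    Appr.sum J fun t ht => (hUV t (hJ t ht)).smul (c t), hc⟩

/-- `E ^ k * exp (-s E) ≤ k! / s ^ k`. -/
theorem pow_mul_exp_le (k : ℕ) {s E : ℝ} (hs : 0 < s) (hE : 0 ≤ E) :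
    E ^ k * Real.exp (-s * E) ≤ (k.factorial : ℝ) / s ^ k := by
  have h1 : (s * E) ^ k / (k.factorial : ℝ) ≤ Real.exp (s * E) :=
    Real.pow_div_factorial_le_exp _ (by positivity) k
  have h2 : Real.exp (-s * E) = (Real.exp (s * E))⁻¹ := by
    rw [← Real.exp_neg]; ring_nf
  rw [h2, le_div_iff₀ (by positivity), mul_comm, ← mul_assoc, ← mul_pow]
  rw [mul_inv_le_iff₀ (Real.exp_pos _)]
  rw [div_le_iff₀ (by positivity)] at h1
  linarith

/-- derivative step: from all `E^k e^{-sE}`, `s ∈ (a,b)` to `E^(k+1) e^{-sE}`. -/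
theorem appr_pow {U : Set ℝ} {a b : ℝ} (ha : 0 ≤ a) (hU : Set.Ioo a b ⊆ U) (k : ℕ) :
    ∀ s ∈ Set.Ioo a b, Appr U (fun E => E ^ k * Real.exp (-s * E)) := by
  induction k with
  | zero =>
    intro s hs
    simpa using Appr.base (hU hs)
  | succ k ih =>
    intro s hs
    have hs0 : 0 < s := lt_of_le_of_lt ha hs.1
    refine Appr.lim fun ε hε => ?_
    -- choose h small
    set M : ℝ := ((k + 2).factorial : ℝ) / s ^ (k + 2) with hM
    have hMpos : 0 < M := by positivity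
    obtain ⟨h, hh0, hh1, hh2⟩ : ∃ h : ℝ, 0 < h ∧ s + h < b ∧ h * M ≤ ε := by
      refine ⟨min ((b - s) / 2) (ε / M), ?_, ?_, ?_⟩
      · have := hs.2
        apply lt_min
        · linarith
        · positivity
      · have : min ((b - s) / 2) (ε / M) ≤ (b - s) / 2 := min_le_left _ _
        have := hs.2
        linarith
      · have : min ((b - s) / 2) (ε / M) ≤ ε / M := min_le_right _ _
        calc min ((b - s) / 2) (ε / M) * M ≤ ε / M * M := by gcongr
          _ = ε := by field_simp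
    refine ⟨fun E => (1 / h) * (E ^ k * Real.exp (-s * E)) +
      (-(1 / h)) * (E ^ k * Real.exp (-(s + h) * E)), ?_, ?_⟩
    · exact ((ih s hs).smul _).add
        ((ih (s + h) ⟨by linarith [hs.1], hh1⟩).smul _)
    · intro E hE
      have h1 : Real.exp (-(s + h) * E) = Real.exp (-s * E) * Real.exp (-(h * E)) := by
        rw [← Real.exp_add]; ring_nf
      have hx : 0 ≤ h * E := by positivity
      -- 0 ≤ x - (1 - e^{-x}) ≤ x^2/2 ≤ x^2
      have h2 : 0 ≤ h * E - (1 - Real.exp (-(h * E))) := by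
        have := Real.add_one_le_exp (-(h * E))
        linarith
      have h3 : h * E - (1 - Real.exp (-(h * E))) ≤ (h * E) ^ 2 := by
        -- e^{-x} ≤ 1 - x + x^2 : from e^{-x} ≤ 1/(1+x)
        have h4 : Real.exp (-(h * E)) ≤ 1 / (1 + h * E) := by
          rw [Real.exp_neg, ← one_div]
          apply one_div_le_one_div_of_le (by positivity)
          have := Real.add_one_le_exp (h * E)
          linarith
        have h5 : 1 / (1 + h * E) ≤ 1 - h * E + (h * E) ^ 2 := by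
          rw [div_le_iff₀ (by positivity)]
          nlinarith [pow_nonneg hx 3, hx]
        linarith
      have h6 : E ^ (k + 1) * Real.exp (-s * E) -
          (1 / h * (E ^ k * Real.exp (-s * E)) +
            -(1 / h) * (E ^ k * Real.exp (-(s + h) * E))) =
          (1 / h) * (E ^ k * Real.exp (-s * E)) * (h * E - (1 - Real.exp (-(h * E)))) := by
        rw [h1]
        field_simp
        ring
      rw [h6, abs_of_nonneg (by positivity)]
      calc (1 / h) * (E ^ k * Real.exp (-s * E)) * (h * E - (1 - Real.exp (-(h * E))))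
          ≤ (1 / h) * (E ^ k * Real.exp (-s * E)) * (h * E) ^ 2 := by gcongr
        _ = h * (E ^ (k + 2) * Real.exp (-s * E)) := by field_simp; ring
        _ ≤ h * M := by gcongr; exact pow_mul_exp_le (k + 2) hs0 hE
        _ ≤ ε := hh2

/-- exponential series step: `e^{-tE}` for `|t - s| < s`. -/
theorem appr_near {U : Set ℝ} {s t : ℝ} (hs : 0 < s)
    (hU : ∀ k : ℕ, Appr U (fun E => E ^ k * Real.exp (-s * E))) (hts : |s - t| < s) :
    Appr U (fun E => Real.exp (-t * E)) := by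
  refine Appr.lim fun ε hε => ?_
  set q : ℝ := |s - t| / s with hq
  have hq0 : 0 ≤ q := by positivity
  have hq1 : q < 1 := by rw [hq, div_lt_one hs]; exact hts
  have hlim : Tendsto (fun N : ℕ => q ^ N * (1 - q)⁻¹) atTop (𝓝 (0 * (1 - q)⁻¹)) :=
    (tendsto_pow_atTop_nhds_zero_of_lt_one hq0 hq1).mul_const _
  rw [zero_mul] at hlim
  obtain ⟨N, hN⟩ := ((hlim.eventually (ge_mem_nhds hε)).exists)
  refine ⟨fun E => ∑ k ∈ Finset.range N,
    ((s - t) ^ k / (k.factorial : ℝ)) * (E ^ k * Real.exp (-s * E)),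
    Appr.sum _ fun k _ => (hU k).smul _, fun E hE => ?_⟩
  -- e^{-tE} = e^{-sE} ∑ ((s-t)E)^k/k!
  have hsum : HasSum (fun k : ℕ => ((s - t) ^ k / (k.factorial : ℝ)) * (E ^ k * Real.exp (-s * E)))
      (Real.exp (-t * E)) := by
    have h1 : HasSum (fun k : ℕ => ((s - t) * E) ^ k / (k.factorial : ℝ))
        (Real.exp ((s - t) * E)) := by
      have := NormedSpace.expSeries_div_hasSum_exp ((s - t) * E)
      rw [← Real.exp_eq_exp_ℝ] at this
      exact this
    have h2 := h1.mul_right (Real.exp (-s * E))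
    rw [← Real.exp_add] at h2
    have h3 : (s - t) * E + -s * E = -t * E := by ring
    rw [h3] at h2
    have h4 : (fun k : ℕ => ((s - t) ^ k / (k.factorial : ℝ)) * (E ^ k * Real.exp (-s * E))) =
        fun k : ℕ => ((s - t) * E) ^ k / (k.factorial : ℝ) * Real.exp (-s * E) := by
      funext k
      rw [mul_pow]; ring
    rw [h4]
    exact h2
  have htail : HasSum (fun k : ℕ => ((s - t) ^ (k + N) / ((k + N).factorial : ℝ)) *
      (E ^ (k + N) * Real.exp (-s * E)))
      (Real.exp (-t * E) - ∑ k ∈ Finset.range N,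
        ((s - t) ^ k / (k.factorial : ℝ)) * (E ^ k * Real.exp (-s * E))) := by
    have := (hasSum_nat_add_iff' (f := fun k : ℕ => ((s - t) ^ k / (k.factorial : ℝ)) *
      (E ^ k * Real.exp (-s * E))) N).2 hsum
    exact this
  have hgeo : HasSum (fun k : ℕ => q ^ (k + N)) (q ^ N * (1 - q)⁻¹) := by
    have := (hasSum_geometric_of_lt_one hq0 hq1).mul_left (q ^ N)
    have h3 : (fun k : ℕ => q ^ (k + N)) = fun k : ℕ => q ^ N * q ^ k := by
      funext k
      rw [pow_add]; ring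
    rw [h3]
    exact this
  have hbound : ∀ k : ℕ, ‖((s - t) ^ (k + N) / ((k + N).factorial : ℝ)) *
      (E ^ (k + N) * Real.exp (-s * E))‖ ≤ q ^ (k + N) := by
    intro k
    rw [Real.norm_eq_abs, abs_mul, abs_div, abs_pow, Nat.abs_cast,
      abs_of_nonneg (by positivity : 0 ≤ E ^ (k + N) * Real.exp (-s * E))]
    have := pow_mul_exp_le (k + N) hs hE
    calc |s - t| ^ (k + N) / ((k + N).factorial : ℝ) * (E ^ (k + N) * Real.exp (-s * E))
        ≤ |s - t| ^ (k + N) / ((k + N).factorial : ℝ) * (((k + N).factorial : ℝ) / s ^ (k + N)) := by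
          gcongr
      _ = q ^ (k + N) := by
          rw [hq, div_pow]; field_simp
  have := htail.norm_le_of_bounded hgeo hbound
  rw [← Real.norm_eq_abs]
  exact this.trans hN

/-- one step of enlarging the interval -/
theorem appr_interval {U : Set ℝ} {a b : ℝ} (ha : 0 ≤ a) (hab : a < b)
    (hU : ∀ t ∈ Set.Ioo a b, Appr U (fun E => Real.exp (-t * E))) :
    ∀ t : ℝ, 0 < t → t < a + b → Appr U (fun E => Real.exp (-t * E)) := by
  intro t ht htb
  set s : ℝ := (a + b) / 2 with hs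
  have hs0 : 0 < s := by rw [hs]; linarith
  have h1 : ∀ k : ℕ, Appr U (fun E => E ^ k * Real.exp (-s * E)) := by
    intro k
    exact Appr.trans hU (appr_pow ha (subset_refl _) k s ⟨by rw [hs]; linarith, by rw [hs]; linarith⟩)
  refine appr_near hs0 h1 ?_
  rw [abs_lt]
  constructor <;> rw [hs] <;> linarith

/-- **Density of exponentials.** -/
theorem appr_all {U : Set ℝ} {a b : ℝ} (ha : 0 ≤ a) (hab : a < b) (hU : Set.Ioo a b ⊆ U) :
    ∀ t : ℝ, 0 < t → Appr U (fun E => Real.exp (-t * E)) := by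
  have hb : 0 < b := lt_of_le_of_lt ha hab
  have key : ∀ n : ℕ, ∀ t : ℝ, 0 < t → t < b * (3 / 2) ^ n → Appr U (fun E => Real.exp (-t * E)) := by
    intro n
    induction n with
    | zero =>
      intro t ht htb
      refine appr_interval ha hab (fun s hs => Appr.base (hU hs)) t ht ?_
      simp at htb
      linarith
    | succ n ih =>
      intro t ht htb
      set T : ℝ := b * (3 / 2) ^ n with hT
      have hTpos : 0 < T := by positivity
      refine appr_interval (a := T / 2) (b := T) (by positivity) (by linarith)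
        (fun s hs => ih s (by linarith [hs.1]) hs.2) t ht ?_
      rw [pow_succ] at htb
      rw [hT] at *
      nlinarith
  intro t ht
  obtain ⟨n, hn⟩ := pow_unbounded_of_one_lt (t / b) (by norm_num : (1 : ℝ) < 3 / 2)
  refine key n t ht ?_
  rw [div_lt_iff₀ hb] at hn
  linarith

/-- the functional bound on polynomials: `f` is bounded by `C` as a functional on
polynomials with the sup norm of `[0,1]`. -/
def PolyBound (f : ℕ → ℂ) (C : ℝ) : Prop :=
  ∀ (s : Finset ℕ) (c : ℕ → ℝ) (B : ℝ),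
    (∀ x ∈ Set.Icc (0 : ℝ) 1, |∑ k ∈ s, c k * x ^ k| ≤ B) →
    ‖∑ k ∈ s, (c k : ℂ) * f k‖ ≤ C * B

theorem PolyBound.norm_le {f : ℕ → ℂ} {C : ℝ} (hf : PolyBound f C) (k : ℕ) : ‖f k‖ ≤ C := by
  have := hf {k} (fun _ => 1) 1 (fun x hx => by
    simp only [Finset.sum_singleton, one_mul]
    rw [abs_pow, abs_of_nonneg hx.1]
    exact pow_le_one₀ hx.1 hx.2)
  simpa using this

/-- finite combination form of `PolyBound` -/
theorem PolyBound.comb {f : ℕ → ℂ} {C : ℝ} (hf : PolyBound f C) {ι : Type*} (s : Finset ι)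
    (c : ι → ℝ) (k : ι → ℕ) (B : ℝ)
    (hB : ∀ x ∈ Set.Icc (0 : ℝ) 1, |∑ i ∈ s, c i * x ^ (k i)| ≤ B) :
    ‖∑ i ∈ s, (c i : ℂ) * f (k i)‖ ≤ C * B := by
  classical
  have h1 : ∀ x : ℝ, ∑ n ∈ s.image k, (∑ i ∈ s with k i = n, c i) * x ^ n =
      ∑ i ∈ s, c i * x ^ (k i) := by
    intro x
    rw [← Finset.sum_fiberwise_of_maps_to (fun i hi => Finset.mem_image_of_mem k hi)]
    refine Finset.sum_congr rfl fun n _ => ?_
    rw [Finset.sum_mul]
    refine Finset.sum_congr rfl fun i hi => ?_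
    rw [(Finset.mem_filter.1 hi).2]
  have h2 : ∑ n ∈ s.image k, ((∑ i ∈ s with k i = n, c i : ℝ) : ℂ) * f n =
      ∑ i ∈ s, (c i : ℂ) * f (k i) := by
    rw [← Finset.sum_fiberwise_of_maps_to (fun i hi => Finset.mem_image_of_mem k hi)
      (f := fun i => (c i : ℂ) * f (k i))]
    refine Finset.sum_congr rfl fun n _ => ?_
    push_cast
    rw [Finset.sum_mul]
    refine Finset.sum_congr rfl fun i hi => ?_
    rw [(Finset.mem_filter.1 hi).2]
  rw [← h2]
  exact hf _ _ _ (fun x hx => by rw [h1]; exact hB x hx)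

/-- shifting the sequence -/
theorem PolyBound.shift {f : ℕ → ℂ} {C : ℝ} (hf : PolyBound f C) (m : ℕ) :
    PolyBound (fun k => f (k + m)) C := by
  intro s c B hB
  refine hf.comb s c (fun k => k + m) B fun x hx => ?_
  have h1 : ∑ k ∈ s, c k * x ^ (k + m) = x ^ m * ∑ k ∈ s, c k * x ^ k := by
    rw [Finset.mul_sum]
    exact Finset.sum_congr rfl fun k _ => by rw [pow_add]; ring
  rw [h1, abs_mul, abs_pow, abs_of_nonneg hx.1]
  calc x ^ m * |∑ k ∈ s, c k * x ^ k| ≤ 1 * B := by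
        apply mul_le_mul (pow_le_one₀ hx.1 hx.2) (hB x hx) (abs_nonneg _) zero_le_one
    _ = B := one_mul B

theorem PolyBound.nonneg {f : ℕ → ℂ} {C : ℝ} (hf : PolyBound f C) : 0 ≤ C :=
  (norm_nonneg _).trans (hf.norm_le 0)

theorem PolyBound.mono {f : ℕ → ℂ} {C C' : ℝ} (hf : PolyBound f C) (h : C ≤ C') :
    PolyBound f C' := by
  intro s c B hB
  have hB0 : 0 ≤ B := (abs_nonneg _).trans (hB 0 ⟨le_refl _, zero_le_one⟩)
  exact (hf s c B hB).trans (by gcongr)

/-- rounding: `|x^m - x^s| ≤ 1/(m+1)` for `m ≤ s ≤ m+1`, `x ∈ [0,1]`. -/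
theorem rpow_round {x s : ℝ} (hx0 : 0 ≤ x) (hx1 : x ≤ 1) {m : ℕ} (h1 : (m : ℝ) ≤ s)
    (h2 : s ≤ m + 1) (hs : 0 < s) : |x ^ m - x ^ s| ≤ 1 / ((m : ℝ) + 1) := by
  have hb : x ^ (m : ℕ) * (1 - x) ≤ 1 / ((m : ℝ) + 1) := by
    have hs : ((m : ℝ) + 1) * (x ^ m) ≤ ∑ k ∈ Finset.range (m + 1), x ^ k := by
      have : ∑ _k ∈ Finset.range (m + 1), x ^ m ≤ ∑ k ∈ Finset.range (m + 1), x ^ k := by
        refine Finset.sum_le_sum fun k hk => ?_
        exact pow_le_pow_of_le_one hx0 hx1 (Nat.lt_succ_iff.1 (Finset.mem_range.1 hk))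
      simpa using this
    have hg : (∑ k ∈ Finset.range (m + 1), x ^ k) * (1 - x) = 1 - x ^ (m + 1) := by
      have := geom_sum_mul_neg x (m + 1)
      linarith
    rw [le_div_iff₀ (by positivity)]
    have h3 : 0 ≤ 1 - x := by linarith
    have h4 : ((m : ℝ) + 1) * (x ^ m) * (1 - x) ≤ (∑ k ∈ Finset.range (m + 1), x ^ k) * (1 - x) := by
      gcongr
    have h5 : 0 ≤ x ^ (m + 1) := by positivity
    nlinarith
  have h3 : x ^ (s : ℝ) ≤ x ^ m := by
    rw [← Real.rpow_natCast]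
    rcases eq_or_lt_of_le hx0 with h | h
    · rw [← h, Real.zero_rpow hs.ne']
      positivity
    · exact Real.rpow_le_rpow_of_exponent_ge h hx1 h1
  have h4 : x ^ (m + 1) ≤ x ^ (s : ℝ) := by
    rw [← Real.rpow_natCast]
    rcases eq_or_lt_of_le hx0 with h | h
    · rw [← h, Real.zero_rpow (by positivity)]
      positivity
    · exact Real.rpow_le_rpow_of_exponent_ge h hx1 (by push_cast; exact h2)
  rw [abs_of_nonneg (by linarith)]
  calc x ^ m - x ^ s ≤ x ^ m - x ^ (m + 1) := by linarith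
    _ = x ^ m * (1 - x) := by rw [pow_succ]; ring
    _ ≤ _ := hb

/-- the exponential approximation transported to `[0,1]`: `x = exp (-δ E)` -/
theorem appr_unit {U : Set ℝ} (hU0 : ∀ t ∈ U, 0 < t) {t : ℝ} (ht : 0 < t)
    (h : Appr U (fun E => Real.exp (-t * E))) (ε : ℝ) (hε : 0 < ε) :
    ∃ (J : Finset ℝ) (c : ℝ → ℝ), (∀ t ∈ J, t ∈ U) ∧
      ∀ δ : ℝ, 0 < δ → ∀ x ∈ Set.Icc (0 : ℝ) 1,
        |x ^ (t / δ) - ∑ u ∈ J, c u * x ^ (u / δ)| ≤ ε := by
  obtain ⟨J, c, hJ, hc⟩ := h ε hε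
  refine ⟨J, c, hJ, fun δ hδ x hx => ?_⟩
  rcases eq_or_lt_of_le hx.1 with h0 | h0
  · have h1 : ∑ u ∈ J, c u * x ^ (u / δ) = 0 := by
      refine Finset.sum_eq_zero fun u hu => ?_
      rw [← h0, Real.zero_rpow (div_pos (hU0 u (hJ u hu)) hδ).ne', mul_zero]
    rw [h1, ← h0, Real.zero_rpow (div_pos ht hδ).ne']
    simpa using hε.le
  · have hE : 0 ≤ -Real.log x / δ := by
      have := Real.log_nonpos hx.1 hx.2
      apply div_nonneg _ hδ.le
      linarith
    have key : ∀ u : ℝ, x ^ (u / δ) = Real.exp (-u * (-Real.log x / δ)) := by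
      intro u
      rw [Real.rpow_def_of_pos h0]
      congr 1
      ring
    simp_rw [key]
    exact hc _ hE

/-- **Ray lemma.** -/
theorem ray {f : ℕ → ℕ → ℂ} {C : ℝ} {δ : ℕ → ℝ} (hf : ∀ᶠ n in atTop, PolyBound (f n) C)
    (hδ0 : ∀ᶠ n in atTop, 0 < δ n) (hδ : Tendsto δ atTop (𝓝 0)) {a b : ℝ} (ha : 0 ≤ a)
    (hab : a < b)
    (h : ∀ t ∈ Set.Ioo a b, Tendsto (fun n => f n ⌊t / δ n⌋₊) atTop (𝓝 0)) :
    ∀ t : ℝ, 0 < t → Tendsto (fun n => f n ⌊t / δ n⌋₊) atTop (𝓝 0) := by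
  intro t ht
  have hC : 0 ≤ C := by
    obtain ⟨n, hn⟩ := hf.exists
    exact hn.nonneg
  rw [Metric.tendsto_atTop']
  intro ε hε
  set η : ℝ := ε / (4 * (C + 1)) with hη
  have hηpos : 0 < η := by positivity
  obtain ⟨J, c, hJ, hc⟩ := appr_unit (U := Set.Ioo a b) (fun t ht => lt_of_le_of_lt ha ht.1) ht
    (appr_all ha hab (subset_refl _) t ht) η hηpos
  -- rounding errors
  have hδinv : Tendsto (fun n => (δ n)⁻¹) atTop atTop := by
    apply Tendsto.inv_tendsto_nhdsGT_zero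
    rw [tendsto_nhdsWithin_iff]
    exact ⟨hδ, hδ0⟩
  have hround : ∀ u : ℝ, 0 < u → Tendsto (fun n => 1 / ((⌊u / δ n⌋₊ : ℝ) + 1)) atTop (𝓝 0) := by
    intro u hu
    have h1 : Tendsto (fun n => u / δ n) atTop atTop := by
      simp_rw [div_eq_mul_inv]
      exact hδinv.const_mul_atTop hu
    have h2 : Tendsto (fun n => ((⌊u / δ n⌋₊ : ℝ) + 1)) atTop atTop := by
      refine tendsto_atTop_mono (fun n => ?_) h1
      exact (Nat.lt_floor_add_one _).le
    have h3 := h2.inv_tendsto_atTop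
    simp only [one_div]
    exact h3
  have herr : Tendsto (fun n => (∑ u ∈ J, |c u| * (1 / ((⌊u / δ n⌋₊ : ℝ) + 1))) +
      1 / ((⌊t / δ n⌋₊ : ℝ) + 1)) atTop (𝓝 ((∑ u ∈ J, |c u| * 0) + 0)) := by
    refine Tendsto.add (tendsto_finsetSum _ fun u hu => ?_) (hround t ht)
    exact (hround u (lt_of_le_of_lt ha (hJ u hu).1)).const_mul _
  simp only [mul_zero, Finset.sum_const_zero, add_zero] at herr
  have hsum : Tendsto (fun n => ∑ u ∈ J, (c u : ℂ) * f n ⌊u / δ n⌋₊) atTop (𝓝 0) := by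
    have : Tendsto (fun n => ∑ u ∈ J, (c u : ℂ) * f n ⌊u / δ n⌋₊) atTop
        (𝓝 (∑ u ∈ J, (c u : ℂ) * 0)) :=
      tendsto_finsetSum _ fun u hu => (h u (hJ u hu)).const_mul _
    simpa using this
  have hev : ∀ᶠ n in atTop, dist (f n ⌊t / δ n⌋₊) 0 < ε := by
    filter_upwards [hf, hδ0, herr.eventually (gt_mem_nhds hηpos),
      (tendsto_iff_norm_sub_tendsto_zero.1 hsum).eventually (gt_mem_nhds (half_pos hε))]
      with n hn hδn hen hsn
    rw [sub_zero] at hsn
    -- polynomial approximation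
    have hpoly : ∀ x ∈ Set.Icc (0 : ℝ) 1,
        |x ^ ⌊t / δ n⌋₊ - ∑ u ∈ J, c u * x ^ ⌊u / δ n⌋₊| ≤ 2 * η := by
      intro x hx
      have h1 := hc (δ n) hδn x hx
      have h2 : |x ^ ⌊t / δ n⌋₊ - x ^ (t / δ n)| ≤ 1 / ((⌊t / δ n⌋₊ : ℝ) + 1) :=
        rpow_round hx.1 hx.2 (Nat.floor_le (by positivity)) (Nat.lt_floor_add_one _).le
          (by positivity)
      have h3 : |∑ u ∈ J, c u * x ^ ⌊u / δ n⌋₊ - ∑ u ∈ J, c u * x ^ (u / δ n)| ≤
          ∑ u ∈ J, |c u| * (1 / ((⌊u / δ n⌋₊ : ℝ) + 1)) := by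
        rw [← Finset.sum_sub_distrib]
        refine (Finset.abs_sum_le_sum_abs _ _).trans (Finset.sum_le_sum fun u hu => ?_)
        rw [← mul_sub, abs_mul]
        have hu0 : 0 < u := lt_of_le_of_lt ha (hJ u hu).1
        gcongr
        exact rpow_round hx.1 hx.2 (Nat.floor_le (by positivity)) (Nat.lt_floor_add_one _).le
          (by positivity)
      calc |x ^ ⌊t / δ n⌋₊ - ∑ u ∈ J, c u * x ^ ⌊u / δ n⌋₊|
          = |(x ^ ⌊t / δ n⌋₊ - x ^ (t / δ n)) + (x ^ (t / δ n) - ∑ u ∈ J, c u * x ^ (u / δ n)) -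
              (∑ u ∈ J, c u * x ^ ⌊u / δ n⌋₊ - ∑ u ∈ J, c u * x ^ (u / δ n))| := by
            congr 1; ring
        _ ≤ |x ^ ⌊t / δ n⌋₊ - x ^ (t / δ n)| + |x ^ (t / δ n) - ∑ u ∈ J, c u * x ^ (u / δ n)| +
              |∑ u ∈ J, c u * x ^ ⌊u / δ n⌋₊ - ∑ u ∈ J, c u * x ^ (u / δ n)| :=
            (abs_sub _ _).trans (by gcongr; exact abs_add_le _ _)
        _ ≤ 2 * η := by linarith
    have hmain : ‖f n ⌊t / δ n⌋₊ - ∑ u ∈ J, (c u : ℂ) * f n ⌊u / δ n⌋₊‖ ≤ C * (2 * η) := by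
      classical
      have := hn.comb (Finset.insertNone J) (fun o => o.elim 1 (fun u => -c u))
        (fun o => o.elim ⌊t / δ n⌋₊ (fun u => ⌊u / δ n⌋₊)) (2 * η) (fun x hx => by
          rw [Finset.sum_insertNone]
          simp only [Option.elim_none, one_mul, Option.elim_some, neg_mul, Finset.sum_neg_distrib]
          rw [← sub_eq_add_neg]
          exact hpoly x hx)
      rw [Finset.sum_insertNone] at this
      simp only [Option.elim_none, Complex.ofReal_one, one_mul, Option.elim_some,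
        Complex.ofReal_neg, neg_mul, Finset.sum_neg_distrib] at this
      rwa [← sub_eq_add_neg] at this
    rw [dist_zero_right]
    calc ‖f n ⌊t / δ n⌋₊‖ = ‖(f n ⌊t / δ n⌋₊ - ∑ u ∈ J, (c u : ℂ) * f n ⌊u / δ n⌋₊) +
          ∑ u ∈ J, (c u : ℂ) * f n ⌊u / δ n⌋₊‖ := by congr 1; ring
      _ ≤ C * (2 * η) + ‖∑ u ∈ J, (c u : ℂ) * f n ⌊u / δ n⌋₊‖ :=
          (norm_add_le _ _).trans (by gcongr)
      _ < ε / 2 + ε / 2 := by
          have h5 : C * (2 * η) ≤ ε / 2 := by
            rw [hη]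
            rw [show C * (2 * (ε / (4 * (C + 1)))) = (ε / 2) * (C / (C + 1)) by field_simp; ring]
            have : C / (C + 1) ≤ 1 := by
              rw [div_le_one (by positivity)]; linarith
            nlinarith
          linarith
      _ = ε := by ring
  exact (eventually_atTop.1 hev).imp fun N hN n hn => hN n (by exact le_of_lt hn)

end Crest.Agent.R161.Ray369
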