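import Crest.Agent.R161.Dic_760

/-!
# Row 161: finite patterns of the six-vertex plane state (helper760)

* `AgR R w w'` : agreement on the window; `rp R w` : chosen ice representative of the pattern of `w`
* `Rp R : Finset Conf` : the representatives
* `integral_rep` : `∫ f dP = Σ_{w ∈ Rp R} P{pattern of w} f w` for `f` depending on the window
* `nc_swap` : `c^NC(H') ∏_S wf κ = c^NC(H) ∏_S wf κ'`
* `pz_wf`, `prod_pz`
-/

set_option autoImplicit false

noncomputable section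

namespace Crest.Agent.R161.Mkv760

open MeasureTheory
open Crest.Agent.R161.Geo729 Crest.Agent.R161.Defs372 Crest.Agent.R161.Dmp341
open Crest.Agent.R150.Hgt989 (Conf relH Ice dx dy relH_succ_snd relH_succ_fst relH_zero relH_congr)
open Crest.Agent.R150.Pls989 (IsPlane)
open Crest.Agent.R161.ExInv792 (KH khmap hts measurable_khmap measurable_hts)
open Crest.Agent.R161.SwT597 (Stp cf NC ind)
open Crest.Agent.R161.Qb760 Crest.Agent.R161.Box760

/-- six-vertex window -/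
abbrev bx (R : ℕ) : Finset (ℤ × ℤ) := Crest.Agent.R150.Hgt989.box R

lemma mem_bx {R : ℕ} {v : ℤ × ℤ} : v ∈ bx R ↔ |v.1| ≤ R ∧ |v.2| ≤ R :=
  Crest.Agent.R150.Hgt989.mem_box

/-- agreement on the window -/
def AgR (R : ℕ) (w w' : Conf) : Prop := ∀ v ∈ bx R, w v = w' v

lemma AgR.symm {R : ℕ} {w w' : Conf} (h : AgR R w w') : AgR R w' w := fun v hv => (h v hv).symm
lemma AgR.trans {R : ℕ} {w w' w'' : Conf} (h : AgR R w w') (h' : AgR R w' w'') : AgR R w w'' :=
  fun v hv => (h v hv).trans (h' v hv)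

lemma AgR.relH {R : ℕ} {w w' : Conf} (h : AgR R w w') {x : ℤ × ℤ} (hx : x ∈ bx R) :
    relH w x.1 x.2 = relH w' x.1 x.2 := by
  rw [mem_bx] at hx
  exact relH_congr h hx.1 hx.2

open Classical in
/-- chosen ice configuration with the given pattern -/
def rpat (R : ℕ) (η : bx R → Bool × Bool) : Conf :=
  if h : ∃ w : Conf, Ice w ∧ ∀ v : bx R, w v = η v then h.choose else fun _ => (true, true)

/-- representative -/
def rp (R : ℕ) (w : Conf) : Conf := rpat R fun v => w v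

lemma rp_spec {R : ℕ} {w : Conf} (h : Ice w) : Ice (rp R w) ∧ AgR R (rp R w) w := by
  have hex : ∃ w' : Conf, Ice w' ∧ ∀ v : bx R, w' v = w v := ⟨w, h, fun _ => rfl⟩
  have h1 : rp R w = hex.choose := by unfold rp rpat; rw [dif_pos hex]
  rw [h1]
  exact ⟨hex.choose_spec.1, fun v hv => hex.choose_spec.2 ⟨v, hv⟩⟩

lemma rp_congr {R : ℕ} {w w' : Conf} (h : AgR R w w') : rp R w = rp R w' := by
  unfold rp
  congr 1
  funext v
  exact h v v.2

open Classical in
/-- the representatives -/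
def Rp (R : ℕ) : Finset Conf :=
  ((Finset.univ : Finset (bx R → Bool × Bool)).image (rpat R)).filter fun w => Ice w ∧ rp R w = w

lemma mem_Rp {R : ℕ} {w : Conf} : w ∈ Rp R ↔ Ice w ∧ rp R w = w := by
  classical
  unfold Rp
  rw [Finset.mem_filter]
  refine ⟨fun h => h.2, fun h => ⟨?_, h⟩⟩
  rw [← h.2]
  exact Finset.mem_image_of_mem _ (Finset.mem_univ _)

lemma rp_mem {R : ℕ} {w : Conf} (h : Ice w) : rp R w ∈ Rp R :=
  mem_Rp.2 ⟨(rp_spec h).1, rp_congr (rp_spec h).2⟩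

lemma eq_of_AgR {R : ℕ} {w w' : Conf} (hw : w ∈ Rp R) (h : AgR R w' w) : w = rp R w' := by
  rw [rp_congr h, (mem_Rp.1 hw).2]

/-- the cylinder of `w` -/
def cy (R : ℕ) (w : Conf) : Set Conf := {w' | AgR R w' w}

lemma measurableSet_cy (R : ℕ) (w : Conf) : MeasurableSet (cy R w) := by
  have : cy R w = ⋂ v ∈ bx R, (fun w' : Conf => w' v) ⁻¹' {w v} := by
    ext w'
    simp [cy, AgR]
  rw [this]
  exact Finset.measurableSet_biInter _ fun v _ => measurable_pi_apply v (measurableSet_singleton _)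

lemma cy_congr {R : ℕ} {w w' : Conf} (h : AgR R w w') : cy R w = cy R w' := by
  ext w''
  exact ⟨fun h1 => AgR.trans h1 h, fun h1 => AgR.trans h1 h.symm⟩

theorem integral_rep {P : Measure Conf} [IsProbabilityMeasure P] (hi : ∀ᵐ w ∂P, Ice w) {R : ℕ}
    {f : Conf → ℝ} (hf : ∀ w w', AgR R w w' → f w = f w') :
    ∫ w, f w ∂P = ∑ w ∈ Rp R, P.real (cy R w) * f w := by
  classical
  have h1 : ∀ᵐ w' ∂P, f w' = ∑ w ∈ Rp R, (cy R w).indicator (fun _ => f w) w' := by
    filter_upwards [hi] with w' hw'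
    rw [Finset.sum_eq_single (rp R w')]
    · rw [Set.indicator_of_mem (show w' ∈ cy R (rp R w') from (rp_spec hw').2.symm)]
      exact hf _ _ (rp_spec hw').2.symm
    · intro w hw hne
      rw [Set.indicator_of_notMem]
      intro h
      exact hne (eq_of_AgR hw h)
    · intro h
      exact absurd (rp_mem hw') h
  rw [integral_congr_ae h1, integral_finsetSum]
  · refine Finset.sum_congr rfl fun w _ => ?_
    rw [integral_indicator_const _ (measurableSet_cy R w), smul_eq_mul]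
  · intro w _
    exact (integrable_const _).indicator (measurableSet_cy R w)

/-- **ratio form of the Gibbs property** -/
theorem cy_swap {c : ℝ} {P : Measure Conf} (hP : IsPlane c P) {R : ℕ} (hR : 1 ≤ R)
    {H H' : ℤ × ℤ → ℤ} (hs : Stp H) (hs' : Stp H') (hH : ∀ v, v ∉ bx (R - 1) → H' v = H v) :
    P.real (cy R (cf H)) * c ^ NC R H' = P.real (cy R (cf H')) * c ^ NC R H := by
  have h := SwT597.plane_swap hP hR hs hs' hH (F := fun _ => 1)
    (Crest.Agent.R150.Hgt989.Loc.const 1)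
  have h1 : ∀ H : ℤ × ℤ → ℤ, ∫ ω, ind R H ω * (fun _ : Conf => (1 : ℝ)) ω ∂P =
      P.real (cy R (cf H)) := by
    intro H
    rw [← integral_indicator_one (measurableSet_cy R (cf H))]
    refine integral_congr_ae (Filter.Eventually.of_forall fun w => ?_)
    simp only [mul_one]
    unfold ind
    by_cases hw : ∀ v ∈ Crest.Agent.R150.Hgt989.box R, w v = cf H v
    · rw [if_pos hw, Set.indicator_of_mem (by exact hw)]; rfl
    · rw [if_neg hw, Set.indicator_of_notMem (by exact hw)]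
  rw [← h1 H, ← h1 H']
  exact h

/-! ### weights -/

/-- vertices of the window seen by `NC` -/
def VR (R : ℕ) : Finset (ℤ × ℤ) := (bx R).filter fun v => (v.1 - 1, v.2) ∈ bx R

lemma pow_NC (c : ℝ) (R : ℕ) (H : ℤ × ℤ → ℤ) : c ^ NC R H = ∏ x ∈ VR R, w6 c H x := by
  classical
  unfold NC w6 VR
  rw [Finset.prod_ite, Finset.prod_const_one, mul_one, Finset.prod_const]
  congr 2
  ext x
  simp only [Finset.mem_filter]
  tauto

/-- the relevant edges -/
abbrev SS (n : ℕ) : Finset Edge := intEdges (Defs372.box (n + 1))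

/-- size of the window -/
abbrev RW (n : ℕ) : ℕ := 2 * n + 8

lemma mem_SS {n : ℕ} {e : Edge} (h : fA e ∈ Defs372.box n ∨ fB e ∈ Defs372.box n) : e ∈ SS n := by
  obtain ⟨⟨a, b⟩, s⟩ := e
  rw [mem_intEdges]
  simp only [Box760.mem_box] at h ⊢
  cases s <;> simp only [fA_mk, fB_h, fB_v] at h ⊢ <;> push_cast <;> omega

lemma SS_bd {n : ℕ} {e : Edge} (h : e ∈ SS n) : |e.1.1| ≤ n + 1 ∧ |e.1.2| ≤ n + 1 := by
  have h1 := (mem_intEdges.1 h).1
  rw [Box760.mem_box] at h1
  push_cast at h1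
  unfold fA at h1
  constructor <;> rw [abs_le] <;> omega

lemma e6_mem {n : ℕ} {e : Edge} (h : e ∈ SS n) : e6 e ∈ VR (RW n) := by
  have h1 := SS_bd h
  rw [abs_le, abs_le] at h1
  obtain ⟨⟨a, b⟩, s⟩ := e
  simp only [VR, Finset.mem_filter, mem_bx, abs_le]
  simp only at h1
  cases s <;> simp only [e6, Bool.false_eq_true, if_false, if_true] <;> push_cast <;> omega

/-- `κ` and `κ'` agree off the inside of `D` -/
structure OffD (D : Finset P2) (κ κ' : KH) : Prop where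
  v : ∀ v, v ∉ intVerts D → κ'.1 v = κ.1 v
  f : ∀ f, f ∉ D → κ'.2 f = κ.2 f

lemma OffD.bx {n : ℕ} {D : Finset P2} {κ κ' : KH} (h : OffD D κ κ') (hD : D ⊆ Defs372.box n)
    {x : ℤ × ℤ} (hx : x ∉ bx (RW n - 1)) : H6 κ' x = H6 κ x := by
  have hx' : ¬ (|x.1| ≤ 2 * n + 7 ∧ |x.2| ≤ 2 * n + 7) := by
    intro h1
    apply hx
    rw [mem_bx]
    have : ((RW n - 1 : ℕ) : ℤ) = 2 * n + 7 := by simp only [RW]; omega
    rw [this]
    exact h1
  rcases cover x with ⟨v, rfl⟩ | ⟨f, rfl⟩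
  · rw [H6_vert, H6_vert]
    refine h.v v fun hv => hx' ?_
    have h1 := hD (corner_mem_of_int hv (f := v) (by simp [Geo729.IsCorner]))
    rw [Box760.mem_box] at h1
    unfold v6
    simp only [abs_le]
    omega
  · rw [H6_face, H6_face]
    refine h.f f fun hv => hx' ?_
    have h1 := hD hv
    rw [Box760.mem_box] at h1
    unfold f6
    simp only [abs_le]
    omega

lemma OffD.wf {n : ℕ} {D : Finset P2} {κ κ' : KH} (h : OffD D κ κ') (hD : D ⊆ Defs372.box n)
    (c : ℝ) {e : Edge} (he : e ∉ SS n) : wf c κ' e = wf c κ e := by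
  have hA : fA e ∉ D := fun h1 => he (mem_SS (Or.inl (hD h1)))
  have hB : fB e ∉ D := fun h1 => he (mem_SS (Or.inr (hD h1)))
  have hs : src e ∉ intVerts D := fun h1 => hA (corner_mem_of_int h1 (isCorner_src_fA e))
  have ht : tgt e ∉ intVerts D := fun h1 => hA (corner_mem_of_int h1 (isCorner_tgt_fA e))
  unfold Mkv760.wf
  rw [h.v _ hs, h.v _ ht, h.f _ hA, h.f _ hB]

theorem nc_swap {n : ℕ} {D : Finset P2} {κ κ' : KH} (h : OffD D κ κ') (hD : D ⊆ Defs372.box n)
    (hκ : CV κ) (hκ' : CV κ') (c : ℝ) :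
    c ^ NC (RW n) (H6 κ') * ∏ e ∈ SS n, wf c κ e = c ^ NC (RW n) (H6 κ) * ∏ e ∈ SS n, wf c κ' e := by
  classical
  have hsub : (SS n).image e6 ⊆ VR (RW n) := by
    intro x hx
    obtain ⟨e, he, rfl⟩ := Finset.mem_image.1 hx
    exact e6_mem he
  have him : ∀ κ : KH, CV κ → ∏ e ∈ SS n, wf c κ e = ∏ x ∈ (SS n).image e6, w6 c (H6 κ) x := by
    intro κ hκ
    rw [Finset.prod_image fun e _ e' _ h => e6_inj h]
    exact Finset.prod_congr rfl fun e _ => wf_eq hκ e
  rw [pow_NC, pow_NC, him κ hκ, him κ' hκ', ← Finset.prod_sdiff hsub, ← Finset.prod_sdiff hsub]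
  have hout : ∏ x ∈ VR (RW n) \ (SS n).image e6, w6 c (H6 κ') x =
      ∏ x ∈ VR (RW n) \ (SS n).image e6, w6 c (H6 κ) x := by
    refine Finset.prod_congr rfl fun x hx => ?_
    obtain ⟨e, rfl⟩ := e6_surj x
    have he : e ∉ SS n := fun h1 => (Finset.mem_sdiff.1 hx).2 (Finset.mem_image_of_mem _ h1)
    rw [← wf_eq hκ', ← wf_eq hκ, h.wf hD c he]
  rw [hout]
  ring

lemma pz_wf {c : ℝ} (hc : 1 ≤ c) {κ : KH} (h : CV κ) (ω : Cfg) (hω : hts ω = κ) (e : Edge) :
    pz c κ e (ω.2.2 e) * wf c κ e = ew c ω e := by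
  subst hω
  obtain ⟨g1, g2, g3, g4⟩ := Csq472.isCorner_edge e
  have c1 := h.corner _ _ g1
  have c2 := h.corner _ _ g2
  have c3 := h.corner _ _ g3
  have c4 := h.corner _ _ g4
  rw [abs_eq (by norm_num)] at c1 c2 c3 c4
  have hk : (hts ω).1 = ω.1 := rfl
  have hh : (hts ω).2 = ω.2.1 := rfl
  rw [hk, hh] at c1 c2 c3 c4
  have hc0 : c ≠ 0 := by positivity
  unfold pz Csq472.pcut wf ew
  rw [hk, hh]
  by_cases h1 : ω.1 (src e) = ω.1 (tgt e) <;> by_cases h2 : ω.2.1 (fA e) = ω.2.1 (fB e) <;>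
    cases h3 : ω.2.2 e <;> simp [h1, h2]
  · field_simp
  · field_simp
  · omega

lemma prod_pz {c : ℝ} (hc : 1 ≤ c) {κ : KH} (h : CV κ) (n : ℕ) (T : Finset Edge) :
    (∏ e ∈ SS n, pz c κ e (zT T e)) * ∏ e ∈ SS n, wf c κ e =
      wt c (Defs372.box (n + 1)) (Qb760.mk κ T) := by
  rw [← Finset.prod_mul_distrib]
  exact Finset.prod_congr rfl fun e _ => pz_wf hc h (Qb760.mk κ T) rfl e

end Crest.Agent.R161.Mkv760
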