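import Crest.Agent.R161.Rho_770

/-!
# Monotonicity of `ρ = z_2 / z_0`, continued (helper770, R161 block E: E3)
-/

set_option autoImplicit false

noncomputable section

namespace Crest.Agent.R161.Ann770

open Finset Crest.Agent.R161.Geo729 Crest.Agent.R161.Defs372 Crest.Agent.R161.Dmp341
open Crest.Agent.R161.Hts375 Crest.Agent.R161.Rho375

/-- boundary heights: `Q` on the class `true`, `0` on the class `false` -/
def bQ (β : P2 → Bool) (Q : ℤ) (v : P2) : ℤ := if β v then Q else 0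

theorem zQ_eq (c : ℝ) (A : Finset P2) (β : P2 → Bool) (Q : ℤ) : zQ c A β Q = ZB c A (bQ β Q) := rfl

theorem bQ_even {β : P2 → Bool} {Q : ℤ} (hQ : Even Q) (v : P2) : Even (bQ β Q v) := by
  unfold bQ
  split_ifs
  · exact hQ
  · exact Even.zero

/-- pinned sites: the class `false` and the interior vertices on `∂C` -/
def Bpin (A C : Finset P2) : Set (↥(intVerts A) ⊕ Bool) :=
  {x | x = Sum.inr false ∨ ∃ v : ↥(intVerts A), x = Sum.inl v ∧ v.1 ∈ bdV C}

theorem zabs_eq (c : ℝ) (A C : Finset P2) (β : P2 → Bool)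
    (hC : ∀ v ∈ bdV C, v ∉ intVerts A → β v = false) {Q : ℤ} (hQ : Even Q) {N : ℤ}
    (hN : hbB A (bQ β Q) ≤ N) (hQN : |Q| ≤ N) :
    Zabs (geo A β) (cC c A C) (fun _ => N) (Bpin A C) (fun h => h (Sum.inl (Sum.inr true)) = Q) =
      ∑ ω ∈ cutB A C (bQ β Q), wt c A ω := by
  classical
  rw [sum_cutB_eq]
  unfold Zabs
  have hN0 : 0 ≤ N := (abs_nonneg Q).trans hQN
  set q : Bool → ℤ := fun x => if x then Q else 0 with hq
  have hbq : ∀ v, bQ β Q v = q (β v) := fun v => rfl
  have h1 : ∀ h : (↥(intVerts A) ⊕ Bool) ⊕ ↥A → ℤ, (geo A β).W (cC c A C) h =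
      if (geo A β).Valid h then ∏ p, (geo A β).wp (cC c A C) h p else 0 := fun h => by
    unfold Geo.W
    congr
  simp only [h1]
  rw [← Finset.sum_filter]
  symm
  refine Finset.sum_bij' (fun w _ => ofH A q w) (fun h _ => toH A β h) ?_ ?_ ?_ ?_ ?_
  · intro w hw
    rw [Finset.mem_filter] at hw
    obtain ⟨hw, hw0⟩ := hw
    have hv := mem_HB.1 hw
    have hω : ValidB A (bQ β Q) (w.1, w.2, fun _ => true) :=
      ⟨hv.bdry, hv.even, hv.off, hv.corner, fun _ _ => rfl⟩
    have key : ∀ u, (ofH A q w) (Sum.inl (vm A β u)) = w.1 u := by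
      intro u
      by_cases hu : u ∈ intVerts A
      · rw [vm_of_mem A β hu]; rfl
      · rw [vm_of_not_mem A β hu, hv.bdry u hu]; rfl
    rw [Finset.mem_filter, Finset.mem_filter, Finset.mem_Icc]
    have hb : ∀ x, |ofH A q w x| ≤ N := by
      intro x
      rcases x with (x | x) | x
      · exact (hω.abs_vert (mem_cornV_of_mem (Finset.mem_filter.1 x.2).1)).trans hN
      · show |q x| ≤ N
        cases x
        · simpa [hq] using hN0
        · simpa [hq] using hQN
      · exact (hω.abs_face x.1).trans hN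
    refine ⟨⟨⟨fun x => (abs_le.1 (hb x)).1, fun x => (abs_le.1 (hb x)).2⟩, ?_, ?_⟩, ?_, ?_, ?_⟩
    · rintro x (rfl | ⟨v, rfl, hv'⟩)
      · simp [ofH, hq]
      · exact hw0 _ hv'
    · simp [ofH, hq]
    · rintro (x | x)
      · exact hv.even _
      · show Even (q x)
        cases x
        · simp [hq]
        · simpa [hq] using hQ
    · intro f
      have h2 := hv.corner f.1 f.2 f.1 (by simp [Geo729.IsCorner])
      have h3 := hv.even f.1
      show Odd (w.2 f.1)
      rw [abs_eq (by norm_num)] at h2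
      obtain ⟨r, hr⟩ := h3
      rcases h2 with h2 | h2
      · exact ⟨r - 1, by omega⟩
      · exact ⟨r, by omega⟩
    · rintro v f ⟨u, hu, rfl⟩
      rw [key]
      exact hv.corner f.1 f.2 u hu
  · intro h hh
    rw [Finset.mem_filter, Finset.mem_filter] at hh
    obtain ⟨⟨_, h2, h2'⟩, h3, h4, h5⟩ := hh
    have hfalse : h (Sum.inl (Sum.inr false)) = 0 := h2 _ (Or.inl rfl)
    rw [Finset.mem_filter]
    refine ⟨mem_HB.2 ⟨fun v hv => ?_, fun v => h3 _, fun f hf => ?_, fun f hf v hv => ?_⟩,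
      fun v hv => ?_⟩
    · show h (Sum.inl (vm A β v)) = bQ β Q v
      rw [vm_of_not_mem A β hv, hbq]
      cases β v
      · simpa [hq] using hfalse
      · simpa [hq] using h2'
    · show (if hf : f ∈ A then h (Sum.inr ⟨f, hf⟩) else 1) = 1
      rw [dif_neg hf]
    · show |h (Sum.inl (vm A β v)) - (if hf : f ∈ A then h (Sum.inr ⟨f, hf⟩) else 1)| = 1
      rw [dif_pos hf]
      exact h5 _ _ ⟨v, hv, rfl⟩
    · show h (Sum.inl (vm A β v)) = 0
      by_cases hvi : v ∈ intVerts A
      · rw [vm_of_mem A β hvi]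
        exact h2 _ (Or.inr ⟨⟨v, hvi⟩, rfl, hv⟩)
      · rw [vm_of_not_mem A β hvi, hC v hv hvi]
        exact hfalse
  · intro w hw
    rw [Finset.mem_filter] at hw
    have hv := mem_HB.1 hw.1
    refine Prod.ext ?_ ?_
    · funext u
      show (ofH A q w) (Sum.inl (vm A β u)) = w.1 u
      by_cases hu : u ∈ intVerts A
      · rw [vm_of_mem A β hu]; rfl
      · rw [vm_of_not_mem A β hu, hv.bdry u hu]; rfl
    · funext f
      show (if hf : f ∈ A then ofH A q w (Sum.inr ⟨f, hf⟩) else 1) = w.2 f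
      by_cases hf : f ∈ A
      · rw [dif_pos hf]; rfl
      · rw [dif_neg hf, hv.off f hf]
  · intro h hh
    rw [Finset.mem_filter, Finset.mem_filter] at hh
    obtain ⟨⟨_, h2, h2'⟩, _⟩ := hh
    have hfalse : h (Sum.inl (Sum.inr false)) = 0 := h2 _ (Or.inl rfl)
    funext x
    rcases x with (x | x) | x
    · show h (Sum.inl (vm A β x.1)) = h (Sum.inl (Sum.inl x))
      rw [vm_of_mem A β x.2]
    · show q x = h (Sum.inl (Sum.inr x))
      cases x
      · simpa [hq] using hfalse.symm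
      · simpa [hq] using h2'.symm
    · show (if hf : x.1 ∈ A then h (Sum.inr ⟨x.1, hf⟩) else 1) = h (Sum.inr x)
      rw [dif_pos x.2]
  · intro w hw
    rw [Finset.mem_filter] at hw
    have hv := mem_HB.1 hw.1
    have key : ∀ u, (ofH A q w) (Sum.inl (vm A β u)) = w.1 u := by
      intro u
      by_cases hu : u ∈ intVerts A
      · rw [vm_of_mem A β hu]; rfl
      · rw [vm_of_not_mem A β hu, hv.bdry u hu]; rfl
    rw [← Finset.prod_coe_sort]
    refine Finset.prod_congr rfl fun e _ => ?_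
    unfold Geo.wp pw cC
    have : (geo A β).Flat (ofH A q w) e ↔ w.1 (src e.1) = w.1 (tgt e.1) ∧ w.2 (fA e.1) = w.2 (fB e.1) := by
      unfold Geo.Flat
      show (ofH A q w) (Sum.inl (vm A β (src e.1))) = (ofH A q w) (Sum.inl (vm A β (tgt e.1))) ∧ _ ↔ _
      rw [key, key]
      rfl
    by_cases hfl : w.1 (src e.1) = w.1 (tgt e.1) ∧ w.2 (fA e.1) = w.2 (fB e.1)
    · rw [if_pos hfl, if_pos (this.2 hfl)]
    · rw [if_neg hfl, if_neg (fun h => hfl (this.1 h))]
      simp

theorem cutB_empty (A : Finset P2) (b : P2 → ℤ) : cutB A ∅ b = confB A b := by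
  classical
  ext ω
  rw [mem_cutB, mem_confB]
  refine ⟨fun h => h.1, fun h => ⟨h, Even.zero, fun e he => ?_, fun v hv => ?_⟩⟩
  · rw [mem_bdE] at he; simp at he
  · rw [mem_bdV] at hv; simp at hv

theorem Zabs_two {V F P : Type*} [Fintype V] [Fintype F] [Fintype P] [DecidableEq V]
    [DecidableEq F] [DecidableEq P] (G : Geo V F P) (c : P → ℝ) (M : V ⊕ F → ℤ) (B : Set V) (x : V) :
    Zabs G c M B (fun h => |h (.inl x)| = 2) =
      Zabs G c M B (fun h => h (.inl x) = 2) + Zabs G c M B (fun h => h (.inl x) = -2) := by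
  classical
  unfold Zabs
  rw [Finset.sum_filter, Finset.sum_filter, Finset.sum_filter, ← Finset.sum_add_distrib]
  refine Finset.sum_congr rfl fun h _ => ?_
  beta_reduce
  have e : |h (.inl x)| = 2 ↔ h (.inl x) = 2 ∨ h (.inl x) = -2 := abs_eq (by norm_num)
  by_cases hb : ∀ v ∈ B, h (.inl v) = 0
  swap
  · rw [if_neg (fun h' => hb h'.1), if_neg (fun h' => hb h'.1), if_neg (fun h' => hb h'.1)]; ring
  by_cases h1 : h (.inl x) = 2
  · rw [if_pos ⟨hb, e.2 (Or.inl h1)⟩, if_pos ⟨hb, h1⟩, if_neg (fun h' => by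
      have := h'.2; rw [h1] at this; norm_num at this)]
    ring
  · by_cases h2 : h (.inl x) = -2
    · rw [if_pos ⟨hb, e.2 (Or.inr h2)⟩, if_neg (fun h' => h1 h'.2), if_pos ⟨hb, h2⟩]; ring
    · rw [if_neg (fun h' => (e.1 h'.2).elim h1 h2), if_neg (fun h' => h1 h'.2),
        if_neg (fun h' => h2 h'.2)]; ring

/-- **Removing a face set attached to the zero class decreases `z_2 / z_0`.** -/
theorem rho_sub {c : ℝ} (hc : 1 ≤ c) {A C : Finset P2} {β : P2 → Bool} (hCA : C ⊆ A)
    (hatt : ∀ v, tch C v = true → v ∉ intVerts A → β v = false) :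
    zQ c (A \ C) (fun v => β v && !tch C v) 2 * zQ c A β 0 ≤
      zQ c (A \ C) (fun v => β v && !tch C v) 0 * zQ c A β 2 := by
  classical
  set N : ℤ := hbB A (bQ β 0) + hbB A (bQ β 2) + hbB A (bQ β (-2)) + 2 with hN
  have hh : ∀ b : P2 → ℤ, 0 ≤ hbB A b := fun b => by
    unfold hbB
    have := bS_nonneg A b
    positivity
  have a1 := hh (bQ β 0)
  have a2 := hh (bQ β 2)
  have a3 := hh (bQ β (-2))
  have hbdV : ∀ v ∈ bdV C, v ∉ intVerts A → β v = false := fun v hv hvi =>
    hatt v (tch_iff.2 (mem_bdV.1 hv).1) hvi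
  have hAtt : ∀ Q, Att C A (bQ β Q) := fun Q => ⟨hCA, fun v hv hvi => by
    unfold bQ; simp [hatt v hv hvi]⟩
  -- values with `C`
  have v1 : ∀ Q : ℤ, Even Q → hbB A (bQ β Q) ≤ N → |Q| ≤ N →
      Zabs (geo A β) (cC c A C) (fun _ => N) (Bpin A C)
        (fun h => h (Sum.inl (Sum.inr true)) = Q) =
        zQ c (A \ C) (fun v => β v && !tch C v) Q * Z c C := by
    intro Q hQ h1 h2
    rw [zabs_eq c A C β hbdV hQ h1 h2, sum_cutB c (fun v => bQ_even hQ v) (hAtt Q)]
    congr 1
    unfold zQ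
    congr 1
    funext v
    unfold bC bQ
    beta_reduce
    cases tch C v <;> cases β v <;> simp
  -- values without `C`
  have v2 : ∀ Q : ℤ, Even Q → hbB A (bQ β Q) ≤ N → |Q| ≤ N →
      Zabs (geo A β) (cC c A ∅) (fun _ => N) (Bpin A ∅)
        (fun h => h (Sum.inl (Sum.inr true)) = Q) = zQ c A β Q := by
    intro Q hQ h1 h2
    rw [zabs_eq c A ∅ β (fun v hv => by rw [mem_bdV] at hv; simp at hv) hQ h1 h2, cutB_empty]
    rfl
  have key := rho_mono (geo A β) (c := cC c A ∅) (c' := cC c A C)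
    (fun p => by unfold cC; split_ifs <;> first | exact le_rfl | exact hc)
    (fun p => by
      have hp : p.1 ∉ bdE (∅ : Finset P2) := by rw [mem_bdE]; simp
      unfold cC
      rw [if_neg hp]
      split_ifs
      · exact hc
      · exact le_rfl)
    (B := Bpin A ∅) (B' := Bpin A C)
    (fun x hx => by
      rcases hx with hx | ⟨v, hx, hv⟩
      · exact Or.inl hx
      · rw [mem_bdV] at hv; simp at hv)
    (fun p hp => by
      have hb : p.1 ∈ bdE C := by
        by_contra hb
        apply hp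
        have hp' : p.1 ∉ bdE (∅ : Finset P2) := by rw [mem_bdE]; simp
        unfold cC
        rw [if_neg hb, if_neg hp']
      obtain ⟨hs, ht⟩ := bdE_ends hb
      have aux : ∀ v, v ∈ bdV C → vm A β v ∈ Bpin A C := by
        intro v hv
        by_cases hvi : v ∈ intVerts A
        · rw [vm_of_mem A β hvi]
          exact Or.inr ⟨⟨v, hvi⟩, rfl, hv⟩
        · rw [vm_of_not_mem A β hvi, hbdV v hv hvi]
          exact Or.inl rfl
      exact ⟨aux _ hs, aux _ ht⟩)
    (fun _ => N) (fun _ => by show (0 : ℤ) ≤ N; linarith) (Sum.inr true)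
  rw [Zabs_two, Zabs_two, v1 2 even_two (by linarith) (by norm_num; linarith),
    v1 (-2) even_two.neg (by linarith) (by norm_num; linarith),
    v1 0 Even.zero (by linarith) (by norm_num; linarith),
    v2 2 even_two (by linarith) (by norm_num; linarith),
    v2 (-2) even_two.neg (by linarith) (by norm_num; linarith),
    v2 0 Even.zero (by linarith) (by norm_num; linarith), zQ_neg, zQ_neg] at key
  have hZ := Z_pos hc C
  have h4 : (zQ c (A \ C) (fun v => β v && !tch C v) 2 * zQ c A β 0) * (2 * Z c C) ≤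
      (zQ c (A \ C) (fun v => β v && !tch C v) 0 * zQ c A β 2) * (2 * Z c C) := by
    linarith
  exact le_of_mul_le_mul_right h4 (by linarith)

theorem zQ_congr (c : ℝ) (A : Finset P2) {β β' : P2 → Bool} {Q : ℤ} (hQ : Even Q)
    (h : ∀ v ∈ cornV A, v ∉ intVerts A → β v = β' v) : zQ c A β Q = zQ c A β' Q :=
  ZB_congr c A (fun v => bQ_even hQ v) (fun v => bQ_even hQ v) fun v hv hvi => by
    show (if β v then Q else 0) = (if β' v then Q else 0)
    rw [h v hv hvi]

/-- exchanging the two classes -/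
theorem zQ_swap (c : ℝ) (A : Finset P2) (β : P2 → Bool) {Q : ℤ} (hQ : Even Q) :
    zQ c A (fun v => !β v) Q = zQ c A β Q := by
  have h1 : zQ c A β Q = ZB c A (fun v => (if β v then Q else 0) + -Q) := (ZB_shift c A _ hQ.neg).symm
  have h2 : (fun v => (if β v then Q else 0) + -Q) = fun v => -(if (!β v) = true then Q else 0) := by
    funext v
    cases β v <;> simp
  rw [h1, h2, ZB_neg]
  rfl

/-- outer step -/
theorem rho_outer {c : ℝ} (hc : 1 ≤ c) {H D F : Finset P2} (hHD : Sep H D) (hDF : D ⊆ F) :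
    zQ c (D \ H) (tch H) 2 * zQ c (F \ H) (tch H) 0 ≤
      zQ c (D \ H) (tch H) 0 * zQ c (F \ H) (tch H) 2 := by
  have hsub : F \ D ⊆ F \ H := Finset.sdiff_subset_sdiff subset_rfl hHD.sub
  have key := rho_sub hc (A := F \ H) (C := F \ D) (β := tch H) hsub (by
    intro v hv _
    by_contra hne
    have hH : tch H v = true := by simpa using hne
    obtain ⟨f, hf, hvf⟩ := tch_iff.1 hv
    exact (Finset.mem_sdiff.1 hf).2 (corner_mem_of_int (hHD v hH) hvf))
  have e1 : (F \ H) \ (F \ D) = D \ H := by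
    ext f
    simp only [Finset.mem_sdiff]
    constructor
    · rintro ⟨⟨h1, h2⟩, h3⟩
      exact ⟨by by_contra h4; exact h3 ⟨h1, h4⟩, h2⟩
    · rintro ⟨h1, h2⟩
      exact ⟨⟨hDF h1, h2⟩, fun h3 => h3.2 h1⟩
  have e2 : (fun v => tch H v && !tch (F \ D) v) = tch H := by
    funext v
    cases hH : tch H v
    · rfl
    · have : tch (F \ D) v = false := by
        by_contra hne
        have h1 : tch (F \ D) v = true := by simpa using hne
        obtain ⟨f, hf, hvf⟩ := tch_iff.1 h1
        exact (Finset.mem_sdiff.1 hf).2 (corner_mem_of_int (hHD v hH) hvf)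
      rw [this]; rfl
  rw [e1, e2] at key
  exact key

/-- inner step -/
theorem rho_inner {c : ℝ} (hc : 1 ≤ c) {D' H F : Finset P2} (hDH : D' ⊆ H) (hHF : Sep H F) :
    zQ c (F \ H) (tch H) 2 * zQ c (F \ D') (tch D') 0 ≤
      zQ c (F \ H) (tch H) 0 * zQ c (F \ D') (tch D') 2 := by
  have hsub : H \ D' ⊆ F \ D' := Finset.sdiff_subset_sdiff hHF.sub subset_rfl
  have tmono : ∀ {S T : Finset P2}, S ⊆ T → ∀ {v}, tch S v = true → tch T v = true := by
    intro S T hST v hv
    obtain ⟨f, hf, hvf⟩ := tch_iff.1 hv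
    exact tch_iff.2 ⟨f, hST hf, hvf⟩
  have key := rho_sub hc (A := F \ D') (C := H \ D') (β := fun v => !tch D' v) hsub (by
    intro v hv hvi
    by_contra hne
    have hD : tch D' v = false := by simpa using hne
    have hH : tch H v = true := tmono Finset.sdiff_subset hv
    exact hvi (intVerts_sdiff_of (hHF v hH) (by rw [hD]; simp)))
  have e1 : (F \ D') \ (H \ D') = F \ H := by
    ext f
    simp only [Finset.mem_sdiff]
    constructor
    · rintro ⟨⟨h1, h2⟩, h3⟩
      exact ⟨h1, fun h4 => h3 ⟨h4, h2⟩⟩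
    · rintro ⟨h1, h2⟩
      exact ⟨⟨h1, fun h3 => h2 (hDH h3)⟩, fun h3 => h2 h3.1⟩
  rw [e1] at key
  -- replace the class functions
  have cls : ∀ Q : ℤ, Even Q → zQ c (F \ H) (fun v => (!tch D' v) && !tch (H \ D') v) Q =
      zQ c (F \ H) (tch H) Q := by
    intro Q hQ
    rw [← zQ_swap c (F \ H) (tch H) hQ]
    refine zQ_congr c _ hQ fun v hv hvi => ?_
    have : tch H v = (tch D' v || tch (H \ D') v) := by
      cases hH : tch H v
      · have h1 : tch D' v = false := by
          by_contra hne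
          have := tmono hDH (v := v) (by simpa using hne)
          rw [hH] at this; exact absurd this (by simp)
        have h2 : tch (H \ D') v = false := by
          by_contra hne
          have := tmono (Finset.sdiff_subset : H \ D' ⊆ H) (v := v) (by simpa using hne)
          rw [hH] at this; exact absurd this (by simp)
        rw [h1, h2]; rfl
      · obtain ⟨f, hf, hvf⟩ := tch_iff.1 hH
        by_cases hfD : f ∈ D'
        · rw [tch_iff.2 ⟨f, hfD, hvf⟩]; rfl
        · rw [tch_iff.2 ⟨f, Finset.mem_sdiff.2 ⟨hf, hfD⟩, hvf⟩]; simp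
    rw [this]
    cases tch D' v <;> cases tch (H \ D') v <;> rfl
  rw [cls 2 even_two, cls 0 Even.zero, zQ_swap c (F \ D') (tch D') even_two,
    zQ_swap c (F \ D') (tch D') Even.zero] at key
  exact key

/-- **(E3)** `ρ (D \ H) ≤ ρ (F \ D')` for `D' ⊆ H`, `D ⊆ F`. -/
theorem rho_annulus {c : ℝ} (hc : 1 ≤ c) {D' H D F : Finset P2} (hDH : D' ⊆ H) (hHD : Sep H D)
    (hDF : D ⊆ F) :
    zQ c (D \ H) (tch H) 2 * zQ c (F \ D') (tch D') 0 ≤
      zQ c (D \ H) (tch H) 0 * zQ c (F \ D') (tch D') 2 := by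
  have hHF : Sep H F := fun v hv => intVerts_mono hDF (hHD v hv)
  have h1 := rho_outer hc hHD hDF
  have h2 := rho_inner hc hDH hHF
  have p0 := zQ_zero_pos hc (F \ H) (tch H)
  have n1 := zQ_nonneg hc (D \ H) (tch H) 0
  have n2 := zQ_nonneg hc (F \ D') (tch D') 0
  have h3 : (zQ c (D \ H) (tch H) 2 * zQ c (F \ D') (tch D') 0) * zQ c (F \ H) (tch H) 0 ≤
      (zQ c (D \ H) (tch H) 0 * zQ c (F \ D') (tch D') 2) * zQ c (F \ H) (tch H) 0 := by
    calc (zQ c (D \ H) (tch H) 2 * zQ c (F \ D') (tch D') 0) * zQ c (F \ H) (tch H) 0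
        = (zQ c (D \ H) (tch H) 2 * zQ c (F \ H) (tch H) 0) * zQ c (F \ D') (tch D') 0 := by ring
      _ ≤ (zQ c (D \ H) (tch H) 0 * zQ c (F \ H) (tch H) 2) * zQ c (F \ D') (tch D') 0 :=
          mul_le_mul_of_nonneg_right h1 n2
      _ = zQ c (D \ H) (tch H) 0 * (zQ c (F \ H) (tch H) 2 * zQ c (F \ D') (tch D') 0) := by ring
      _ ≤ zQ c (D \ H) (tch H) 0 * (zQ c (F \ H) (tch H) 0 * zQ c (F \ D') (tch D') 2) :=
          mul_le_mul_of_nonneg_left h2 n1
      _ = _ := by ring
  exact le_of_mul_le_mul_right h3 p0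

end Crest.Agent.R161.Ann770
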