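import Crest.Agent.R161.Mono_375

/-!
# Ratio monotonicity `ρ' = z'_2 / z'_0 ≤ z_2 / z_0 = ρ` (helper375, R161 STEP 1)
-/

set_option autoImplicit false
set_option linter.unusedSectionVars false
set_option linter.unnecessarySeqFocus false
set_option linter.unusedVariables false

open Finset
open Crest.Agent.R161.Lsm375 Crest.Agent.R161.Gks375 Crest.Agent.R161.Hts375
open Crest.Agent.R161.Abs375 Crest.Agent.R161.Pol375 Crest.Agent.R161.Mono375

namespace Crest.Agent.R161.Rho375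

variable {V F P : Type*} [Fintype V] [Fintype F] [Fintype P]
  [DecidableEq V] [DecidableEq F] [DecidableEq P]

open Classical in
/-- Partition function over the box `|h| ≤ M` with the vertices of `B` pinned at `0` and `p h`. -/
noncomputable def Zabs (G : Geo V F P) (c : P → ℝ) (M : V ⊕ F → ℤ) (B : Set V)
    (p : (V ⊕ F → ℤ) → Prop) : ℝ :=
  ∑ h ∈ (Finset.Icc (-M) M).filter (fun h => (∀ v ∈ B, h (.inl v) = 0) ∧ p h), G.W c h

open Classical in
/-- pin weight with a ceiling at `x` -/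
noncomputable def pinU (B : Set V) (x : V) (q : ℤ) (a : V ⊕ F → ℤ) : ℝ :=
  if 0 ≤ a ∧ (∀ v ∈ B, a (.inl v) = 0) ∧ a (.inl x) ≤ q then 1 else 0

lemma dom_pinU {B B' : Set V} (hB : B ⊆ B') (x : V) (q : ℤ) :
    Dom (pinU (F := F) B' x q) (pinU B x q) := by
  classical
  have nn : ∀ (B : Set V) (a : V ⊕ F → ℤ), 0 ≤ pinU B x q a := fun B a => by
    unfold pinU; split_ifs <;> norm_num
  refine ⟨nn B', nn B, fun a b => ?_⟩
  by_cases ha : 0 ≤ a ∧ (∀ v ∈ B', a (.inl v) = 0) ∧ a (.inl x) ≤ q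
  · by_cases hb : 0 ≤ b ∧ (∀ v ∈ B, b (.inl v) = 0) ∧ b (.inl x) ≤ q
    · obtain ⟨a0, a1, a2⟩ := ha
      obtain ⟨b0, b1, b2⟩ := hb
      have h1 : pinU B' x q (a ⊓ b) = 1 := by
        unfold pinU
        refine if_pos ⟨le_inf a0 b0, fun v hv => ?_, ?_⟩
        · have : 0 ≤ b (.inl v) := b0 _
          simp [a1 v hv, this]
        · exact inf_le_of_left_le a2
      have h2 : pinU B x q (a ⊔ b) = 1 := by
        unfold pinU
        refine if_pos ⟨le_sup_of_le_left a0, fun v hv => ?_, sup_le a2 b2⟩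
        simp [a1 v (hB hv), b1 v hv]
      rw [h1, h2]
      have h3 : pinU B' x q a = 1 := by unfold pinU; exact if_pos ⟨a0, a1, a2⟩
      have h4 : pinU B x q b = 1 := by unfold pinU; exact if_pos ⟨b0, b1, b2⟩
      rw [h3, h4]
    · have : pinU B x q b = 0 := by unfold pinU; exact if_neg hb
      rw [this, mul_zero]
      exact mul_nonneg (nn _ _) (nn _ _)
  · have : pinU B' x q a = 0 := by unfold pinU; exact if_neg ha
    rw [this, zero_mul]
    exact mul_nonneg (nn _ _) (nn _ _)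

lemma S_pinU (G : Geo V F P) (c : P → ℝ) (M : V ⊕ F → ℤ) (B : Set V) (x : V) (q : ℤ)
    (p : (V ⊕ F → ℤ) → Prop) [DecidablePred p] :
    S G c (pinU B x q) M (fun h => if p h then 1 else 0) =
      Zabs G c M B (fun h => |h (.inl x)| ≤ q ∧ p h) := by
  classical
  unfold S Zabs
  rw [Finset.sum_filter]
  refine Finset.sum_congr rfl fun h _ => ?_
  have e : (0 ≤ ab h ∧ (∀ v ∈ B, ab h (.inl v) = 0) ∧ ab h (.inl x) ≤ q) ↔
      ((∀ v ∈ B, h (.inl v) = 0) ∧ |h (.inl x)| ≤ q) := by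
    constructor
    · rintro ⟨_, h1, h2⟩
      exact ⟨fun v hv => abs_eq_zero.mp (h1 v hv), h2⟩
    · rintro ⟨h1, h2⟩
      exact ⟨fun y => abs_nonneg _, fun v hv => by simp [ab, h1 v hv], h2⟩
  unfold pinU
  beta_reduce
  by_cases h1 : (∀ v ∈ B, h (.inl v) = 0) ∧ |h (.inl x)| ≤ q
  · rw [if_pos (e.2 h1)]
    by_cases h2 : p h
    · rw [if_pos h2, if_pos ⟨h1.1, h1.2, h2⟩]; ring
    · rw [if_neg h2, if_neg (fun h' => h2 h'.2.2)]; ring
  · have h3 : ¬ ((∀ v ∈ B, h (.inl v) = 0) ∧ |h (.inl x)| ≤ q ∧ p h) :=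
      fun h' => h1 ⟨h'.1, h'.2.1⟩
    rw [if_neg (fun h' => h1 (e.1 h')), if_neg h3]; ring

/-- General ratio monotonicity for a threshold at one vertex: with `q` a ceiling and `r` a level,
`P'(|h_x| ≥ r | |h_x| ≤ q) ≤ P(|h_x| ≥ r | |h_x| ≤ q)`. -/
theorem ratio_mono (G : Geo V F P) {c c' : P → ℝ} (hc' : ∀ p, 1 ≤ c' p) (hcc : ∀ p, c' p ≤ c p)
    {B B' : Set V} (hB : B ⊆ B')
    (hpin : ∀ p, c' p ≠ c p → G.v₁ p ∈ B' ∧ G.v₂ p ∈ B')
    (M : V ⊕ F → ℤ) (hM : 0 ≤ M) (x : V) (q r : ℤ) :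
    Zabs G c' M B' (fun h => |h (.inl x)| ≤ q ∧ r ≤ |h (.inl x)|) *
        Zabs G c M B (fun h => |h (.inl x)| ≤ q) ≤
      Zabs G c' M B' (fun h => |h (.inl x)| ≤ q) *
        Zabs G c M B (fun h => |h (.inl x)| ≤ q ∧ r ≤ |h (.inl x)|) := by
  classical
  have hΦ : MPos (fun h : V ⊕ F → ℤ => if r ≤ |h (.inl x)| then (1:ℝ) else 0) :=
    (MPos.abs (g := fun a : V ⊕ F → ℤ => if r ≤ a (.inl x) then (1:ℝ) else 0)
      (fun a _ => by split_ifs <;> norm_num)
      (fun a b _ hab => by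
        have : a (.inl x) ≤ b (.inl x) := hab _
        split_ifs with h1 h2
        · exact le_rfl
        · exact absurd (h1.trans this) h2
        · norm_num
        · exact le_rfl)).congr fun h => rfl
  have key := mono_heights G hc' hcc (dom_pinU hB x q) (by
    intro p hp a ha
    have : 0 ≤ a ∧ (∀ v ∈ B', a (.inl v) = 0) ∧ a (.inl x) ≤ q := by
      by_contra h
      exact ha (by unfold pinU; exact if_neg h)
    exact ⟨this.2.1 _ (hpin p hp).1, this.2.1 _ (hpin p hp).2⟩) M hM (IncAv.of_mpos G hΦ)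
  have e1 : ∀ (c : P → ℝ) (B : Set V), S G c (pinU B x q) M (fun _ => 1) =
      Zabs G c M B (fun h => |h (.inl x)| ≤ q) := by
    intro c B
    have := S_pinU G c M B x q (fun _ => True)
    simpa using this
  rw [e1, e1, S_pinU, S_pinU] at key
  exact key

/-- **`ρ' ≤ ρ`** : `Z'(|h_x| = 2) Z(h_x = 0) ≤ Z'(h_x = 0) Z(|h_x| = 2)`. -/
theorem rho_mono (G : Geo V F P) {c c' : P → ℝ} (hc' : ∀ p, 1 ≤ c' p) (hcc : ∀ p, c' p ≤ c p)
    {B B' : Set V} (hB : B ⊆ B')
    (hpin : ∀ p, c' p ≠ c p → G.v₁ p ∈ B' ∧ G.v₂ p ∈ B')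
    (M : V ⊕ F → ℤ) (hM : 0 ≤ M) (x : V) :
    Zabs G c' M B' (fun h => |h (.inl x)| = 2) * Zabs G c M B (fun h => h (.inl x) = 0) ≤
      Zabs G c' M B' (fun h => h (.inl x) = 0) * Zabs G c M B (fun h => |h (.inl x)| = 2) := by
  classical
  have key := ratio_mono G hc' hcc hB hpin M hM x 2 2
  have split : ∀ (c : P → ℝ) (B : Set V), Zabs G c M B (fun h => |h (.inl x)| ≤ 2) =
      Zabs G c M B (fun h => h (.inl x) = 0) + Zabs G c M B (fun h => |h (.inl x)| = 2) := by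
    intro c B
    unfold Zabs
    rw [Finset.sum_filter, Finset.sum_filter, Finset.sum_filter, ← Finset.sum_add_distrib]
    refine Finset.sum_congr rfl fun h _ => ?_
    beta_reduce
    by_cases hv : G.Valid h
    swap
    · have : G.W c h = 0 := by unfold Geo.W; rw [if_neg hv]
      simp [this]
    have hev := hv.1 x
    by_cases hb : ∀ v ∈ B, h (.inl v) = 0
    swap
    · rw [if_neg (fun h' => hb h'.1), if_neg (fun h' => hb h'.1), if_neg (fun h' => hb h'.1)]; ring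
    by_cases h0 : h (.inl x) = 0
    · rw [if_pos ⟨hb, by rw [h0]; norm_num⟩, if_pos ⟨hb, h0⟩, if_neg (fun h' => by
        have := h'.2; rw [h0] at this; norm_num at this)]
      ring
    · by_cases h2 : |h (.inl x)| = 2
      · rw [if_pos ⟨hb, h2.le⟩, if_neg (fun h' => h0 h'.2), if_pos ⟨hb, h2⟩]; ring
      · rw [if_neg (fun h' => ?_), if_neg (fun h' => h0 h'.2), if_neg (fun h' => h2 h'.2)]
        · ring
        · obtain ⟨r, hr⟩ := hev
          have h3 := h'.2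
          rw [abs_le] at h3
          rcases abs_cases (h (.inl x)) with ⟨h4, h5⟩ | ⟨h4, h5⟩ <;> omega
  have eq2 : ∀ (c : P → ℝ) (B : Set V),
      Zabs G c M B (fun h => |h (.inl x)| ≤ 2 ∧ 2 ≤ |h (.inl x)|) =
      Zabs G c M B (fun h => |h (.inl x)| = 2) := by
    intro c B
    have : (fun h : V ⊕ F → ℤ => |h (.inl x)| ≤ 2 ∧ 2 ≤ |h (.inl x)|) =
        (fun h => |h (.inl x)| = 2) := by
      funext h
      exact propext ⟨fun h' => le_antisymm h'.1 h'.2, fun h' => ⟨h'.le, h'.ge⟩⟩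
    rw [this]
  rw [split, split, eq2, eq2] at key
  nlinarith [key]

end Crest.Agent.R161.Rho375
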