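import Crest.Agent.R161.Fac_770
import Crest.Agent.R161.Rho_375

/-!
# Monotonicity of `ρ = z_2 / z_0` in the annulus (helper770, R161 block E: E3)

* `sum_cutB` : factorisation of `confB F b` at a cut set `C` at height `0`.
* `rho_sub` : removing a face set `C` attached to the zero boundary class decreases `z_2/z_0`.
* `rho_annulus` : `ρ (D₀ \ H) ≤ ρ (F \ D')` for `D' ⊆ H`, `D₀ ⊆ F`.
-/

set_option autoImplicit false

noncomputable section

namespace Crest.Agent.R161.Ann770

open Finset Crest.Agent.R161.Geo729 Crest.Agent.R161.Defs372 Crest.Agent.R161.Dmp341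
open Crest.Agent.R161.Hts375 Crest.Agent.R161.Rho375

/-! ### factorisation at a zero cut set -/

open Classical in
/-- boundary heights after removing `C` -/
def bC (C : Finset P2) (b : P2 → ℤ) (v : P2) : ℤ := if tch C v then 0 else b v

section fac

variable {A C : Finset P2} {b : P2 → ℤ}

/-- hypothesis: vertices touching `C` are interior to `A` or have zero boundary height -/
def Att (C A : Finset P2) (b : P2 → ℤ) : Prop :=
  C ⊆ A ∧ ∀ v, tch C v = true → v ∉ intVerts A → b v = 0

theorem cutAt_confC {α : Cfg} (hα : ValidB (A \ C) (bC C b) α) : CutAt C 0 α where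
  even := Even.zero
  cut := fun e he => hα.cut e fun h => by
    rw [mem_intEdges, Finset.mem_sdiff, Finset.mem_sdiff] at h
    rw [mem_bdE] at he
    tauto
  ht := fun v hv => by
    have ht : tch C v = true := tch_iff.2 (mem_bdV.1 hv).1
    rw [hα.bdry v (fun h => not_tch_of_intVerts_sdiff h ht)]
    simp [bC, ht]

theorem validB_glueC (hatt : Att C A b) {α β : Cfg} (hα : ValidB (A \ C) (bC C b) α)
    (hβ : Valid C β) : ValidB A b (glue C 0 α β) where
  bdry := fun v hv => by
    have hv' : v ∉ intVerts C := fun h' => hv (intVerts_mono hatt.1 h')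
    simp only [glue, hv', if_false]
    have hv'' : v ∉ intVerts (A \ C) := fun h => hv (intVerts_mono Finset.sdiff_subset h)
    rw [hα.bdry v hv'']
    unfold bC
    split_ifs with ht
    · exact (hatt.2 v ht hv).symm
    · rfl
  even := fun v => by
    by_cases hv : v ∈ intVerts C
    · simp only [glue, hv, if_true]
      simpa using hβ.even v
    · simp only [glue, hv, if_false]
      exact hα.even v
  off := fun f hf => by
    have hf' : f ∉ C := fun h' => hf (hatt.1 h')
    have hf'' : f ∉ A \ C := fun h => hf (Finset.mem_sdiff.1 h).1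
    simp only [glue, hf', if_false]
    exact hα.off f hf''
  corner := fun f hf v hv => by
    by_cases hf' : f ∈ C
    · by_cases hv' : v ∈ intVerts C
      · simp only [glue, hv', hf', if_true]
        have := hβ.corner f hf' v hv
        simpa using this
      · simp only [glue, hv', hf', if_true, if_false]
        have h1 := hβ.corner f hf' v hv
        rw [hβ.zero v hv'] at h1
        rw [(cutAt_confC hα).ht v (mem_bdV.2 ⟨⟨f, hf', hv⟩, hv'⟩)]
        simpa using h1
    · have hv' : v ∉ intVerts C := fun h' => hf' (corner_mem_of_int h' hv)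
      simp only [glue, hv', hf', if_false]
      exact hα.corner f (Finset.mem_sdiff.2 ⟨hf, hf'⟩) v hv
  cut := fun e he => by
    have he' : e ∉ intEdges C := fun h' => he (intEdges_mono hatt.1 h')
    simp only [glue, he', if_false]
    exact hα.cut e fun h => he (intEdges_mono Finset.sdiff_subset h)

/-- the outer part of a configuration -/
def outC (C A : Finset P2) (b : P2 → ℤ) (ω : Cfg) : Cfg :=
  (fun v => if v ∈ intVerts (A \ C) then ω.1 v else bC C b v,
   fun f => if f ∈ A \ C then ω.2.1 f else 1,
   fun e => if e ∈ intEdges (A \ C) then ω.2.2 e else true)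

theorem validB_outC (hb : ∀ v, Even (b v)) {ω : Cfg} (h : ValidB A b ω) (hc : CutAt C 0 ω) :
    ValidB (A \ C) (bC C b) (outC C A b ω) where
  bdry := fun v hv => by simp only [outC, hv, if_false]
  even := fun v => by
    by_cases hv : v ∈ intVerts (A \ C)
    · simp only [outC, hv, if_true]; exact h.even v
    · simp only [outC, hv, if_false]
      unfold bC
      split_ifs
      · exact Even.zero
      · exact hb v
  off := fun f hf => by simp only [outC, hf, if_false]
  corner := fun f hf v hv => by
    obtain ⟨hfF, hfD⟩ := Finset.mem_sdiff.1 hf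
    by_cases hv' : v ∈ intVerts (A \ C)
    · simp only [outC, hv', hf, if_true]
      exact h.corner f hfF v hv
    · simp only [outC, hv', hf, if_true, if_false]
      have h1 := h.corner f hfF v hv
      by_cases ht : tch C v = true
      · have hvD : v ∉ intVerts C := fun h' => hfD (corner_mem_of_int h' hv)
        rw [hc.ht v (mem_bdV.2 ⟨tch_iff.1 ht, hvD⟩)] at h1
        simpa [bC, ht] using h1
      · have hvF : v ∉ intVerts A := fun h' => hv' (intVerts_sdiff_of h' ht)
        rw [h.bdry v hvF] at h1
        simpa [bC, ht] using h1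
  cut := fun e he => by simp only [outC, he, if_false]

theorem valid_insC (hatt : Att C A b) {ω : Cfg} (h : ValidB A b ω) (hc : CutAt C 0 ω) :
    Valid C (ins C 0 ω) where
  zero := fun v hv => by simp [ins, hv]
  even := fun v => by
    by_cases hv : v ∈ intVerts C
    · simp only [ins, hv, if_true]
      simpa using h.even v
    · simp [ins, hv]
  off := fun f hf => by simp [ins, hf]
  corner := fun f hf v hv => by
    by_cases hv' : v ∈ intVerts C
    · simp only [ins, hv', hf, if_true]
      have := h.corner f (hatt.1 hf) v hv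
      simpa using this
    · simp only [ins, hv', hf, if_true, if_false]
      have h1 := h.corner f (hatt.1 hf) v hv
      rw [hc.ht v (mem_bdV.2 ⟨⟨f, hf, hv⟩, hv'⟩)] at h1
      simpa using h1
  cut := fun e he => by simp [ins, he]

theorem glue_outC {ω : Cfg} (h : ValidB A b ω) (hc : CutAt C 0 ω) :
    glue C 0 (outC C A b ω) (ins C 0 ω) = ω := by
  refine Prod.ext ?_ (Prod.ext ?_ ?_)
  · funext v
    by_cases hv : v ∈ intVerts C
    · simp [ins, glue, hv]
    · by_cases hv' : v ∈ intVerts (A \ C)
      · simp [glue, hv, outC, hv']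
      · simp only [glue, hv, outC, hv', if_false]
        by_cases ht : tch C v = true
        · rw [hc.ht v (mem_bdV.2 ⟨tch_iff.1 ht, hv⟩)]
          simp [bC, ht]
        · rw [h.bdry v (fun h' => hv' (intVerts_sdiff_of h' ht))]
          simp [bC, ht]
  · funext f
    by_cases hf : f ∈ C
    · simp [ins, glue, hf]
    · by_cases hf' : f ∈ A
      · simp [glue, hf, outC, hf']
      · simp [glue, hf, outC, hf', h.off f hf']
  · funext e
    by_cases he : e ∈ intEdges C
    · simp [ins, glue, he]
    · by_cases he' : e ∈ intEdges (A \ C)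
      · simp [glue, he, outC, he']
      · simp only [glue, he, outC, he', if_false]
        by_cases heF : e ∈ intEdges A
        · have hb : e ∈ bdE C := by
            rw [mem_bdE]
            rw [mem_intEdges] at he he' heF
            simp only [Finset.mem_sdiff] at he'
            tauto
          rw [hc.cut e hb]
        · rw [h.cut e heF]

theorem outC_glue {α : Cfg} (β : Cfg) (hα : ValidB (A \ C) (bC C b) α) :
    outC C A b (glue C 0 α β) = α := by
  refine Prod.ext ?_ (Prod.ext ?_ ?_)
  · funext v
    by_cases hv : v ∈ intVerts (A \ C)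
    · have hv' : v ∉ intVerts C := fun h => not_tch_of_intVerts_sdiff hv (tch_of_intVerts h)
      simp [outC, glue, hv, hv']
    · simp only [outC, hv, if_false]
      exact (hα.bdry v hv).symm
  · funext f
    by_cases hf : f ∈ A \ C
    · have hf' : f ∉ C := (Finset.mem_sdiff.1 hf).2
      simp only [outC, hf, if_true, glue, hf', if_false]
    · simp only [outC, hf, if_false]
      exact (hα.off f hf).symm
  · funext e
    by_cases he : e ∈ intEdges (A \ C)
    · have he' : e ∉ intEdges C := by
        rw [mem_intEdges] at he ⊢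
        simp only [Finset.mem_sdiff] at he
        tauto
      simp only [outC, he, if_true, glue, he', if_false]
    · simp only [outC, he, if_false]
      exact (hα.cut e he).symm

theorem bdE_ends {C : Finset P2} {e : Edge} (hb : e ∈ bdE C) : src e ∈ bdV C ∧ tgt e ∈ bdV C := by
  have h0 : e ∉ intEdges C := not_intEdges_of_bdE hb
  rw [mem_bdE] at hb
  constructor
  · rw [mem_bdV]
    refine ⟨?_, (not_int_of_not_intEdges h0).1⟩
    by_cases h1 : fA e ∈ C
    · exact ⟨_, h1, Dmp341.isCorner_src_fA e⟩
    · exact ⟨fB e, by tauto, Dmp341.isCorner_src_fB e⟩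
  · rw [mem_bdV]
    refine ⟨?_, (not_int_of_not_intEdges h0).2⟩
    by_cases h1 : fA e ∈ C
    · exact ⟨_, h1, Dmp341.isCorner_tgt_fA e⟩
    · exact ⟨fB e, by tauto, Dmp341.isCorner_tgt_fB e⟩

theorem wtOut_eqC {c : ℝ} {α : Cfg} (hα : ValidB (A \ C) (bC C b) α) :
    wtOut c A C α = wt c (A \ C) α := by
  have hsub : intEdges (A \ C) ⊆ intEdges A \ intEdges C := by
    intro e he
    rw [Finset.mem_sdiff]
    refine ⟨intEdges_mono Finset.sdiff_subset he, ?_⟩
    rw [mem_intEdges] at he ⊢
    simp only [Finset.mem_sdiff] at he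
    tauto
  unfold wtOut wt
  symm
  refine Finset.prod_subset hsub fun e he he' => ?_
  rw [Finset.mem_sdiff] at he
  have hb : e ∈ bdE C := by
    rw [mem_bdE]
    rw [mem_intEdges] at he'
    rw [mem_intEdges, mem_intEdges] at he
    simp only [Finset.mem_sdiff] at he'
    tauto
  have hc := cutAt_confC hα
  obtain ⟨hs, ht⟩ := bdE_ends hb
  unfold ew
  rw [hc.cut e hb, hc.ht _ hs, hc.ht _ ht]
  simp

open Classical in
/-- configurations with boundary heights `b` which are cut at height `0` along `∂C` -/
def cutB (A C : Finset P2) (b : P2 → ℤ) : Finset Cfg := (confB A b).filter (CutAt C 0)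

theorem mem_cutB {ω : Cfg} : ω ∈ cutB A C b ↔ ValidB A b ω ∧ CutAt C 0 ω := by
  simp [cutB, mem_confB]

theorem sum_cutB (c : ℝ) (hb : ∀ v, Even (b v)) (hatt : Att C A b) :
    ∑ ω ∈ cutB A C b, wt c A ω = ZB c (A \ C) (bC C b) * Z c C := by
  unfold ZB Z
  rw [Finset.sum_mul_sum, ← Finset.sum_product']
  symm
  refine Finset.sum_nbij' (fun p => glue C 0 p.1 p.2) (fun ω => (outC C A b ω, ins C 0 ω))
    ?_ ?_ ?_ ?_ ?_
  · rintro ⟨α, β⟩ h
    rw [Finset.mem_product, mem_confB, mem_conf] at h
    exact mem_cutB.2 ⟨validB_glueC hatt h.1 h.2, cutAt_glue β (cutAt_confC h.1)⟩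
  · intro ω h
    rw [mem_cutB] at h
    rw [Finset.mem_product, mem_confB, mem_conf]
    exact ⟨validB_outC hb h.1 h.2, valid_insC hatt h.1 h.2⟩
  · rintro ⟨α, β⟩ h
    rw [Finset.mem_product, mem_confB, mem_conf] at h
    refine Prod.ext ?_ ?_
    · exact outC_glue β h.1
    · exact ins_glue α h.2
  · intro ω h
    rw [mem_cutB] at h
    exact glue_outC h.1 h.2
  · rintro ⟨α, β⟩ h
    rw [Finset.mem_product, mem_confB, mem_conf] at h
    rw [wt_glue hatt.1 (cutAt_confC h.1) h.2, wtOut_eqC h.1]

end fac

/-! ### relation with helper375's sums -/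

/-- couplings equal to `1` on the cut edges -/
def cC (c : ℝ) (A C : Finset P2) (e : ↥(intEdges A)) : ℝ := if e.1 ∈ bdE C then 1 else c

theorem sum_cutB_eq (c : ℝ) (A C : Finset P2) (b : P2 → ℤ) :
    ∑ ω ∈ cutB A C b, wt c A ω =
      ∑ w ∈ (HB A b).filter (fun w => ∀ v ∈ bdV C, w.1 v = 0),
        ∏ e ∈ intEdges A, if e ∈ bdE C then 1 else pw c w.1 w.2 e := by
  classical
  have key : ∀ w ∈ (HB A b).filter (fun w => ∀ v ∈ bdV C, w.1 v = 0),
      (∏ e ∈ intEdges A, if e ∈ bdE C then 1 else pw c w.1 w.2 e) =
      ∑ S ∈ (intEdges A \ bdE C).powerset, wt c A (w.1, w.2, fun e => decide (e ∉ S)) := by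
    intro w hw
    rw [Finset.mem_filter] at hw
    have hv := mem_HB.1 hw.1
    have h1 : (∏ e ∈ intEdges A, if e ∈ bdE C then 1 else pw c w.1 w.2 e) =
        ∏ e ∈ intEdges A \ bdE C, pw c w.1 w.2 e := by
      rw [Finset.prod_ite, Finset.prod_const_one, one_mul]
      refine Finset.prod_congr ?_ fun _ _ => rfl
      ext e
      simp only [Finset.mem_filter, Finset.mem_sdiff]
    have h2 : ∏ e ∈ intEdges A \ bdE C, pw c w.1 w.2 e = ∏ e ∈ intEdges A \ bdE C,
        (ew c (w.1, w.2, fun _ => false) e + ew c (w.1, w.2, fun _ => true) e) := by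
      refine Finset.prod_congr rfl fun e he => ?_
      rw [add_comm, ew_add c (b := b) (F := A) hv (Finset.mem_sdiff.1 he).1 (fun _ => true)
        (fun _ => false) rfl rfl]
    rw [h1, h2, Finset.prod_add]
    refine Finset.sum_congr rfl fun S hS => ?_
    rw [Finset.mem_powerset] at hS
    unfold wt
    have hS' : S ⊆ intEdges A := hS.trans Finset.sdiff_subset
    rw [← Finset.prod_sdiff hS', mul_comm]
    congr 1
    · -- edges not in `S`
      have hsub : (intEdges A \ bdE C) \ S ⊆ intEdges A \ S :=
        Finset.sdiff_subset_sdiff Finset.sdiff_subset subset_rfl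
      rw [← Finset.prod_subset hsub]
      · refine Finset.prod_congr rfl fun e he => ?_
        have : e ∉ S := (Finset.mem_sdiff.1 he).2
        unfold ew
        simp [this]
      · intro e he he'
        simp only [Finset.mem_sdiff, not_and, not_not] at he he'
        have hb : e ∈ bdE C := by
          by_contra hb
          exact he.2 (he' ⟨he.1, hb⟩)
        obtain ⟨hs, ht⟩ := bdE_ends hb
        unfold ew
        simp [he.2, hw.2 _ hs, hw.2 _ ht]
    · refine Finset.prod_congr rfl fun e he => ?_
      unfold ew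
      simp [he]
  rw [Finset.sum_congr rfl key, ← Finset.sum_product']
  refine Finset.sum_bij' (fun ω _ => ((ω.1, ω.2.1), (intEdges A).filter fun e => ω.2.2 e = false))
    (fun p _ => (p.1.1, p.1.2, fun e => decide (e ∉ p.2))) ?_ ?_ ?_ ?_ ?_
  · intro ω hω
    obtain ⟨hω1, hω2⟩ := mem_cutB.1 hω
    rw [Finset.mem_product]
    obtain ⟨h1, h2, h3, h4, _⟩ := hω1
    refine ⟨Finset.mem_filter.2 ⟨mem_HB.2 ⟨h1, h2, h3, h4⟩, hω2.ht⟩, Finset.mem_powerset.2 ?_⟩
    intro e he
    rw [Finset.mem_filter] at he
    rw [Finset.mem_sdiff]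
    refine ⟨he.1, fun hb => ?_⟩
    rw [hω2.cut e hb] at he
    exact absurd he.2 (by simp)
  · rintro ⟨w, S⟩ hp
    rw [Finset.mem_product] at hp
    obtain ⟨hp1, hp2⟩ := hp
    rw [Finset.mem_filter] at hp1
    rw [Finset.mem_powerset] at hp2
    obtain ⟨h1, h2, h3, h4⟩ := mem_HB.1 hp1.1
    refine mem_cutB.2 ⟨⟨h1, h2, h3, h4, fun e he => ?_⟩, Even.zero, fun e he => ?_, hp1.2⟩
    · have : e ∉ S := fun h => he (Finset.mem_sdiff.1 (hp2 h)).1
      simp [this]
    · have : e ∉ S := fun h => (Finset.mem_sdiff.1 (hp2 h)).2 he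
      simp [this]
  · intro ω hω
    have hc := (mem_cutB.1 hω).1.cut
    refine Prod.ext rfl (Prod.ext rfl ?_)
    funext e
    by_cases he : e ∈ intEdges A
    · cases hz : ω.2.2 e
      · simp [he, hz]
      · simp [he, hz]
    · simp [he, hc e he]
  · rintro ⟨w, S⟩ hp
    rw [Finset.mem_product] at hp
    refine Prod.ext rfl ?_
    ext e
    simp only [Finset.mem_filter, decide_eq_false_iff_not, not_not]
    exact ⟨fun h => h.2, fun h => ⟨(Finset.mem_sdiff.1 (Finset.mem_powerset.1 hp.2 h)).1, h⟩⟩
  · intro ω hω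
    have hc := (mem_cutB.1 hω).1.cut
    congr 1
    refine Prod.ext rfl (Prod.ext rfl ?_)
    funext e
    by_cases he : e ∈ intEdges A
    · cases hz : ω.2.2 e
      · simp [he, hz]
      · simp [he, hz]
    · simp [he, hc e he]

end Crest.Agent.R161.Ann770
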