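import Crest.Agent.R161.Sm_373
import Mathlib.MeasureTheory.Measure.Lebesgue.Complex

/-!
R161 (helper373): sampling of test functions on the lattice of mesh `δ`.

* `samp δ g : P2 →₀ ℝ`, `X δ g ω = XL (samp δ g) ω`
* `mass_samp_rate` : `|mass (samp δ g) - ∫ g| ≤ C δ`.
-/

set_option autoImplicit false

noncomputable section

namespace Crest.Agent.R161.Riem373

open Finset MeasureTheory Filter Topology
open Crest.Agent.R161.Geo729 Crest.Agent.R161.Defs372 Crest.Agent.R161.Ifc372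
open Crest.Agent.R161.Sm373

theorem ptC_re (δ : ℝ) (v : P2) : (ptC δ v).re = δ * v.1 := by simp [ptC]

theorem ptC_im (δ : ℝ) (v : P2) : (ptC δ v).im = δ * v.2 := by simp [ptC]

theorem exists_radius {g : ℂ → ℝ} (hg : Test g) : ∃ r : ℝ, 0 < r ∧ ∀ z, g z ≠ 0 → ‖z‖ ≤ r := by
  obtain ⟨r, hr⟩ := hg.supp.isCompact.isBounded.subset_closedBall 0
  refine ⟨max r 1, by positivity, fun z hz => ?_⟩
  have := hr (subset_tsupport g hz)
  rw [mem_closedBall_zero_iff] at this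
  exact this.trans (le_max_left _ _)

theorem exists_lip {g : ℂ → ℝ} (hg : Test g) : ∃ L : ℝ, 0 ≤ L ∧ ∀ z w, |g z - g w| ≤ L * ‖z - w‖ := by
  obtain ⟨L, hL⟩ := ContDiff.lipschitzWith_of_hasCompactSupport (n := (⊤ : ℕ∞)) (𝕂 := ℝ) hg.supp
    hg.smooth (by simp)
  refine ⟨L, L.2, fun z w => ?_⟩
  have := hL.dist_le_mul z w
  rwa [Real.dist_eq, dist_eq_norm] at this

theorem exists_bound {g : ℂ → ℝ} (hg : Test g) : ∃ M : ℝ, 0 ≤ M ∧ ∀ z, |g z| ≤ M := by
  obtain ⟨M, hM⟩ := hg.supp.exists_bound_of_continuous hg.smooth.continuous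
  exact ⟨M, (norm_nonneg _).trans (hM 0), fun z => by simpa using hM z⟩

theorem abs_le_of_norm {δ r : ℝ} (hδ : 0 < δ) {v : P2} (h : ‖ptC δ v‖ ≤ r) {m : ℕ}
    (hm : r / δ ≤ m) : v ∈ bx m := by
  have h1 := Complex.abs_re_le_norm (ptC δ v)
  have h2 := Complex.abs_im_le_norm (ptC δ v)
  rw [ptC_re, abs_mul, abs_of_pos hδ] at h1
  rw [ptC_im, abs_mul, abs_of_pos hδ] at h2
  rw [div_le_iff₀ hδ] at hm
  have h3 : |(v.1 : ℝ)| ≤ m := by
    by_contra hcon
    push Not at hcon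
    nlinarith
  have h4 : |(v.2 : ℝ)| ≤ m := by
    by_contra hcon
    push Not at hcon
    nlinarith
  rw [mem_bx]
  exact ⟨by exact_mod_cast h3, by exact_mod_cast h4⟩

theorem samp_finite {g : ℂ → ℝ} (hg : HasCompactSupport g) {δ : ℝ} (hδ : 0 < δ) :
    (Function.support fun v : P2 => δ ^ 2 * g (ptC δ v)).Finite := by
  obtain ⟨r, hr⟩ := hg.isCompact.isBounded.subset_closedBall 0
  obtain ⟨m, hm⟩ := exists_nat_ge (r / δ)
  refine (bx m).finite_toSet.subset fun v hv => ?_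
  have h1 : g (ptC δ v) ≠ 0 := by
    intro h
    apply hv
    simp only [h, mul_zero]
  have h2 := hr (subset_tsupport g h1)
  rw [mem_closedBall_zero_iff] at h2
  exact abs_le_of_norm hδ h2 hm

open Classical in
/-- the lattice function `δ² g(δ v)` -/
def samp (δ : ℝ) (g : ℂ → ℝ) : P2 →₀ ℝ :=
  if h : (Function.support fun v : P2 => δ ^ 2 * g (ptC δ v)).Finite then
    Finsupp.ofSupportFinite _ h else 0

theorem samp_apply {g : ℂ → ℝ} (hg : HasCompactSupport g) {δ : ℝ} (hδ : 0 < δ) (v : P2) :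
    samp δ g v = δ ^ 2 * g (ptC δ v) := by
  unfold samp
  rw [dif_pos (samp_finite hg hδ)]
  rfl

theorem X_eq {g : ℂ → ℝ} (hg : HasCompactSupport g) {δ : ℝ} (hδ : 0 < δ) (ω : Cfg) :
    X δ g ω = XL (samp δ g) ω := by
  have h := XL_eq (a := samp δ g) (s := (samp_finite hg hδ).toFinset)
    (fun v hv => by
      rw [samp_apply hg hδ] at hv
      simpa using hv) ω
  rw [h]
  unfold X
  rw [tsum_eq_sum (s := (samp_finite hg hδ).toFinset), Finset.mul_sum]
  · refine Finset.sum_congr rfl fun v _ => ?_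
    rw [samp_apply hg hδ]
    ring
  · intro v hv
    have : δ ^ 2 * g (ptC δ v) = 0 := by
      by_contra hcon
      exact hv (by simpa using hcon)
    have h2 : g (ptC δ v) = 0 := by
      rcases mul_eq_zero.1 this with h | h
      · exact absurd (pow_eq_zero_iff (two_ne_zero)|>.1 h) hδ.ne'
      · exact h
    rw [h2, mul_zero]

/-! ### cells -/

/-- the cell of the lattice point `v` -/
def cell (δ : ℝ) (v : P2) : Set ℂ :=
  {z | (δ * v.1 ≤ z.re ∧ z.re < δ * v.1 + δ) ∧ (δ * v.2 ≤ z.im ∧ z.im < δ * v.2 + δ)}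

theorem cell_eq (δ : ℝ) (v : P2) : cell δ v = Complex.measurableEquivRealProd ⁻¹'
    (Set.Ico (δ * v.1) (δ * v.1 + δ) ×ˢ Set.Ico (δ * v.2) (δ * v.2 + δ)) := by
  ext z
  simp [cell, Complex.measurableEquivRealProd_apply]

theorem measurableSet_cell (δ : ℝ) (v : P2) : MeasurableSet (cell δ v) := by
  rw [cell_eq]
  exact Complex.measurableEquivRealProd.measurable (measurableSet_Ico.prod measurableSet_Ico)

theorem volume_cell {δ : ℝ} (hδ : 0 < δ) (v : P2) : volume (cell δ v) = ENNReal.ofReal (δ ^ 2) := by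
  rw [cell_eq, Complex.volume_preserving_equiv_real_prod.measure_preimage
    (measurableSet_Ico.prod measurableSet_Ico).nullMeasurableSet,
    Measure.volume_eq_prod, Measure.prod_prod, Real.volume_Ico, Real.volume_Ico,
    add_sub_cancel_left, add_sub_cancel_left, ← ENNReal.ofReal_mul hδ.le, sq]

theorem mem_cell_floor {δ : ℝ} (hδ : 0 < δ) (z : ℂ) {v : P2} :
    z ∈ cell δ v ↔ v = (⌊z.re / δ⌋, ⌊z.im / δ⌋) := by
  have key : ∀ (x : ℝ) (n : ℤ), (δ * n ≤ x ∧ x < δ * n + δ) ↔ n = ⌊x / δ⌋ := by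
    intro x n
    rw [eq_comm, Int.floor_eq_iff, le_div_iff₀ hδ, div_lt_iff₀ hδ]
    constructor
    · rintro ⟨h1, h2⟩
      constructor <;> linarith
    · rintro ⟨h1, h2⟩
      constructor <;> linarith
  obtain ⟨a, b⟩ := v
  simp only [cell, Set.mem_ofPred_eq, Prod.mk.injEq]
  rw [key, key]

theorem norm_sub_cell {δ : ℝ} {v : P2} {z : ℂ} (hz : z ∈ cell δ v) :
    ‖z - ptC δ v‖ ≤ 2 * δ := by
  obtain ⟨⟨h1, h2⟩, h3, h4⟩ := hz
  refine (Complex.norm_le_abs_re_add_abs_im _).trans ?_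
  rw [Complex.sub_re, Complex.sub_im, ptC_re, ptC_im, abs_of_nonneg (by linarith),
    abs_of_nonneg (by linarith)]
  linarith

theorem integral_eq_sum_cell {g : ℂ → ℝ} (hgi : Integrable g) {r : ℝ}
    (hr : ∀ z, g z ≠ 0 → ‖z‖ ≤ r) {δ : ℝ} (hδ : 0 < δ) {m : ℕ} (hm : (r + 2 * δ) / δ ≤ m) :
    ∫ z, g z = ∑ v ∈ bx m, ∫ z in cell δ v, g z := by
  have h1 : ∀ z, g z = ∑ v ∈ bx m, (cell δ v).indicator g z := by
    intro z
    by_cases hz : g z = 0
    · rw [hz]
      symm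
      refine Finset.sum_eq_zero fun v _ => ?_
      by_cases hv : z ∈ cell δ v
      · rw [Set.indicator_of_mem hv, hz]
      · rw [Set.indicator_of_notMem hv]
    · rw [Finset.sum_eq_single (⌊z.re / δ⌋, ⌊z.im / δ⌋)]
      · rw [Set.indicator_of_mem ((mem_cell_floor hδ z).2 rfl)]
      · intro v _ hv
        rw [Set.indicator_of_notMem]
        intro h
        exact hv ((mem_cell_floor hδ z).1 h)
      · intro hn
        exfalso
        apply hn
        have h2 : z ∈ cell δ (⌊z.re / δ⌋, ⌊z.im / δ⌋) := (mem_cell_floor hδ z).2 rfl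
        have h3 := norm_sub_cell h2
        refine abs_le_of_norm hδ (r := r + 2 * δ) ?_ hm
        calc ‖ptC δ (⌊z.re / δ⌋, ⌊z.im / δ⌋)‖
            = ‖z - (z - ptC δ (⌊z.re / δ⌋, ⌊z.im / δ⌋))‖ := by rw [sub_sub_cancel]
          _ ≤ ‖z‖ + ‖z - ptC δ (⌊z.re / δ⌋, ⌊z.im / δ⌋)‖ := norm_sub_le _ _
          _ ≤ r + 2 * δ := add_le_add (hr z hz) h3
  calc ∫ z, g z = ∫ z, ∑ v ∈ bx m, (cell δ v).indicator g z :=
        integral_congr_ae (Eventually.of_forall h1)
    _ = ∑ v ∈ bx m, ∫ z, (cell δ v).indicator g z :=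
        integral_finsetSum _ fun v _ => hgi.indicator (measurableSet_cell δ v)
    _ = ∑ v ∈ bx m, ∫ z in cell δ v, g z :=
        Finset.sum_congr rfl fun v _ => integral_indicator (measurableSet_cell δ v)

theorem cell_error {g : ℂ → ℝ} (hgi : Integrable g) {L : ℝ} (hL0 : 0 ≤ L)
    (hL : ∀ z w, |g z - g w| ≤ L * ‖z - w‖) {δ : ℝ} (hδ : 0 < δ) (v : P2) :
    |(∫ z in cell δ v, g z) - δ ^ 2 * g (ptC δ v)| ≤ 2 * L * δ ^ 3 := by
  have hvol := volume_cell hδ v
  have hfin : volume (cell δ v) < ⊤ := by rw [hvol]; exact ENNReal.ofReal_lt_top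
  have hreal : volume.real (cell δ v) = δ ^ 2 := by
    rw [Measure.real, hvol, ENNReal.toReal_ofReal (by positivity)]
  have e1 : δ ^ 2 * g (ptC δ v) = ∫ _z in cell δ v, g (ptC δ v) := by
    rw [setIntegral_const, hreal, smul_eq_mul]
  have hci : IntegrableOn (fun _ => g (ptC δ v)) (cell δ v) := integrableOn_const hfin.ne
  rw [e1, ← integral_sub hgi.integrableOn hci]
  have h2 := norm_setIntegral_le_of_norm_le_const (f := fun z => g z - g (ptC δ v)) hfin
    (C := L * (2 * δ)) (fun z hz => by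
      rw [Real.norm_eq_abs]
      exact (hL z _).trans (mul_le_mul_of_nonneg_left (norm_sub_cell hz) hL0))
  rw [Real.norm_eq_abs, hreal] at h2
  refine h2.trans (le_of_eq (by ring))

/-- **Riemann sums with rate.** -/
theorem mass_samp_rate {g : ℂ → ℝ} (hg : Test g) : ∃ C : ℝ, 0 ≤ C ∧ ∀ δ : ℝ, 0 < δ → δ ≤ 1 →
    |mass (samp δ g) - ∫ z, g z| ≤ C * δ := by
  obtain ⟨r, hr0, hr⟩ := exists_radius hg
  obtain ⟨L, hL0, hL⟩ := exists_lip hg
  have hgi : Integrable g := hg.smooth.continuous.integrable_of_hasCompactSupport hg.supp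
  refine ⟨9 * (r + 3) ^ 2 * (2 * L), by positivity, fun δ hδ hδ1 => ?_⟩
  -- choose the box
  set m : ℕ := ⌈(r + 2 * δ) / δ⌉₊ with hm
  have hm1 : (r + 2 * δ) / δ ≤ m := Nat.le_ceil _
  have hm2 : (m : ℝ) < (r + 2 * δ) / δ + 1 := Nat.ceil_lt_add_one (by positivity)
  have hm3 : δ * m ≤ r + 3 := by
    have : (r + 2 * δ) / δ + 1 = (r + 3 * δ) / δ := by field_simp; ring
    rw [this, lt_div_iff₀ hδ] at hm2
    nlinarith
  have hmpos : 1 ≤ m := by
    have : (0 : ℝ) < m := lt_of_lt_of_le (by positivity) hm1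
    exact_mod_cast this
  have hmass : mass (samp δ g) = ∑ v ∈ bx m, δ ^ 2 * g (ptC δ v) := by
    rw [mass_eq (s := bx m)]
    · exact Finset.sum_congr rfl fun v _ => samp_apply hg.supp hδ v
    · intro v hv
      rw [samp_apply hg.supp hδ] at hv
      have h1 : g (ptC δ v) ≠ 0 := by
        intro h
        rw [h, mul_zero] at hv
        exact hv rfl
      refine abs_le_of_norm hδ (hr _ h1) (le_trans ?_ hm1)
      gcongr
      linarith
  rw [hmass, integral_eq_sum_cell hgi hr hδ hm1, ← Finset.sum_sub_distrib]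
  calc |∑ v ∈ bx m, (δ ^ 2 * g (ptC δ v) - ∫ z in cell δ v, g z)|
      ≤ ∑ v ∈ bx m, |δ ^ 2 * g (ptC δ v) - ∫ z in cell δ v, g z| :=
        Finset.abs_sum_le_sum_abs _ _
    _ ≤ ∑ v ∈ bx m, 2 * L * δ ^ 3 := by
        refine Finset.sum_le_sum fun v _ => ?_
        rw [abs_sub_comm]
        exact cell_error hgi hL0 hL hδ v
    _ = ((bx m).card : ℝ) * (2 * L * δ ^ 3) := by rw [Finset.sum_const, nsmul_eq_mul]
    _ ≤ (9 * m ^ 2) * (2 * L * δ ^ 3) := by
        gcongr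
        exact card_bx_le hmpos
    _ = 9 * (δ * m) ^ 2 * (2 * L) * δ := by ring
    _ ≤ 9 * (r + 3) ^ 2 * (2 * L) * δ := by gcongr

end Crest.Agent.R161.Riem373
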