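import Crest.Agent.R161.NuInv_421

/-!
# Row 161, leaf L4 (helper421): coarse grid, ring event, static separation

Coarse grid of side `N` aligned at `0` (proposal of helper389, H-e):
* `shr N a g` : cell `a` (faces `[a₁N, (a₁+1)N) × [a₂N, (a₂+1)N)`) shrunk by `g`;
* `inV k v` : coarse vertex `v` inside the disc of squared radius `k`;
* `InCell`, `OutCell`, `RingCell` : all corners inside / no corner inside / otherwise;
* `nv N f` : coarse vertex nearest to (the centre of) the face `f`;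
* `static_sep` : along a face path avoiding `shr N a (2g)` for all ring cells `a` and avoiding the balls
  `ball (mid e) (2g+2)` around the midpoints of the coarse edges joining an inside to an outside coarse
  vertex, the label `inV k (nv N f)` is constant.
* `ringEv N g K` : all cells `a`, `|a| ≤ K`, have a circuit between `shr N a (2g)` and `shr N a g`;
* `ring_pos` : its probability is bounded below (RSW + FKG + translation invariance).
-/

set_option autoImplicit false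

noncomputable section

namespace Crest.Agent.R161.Ring421

open MeasureTheory
open Crest.Agent.R161.Geo729 Crest.Agent.R161.Defs372 Crest.Agent.R161.Dual374
open Crest.Agent.R161.Hull374 Crest.Agent.R161.Ifc372

/-! ### coarse cells -/

/-- cell `a` of the coarse grid of side `N`, shrunk by `g` -/
def shr (N : ℤ) (a : P2) (g : ℤ) : Finset P2 :=
  Finset.Icc (a.1 * N + g) ((a.1 + 1) * N - 1 - g) ×ˢ
    Finset.Icc (a.2 * N + g) ((a.2 + 1) * N - 1 - g)

theorem mem_shr {N : ℤ} {a : P2} {g : ℤ} {f : P2} : f ∈ shr N a g ↔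
    (a.1 * N + g ≤ f.1 ∧ f.1 ≤ (a.1 + 1) * N - 1 - g) ∧
      (a.2 * N + g ≤ f.2 ∧ f.2 ≤ (a.2 + 1) * N - 1 - g) := by
  simp [shr]

theorem shr_mono {N : ℤ} {a : P2} {g g' : ℤ} (h : g ≤ g') : shr N a g' ⊆ shr N a g := by
  intro f hf
  rw [mem_shr] at hf ⊢
  omega

/-- coarse vertex inside the disc of squared radius `k` -/
def inV (k : ℝ) (v : P2) : Prop := (v.1 : ℝ) ^ 2 + (v.2 : ℝ) ^ 2 < k

/-- `v` is a corner of the cell `a` (same relation as for faces) -/
def InCell (k : ℝ) (a : P2) : Prop := ∀ v, IsCorner v a → inV k v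
/-- no corner inside -/
def OutCell (k : ℝ) (a : P2) : Prop := ∀ v, IsCorner v a → ¬ inV k v
/-- some corner inside, some corner outside -/
def RingCell (k : ℝ) (a : P2) : Prop := (∃ v, IsCorner v a ∧ inV k v) ∧ ∃ v, IsCorner v a ∧ ¬ inV k v

theorem cell_cases (k : ℝ) (a : P2) : InCell k a ∨ OutCell k a ∨ RingCell k a := by
  classical
  by_cases h1 : InCell k a
  · exact Or.inl h1
  · by_cases h2 : OutCell k a
    · exact Or.inr (Or.inl h2)
    · refine Or.inr (Or.inr ⟨?_, ?_⟩)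
      · unfold OutCell at h2
        push Not at h2
        exact h2
      · unfold InCell at h1
        push Not at h1
        exact h1

/-- ring cells are at bounded distance -/
theorem RingCell.abs_le {k : ℝ} {K : ℕ} (hk : k ≤ (K : ℝ) ^ 2) {a : P2} (h : RingCell k a) :
    (-((K : ℤ) + 1) ≤ a.1 ∧ a.1 ≤ (K : ℤ) + 1) ∧ (-((K : ℤ) + 1) ≤ a.2 ∧ a.2 ≤ (K : ℤ) + 1) := by
  obtain ⟨⟨v, hv, hin⟩, _⟩ := h
  unfold inV at hin
  have h1 : (v.1 : ℝ) ^ 2 < (K : ℝ) ^ 2 := by nlinarith [sq_nonneg (v.2 : ℝ)]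
  have h2 : (v.2 : ℝ) ^ 2 < (K : ℝ) ^ 2 := by nlinarith [sq_nonneg (v.1 : ℝ)]
  have h3 : v.1 ^ 2 < (K : ℤ) ^ 2 := by exact_mod_cast h1
  have h4 : v.2 ^ 2 < (K : ℤ) ^ 2 := by exact_mod_cast h2
  have hK : (0 : ℤ) ≤ K := Int.natCast_nonneg K
  have h5 := abs_lt_of_sq_lt_sq h3 hK
  have h6 := abs_lt_of_sq_lt_sq h4 hK
  rw [abs_lt] at h5 h6
  obtain ⟨a1, a2⟩ := a
  obtain ⟨v1, v2⟩ := v
  simp only [Geo729.IsCorner, Prod.mk.injEq] at hv h5 h6
  simp only
  omega

/-- nearest coarse vertex to the centre of a face -/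
def nv (N : ℤ) (f : P2) : P2 := ((2 * f.1 + 1 + N) / (2 * N), (2 * f.2 + 1 + N) / (2 * N))

theorem nv_fst_iff {N : ℤ} (hN : 0 < N) (f : P2) (p : ℤ) : (nv N f).1 = p ↔
    (2 * p - 1) * N ≤ 2 * f.1 + 1 ∧ 2 * f.1 + 1 < (2 * p + 1) * N := by
  unfold nv
  simp only
  rw [Int.ediv_eq_iff_of_pos (by linarith : 0 < 2 * N)]
  constructor
  · rintro ⟨h1, h2⟩
    constructor <;> linarith
  · rintro ⟨h1, h2⟩
    constructor <;> linarith

theorem nv_snd_iff {N : ℤ} (hN : 0 < N) (f : P2) (p : ℤ) : (nv N f).2 = p ↔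
    (2 * p - 1) * N ≤ 2 * f.2 + 1 ∧ 2 * f.2 + 1 < (2 * p + 1) * N := by
  unfold nv
  simp only
  rw [Int.ediv_eq_iff_of_pos (by linarith : 0 < 2 * N)]
  constructor
  · rintro ⟨h1, h2⟩
    constructor <;> linarith
  · rintro ⟨h1, h2⟩
    constructor <;> linarith

/-- a face of the cell `a` has its nearest coarse vertex among the corners of `a` -/
theorem isCorner_nv {N : ℤ} (hN : 0 < N) {a f : P2} (hf : f ∈ shr N a 0) : IsCorner (nv N f) a := by
  rw [mem_shr] at hf
  obtain ⟨⟨h1, h2⟩, ⟨h3, h4⟩⟩ := hf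
  have e1 : (nv N f).1 = a.1 ∨ (nv N f).1 = a.1 + 1 := by
    rcases lt_or_ge (2 * f.1 + 1) ((2 * a.1 + 1) * N) with h | h
    · left
      rw [nv_fst_iff hN]
      constructor <;> nlinarith
    · right
      rw [nv_fst_iff hN]
      constructor <;> nlinarith
  have e2 : (nv N f).2 = a.2 ∨ (nv N f).2 = a.2 + 1 := by
    rcases lt_or_ge (2 * f.2 + 1) ((2 * a.2 + 1) * N) with h | h
    · left
      rw [nv_snd_iff hN]
      constructor <;> nlinarith
    · right
      rw [nv_snd_iff hN]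
      constructor <;> nlinarith
  unfold Geo729.IsCorner
  rcases e1 with e1 | e1 <;> rcases e2 with e2 | e2 <;>
    simp [Prod.ext_iff, e1, e2]

theorem label_in {N : ℤ} (hN : 0 < N) {k : ℝ} {a f : P2} (ha : InCell k a) (hf : f ∈ shr N a 0) :
    inV k (nv N f) := ha _ (isCorner_nv hN hf)

theorem label_out {N : ℤ} (hN : 0 < N) {k : ℝ} {a f : P2} (ha : OutCell k a)
    (hf : f ∈ shr N a 0) : ¬ inV k (nv N f) := ha _ (isCorner_nv hN hf)

/-! ### static separation -/

/-- midpoint (rounded down) of the coarse edge `e` -/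
def mid (N : ℤ) (e : Edge) : P2 := ((src e).1 * N + ((tgt e).1 - (src e).1) * (N / 2),
  (src e).2 * N + ((tgt e).2 - (src e).2) * (N / 2))

@[simp] theorem mid_h (N : ℤ) (v : P2) : mid N (v, false) = (v.1 * N + N / 2, v.2 * N) := by
  simp [mid]
@[simp] theorem mid_v (N : ℤ) (v : P2) : mid N (v, true) = (v.1 * N, v.2 * N + N / 2) := by
  simp [mid]

/-- coarse edge joining an inside to an outside coarse vertex -/
def CrossE (k : ℝ) (e : Edge) : Prop :=
  (inV k (src e) ∧ ¬ inV k (tgt e)) ∨ (¬ inV k (src e) ∧ inV k (tgt e))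

/-- both cells bordering a crossing coarse edge are ring cells -/
theorem CrossE.ring {k : ℝ} {e : Edge} (h : CrossE k e) : RingCell k (fA e) ∧ RingCell k (fB e) := by
  have hc : IsCorner (src e) (fA e) ∧ IsCorner (tgt e) (fA e) ∧ IsCorner (src e) (fB e) ∧
      IsCorner (tgt e) (fB e) := by
    obtain ⟨⟨a, b⟩, c⟩ := e
    cases c <;> simp [Geo729.IsCorner]
  obtain ⟨h1, h2, h3, h4⟩ := hc
  rcases h with ⟨h5, h6⟩ | ⟨h5, h6⟩
  · exact ⟨⟨⟨_, h1, h5⟩, ⟨_, h2, h6⟩⟩, ⟨⟨_, h3, h5⟩, ⟨_, h4, h6⟩⟩⟩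
  · exact ⟨⟨⟨_, h2, h6⟩, ⟨_, h1, h5⟩⟩, ⟨⟨_, h4, h6⟩, ⟨_, h3, h5⟩⟩⟩

/-- horizontal step across a vertical mid line -/
theorem sep_h {N g : ℤ} (hg : 0 ≤ g) (hN : 4 * g + 8 ≤ N) {k : ℝ} {f : P2} {p : ℤ}
    (h1 : (nv N f).1 = p) (h2 : (nv N (f.1 + 1, f.2)).1 = p + 1)
    (hlab : ¬ (inV k (nv N f) ↔ inV k (nv N (f.1 + 1, f.2))))
    (hA : ∀ a, RingCell k a → f ∉ shr N a (2 * g)) :
    ∃ e, CrossE k e ∧ |f.1 - (mid N e).1| ≤ 1 ∧ |f.2 - (mid N e).2| ≤ 2 * g + 1 := by
  have hN0 : 0 < N := by linarith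
  set q := (nv N f).2 with hq
  have hq2 : (nv N (f.1 + 1, f.2)).2 = q := rfl
  have e1 : nv N f = (p, q) := Prod.ext h1 rfl
  have e2 : nv N (f.1 + 1, f.2) = (p + 1, q) := Prod.ext h2 hq2
  rw [e1, e2] at hlab
  have hcr : CrossE k ((p, q), false) := by
    unfold CrossE
    simp only [src_mk, tgt_h]
    tauto
  refine ⟨((p, q), false), hcr, ?_⟩
  rw [nv_fst_iff hN0] at h1 h2
  simp only at h2
  have hq' := (nv_snd_iff hN0 f q).1 rfl
  have hm1 : N / 2 * 2 ≤ N := Int.ediv_mul_le _ (by norm_num)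
  have hm2 : N < N / 2 * 2 + 2 := by omega
  obtain ⟨hr1, hr2⟩ := hcr.ring
  have n1 := hA _ hr1
  have n2 := hA _ hr2
  rw [mem_shr] at n1 n2
  simp only [fA_mk, fB_h] at n1 n2
  simp only [mid_h]
  have hp : (2 * p + 1) * N = 2 * (p * N) + N := by ring
  have hp1 : (2 * (p + 1) - 1) * N = 2 * (p * N) + N := by ring
  have hp2 : (2 * (p + 1) + 1) * N = 2 * (p * N) + 3 * N := by ring
  have hp3 : (2 * p - 1) * N = 2 * (p * N) - N := by ring
  have hp4 : (p + 1) * N = p * N + N := by ring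
  have hq1 : (2 * q + 1) * N = 2 * (q * N) + N := by ring
  have hq3 : (2 * q - 1) * N = 2 * (q * N) - N := by ring
  have hq4 : (q + 1) * N = q * N + N := by ring
  have hq5 : (q - 1) * N = q * N - N := by ring
  have hq6 : (q - 1 + 1) * N = q * N := by ring
  rw [hp, hp3] at h1
  rw [hp1, hp2] at h2
  rw [hq1, hq3] at hq'
  rw [hp4, hq4] at n1
  rw [hp4, hq5, hq6] at n2
  generalize hX : p * N = X at *
  generalize hY : q * N = Y at *
  constructor
  · rw [abs_le]; constructor <;> omega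
  · rw [abs_le]
    constructor
    · by_contra hcon
      push Not at hcon
      apply n2
      omega
    · by_contra hcon
      push Not at hcon
      apply n1
      omega

/-- vertical step across a horizontal mid line -/
theorem sep_v {N g : ℤ} (hg : 0 ≤ g) (hN : 4 * g + 8 ≤ N) {k : ℝ} {f : P2} {p : ℤ}
    (h1 : (nv N f).2 = p) (h2 : (nv N (f.1, f.2 + 1)).2 = p + 1)
    (hlab : ¬ (inV k (nv N f) ↔ inV k (nv N (f.1, f.2 + 1))))
    (hA : ∀ a, RingCell k a → f ∉ shr N a (2 * g)) :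
    ∃ e, CrossE k e ∧ |f.1 - (mid N e).1| ≤ 2 * g + 1 ∧ |f.2 - (mid N e).2| ≤ 1 := by
  have hN0 : 0 < N := by linarith
  set q := (nv N f).1 with hq
  have hq2 : (nv N (f.1, f.2 + 1)).1 = q := rfl
  have e1 : nv N f = (q, p) := Prod.ext rfl h1
  have e2 : nv N (f.1, f.2 + 1) = (q, p + 1) := Prod.ext hq2 h2
  rw [e1, e2] at hlab
  have hcr : CrossE k ((q, p), true) := by
    unfold CrossE
    simp only [src_mk, tgt_v]
    tauto
  refine ⟨((q, p), true), hcr, ?_⟩
  rw [nv_snd_iff hN0] at h1 h2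
  simp only at h2
  have hq' := (nv_fst_iff hN0 f q).1 rfl
  have hm1 : N / 2 * 2 ≤ N := Int.ediv_mul_le _ (by norm_num)
  have hm2 : N < N / 2 * 2 + 2 := by omega
  obtain ⟨hr1, hr2⟩ := hcr.ring
  have n1 := hA _ hr1
  have n2 := hA _ hr2
  rw [mem_shr] at n1 n2
  simp only [fA_mk, fB_v] at n1 n2
  simp only [mid_v]
  have hp : (2 * p + 1) * N = 2 * (p * N) + N := by ring
  have hp1 : (2 * (p + 1) - 1) * N = 2 * (p * N) + N := by ring
  have hp2 : (2 * (p + 1) + 1) * N = 2 * (p * N) + 3 * N := by ring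
  have hp3 : (2 * p - 1) * N = 2 * (p * N) - N := by ring
  have hp4 : (p + 1) * N = p * N + N := by ring
  have hq1 : (2 * q + 1) * N = 2 * (q * N) + N := by ring
  have hq3 : (2 * q - 1) * N = 2 * (q * N) - N := by ring
  have hq4 : (q + 1) * N = q * N + N := by ring
  have hq5 : (q - 1) * N = q * N - N := by ring
  have hq6 : (q - 1 + 1) * N = q * N := by ring
  rw [hp, hp3] at h1
  rw [hp1, hp2] at h2
  rw [hq1, hq3] at hq'
  rw [hp4, hq4] at n1
  rw [hp4, hq5, hq6] at n2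
  generalize hX : p * N = X at *
  generalize hY : q * N = Y at *
  constructor
  · rw [abs_le]
    constructor
    · by_contra hcon
      push Not at hcon
      apply n2
      omega
    · by_contra hcon
      push Not at hcon
      apply n1
      omega
  · rw [abs_le]; constructor <;> omega

theorem nv_succ {N : ℤ} (hN : 2 ≤ N) (f : P2) :
    (nv N (f.1 + 1, f.2)).1 = (nv N f).1 ∨ (nv N (f.1 + 1, f.2)).1 = (nv N f).1 + 1 := by
  have hN0 : 0 < N := by linarith
  have h := (nv_fst_iff hN0 f _).1 rfl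
  set p := (nv N f).1
  rcases lt_or_ge (2 * (f.1 + 1) + 1) ((2 * p + 1) * N) with h1 | h1
  · left
    rw [nv_fst_iff hN0]
    simp only
    constructor
    · linarith [h.1]
    · exact h1
  · right
    rw [nv_fst_iff hN0]
    simp only
    constructor
    · have : (2 * (p + 1) - 1) * N = (2 * p + 1) * N := by ring
      rw [this]; exact h1
    · have : (2 * (p + 1) + 1) * N = (2 * p + 1) * N + 2 * N := by ring
      rw [this]; linarith [h.2]

theorem nv_succ' {N : ℤ} (hN : 2 ≤ N) (f : P2) :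
    (nv N (f.1, f.2 + 1)).2 = (nv N f).2 ∨ (nv N (f.1, f.2 + 1)).2 = (nv N f).2 + 1 := by
  have hN0 : 0 < N := by linarith
  have h := (nv_snd_iff hN0 f _).1 rfl
  set p := (nv N f).2
  rcases lt_or_ge (2 * (f.2 + 1) + 1) ((2 * p + 1) * N) with h1 | h1
  · left
    rw [nv_snd_iff hN0]
    simp only
    constructor
    · linarith [h.1]
    · exact h1
  · right
    rw [nv_snd_iff hN0]
    simp only
    constructor
    · have : (2 * (p + 1) - 1) * N = (2 * p + 1) * N := by ring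
      rw [this]; exact h1
    · have : (2 * (p + 1) + 1) * N = (2 * p + 1) * N + 2 * N := by ring
      rw [this]; linarith [h.2]

/-- One step: if the label changes between adjacent faces `f, f'` which both avoid the shrunk ring
cells then both are in a small ball around the midpoint of a crossing coarse edge. -/
theorem label_step {N g : ℤ} (hg : 0 ≤ g) (hN : 4 * g + 8 ≤ N) {k : ℝ} {f f' : P2}
    (hadj : Adj f f') (hlab : ¬ (inV k (nv N f) ↔ inV k (nv N f')))
    (hA : ∀ a, RingCell k a → f ∉ shr N a (2 * g))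
    (hA' : ∀ a, RingCell k a → f' ∉ shr N a (2 * g)) :
    ∃ e, CrossE k e ∧ Near (2 * g + 2) f (mid N e) ∧ Near (2 * g + 2) f' (mid N e) := by
  have main : ∀ f f' : P2, (f' = (f.1 + 1, f.2) ∨ f' = (f.1, f.2 + 1)) →
      ¬ (inV k (nv N f) ↔ inV k (nv N f')) → (∀ a, RingCell k a → f ∉ shr N a (2 * g)) →
      ∃ e, CrossE k e ∧ Near (2 * g + 2) f (mid N e) ∧ Near (2 * g + 2) f' (mid N e) := by
    rintro f f' (rfl | rfl) hlab hA
    · rcases nv_succ (by linarith : 2 ≤ N) f with h | h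
      · exfalso
        apply hlab
        have : nv N (f.1 + 1, f.2) = nv N f := Prod.ext h rfl
        rw [this]
      · obtain ⟨e, he, h1, h2⟩ := sep_h hg hN rfl h hlab hA
        refine ⟨e, he, ?_, ?_⟩
        · unfold Near; rw [abs_le] at *; simp only [abs_le]; omega
        · unfold Near; rw [abs_le] at *; simp only [abs_le]; omega
    · rcases nv_succ' (by linarith : 2 ≤ N) f with h | h
      · exfalso
        apply hlab
        have : nv N (f.1, f.2 + 1) = nv N f := Prod.ext rfl h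
        rw [this]
      · obtain ⟨e, he, h1, h2⟩ := sep_v hg hN rfl h hlab hA
        refine ⟨e, he, ?_, ?_⟩
        · unfold Near; rw [abs_le] at *; simp only [abs_le]; omega
        · unfold Near; rw [abs_le] at *; simp only [abs_le]; omega
  rcases hadj with h | h | h | h
  · exact main f f' (Or.inl h) hlab hA
  · have h' : f = (f'.1 + 1, f'.2) := by rw [h]; simp
    obtain ⟨e, he, h1, h2⟩ := main f' f (Or.inl h') (fun hh => hlab hh.symm) hA'
    exact ⟨e, he, h2, h1⟩
  · exact main f f' (Or.inr h) hlab hA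
  · have h' : f = (f'.1, f'.2 + 1) := by rw [h]; simp
    obtain ⟨e, he, h1, h2⟩ := main f' f (Or.inr h') (fun hh => hlab hh.symm) hA'
    exact ⟨e, he, h2, h1⟩

/-- **Static separation lemma.** Along a face path avoiding the shrunk ring cells and the balls around
the midpoints of the crossing coarse edges, the label is constant. -/
theorem static_sep {N g : ℤ} (hg : 0 ≤ g) (hN : 4 * g + 8 ≤ N) {k : ℝ} {T : Set P2}
    (hT1 : ∀ f ∈ T, ∀ a, RingCell k a → f ∉ shr N a (2 * g))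
    (hT2 : ∀ f ∈ T, ∀ e, CrossE k e → ¬ Near (2 * g + 2) f (mid N e)) {f f' : P2}
    (h : Conn T f f') : inV k (nv N f) ↔ inV k (nv N f') := by
  induction h with
  | refl => exact Iff.rfl
  | @tail b c _ h2 ih =>
    refine ih.trans ?_
    by_contra hlab
    obtain ⟨hb, hc, ha⟩ := h2
    obtain ⟨e, he, h3, _⟩ := label_step hg hN ha hlab (hT1 b hb) (hT1 c hc)
    exact hT2 b hb e he h3

/-- static separation for paths of non-`Z` steps -/
theorem static_sep_dstep {N g : ℤ} (hg : 0 ≤ g) (hN : 4 * g + 8 ≤ N) {k : ℝ} {Z : Edge → Prop}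
    {T : Set P2}
    (hT1 : ∀ f ∈ T, ∀ a, RingCell k a → f ∉ shr N a (2 * g))
    (hT2 : ∀ f ∈ T, ∀ e, CrossE k e → ¬ Near (2 * g + 2) f (mid N e)) {f f' : P2}
    (h : Relation.ReflTransGen (fun a b => DStep (fun e => ¬ Z e) a b ∧ a ∈ T ∧ b ∈ T) f f') :
    inV k (nv N f) ↔ inV k (nv N f') := by
  refine static_sep hg hN hT1 hT2 ?_
  induction h with
  | refl => exact .refl
  | tail _ h2 ih => exact ih.tail ⟨h2.2.1, h2.2.2, dstep_adj h2.1⟩

/-! ### the ring event -/

/-- index set of cells -/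
def cells (K : ℕ) : Finset P2 := idx K

/-- all cells `a` with `|a| ≤ K` have a circuit in the collar between `shr N a (2g)` and `shr N a g` -/
def ringEv (N g : ℤ) (K : ℕ) : Set (Edge → Bool) :=
  ⋂ a ∈ idx K, SepZ (shr N a (2 * g) : Set P2) (shr N a g : Set P2)

theorem locEv_ringEv (N g : ℤ) (K : ℕ) : LocEv (ringEv N g K) :=
  locEv_iInter _ _ fun a _ => ⟨_, locOn_sepZ _ (shr N a g)⟩

theorem incEv_ringEv (N g : ℤ) (K : ℕ) : IncEv (ringEv N g K) :=
  incEv_iInter _ _ fun _ _ => incEv_sepZ _ _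

theorem mem_ringEv {N g : ℤ} {K : ℕ} {z : Edge → Bool} : z ∈ ringEv N g K ↔
    ∀ a ∈ idx K, Reach (fun e => z e = true) (shr N a (2 * g) : Set P2) ⊆ (shr N a g : Set P2) := by
  simp only [ringEv, Set.mem_iInter]
  rfl

/-- `Good` implies the ring event. -/
theorem goodZ_subset_ringEv {N g : ℤ} {n Q K : ℕ} (hn : 1 ≤ n) (hg : 3 * (n : ℤ) ≤ g) (hN : 0 ≤ N)
    (hQ : ((K : ℤ) + 1) * N ≤ Q * n) : GoodZ n Q ⊆ ringEv N g K := by
  intro z hz
  rw [mem_goodZ] at hz
  rw [mem_ringEv]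
  intro a ha
  simp only [idx, Finset.mem_product, Finset.mem_Icc] at ha
  refine hz.reach_subset hn ?_ ?_
  · intro f hf
    rw [Finset.mem_coe, mem_shr] at hf
    obtain ⟨⟨a1, a2⟩, ⟨a3, a4⟩⟩ := ha
    obtain ⟨⟨f1, f2⟩, ⟨f3, f4⟩⟩ := hf
    have hg0 : 0 ≤ g := le_trans (by positivity) hg
    refine ⟨⟨?_, ?_⟩, ⟨?_, ?_⟩⟩ <;> nlinarith
  · intro f hf g' hg'
    rw [Finset.mem_coe, mem_shr] at hf ⊢
    unfold Near at hg'
    rw [abs_le, abs_le] at hg'
    obtain ⟨⟨g1, g2⟩, ⟨g3, g4⟩⟩ := hg'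
    obtain ⟨⟨f1, f2⟩, ⟨f3, f4⟩⟩ := hf
    refine ⟨⟨?_, ?_⟩, ⟨?_, ?_⟩⟩ <;> linarith

/-- **Ring probability** (L4): for a translation invariant, positively associated percolation with the
RSW property, the ring event has probability bounded below as soon as `g` is large and
`N ≤ R * g`. -/
theorem ring_pos {ν : Measure (Edge → Bool)} [IsProbabilityMeasure ν] (hF : FKGLoc ν)
    (hT : TInv ν) (hR : RSWc ν) (K R : ℕ) :
    ∃ (p : ℝ) (g0 : ℕ), 0 < p ∧ ∀ N g : ℤ, (g0 : ℤ) ≤ g → 0 ≤ N → N ≤ R * g →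
      p ≤ (ν (ringEv N g K)).toReal := by
  obtain ⟨q, n0, hq, hn0⟩ := hR
  set Q : ℕ := 6 * (K + 1) * R with hQ
  refine ⟨q ^ ((2 * Q + 1) ^ 2), 3 * (n0 + 1), by positivity, ?_⟩
  intro N g hg hN hNR
  set n : ℕ := (g / 3).toNat with hn
  have hg0 : 0 ≤ g := le_trans (by positivity) hg
  have hn' : (n : ℤ) = g / 3 := by
    rw [hn, Int.toNat_of_nonneg (by omega)]
  have hnn0 : n0 + 1 ≤ n := by
    push_cast at hg
    omega
  have h1 := goodZ_ge hF hT hq.le (hn0 n (by omega)) Q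
  refine h1.trans (ENNReal.toReal_mono (measure_ne_top _ _) (measure_mono ?_))
  refine goodZ_subset_ringEv (by omega) (by omega) hN ?_
  have h2 : g ≤ 6 * (n : ℤ) := by omega
  have hR0 : (0 : ℤ) ≤ R := Int.natCast_nonneg R
  have hK0 : (0 : ℤ) ≤ K := Int.natCast_nonneg K
  calc ((K : ℤ) + 1) * N ≤ ((K : ℤ) + 1) * (R * g) := by
        apply mul_le_mul_of_nonneg_left hNR; linarith
    _ ≤ ((K : ℤ) + 1) * (R * (6 * n)) := by
        apply mul_le_mul_of_nonneg_left _ (by linarith)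
        exact mul_le_mul_of_nonneg_left h2 hR0
    _ = (Q : ℤ) * n := by rw [hQ]; push_cast; ring

/-- the same on the level of configurations, symmetrised state -/
theorem ring_pos_psym {c : ℝ} {P : Measure Cfg} (hP : IsState c P) (hF : FKGLoc (nu P))
    (hR : RSWc (nu P)) (K R : ℕ) :
    ∃ (p : ℝ) (g0 : ℕ), 0 < p ∧ ∀ N g : ℤ, (g0 : ℤ) ≤ g → 0 ≤ N → N ≤ R * g →
      p ≤ (Psym P {ω | ∀ a ∈ idx K,
        Reach (plusE ω) (shr N a (2 * g) : Set P2) ⊆ (shr N a g : Set P2)}).toReal := by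
  have := hP.prob
  obtain ⟨p, g0, hp, h⟩ := ring_pos hF (NuInv421.tInv_nu hP) hR K R
  refine ⟨p, g0, hp, fun N g hg hN hNR => ?_⟩
  have h1 := h N g hg hN hNR
  unfold nu at h1
  rw [Measure.map_apply NuInv421.measurable_plusMap (locEv_ringEv N g K).measurableSet] at h1
  convert h1 using 3
  ext ω
  simp only [Set.mem_ofPred_eq, Set.mem_preimage, mem_ringEv]
  have : (fun e => plusMap ω e = true) = plusE ω := by
    funext e
    simp [plusMap]
  rw [this]

end Crest.Agent.R161.Ring421
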