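import Crest.Agent.R161.Ring2_421

/-!
# Row 161, leaf L4 (helper421): all thick annuli of the region have circuits with positive probability

`circ_all_pos`: for a translation invariant, positively associated percolation with the RSW property, for
every `R` there are `p > 0`, `g0` such that for `g ≥ g0`, with probability at least `p`, ALL annuli
`ball x m \ ball x n` with `m - n ≥ g` and `ball x n ⊆ [-Rg, Rg]²` contain a circuit (simultaneously).
-/

set_option autoImplicit false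

noncomputable section

namespace Crest.Agent.R161.Ring421

open MeasureTheory
open Crest.Agent.R161.Geo729 Crest.Agent.R161.Defs372 Crest.Agent.R161.Dual374
open Crest.Agent.R161.Hull374 Crest.Agent.R161.Ifc372

/-- all annuli of thickness `≥ g` in the region `[-Rg, Rg]²` have a circuit -/
def AllCirc (Z : Edge → Prop) (g R : ℕ) : Prop :=
  ∀ (x : P2) (n m : ℕ), n + g ≤ m → |x.1| + n ≤ (R : ℤ) * g → |x.2| + n ≤ (R : ℤ) * g → Circ Z x n m

theorem Good.allCirc {Z : Edge → Prop} {n Q g R : ℕ} (hn : 1 ≤ n) (hg : 3 * n ≤ g)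
    (hQ : (R : ℤ) * g ≤ Q * n) (h : Good Z n Q) : AllCirc Z g R := by
  intro x k m hkm hx1 hx2
  refine h.reach_subset hn ?_ ?_
  · intro f hf
    simp only [ball, Finset.coe_product, Set.mem_prod, Finset.coe_Icc, Set.mem_Icc] at hf
    obtain ⟨⟨f1, f2⟩, ⟨f3, f4⟩⟩ := hf
    have := neg_abs_le x.1
    have := le_abs_self x.1
    have := neg_abs_le x.2
    have := le_abs_self x.2
    refine ⟨⟨?_, ?_⟩, ⟨?_, ?_⟩⟩ <;> linarith
  · intro f hf f' hf'
    simp only [ball, Finset.coe_product, Set.mem_prod, Finset.coe_Icc, Set.mem_Icc] at hf ⊢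
    obtain ⟨⟨f1, f2⟩, ⟨f3, f4⟩⟩ := hf
    unfold Near at hf'
    rw [abs_le, abs_le] at hf'
    obtain ⟨⟨g1, g2⟩, ⟨g3, g4⟩⟩ := hf'
    have h1 : (k : ℤ) + 3 * n ≤ m := by exact_mod_cast (by omega : k + 3 * n ≤ m)
    refine ⟨⟨?_, ?_⟩, ⟨?_, ?_⟩⟩ <;> linarith

/-- **Ring probability, universal form.** -/
theorem circ_all_pos {ν : Measure (Edge → Bool)} [IsProbabilityMeasure ν] (hF : FKGLoc ν)
    (hT : TInv ν) (hR : RSWc ν) (R : ℕ) :
    ∃ (p : ℝ) (g0 : ℕ), 0 < p ∧ ∀ g : ℕ, g0 ≤ g → ∀ A : Set (Edge → Bool),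
      (∀ z, AllCirc (fun e => z e = true) g R → z ∈ A) → p ≤ (ν A).toReal := by
  obtain ⟨q, n0, hq, hn0⟩ := hR
  set Q : ℕ := 6 * R with hQ
  refine ⟨q ^ ((2 * Q + 1) ^ 2), 3 * (n0 + 1), by positivity, ?_⟩
  intro g hg A hA
  set n : ℕ := g / 3 with hn
  have h1 := goodZ_ge hF hT hq.le (hn0 n (by omega)) Q
  refine h1.trans (ENNReal.toReal_mono (measure_ne_top _ _) (measure_mono ?_))
  intro z hz
  rw [mem_goodZ] at hz
  refine hA z (hz.allCirc (by omega) (by omega) ?_)
  have h2 : (g : ℤ) ≤ 6 * (n : ℤ) := by omega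
  have hR0 : (0 : ℤ) ≤ R := Int.natCast_nonneg R
  calc (R : ℤ) * g ≤ R * (6 * n) := mul_le_mul_of_nonneg_left h2 hR0
    _ = (Q : ℤ) * n := by rw [hQ]; push_cast; ring

/-- **Ring probability for the symmetrised state**: for every event `B` of configurations implied by
`AllCirc (plusE ω) g R`. -/
theorem circ_all_pos_psym {c : ℝ} {P : Measure Cfg} (hP : IsState c P) (hF : FKGLoc (nu P))
    (hR : RSWc (nu P)) (R : ℕ) :
    ∃ (p : ℝ) (g0 : ℕ), 0 < p ∧ ∀ g : ℕ, g0 ≤ g → ∀ B : Set Cfg,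
      (∀ ω, AllCirc (plusE ω) g R → ω ∈ B) → p ≤ (Psym P B).toReal := by
  have := hP.prob
  obtain ⟨q, n0, hq, hn0⟩ := hR
  have : IsProbabilityMeasure (Psym P) := by
    constructor
    have h := (NuInv421.nu_prob (P := P)).measure_univ
    unfold nu at h
    rwa [Measure.map_apply NuInv421.measurable_plusMap MeasurableSet.univ, Set.preimage_univ] at h
  set Q : ℕ := 6 * R with hQ
  refine ⟨q ^ ((2 * Q + 1) ^ 2), 3 * (n0 + 1), by positivity, ?_⟩
  intro g hg B hB
  set n : ℕ := g / 3 with hn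
  have h1 := goodZ_ge hF (NuInv421.tInv_nu hP) hq.le (hn0 n (by omega)) Q
  refine h1.trans ?_
  unfold nu
  rw [Measure.map_apply NuInv421.measurable_plusMap (locEv_goodZ n Q).measurableSet]
  refine ENNReal.toReal_mono (measure_ne_top _ _) (measure_mono ?_)
  intro ω hω
  rw [Set.mem_preimage, mem_goodZ] at hω
  have he : (fun e => plusMap ω e = true) = plusE ω := by
    funext e
    simp [plusMap]
  rw [he] at hω
  refine hB ω (hω.allCirc (by omega) (by omega) ?_)
  have h2 : (g : ℤ) ≤ 6 * (n : ℤ) := by omega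
  have hR0 : (0 : ℤ) ≤ R := Int.natCast_nonneg R
  calc (R : ℤ) * g ≤ R * (6 * n) := mul_le_mul_of_nonneg_left h2 hR0
    _ = (Q : ℤ) * n := by rw [hQ]; push_cast; ring

end Crest.Agent.R161.Ring421
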