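import Crest.Agent.R161.Ring3_421
import Crest.Agent.R161.Clo_389

/-!
# Row 161, leaf L4 (helper421): input (R2) of the ring assembly (helper695)

`ep_pos`: for the literal ring of helper389 (`Clo_389`: `Ep M g 𝒱 (plusE ω)`), for every coarse region `𝒱`
and every ratio `lam` there are `p > 0`, `g0` with
`p ≤ ∫ (1_{Ep}(ω) + 1_{Ep}(ω + 2)) dP` for all `g ≥ g0`, `2 g < M ≤ lam g`.
-/

set_option autoImplicit false

noncomputable section

namespace Crest.Agent.R161.Ring421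

open MeasureTheory
open Crest.Agent.R161.Geo729 Crest.Agent.R161.Defs372 Crest.Agent.R161.Dual374
open Crest.Agent.R161.Hull374 Crest.Agent.R161.Ifc372 Crest.Agent.R161.NuInv421

/-- the ring event of helper389 as an event of the percolation -/
def EpSet (M g : ℕ) (𝒱 : Finset P2) : Set (Edge → Bool) :=
  {z | Clo389.Ep M g 𝒱 (fun e => z e = true)}

theorem epSet_eq (M g : ℕ) (𝒱 : Finset P2) :
    EpSet M g 𝒱 = ⋂ a ∈ Clo389.ringCells 𝒱, CircZ (Clo389.ctr M a) (M - 2 * g) (M - g) := by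
  ext z
  simp only [EpSet, Clo389.Ep, Set.mem_setOf_eq, Set.mem_iInter, CircZ]

theorem locEv_epSet (M g : ℕ) (𝒱 : Finset P2) : LocEv (EpSet M g 𝒱) := by
  rw [epSet_eq]
  exact locEv_iInter _ _ fun _ _ => locEv_circZ _ _ _

theorem mem_epSet {M g : ℕ} {𝒱 : Finset P2} {ω : Cfg} :
    plusMap ω ∈ EpSet M g 𝒱 ↔ Clo389.Ep M g 𝒱 (plusE ω) := by
  have he : (fun e => plusMap ω e = true) = plusE ω := by
    funext e
    simp [plusMap]
  unfold EpSet
  rw [Set.mem_setOf_eq, he]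

/-- coarse radius of a finite set of coarse vertices -/
def crad (𝒱 : Finset P2) : ℕ := 𝒱.sup fun v => max v.1.natAbs v.2.natAbs

theorem le_crad {𝒱 : Finset P2} {v : P2} (hv : v ∈ 𝒱) :
    |v.1| ≤ (crad 𝒱 : ℤ) ∧ |v.2| ≤ (crad 𝒱 : ℤ) := by
  have h : max v.1.natAbs v.2.natAbs ≤ crad 𝒱 :=
    Finset.le_sup (f := fun v : P2 => max v.1.natAbs v.2.natAbs) hv
  have h1 : v.1.natAbs ≤ crad 𝒱 := (le_max_left _ _).trans h
  have h2 : v.2.natAbs ≤ crad 𝒱 := (le_max_right _ _).trans h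
  rw [Int.abs_eq_natAbs, Int.abs_eq_natAbs]
  exact ⟨by exact_mod_cast h1, by exact_mod_cast h2⟩

theorem ringCells_bound {𝒱 : Finset P2} {a : P2} (ha : a ∈ Clo389.ringCells 𝒱) :
    |a.1| ≤ (crad (Clo389.ringCells 𝒱) : ℤ) ∧ |a.2| ≤ (crad (Clo389.ringCells 𝒱) : ℤ) := le_crad ha

/-- the ring event follows from `AllCirc` -/
theorem ep_of_allCirc {Z : Edge → Prop} {M g lam : ℕ} {𝒱 : Finset P2} (hM : 2 * g < M)
    (hlam : M ≤ lam * g) (h : AllCirc Z g ((2 * crad (Clo389.ringCells 𝒱) + 2) * lam)) :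
    Clo389.Ep M g 𝒱 Z := by
  intro a ha
  obtain ⟨h1, h2⟩ := ringCells_bound ha
  set C : ℕ := crad (Clo389.ringCells 𝒱) with hC
  have hM' : (M : ℤ) ≤ lam * g := by exact_mod_cast hlam
  have hn : ((M - 2 * g : ℕ) : ℤ) ≤ M := by omega
  have hM0 : (0 : ℤ) ≤ M := Int.natCast_nonneg M
  have hC0 : (0 : ℤ) ≤ C := Int.natCast_nonneg C
  have key : ∀ t : ℤ, |t| ≤ C → |2 * (M : ℤ) * t + M| + ((M - 2 * g : ℕ) : ℤ) ≤
      (((2 * C + 2) * lam : ℕ) : ℤ) * g := by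
    intro t ht
    have h3 : |2 * (M : ℤ) * t + M| ≤ 2 * M * C + M := by
      refine (abs_add_le _ _).trans ?_
      rw [abs_mul, abs_of_nonneg hM0, abs_of_nonneg (by positivity : (0 : ℤ) ≤ 2 * M)]
      have := mul_le_mul_of_nonneg_left ht (by positivity : (0 : ℤ) ≤ 2 * M)
      linarith
    have h4 : (2 * C + 2) * (M : ℤ) ≤ (2 * C + 2) * (lam * g) :=
      mul_le_mul_of_nonneg_left hM' (by positivity)
    push_cast at h4 ⊢
    calc |2 * (M : ℤ) * t + M| + ((M - 2 * g : ℕ) : ℤ) ≤ (2 * M * C + M) + M := add_le_add h3 hn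
      _ = (2 * C + 2) * (M : ℤ) := by ring
      _ ≤ (2 * C + 2) * (lam * g) := h4
      _ = (2 * C + 2) * lam * g := by ring
  exact h (Clo389.ctr M a) (M - 2 * g) (M - g) (by omega) (key a.1 h1) (key a.2 h2)

/-- **(R2)**: the literal ring of helper389 has positive probability under the symmetrised state. -/
theorem ep_pos {c : ℝ} {P : Measure Cfg} (hP : IsState c P) (hF : FKGLoc (nu P))
    (hR : RSWc (nu P)) (𝒱 : Finset P2) (lam : ℕ) :
    ∃ (p : ℝ) (g0 : ℕ), 0 < p ∧ ∀ g M : ℕ, g0 ≤ g → 2 * g < M → M ≤ lam * g →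
      p ≤ ∫ ω, (indP (fun ω => Clo389.Ep M g 𝒱 (plusE ω)) ω +
        indP (fun ω => Clo389.Ep M g 𝒱 (plusE ω)) (addH 2 ω)) ∂P := by
  classical
  have := hP.prob
  obtain ⟨p, g0, hp, h⟩ := circ_all_pos hF (tInv_nu hP) hR
    ((2 * crad (Clo389.ringCells 𝒱) + 2) * lam)
  refine ⟨p, g0, hp, ?_⟩
  intro g M hg hM hlam
  have h1 := h g hg (EpSet M g 𝒱) fun z hz => ep_of_allCirc hM hlam hz
  have h2 := nu_real (P := P) (locEv_epSet M g 𝒱).measurableSet
  unfold Measure.real at h2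
  rw [h2] at h1
  have h3 : ∀ ω : Cfg, indP (fun ω => Clo389.Ep M g 𝒱 (plusE ω)) ω +
        indP (fun ω => Clo389.Ep M g 𝒱 (plusE ω)) (addH 2 ω) = 2 * GA (EpSet M g 𝒱) ω := by
    intro ω
    unfold GA indP
    simp only [mem_epSet]
    ring
  simp only [h3]
  rw [integral_const_mul]
  linarith

/-- the same with `P`-probabilities of the two shifted events, in terms of `Psym`. -/
theorem ep_pos_psym {c : ℝ} {P : Measure Cfg} (hP : IsState c P) (hF : FKGLoc (nu P))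
    (hR : RSWc (nu P)) (𝒱 : Finset P2) (lam : ℕ) :
    ∃ (p : ℝ) (g0 : ℕ), 0 < p ∧ ∀ g M : ℕ, g0 ≤ g → 2 * g < M → M ≤ lam * g →
      p ≤ (Psym P {ω | Clo389.Ep M g 𝒱 (plusE ω)}).toReal := by
  obtain ⟨p, g0, hp, h⟩ := circ_all_pos_psym hP hF hR
    ((2 * crad (Clo389.ringCells 𝒱) + 2) * lam)
  exact ⟨p, g0, hp, fun g M hg hM hlam => h g hg _ fun ω hω => ep_of_allCirc hM hlam hω⟩

end Crest.Agent.R161.Ring421
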