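import Crest.Agent.R161.Lap_695
import Crest.Agent.R161.Clo_389

/-!
R161, block I (helper695): geometry of the coarse ring.

Coarse vertex sets `disc 1 R` (= `faces (1/R)`), blocks `regF M (disc 1 R)`.
-/

set_option autoImplicit false

noncomputable section

namespace Crest.Agent.R161.RingGeo695

open Finset Metric
open Crest.Agent.R161.Geo729 Crest.Agent.R161.Defs372 Crest.Agent.R161.Asm695
open Crest.Agent.R161.Lap695 Crest.Agent.R161.Clo389
open Crest.ProbabilityR.AshkinTeller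

/-! ### positions -/

theorem add00 (v : P2) : v + (0, 0) = v := by ext <;> simp
theorem add10 (v : P2) : v + (1, 0) = (v.1 + 1, v.2) := by ext <;> simp
theorem add01 (v : P2) : v + (0, 1) = (v.1, v.2 + 1) := by ext <;> simp
theorem add11 (v : P2) : v + (1, 1) = (v.1 + 1, v.2 + 1) := by ext <;> simp
theorem addm10 (v : P2) : v + (-1, 0) = (v.1 - 1, v.2) := by ext <;> simp [sub_eq_add_neg]
theorem add0m1 (v : P2) : v + (0, -1) = (v.1, v.2 - 1) := by ext <;> simp [sub_eq_add_neg]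
theorem addm1m1 (v : P2) : v + (-1, -1) = (v.1 - 1, v.2 - 1) := by
  ext <;> simp [sub_eq_add_neg]

theorem norm_pos_scale {δ : ℝ} (hδ : 0 < δ) (v : P2) : ‖pos δ v‖ = δ * ‖pos 1 v‖ := by
  have : pos δ v = (δ : ℂ) * pos 1 v := by simp [pos]
  rw [this, norm_mul, Complex.norm_real, Real.norm_eq_abs, abs_of_pos hδ]

theorem norm_pos_le (v : P2) : ‖pos 1 v‖ ≤ |(v.1 : ℝ)| + |(v.2 : ℝ)| := by
  have h : pos 1 v = (v.1 : ℂ) + (v.2 : ℂ) * Complex.I := by simp [pos]
  rw [h]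
  refine (norm_add_le _ _).trans ?_
  rw [norm_mul, Complex.norm_I, mul_one, Complex.norm_intCast, Complex.norm_intCast]

theorem norm_pos_small {v : P2} (h1 : |v.1| ≤ 1) (h2 : |v.2| ≤ 1) : ‖pos 1 v‖ ≤ 3 / 2 := by
  have h : pos 1 v = (v.1 : ℂ) + (v.2 : ℂ) * Complex.I := by simp [pos]
  have h3 : ‖pos 1 v‖ ^ 2 = (v.1 : ℝ) ^ 2 + (v.2 : ℝ) ^ 2 := by
    rw [h, ← Complex.normSq_eq_norm_sq, Complex.normSq_apply]
    simp
    ring
  have h1' : |(v.1 : ℝ)| ≤ 1 := by exact_mod_cast h1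
  have h2' : |(v.2 : ℝ)| ≤ 1 := by exact_mod_cast h2
  have h4 : (v.1 : ℝ) ^ 2 ≤ 1 := by
    rw [← sq_abs]; nlinarith [abs_nonneg (v.1 : ℝ)]
  have h5 : (v.2 : ℝ) ^ 2 ≤ 1 := by
    rw [← sq_abs]; nlinarith [abs_nonneg (v.2 : ℝ)]
  nlinarith [norm_nonneg (pos 1 v)]

theorem norm_pos_add_le (v e : P2) : ‖pos 1 (v + e)‖ ≤ ‖pos 1 v‖ + ‖pos 1 e‖ := by
  rw [pos_add]; exact norm_add_le _ _

theorem norm_pos_sub_le (v e : P2) : ‖pos 1 v‖ ≤ ‖pos 1 (v + e)‖ + ‖pos 1 e‖ := by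
  rw [pos_add]
  have := norm_sub_le (pos 1 v + pos 1 e) (pos 1 e)
  rwa [add_sub_cancel_right] at this

/-- distance between a face and its coarse vertex -/
theorem norm_nv_sub {M : ℕ} (hM : 0 < M) (f : P2) :
    ‖pos 1 f - ((2 * M : ℝ) : ℂ) * pos 1 (nv M f)‖ ≤ 2 * M := by
  have h := Arc389.mem_ball.1 (mem_block hM f)
  simp only [cv] at h
  set v := nv M f with hv
  have e : pos 1 f - ((2 * M : ℝ) : ℂ) * pos 1 v =
      ((f.1 - 2 * M * v.1 : ℤ) : ℂ) + ((f.2 - 2 * M * v.2 : ℤ) : ℂ) * Complex.I := by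
    simp only [pos]
    push_cast
    ring
  have h1 : |((f.1 - 2 * M * v.1 : ℤ) : ℝ)| ≤ M := by
    have : |f.1 - 2 * M * v.1| ≤ (M : ℤ) := by rw [abs_le]; constructor <;> linarith
    exact_mod_cast this
  have h2 : |((f.2 - 2 * M * v.2 : ℤ) : ℝ)| ≤ M := by
    have : |f.2 - 2 * M * v.2| ≤ (M : ℤ) := by rw [abs_le]; constructor <;> linarith
    exact_mod_cast this
  rw [e]
  refine (norm_add_le _ _).trans ?_
  rw [norm_mul, Complex.norm_I, mul_one, Complex.norm_intCast, Complex.norm_intCast]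
  linarith

theorem norm_nv_le {M : ℕ} (hM : 0 < M) (f : P2) :
    2 * M * ‖pos 1 (nv M f)‖ ≤ ‖pos 1 f‖ + 2 * M := by
  have h1 := norm_nv_sub hM f
  have h2 := norm_sub_norm_le (((2 * M : ℝ) : ℂ) * pos 1 (nv M f)) (pos 1 f)
  rw [norm_sub_rev] at h2
  have h3 : ‖((2 * M : ℝ) : ℂ) * pos 1 (nv M f)‖ = 2 * M * ‖pos 1 (nv M f)‖ := by
    rw [norm_mul, Complex.norm_real, Real.norm_eq_abs, abs_of_nonneg (by positivity)]
  rw [h3] at h2
  linarith

theorem norm_le_nv {M : ℕ} (hM : 0 < M) (f : P2) :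
    ‖pos 1 f‖ ≤ 2 * M * ‖pos 1 (nv M f)‖ + 2 * M := by
  have h1 := norm_nv_sub hM f
  have h2 := norm_sub_norm_le (pos 1 f) (((2 * M : ℝ) : ℂ) * pos 1 (nv M f))
  have h3 : ‖((2 * M : ℝ) : ℂ) * pos 1 (nv M f)‖ = 2 * M * ‖pos 1 (nv M f)‖ := by
    rw [norm_mul, Complex.norm_real, Real.norm_eq_abs, abs_of_nonneg (by positivity)]
  rw [h3] at h2
  linarith

/-! ### coarse discs -/

theorem mem_coarse_of {R : ℝ} {v : P2} (h : ‖pos 1 v‖ ≤ R - 2) : v ∈ disc 1 R := by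
  have hR : 0 < R := by linarith [norm_nonneg (pos 1 v)]
  rw [mem_disc one_pos hR]
  have key : ∀ e : P2, |e.1| ≤ 1 → |e.2| ≤ 1 → ‖pos 1 (v + e)‖ < R := fun e h1 h2 => by
    have := norm_pos_add_le v e
    have := norm_pos_small h1 h2
    linarith
  refine ⟨by linarith, ?_, ?_, ?_⟩
  · rw [← add10]; exact key (1, 0) (by simp) (by simp)
  · rw [← add01]; exact key (0, 1) (by simp) (by simp)
  · rw [← add11]; exact key (1, 1) (by simp) (by simp)

theorem norm_lt_of_coarse {R : ℝ} {v : P2} (h : v ∈ disc 1 R) : ‖pos 1 v‖ < R :=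
  norm_lt_of_mem_disc one_pos h

theorem coarse_compl_conn {R : ℝ} (hR : 0 < R) : IsConn ((disc 1 R : Finset P2) : Set P2)ᶜ :=
  (dom_disc one_pos hR).sc

theorem coarse_conn {R : ℝ} (hR : 0 < R) : IsConn ((disc 1 R : Finset P2) : Set P2) :=
  (dom_disc one_pos hR).conn

theorem zero_mem_coarse {R : ℝ} (hR : 2 ≤ R) : ((0, 0) : P2) ∈ disc 1 R := by
  apply mem_coarse_of
  have : pos 1 ((0, 0) : P2) = 0 := by simp [pos]
  rw [this, norm_zero]
  linarith

theorem inner_coarse {R1 R2 : ℝ} (h : R2 + 4 ≤ R1) : Clo389.Inner (disc 1 R1) (disc 1 R2) := by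
  intro v hv u h1 h2
  apply mem_coarse_of
  have h3 := norm_lt_of_coarse hv
  have h4 := norm_pos_add_le v (u - v)
  rw [add_sub_cancel] at h4
  have h5 : ‖pos 1 (u - v)‖ ≤ 3 / 2 := norm_pos_small (by simpa using h1) (by simpa using h2)
  linarith

/-- ring cells are near the circle of radius `R` -/
theorem ringCell_norm {R : ℝ} {a : P2} (ha : a ∈ ringCells (disc 1 R)) {u : P2}
    (hu : Geo729.IsCorner u a) : R - 4 < ‖pos 1 u‖ ∧ ‖pos 1 u‖ < R + 2 := by
  obtain ⟨⟨v, hv, hva⟩, w, hw, hwa⟩ := mem_ringCells.1 ha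
  have hd : ∀ x y : P2, Geo729.IsCorner x a → Geo729.IsCorner y a →
      |x.1 - y.1| ≤ 1 ∧ |x.2 - y.2| ≤ 1 := by
    intro x y hx hy
    obtain ⟨a1, a2⟩ := a
    simp only [Geo729.IsCorner] at hx hy
    rcases hx with rfl | rfl | rfl | rfl <;> rcases hy with rfl | rfl | rfl | rfl <;> simp
  constructor
  · have h1 : R - 2 < ‖pos 1 w‖ := by
      by_contra hcon
      exact hw (mem_coarse_of (not_lt.1 hcon))
    have h2 := norm_pos_add_le u (w - u)
    rw [add_sub_cancel] at h2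
    have h3 : ‖pos 1 (w - u)‖ ≤ 3 / 2 :=
      norm_pos_small (by simpa using (hd w u hwa hu).1) (by simpa using (hd w u hwa hu).2)
    linarith
  · have h1 := norm_lt_of_coarse hv
    have h2 := norm_pos_add_le v (u - v)
    rw [add_sub_cancel] at h2
    have h3 : ‖pos 1 (u - v)‖ ≤ 3 / 2 :=
      norm_pos_small (by simpa using (hd u v hu hva).1) (by simpa using (hd u v hu hva).2)
    linarith

/-! ### blocks and discs -/

/-- blocks of the outer coarse disc -/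
theorem regF_subset {M : ℕ} (hM : 0 < M) {δ R ρ' : ℝ} (hδ : 0 < δ)
    (h : δ * (2 * M * R + 2 * M + 2) ≤ ρ') : regF M (disc 1 R) ⊆ disc δ ρ' := by
  intro f hf
  rw [mem_regF hM] at hf
  have h1 := norm_lt_of_coarse hf
  have hR : 0 < R := (norm_nonneg _).trans_lt h1
  have h2 := norm_le_nv hM f
  have hM' : (0 : ℝ) < M := by exact_mod_cast hM
  have h3 : ‖pos 1 f‖ < 2 * M * R + 2 * M := by
    have : 2 * M * ‖pos 1 (nv M f)‖ < 2 * M * R := mul_lt_mul_of_pos_left h1 (by positivity)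
    linarith
  have hρ' : 0 < ρ' := lt_of_lt_of_le (by positivity) h
  have key : ∀ e : P2, |e.1| ≤ 1 → |e.2| ≤ 1 → ‖pos δ (f + e)‖ < ρ' := fun e h4 h5 => by
    rw [norm_pos_scale hδ]
    have h6 := norm_pos_add_le f e
    have h7 := norm_pos_small h4 h5
    refine lt_of_lt_of_le (mul_lt_mul_of_pos_left ?_ hδ) h
    linarith
  rw [mem_disc hδ hρ']
  refine ⟨?_, ?_, ?_, ?_⟩
  · rw [← add00 f]; exact key (0, 0) (by simp) (by simp)
  · rw [← add10]; exact key (1, 0) (by simp) (by simp)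
  · rw [← add01]; exact key (0, 1) (by simp) (by simp)
  · rw [← add11]; exact key (1, 1) (by simp) (by simp)

/-- faces near the origin belong to the blocks of the inner coarse disc -/
theorem mem_regF_of {M : ℕ} (hM : 0 < M) {δ R : ℝ} (hδ : 0 < δ) {f : P2}
    (h : ‖pos δ f‖ ≤ δ * (2 * M * (R - 3))) : f ∈ regF M (disc 1 R) := by
  rw [mem_regF hM]
  apply mem_coarse_of
  have hM' : (0 : ℝ) < M := by exact_mod_cast hM
  rw [norm_pos_scale hδ] at h
  have h1 := le_of_mul_le_mul_left h hδ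
  have h2 := norm_nv_le hM f
  have h3 : 2 * M * ‖pos 1 (nv M f)‖ ≤ 2 * M * (R - 2) := by linarith
  exact le_of_mul_le_mul_left h3 (by positivity)

theorem subset_regF {M : ℕ} (hM : 0 < M) {δ R ρ' : ℝ} (hδ : 0 < δ)
    (h : ρ' ≤ δ * (2 * M * (R - 3))) : disc δ ρ' ⊆ regF M (disc 1 R) := fun _ hf =>
  mem_regF_of hM hδ ((norm_lt_of_mem_disc hδ hf).le.trans h)

/-- vertices near the origin are interior to the blocks of the inner coarse disc -/
theorem mem_intVerts_of {M : ℕ} (hM : 0 < M) {δ R : ℝ} (hδ : 0 < δ) {v : P2}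
    (h : ‖pos δ v‖ + 2 * δ ≤ δ * (2 * M * (R - 3))) : v ∈ intVerts (regF M (disc 1 R)) := by
  have key : ∀ e : P2, |e.1| ≤ 1 → |e.2| ≤ 1 → v + e ∈ regF M (disc 1 R) := fun e h1 h2 => by
    apply mem_regF_of hM hδ
    refine le_trans ?_ h
    rw [norm_pos_scale hδ, norm_pos_scale hδ]
    have h6 := norm_pos_add_le v e
    have h7 := norm_pos_small h1 h2
    nlinarith
  unfold intVerts
  rw [Finset.mem_filter]
  refine ⟨?_, ?_, ?_, ?_⟩
  · rw [← add00 v]; exact key (0, 0) (by simp) (by simp)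
  · rw [← addm10]; exact key (-1, 0) (by simp) (by simp)
  · rw [← add0m1]; exact key (0, -1) (by simp) (by simp)
  · rw [← addm1m1]; exact key (-1, -1) (by simp) (by simp)

end Crest.Agent.R161.RingGeo695
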