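import Crest.Agent.R161.RingGeo_695
import Crest.Agent.R161.CloR_389
import Crest.Agent.R161.Ring4_421
import Crest.Agent.R161.Dmp3_341

/-!
R161, block I (helper695): RingProp from the closed ring (389), its positive probability (421) and the
Ward identity on the ring event (`WardRing`).
-/

set_option autoImplicit false

noncomputable section

namespace Crest.Agent.R161.Ring695

open Finset Filter Topology MeasureTheory
open Crest.Agent.R161.Geo729 Crest.Agent.R161.Defs372 Crest.Agent.R161.Asm695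
open Crest.Agent.R161.Lap695 Crest.Agent.R161.Clo389 Crest.Agent.R161.RingGeo695
open Crest.Agent.R161.Mix695
open Crest.Agent.R161.Ifc372 (nu RSWc LemU)
open Crest.Agent.R161.Ring421 (FKGLoc)
open Crest.ProbabilityR.AshkinTeller
open scoped ContDiff Laplacian

/-- Gaussian value -/
def gv (kap : ℝ) (ψ : ℂ → ℝ) (s : ℝ) : ℝ :=
  Real.exp (-(s ^ 2 * (kap * ∫ z, ψ z * (-(Δ ψ) z)) / 2))

/-- correlation of the ring event with the centred exponential functional -/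
def wardInt (P : Measure Cfg) (kap R1 : ℝ) (lam g : ℕ) (ψ : ℂ → ℝ) (s δ : ℝ) (T : Finset P2) : ℝ :=
  ∫ u, sym (ind (EpC (lam * g) g (disc 1 R1))) u *
    (Real.cos (s * Lin T (fun v => -lap5 δ ψ (pos δ v)) u) -
      Real.exp (-(s ^ 2 * (kap * ∫ z, ψ z * (-(Δ ψ) z)) / 2))) ∂P

/-- **Ward identity on the ring event** (output of block G): the height paired with the five point
Laplacian of a function supported inside the ring is asymptotically Gaussian on the ring event. -/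
def WardRing (P : Measure Cfg) (kap : ℝ) : Prop :=
  ∀ (r R1 : ℝ) (lam : ℕ), 0 < r → 8 ≤ R1 → 16 ≤ lam →
  ∀ (ψ : ℂ → ℝ) (s : ℝ), ContDiff ℝ ∞ ψ → HasCompactSupport ψ →
    (∀ z, r * (R1 - 6) ≤ ‖z‖ → ψ z = 0) →
  ∀ (dl : ℕ → ℝ) (g : ℕ → ℕ), (∀ n, 0 < dl n) → Tendsto dl atTop (𝓝 0) →
    Tendsto (fun n => dl n * (2 * lam * g n)) atTop (𝓝 r) →
  ∀ T : ℕ → Finset P2, (∀ n v, lap5 (dl n) ψ (pos (dl n) v) ≠ 0 → v ∈ T n) →
    Tendsto (fun n => wardInt P kap R1 lam (g n) ψ s (dl n) (T n)) atTop (𝓝 0)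

/-! ### the lattice scale -/

/-- margin of the ring at mesh `δ` -/
def gg (r : ℝ) (lam : ℕ) (δ : ℝ) : ℕ := ⌊r / (2 * lam * δ)⌋₊

theorem gg_le {r : ℝ} (hr : 0 < r) {lam : ℕ} (hlam : 16 ≤ lam) {δ : ℝ} (hδ : 0 < δ) :
    r - 2 * lam * δ ≤ δ * (2 * lam * gg r lam δ) ∧ δ * (2 * lam * gg r lam δ) ≤ r := by
  have hl : (0 : ℝ) < lam := by
    have : 0 < lam := by omega
    exact_mod_cast this
  have h1 := Nat.floor_le (a := r / (2 * lam * δ)) (by positivity)
  have h2 := Nat.lt_floor_add_one (r / (2 * lam * δ))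
  have h3 : r / (2 * lam * δ) * (2 * lam * δ) = r := by field_simp
  unfold gg
  set n : ℝ := (⌊r / (2 * lam * δ)⌋₊ : ℝ)
  have hp : (0 : ℝ) < 2 * lam * δ := by positivity
  constructor
  · have : r / (2 * lam * δ) * (2 * lam * δ) ≤ (n + 1) * (2 * lam * δ) :=
      mul_le_mul_of_nonneg_right h2.le hp.le
    linarith
  · have : n * (2 * lam * δ) ≤ r / (2 * lam * δ) * (2 * lam * δ) :=
      mul_le_mul_of_nonneg_right h1 hp.le
    linarith

theorem tendsto_side {r : ℝ} (hr : 0 < r) {lam : ℕ} (hlam : 16 ≤ lam) :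
    Tendsto (fun δ : ℝ => δ * (2 * lam * gg r lam δ)) (𝓝[>] 0) (𝓝 r) := by
  have h1 : Tendsto (fun δ : ℝ => r - 2 * lam * δ) (𝓝[>] 0) (𝓝 r) := by
    have : Tendsto (fun δ : ℝ => r - 2 * lam * δ) (𝓝 0) (𝓝 (r - 2 * lam * 0)) :=
      Continuous.tendsto (by fun_prop) 0
    rw [mul_zero, sub_zero] at this
    exact this.mono_left nhdsWithin_le_nhds
  refine tendsto_of_tendsto_of_tendsto_of_le_of_le' h1 tendsto_const_nhds ?_ ?_
  · filter_upwards [self_mem_nhdsWithin] with δ hδ using (gg_le hr hlam hδ).1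
  · filter_upwards [self_mem_nhdsWithin] with δ hδ using (gg_le hr hlam hδ).2

theorem tendsto_gg {r : ℝ} (hr : 0 < r) {lam : ℕ} (hlam : 16 ≤ lam) :
    Tendsto (gg r lam) (𝓝[>] 0) atTop := by
  have hl : (0 : ℝ) < lam := by
    have : 0 < lam := by omega
    exact_mod_cast this
  refine tendsto_nat_floor_atTop.comp ?_
  have h1 : Tendsto (fun δ : ℝ => r / (2 * lam) * δ⁻¹) (𝓝[>] 0) atTop :=
    tendsto_inv_nhdsGT_zero.const_mul_atTop (by positivity)
  refine h1.congr' ?_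
  filter_upwards [self_mem_nhdsWithin] with δ hδ
  have : (0 : ℝ) < δ := hδ
  field_simp

theorem WardRing.filter {P : Measure Cfg} {kap : ℝ} (hW : WardRing P kap) {r R1 : ℝ} {lam : ℕ}
    (hr : 0 < r) (hR1 : 8 ≤ R1) (hlam : 16 ≤ lam) {ψ : ℂ → ℝ} (hψ : ContDiff ℝ ∞ ψ)
    (hψc : HasCompactSupport ψ) (hψ0 : ∀ z, r * (R1 - 6) ≤ ‖z‖ → ψ z = 0) (s : ℝ)
    (T : ℝ → Finset P2)
    (hT : ∀ᶠ δ : ℝ in 𝓝[>] 0, ∀ v, lap5 δ ψ (pos δ v) ≠ 0 → v ∈ T δ) :
    Tendsto (fun δ : ℝ => wardInt P kap R1 lam (gg r lam δ) ψ s δ (T δ)) (𝓝[>] 0) (𝓝 0) := by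
  refine tendsto_of_seq_tendsto fun x hx => ?_
  have hx0 : ∀ᶠ n in atTop, 0 < x n := hx.eventually self_mem_nhdsWithin
  have hxs : ∀ᶠ n in atTop, ∀ v, lap5 (x n) ψ (pos (x n) v) ≠ 0 → v ∈ T (x n) := hx.eventually hT
  obtain ⟨N, hN⟩ := eventually_atTop.1 (hx0.and hxs)
  have h1 := hW r R1 lam hr hR1 hlam ψ s hψ hψc hψ0
    (fun n => x (n + N)) (fun n => gg r lam (x (n + N))) (fun n => (hN _ (by omega)).1)
    ((tendsto_add_atTop_iff_nat (f := x) N).2 (hx.mono_right nhdsWithin_le_nhds))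
    ((tendsto_add_atTop_iff_nat (f := fun n => x n * (2 * lam * gg r lam (x n))) N).2
      ((tendsto_side hr hlam).comp hx))
    (fun n => T (x (n + N))) (fun n => (hN _ (by omega)).2)
  exact (tendsto_add_atTop_iff_nat
    (f := fun n => wardInt P kap R1 lam (gg r lam (x n)) ψ s (x n) (T (x n))) N).1 h1

/-! ### the functional -/

theorem loc_lin (T : Finset P2) (a : P2 → ℝ) : Loc (T : Set P2) (Lin T a) := by
  intro u u' h
  unfold Lin
  exact Finset.sum_congr rfl fun v hv => by rw [(h v (Finset.mem_coe.2 hv)).1]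

theorem measurable_cos_lin (T : Finset P2) (a : P2 → ℝ) (s : ℝ) :
    Measurable (fun u : Cfg => Real.cos (s * Lin T a u)) :=
  Real.measurable_cos.comp ((Aut373.loc_measurable (loc_lin T a)).const_mul s)

/-- **RingProp.** -/
theorem ringProp {c kap : ℝ} (hc : 1 ≤ c) {P : Measure Cfg} (hP : IsState c P)
    (hdel : Mod991.Deloc c) (hF : FKGLoc (nu P)) (hR : RSWc (nu P)) (hU : LemU c)
    (hW : WardRing P kap) : RingProp c kap := by
  intro ρ ζ hζ hζρ J _ ψ s hψ ε hε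
  classical
  have hprob := hP.prob
  -- parameters
  set r : ℝ := ζ / 40 with hr
  have hr0 : 0 < r := by positivity
  set R1 : ℝ := ρ / r with hR1
  have hρ : 0 < ρ := hζ.trans hζρ
  have hR1r : r * R1 = ρ := by rw [hR1]; field_simp
  have hR40 : 40 < R1 := by
    rw [hR1, lt_div_iff₀ hr0, hr]
    linarith
  set R2 : ℝ := R1 - 4 with hR2
  set ε' : ℝ := min (ε / 16) (1 / 2) with hε'
  have hε'0 : 0 < ε' := lt_min (by positivity) (by norm_num)
  have hε'1 : 8 * ε' ≤ ε / 2 := by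
    have := min_le_left (ε / 16) (1 / 2 : ℝ)
    linarith
  have hε'2 : ε' ≤ 1 / 2 := min_le_right _ _
  have h0in : ((0, 0) : P2) ∈ disc 1 R2 := zero_mem_coarse (by linarith)
  obtain ⟨lam, g0, h16, hg0, hbad⟩ := bad_le hc hP hdel hF hU (disc 1 R1) (disc 1 R2)
    (inner_coarse (by linarith)) (coarse_conn (by linarith)) h0in hε'0
  obtain ⟨p, g1, hp, hpos⟩ := Ring421.ep_pos hP hF hR (disc 1 R1) lam
  have hl0 : (0 : ℝ) < lam := by
    have : 0 < lam := by omega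
    exact_mod_cast this
  set G : ℝ → ℕ := gg r lam with hG
  set T : ℝ → Finset P2 := fun δ => regF (lam * G δ) (disc 1 R2) with hT
  have hside := tendsto_side hr0 h16
  have hGtop := tendsto_gg hr0 h16
  have hcast : ∀ δ : ℝ, ((lam * G δ : ℕ) : ℝ) = lam * G δ := fun δ => by push_cast; ring
  -- eventual facts
  have ev0 : ∀ᶠ δ : ℝ in 𝓝[>] 0, 0 < δ := self_mem_nhdsWithin
  have evδ1 : ∀ᶠ δ : ℝ in 𝓝[>] 0, δ ≤ 1 :=
    (eventually_le_nhds one_pos).filter_mono nhdsWithin_le_nhds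
  have evG : ∀ᶠ δ : ℝ in 𝓝[>] 0, g0 ≤ G δ ∧ g1 ≤ G δ :=
    (hGtop.eventually_ge_atTop g0).and (hGtop.eventually_ge_atTop g1)
  have hδ0 : Tendsto (fun δ : ℝ => δ) (𝓝[>] 0) (𝓝 0) := tendsto_id'.2 nhdsWithin_le_nhds
  have evOut : ∀ᶠ δ : ℝ in 𝓝[>] 0,
      δ * (2 * (lam * G δ : ℕ) * R1 + 2 * (lam * G δ : ℕ) + 2) ≤ ρ + ζ / 4 := by
    have h1 : Tendsto (fun δ : ℝ => δ * (2 * lam * G δ) * R1 + δ * (2 * lam * G δ) + δ * 2)
        (𝓝[>] 0) (𝓝 (r * R1 + r + 0 * 2)) :=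
      ((hside.mul_const R1).add hside).add (hδ0.mul_const 2)
    have h2 : r * R1 + r + 0 * 2 < ρ + ζ / 4 := by rw [hR1r, hr]; linarith
    filter_upwards [h1.eventually_le_const h2] with δ h3
    rw [hcast]
    calc _ = δ * (2 * lam * G δ) * R1 + δ * (2 * lam * G δ) + δ * 2 := by ring
      _ ≤ _ := h3
  have evIn : ∀ᶠ δ : ℝ in 𝓝[>] 0, ρ - ζ / 4 ≤ δ * (2 * (lam * G δ : ℕ) * (R2 - 3)) ∧
      ρ - ζ + 3 * δ ≤ δ * (2 * (lam * G δ : ℕ) * (R2 - 3)) := by
    have h1 : Tendsto (fun δ : ℝ => δ * (2 * lam * G δ) * (R2 - 3)) (𝓝[>] 0)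
        (𝓝 (r * (R2 - 3))) := hside.mul_const _
    have h1' : Tendsto (fun δ : ℝ => δ * (2 * lam * G δ) * (R2 - 3) - 3 * δ) (𝓝[>] 0)
        (𝓝 (r * (R2 - 3) - 3 * 0)) := h1.sub (hδ0.const_mul 3)
    have h2 : r * (R2 - 3) = ρ - 7 * r := by rw [hR2, ← hR1r]; ring
    have h3 : ρ - ζ / 4 < r * (R2 - 3) := by rw [h2, hr]; linarith
    have h4 : ρ - ζ < r * (R2 - 3) - 3 * 0 := by rw [h2, hr]; linarith
    filter_upwards [h1.eventually_const_le h3, h1'.eventually_const_le h4] with δ h5 h6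
    have e : δ * (2 * (lam * G δ : ℕ) * (R2 - 3)) = δ * (2 * lam * G δ) * (R2 - 3) := by
      rw [hcast]; ring
    rw [e]
    exact ⟨h5, by linarith⟩
  have evSupp : ∀ᶠ δ : ℝ in 𝓝[>] 0, ∀ j v, lap5 δ (ψ j) (pos δ v) ≠ 0 →
      v ∈ intVerts (T δ) := by
    filter_upwards [ev0, evIn, hGtop.eventually_ge_atTop 1] with δ h1 h2 h3 j v hv
    have hM0 : 0 < lam * G δ := Nat.mul_pos (by omega) h3
    refine mem_intVerts_of hM0 h1 ?_
    refine le_trans ?_ h2.2
    by_contra hcon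
    apply hv
    refine lap5_eq_zero (R := ρ - ζ) h1.le (hψ j).2.2 ?_
    linarith
  -- Ward identity along the filter
  have hward : ∀ j, Tendsto (fun δ : ℝ => wardInt P kap R1 lam (G δ) (ψ j) (s j) δ (T δ))
      (𝓝[>] 0) (𝓝 0) := by
    intro j
    refine hW.filter hr0 (by linarith) h16 (hψ j).1 (hψ j).2.1 ?_ (s j) T ?_
    · intro z hz
      refine (hψ j).2.2 z (le_trans ?_ hz)
      have : r * (R1 - 6) = ρ - 6 * r := by rw [← hR1r]; ring
      rw [this, hr]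
      linarith
    · filter_upwards [evSupp] with δ h1 v hv
      exact (Finset.mem_filter.1 (h1 j v hv)).1
  have evW : ∀ᶠ δ : ℝ in 𝓝[>] 0, ∀ j,
      |wardInt P kap R1 lam (G δ) (ψ j) (s j) δ (T δ)| ≤ ε' * p := by
    refine eventually_all.2 fun j => ?_
    have h1 := (Metric.tendsto_nhds.1 (hward j)) (ε' * p) (by positivity)
    filter_upwards [h1] with δ h2
    rw [Real.dist_eq, sub_zero] at h2
    exact h2.le
  -- comparison with the continuum Laplacian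
  choose C hC0 hC using fun j => X_sub_lap5 (hψ j).1 (hψ j).2.1 (show 0 < ρ + ζ / 4 by positivity)
  have evC : ∀ᶠ δ : ℝ in 𝓝[>] 0, ∀ j, |s j| * (C j * δ) ≤ ε / 2 := by
    refine eventually_all.2 fun j => ?_
    have h1 : Tendsto (fun δ : ℝ => |s j| * (C j * δ)) (𝓝[>] 0) (𝓝 (|s j| * (C j * 0))) :=
      (hδ0.const_mul _).const_mul _
    rw [mul_zero, mul_zero] at h1
    exact h1.eventually_le_const (by positivity)
  filter_upwards [ev0, evδ1, evG, evOut, evIn, evSupp, evW, evC] with δ hδ hδ1 hGδ hOut hIn hSupp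
    hWδ hCδ
  have hg1 : 1 ≤ G δ := hg0.trans hGδ.1
  have hM0 : 0 < lam * G δ := Nat.mul_pos (by omega) hg1
  have hM2 : 2 * G δ < lam * G δ := by
    have : 16 * G δ ≤ lam * G δ := Nat.mul_le_mul_right _ h16
    omega
  have hRE : RingEv (EpC (lam * G δ) (G δ) (disc 1 R1)) (WW (lam * G δ) (G δ) (disc 1 R1))
      (regF (lam * G δ) (disc 1 R2)) (regF (lam * G δ) (disc 1 R1))
      (sitesF (lam * G δ) (G δ) (disc 1 R1)) :=
    ringEv hM2 (coarse_compl_conn (by linarith)) h0in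
  obtain ⟨w, hw0, hw1, hmix⟩ := mixture hc hP hRE hε'0.le hε'2 hp
    (hpos (G δ) (lam * G δ) hGδ.2 hM2 le_rfl) (hbad (G δ) (lam * G δ) hGδ.1 le_rfl)
  refine ⟨Idx (regF (lam * G δ) (disc 1 R2)) (regF (lam * G δ) (disc 1 R1)), w,
    ⟨hw0, hw1, fun D hD => ?_⟩, fun j => ?_⟩
  · obtain ⟨h1, h2, h3⟩ := mem_Idx.1 hD
    exact ⟨h3, (subset_regF hM0 hδ hIn.1).trans h2, h1.trans (regF_subset hM0 hδ hOut)⟩
  · -- the functional
    set a : P2 → ℝ := fun v => -lap5 δ (ψ j) (pos δ v) with ha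
    have ha_supp : ∀ v, a v ≠ 0 → v ∈ intVerts (T δ) := by
      intro v hv
      refine hSupp j v fun h0 => hv ?_
      simp only [ha, h0, neg_zero]
    have hneut : ∑ v ∈ T δ, a v = 0 := by
      simp only [ha, Finset.sum_neg_distrib]
      rw [sum_lap5 hδ (hψ j).2.2 (S := T δ)
        (fun v hv => (Finset.mem_filter.1 (hSupp j v hv)).1), neg_zero]
    have hins : ∀ D ∈ Idx (regF (lam * G δ) (disc 1 R2)) (regF (lam * G δ) (disc 1 R1)), ∀ u,
        Real.cos (s j * Lin (T δ) a (Dmp341.insL D u)) = Real.cos (s j * Lin (T δ) a u) := by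
      intro D hD u
      obtain ⟨h1, h2, h3⟩ := mem_Idx.1 hD
      rw [Dmp341.lin_insL_neutral (fun v _ hv => Dmp341.intVerts_mono h2 (ha_supp v hv)) hneut]
    have h1 := hmix (fun u => Real.cos (s j * Lin (T δ) a u)) (gv kap (ψ j) (s j))
      (measurable_cos_lin _ _ _) (fun u => Real.abs_cos_le_one _) hins (hWδ j)
    change |_ - gv kap (ψ j) (s j)| ≤ ε
    -- comparison
    have h2 : ∀ D ∈ Idx (regF (lam * G δ) (disc 1 R2)) (regF (lam * G δ) (disc 1 R1)),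
        |E c D (fun u => Real.cos (s j * X δ D (fun z => -(Δ (ψ j)) z) u)) -
          E c D (fun u => Real.cos (s j * Lin (T δ) a u))| ≤ ε / 2 := by
      intro D hD
      obtain ⟨h3, h4, h5⟩ := mem_Idx.1 hD
      rw [← E_sub]
      refine (abs_E_le hc D _).trans ?_
      refine (E_mono hc (g := fun _ => ε / 2) fun u hu => ?_).trans (le_of_eq (E_const hc _ _))
      refine (abs_cos_sub_cos_le _ _).trans ?_
      rw [← mul_sub, abs_mul]
      refine le_trans (mul_le_mul_of_nonneg_left ?_ (abs_nonneg _)) (hCδ j)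
      have h6 := hC j δ hδ hδ1 D (h3.trans (regF_subset hM0 hδ hOut)) u hu
      have h7 : Lin (T δ) a u = Lin D a u := by
        unfold Lin
        refine Finset.sum_subset h4 fun v _ hv => ?_
        by_cases h0 : a v = 0
        · rw [h0, mul_zero]
        · exact absurd (Finset.mem_filter.1 (ha_supp v h0)).1 hv
      rw [h7]
      exact h6
    have h3 := mix_close hw0 hw1 h2
    generalize (∑ D ∈ Idx (regF (lam * G δ) (disc 1 R2)) (regF (lam * G δ) (disc 1 R1)),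
      w D * E c D (fun u => Real.cos (s j * X δ D (fun z => -(Δ (ψ j)) z) u))) = x at h3 ⊢
    generalize (∑ D ∈ Idx (regF (lam * G δ) (disc 1 R2)) (regF (lam * G δ) (disc 1 R1)),
      w D * E c D (fun u => Real.cos (s j * Lin (T δ) a u))) = y at h3 h1
    rw [abs_le] at *
    constructor <;> linarith [h1.1, h1.2, h3.1, h3.2]

end Crest.Agent.R161.Ring695
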