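import Crest.Agent.R161.Asm_695
import Crest.Agent.R161.HtStmt_132
import Crest.Agent.R161.Ifc_372

/-!
# Row 161: top file (helper372): S0242 from Proposition L
-/

set_option autoImplicit false

noncomputable section

namespace Crest.Agent.R161.Top372

open Finset Filter Topology Metric
open Crest.Agent.R161.Geo729 Crest.Agent.R161.Defs372 Crest.Agent.R161.Green722
open Crest.Agent.R161.Asm695 Crest.Agent.R161.HtStmt132 Crest.Agent.R161.Ht132
open Crest.ProbabilityR.AshkinTeller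
open scoped ContDiff

theorem pairK_eq (δ : ℝ) (φ : ℂ → ℝ) {F : Finset P2} {u : Cfg} (hu : Valid F u) :
    pairK δ φ F u.1 = (1 / 2) * Asm695.X δ F φ u := by
  unfold pairK Asm695.X Lin
  have h1 : ∑ v ∈ F, (u.1 v : ℝ) * (δ ^ 2 * φ (pos δ v)) =
      ∑ v ∈ intVerts F, (u.1 v : ℝ) * (δ ^ 2 * φ (pos δ v)) := by
    refine (Finset.sum_subset (Finset.filter_subset _ _) fun v _ hv => ?_).symm
    rw [hu.zero v hv]
    simp
  rw [h1, Finset.mul_sum, Finset.mul_sum]
  refine Finset.sum_congr rfl fun v _ => ?_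
  ring

/-- **S0242** from Proposition L, the sandwich inequality and monotonicity of two-point functions. -/
theorem s0242_of_propL (U : ℝ) (hS : Sandwich (tParam U)⁻¹) (hM : Mono2 (tParam U)⁻¹)
    (hL : PropL (tParam U)⁻¹ (Ifc372.kap (tParam U)⁻¹))
    (φ : ℂ → ℝ) (hφ : ContDiff ℝ ∞ φ) (hφc : HasCompactSupport φ)
    (hφD : tsupport φ ⊆ Metric.ball (0 : ℂ) 1) (s : ℝ) :
    Filter.Tendsto (fun δ : ℝ => atExpect δ U
        (fun cfg => Complex.exp (Complex.I * (s * atPairing φ cfg : ℝ))))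
      (nhdsWithin 0 (Set.Ioi 0))
      (nhds (Complex.exp (-(2 * Crest.ProbabilityR.DiscGreen.discGreenForm φ /
        (Real.pi * gParam U) * s ^ 2 / 2 : ℝ)))) := by
  have h := Asm695.main hS hM hL hφ hφc hφD (s / 2)
  have hv : ((s / 2) ^ 2 * (Ifc372.kap (tParam U)⁻¹ * Gf 1 φ φ) / 2) =
      (2 * Crest.ProbabilityR.DiscGreen.discGreenForm φ / (Real.pi * gParam U)) * s ^ 2 / 2 := by
    rw [gParam_eq_c, Ifc372.kap, Gf_one]
    have hpi := Real.pi_ne_zero
    by_cases h0 : Real.arcsin ((tParam U)⁻¹ / 2) = 0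
    · rw [h0]
      simp
    · field_simp
      ring
  rw [hv] at h
  rw [← Complex.ofReal_neg]
  refine s0242_of_E U φ s _ ?_
  refine h.congr fun δ => ?_
  refine E_congr fun u hu => ?_
  rw [pairK_eq δ φ hu]
  congr 1
  ring

end Crest.Agent.R161.Top372
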