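import Crest.Agent.R161.Asm2_695
import Crest.Agent.R161.HBd_228
import Crest.Agent.R161.Tas5_682
import Crest.Agent.R161.NuFKG_991
import Crest.Agent.R161.Csq4_472
import Crest.Agent.R161.Blk4_696
import Crest.Agent.R161.Iso_760
import Crest.Agent.R161.ZCv_760
import Crest.Agent.R161.Qb_760
import Crest.Agent.R161.QbT_760
import Crest.Agent.R161.Dloc2_132
import Crest.Agent.R161.ExInv2_792
import Crest.Agent.R161.Brg2_722
import Crest.Agent.R161.Sand_375
import Crest.Agent.R161.H7_689
import Crest.Agent.R161.Ha3_702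
import Crest.Agent.R161.Blk_868
import Crest.Agent.R161.AtFkG_729
import Crest.Agent.R161.NoInf_123
import Crest.Agent.R161.InsQ_863
import Crest.Agent.R161.LkG_159
import Crest.Agent.R161.Top_372
import Crest.Agent.R161.Top_729
import Crest.Agent.R161.RIn_770
import Crest.Agent.R161.Mkv2_760
import Crest.Agent.R161.NoInfQ_123
import Crest.Agent.R161.Fin_760

/-!
Row 161: composition of the row (captain's file).  Everything is derived from
`Lk159.PlaneIn c P` (output of row R150) and the remaining inputs, literally.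
-/

set_option autoImplicit false

noncomputable section

namespace Crest.Agent.R161.Row372

open Filter Topology MeasureTheory
open Crest.Agent.R161.Geo729 Crest.Agent.R161.Defs372 Crest.Agent.R161.Ifc372
open Crest.Agent.R150.Hgt989 Crest.Agent.R150.Pls989

/-- All properties of the plane state used by the row, for one measure. -/
structure StateData (c : ℝ) (Q : Measure Cfg) : Prop where
  st : IsState c Q
  pg : PlaneGauss c Q
  vb : VBound Q
  ci : Csq472.CondIndep c Q
  sw : Csq472.SwapInv Q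

variable {c : ℝ} {Q : Measure Cfg}

theorem deloc (hc : 1 ≤ c) (h : StateData c Q) : Mod991.Deloc c := fun ε hε => by
  obtain ⟨n, hn⟩ := Dloc132.deloc_box' hc h.st h.pg hε
  exact ⟨n, fun F hF hb => hn F hF hb 0⟩

open Classical in
theorem inc_indE {A : Set (Edge → Bool)} (hA : Ring421.IncEv A) : ZCv760.Inc (Mod991.indE A) := by
  intro ω ω' h
  have key : plusMap ω ∈ A → plusMap ω' ∈ A := hA _ _ fun e he => by
    unfold plusMap at he ⊢
    exact decide_eq_true (h.p e (of_decide_eq_true he))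
  unfold Mod991.indE Mod991.PEv
  by_cases h1 : plusMap ω ∈ A
  · rw [if_pos (show ω ∈ {ω | plusMap ω ∈ A} from h1),
      if_pos (show ω' ∈ {ω | plusMap ω ∈ A} from key h1)]
  · rw [if_neg (show ω ∉ {ω | plusMap ω ∈ A} from h1)]
    split_ifs <;> norm_num

theorem assocFin (hc : 1 ≤ c) : Mod991.AssocFin c := by
  classical
  intro F hF A B hA hB hA' hB'
  rw [Mod991.Pr_eq_indE, Mod991.Pr_eq_indE, Mod991.Pr_eq_indE]
  refine (AtFkG729.assoc' hc hF (inc_indE hA') (inc_indE hB')).trans (le_of_eq ?_)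
  congr 1
  funext ω
  unfold Mod991.indE Mod991.PEv
  by_cases h1 : plusMap ω ∈ A <;> by_cases h2 : plusMap ω ∈ B <;> simp [h1, h2]

theorem fkg (hc : 1 ≤ c) (h : StateData c Q) : Ring421.FKGLoc (nu Q) :=
  Mod991.fkgLoc_nu hc h.st (deloc hc h) (assocFin hc)

theorem rinv (h : StateData c Q) : Tas682.RInv (nu Q) := by
  intro R _
  exact NuInv421.nu_map_refl h.st R

theorem rsw (hc : 1 ≤ c) (hc2 : c ≤ 2) (h : StateData c Q) : RSWc (nu Q) := by
  have := h.st.prob
  have hprob : IsProbabilityMeasure (nu Q) := NuInv421.nu_prob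
  have sq := Csq472.sq_crossing hc hc2 h.st h.ci h.sw
  exact (Tas682.tassion (nu Q) (fkg hc h) (rinv h) sq (Blk868.blockX hc h.st h.pg (fkg hc h))).1

theorem rIn (hc : 1 ≤ c) (h : StateData c Q) : Blk696.RIn c Q :=
  Ann770.rIn hc h.st (fkg hc h) h.pg

theorem unifCirc (hc : 1 ≤ c) (hc2 : c ≤ 2) (h : StateData c Q) : UnifCirc c :=
  Blk696.unifCirc_of hc (AtFkG729.atFk hc) h.st (rIn hc h) (rsw hc hc2 h)

theorem lemU (hc : 1 ≤ c) (hc2 : c ≤ 2) (h : StateData c Q) : LemU c :=
  Arc389.lemU_of_unifCirc hc (unifCirc hc hc2 h)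

theorem hBd (hc : 1 ≤ c) (hc2 : c ≤ 2) (h : StateData c Q) : Asm695.HBd c :=
  HBd228.hBd_lemU hc (Ha702.ha hc h.st h.vb (lemU hc hc2 h)) (lemU hc hc2 h)

theorem uiprop (hc : 1 ≤ c) (hc2 : c ≤ 2) (h : StateData c Q) : Asm695.UIprop c :=
  H689.uiprop hc (unifCirc hc hc2 h) h.st h.pg h.vb

/-- The plane data of the measure `Qb c P` built from the output `P` of row R150. -/
theorem stateData (hc : 1 < c) {P : Measure Conf} (h : Lk159.PlaneIn c P) :
    StateData c (Qb760.Qb c P) := by
  have hc1 := hc.le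
  have hprob := h.plane.prob
  have hfst : (Qb760.Qb c P).map Prod.fst = P.map Lk159.kmap := Qb760.map_fst_Qb c P
  exact
    { st := Fin760.isState_Qb hc1 h.plane (AtFkG729.domMono hc1) (Flat123.no_inf_Qb hc h)
      pg := Lk159.planeGauss_of h hfst
      vb := Lk159.vBound_of h hfst
      ci := Qb760.condIndep_Qb hc1 P
      sw := ExInv792.swapInv_of h.plane (Qb760.map_hts_Qb c P) }

theorem one_lt_c (U : ℝ) : 1 < (Crest.ProbabilityR.AshkinTeller.tParam U)⁻¹ :=
  (one_lt_inv₀ (Top729.tParam_pos U)).2 (Top729.tParam_lt_one U)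

open scoped ContDiff in
/-- **The row** from the plane state of R150 and the remaining inputs. -/
theorem s0242_of (U : ℝ) {P : Measure Conf}
    (h : Lk159.PlaneIn (Crest.ProbabilityR.AshkinTeller.tParam U)⁻¹ P)
    (hRing : ∀ (c : ℝ) (Q : Measure Cfg), 1 ≤ c → StateData c Q → LemU c → RSWc (nu Q) →
      Asm695.RingProp c (kap c))
    (φ : ℂ → ℝ) (hφ : ContDiff ℝ ∞ φ) (hφc : HasCompactSupport φ)
    (hφD : tsupport φ ⊆ Metric.ball (0 : ℂ) 1) (s : ℝ) :
    Filter.Tendsto (fun δ : ℝ => Crest.ProbabilityR.AshkinTeller.atExpect δ U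
        (fun cfg => Complex.exp
          (Complex.I * (s * Crest.ProbabilityR.AshkinTeller.atPairing φ cfg : ℝ))))
      (nhdsWithin 0 (Set.Ioi 0))
      (nhds (Complex.exp (-(2 * Crest.ProbabilityR.DiscGreen.discGreenForm φ /
        (Real.pi * Crest.ProbabilityR.AshkinTeller.gParam U) * s ^ 2 / 2 : ℝ)))) := by
  have hc1 := (one_lt_c U).le
  have hc2 := h.cle
  have hD := stateData (one_lt_c U) h
  exact Asm695.s0242 U (kap := kap _) rfl (Brg722.sandwich hc1) (Brg722.mono2 hc1)
    (hRing _ _ hc1 hD (lemU hc1 hc2 hD) (rsw hc1 hc2 hD))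
    (hBd hc1 hc2 hD) (uiprop hc1 hc2 hD) φ hφ hφc hφD s

end Crest.Agent.R161.Row372
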