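import Crest.Agent.R161.Ann2_770
import Crest.Agent.R161.Ht_132
import Crest.Agent.R161.LC_760

/-!
Row 161 (helper132), leaf L2 (Deloc), finite volume part.

* `sum_geo` : sums over height pairs of `F` (zero boundary condition) as sums over helper375's
  abstract heights of `geo F (fun _ => ())`.
* `pv c F v j = P_F (k v = 2 j)` is a symmetric log-concave law (`slc`).
* `second_moment : E_F (k v)^2 ≤ 2592 / P_F (k v = 0)^2`.
-/

set_option autoImplicit false

noncomputable section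

namespace Crest.Agent.R161.Slc132

open Finset Crest.Agent.R161.Geo729 Crest.Agent.R161.Defs372 Crest.Agent.R161.Ht132
open Crest.Agent.R161.Hts375 Crest.Agent.R161.Lsm375 Crest.Agent.R161.Ann770
open Crest.Agent.R161.LC760

variable (F : Finset P2)

/-- one boundary class -/
abbrev bc : P2 → Unit := fun _ => ()

/-- abstract sites -/
abbrev St : Type := (↥(intVerts F) ⊕ Unit) ⊕ ↥F

/-- lower bounds: `0` at the boundary class -/
def lo (N : ℤ) : St F → ℤ := Sum.elim (Sum.elim (fun _ => -N) (fun _ => 0)) (fun _ => -N)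

/-- upper bounds: `0` at the boundary class -/
def hi (N : ℤ) : St F → ℤ := Sum.elim (Sum.elim (fun _ => N) (fun _ => 0)) (fun _ => N)

theorem ofH_vm {p : Pr2} (hp : Valid2 F p) (u : P2) :
    (ofH F (fun _ : Unit => 0) p) (Sum.inl (vm F bc u)) = p.1 u := by
  by_cases hu : u ∈ intVerts F
  · rw [vm_of_mem F bc hu]; rfl
  · rw [vm_of_not_mem F bc hu, hp.zero u hu]; rfl

open Classical in
/-- Sums over height pairs as sums over abstract heights. -/
theorem sum_geo (c : ℝ) (G : Pr2 → ℝ) {N : ℤ} (hN : hb F ≤ N) :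
    ∑ p ∈ conf2 F, wt6 c F p * G p =
      ∑ h ∈ Finset.Icc (lo F N) (hi F N), (geo F bc).W (fun _ => c) h * G (toH F bc h) := by
  have h1 : ∀ h : St F → ℤ, (geo F bc).W (fun _ => c) h * G (toH F bc h) =
      if (geo F bc).Valid h then (∏ p, (geo F bc).wp (fun _ => c) h p) * G (toH F bc h) else 0 :=
    fun h => by
      unfold Geo.W
      by_cases hv : (geo F bc).Valid h
      · simp [hv]
      · simp [hv]
  simp only [h1]
  rw [← Finset.sum_filter]
  refine Finset.sum_bij' (fun w _ => ofH F (fun _ : Unit => 0) w) (fun h _ => toH F bc h)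
    ?_ ?_ ?_ ?_ ?_
  · intro w hw
    have hv := mem_conf2.1 hw
    have hω : Valid F (w.1, w.2, zOf ∅) := valid_mk hv (by simp)
    rw [Finset.mem_filter, Finset.mem_Icc]
    have hv1 : ∀ v, |w.1 v| ≤ N := fun v => (hω.abs_vert v).trans hN
    have hf1 : ∀ f, |w.2 f| ≤ N := fun f => (hω.abs_face f).trans hN
    refine ⟨⟨?_, ?_⟩, ?_, ?_, ?_⟩
    · rintro ((x | x) | x)
      · exact (abs_le.1 (hv1 _)).1
      · exact le_rfl
      · exact (abs_le.1 (hf1 _)).1
    · rintro ((x | x) | x)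
      · exact (abs_le.1 (hv1 _)).2
      · exact le_rfl
      · exact (abs_le.1 (hf1 _)).2
    · rintro (x | x)
      · exact hv.even _
      · show Even (0 : ℤ)
        exact Even.zero
    · intro f
      have h2 := hv.corner f.1 f.2 f.1 (by simp [Geo729.IsCorner])
      have h3 := hv.even f.1
      show Odd (w.2 f.1)
      rw [abs_eq (by norm_num)] at h2
      obtain ⟨r, hr⟩ := h3
      rcases h2 with h2 | h2
      · exact ⟨r - 1, by omega⟩
      · exact ⟨r, by omega⟩
    · rintro v f ⟨u, hu, rfl⟩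
      rw [ofH_vm F hv]
      exact hv.corner f.1 f.2 u hu
  · intro h hh
    rw [Finset.mem_filter, Finset.mem_Icc] at hh
    obtain ⟨⟨h2, h2'⟩, h3, h4, h5⟩ := hh
    have hcl : h (Sum.inl (Sum.inr ())) = 0 :=
      le_antisymm (h2' (Sum.inl (Sum.inr ()))) (h2 (Sum.inl (Sum.inr ())))
    refine mem_conf2.2 ⟨fun v hv => ?_, fun v => h3 _, fun f hf => ?_, fun f hf v hv => ?_⟩
    · show h (Sum.inl (vm F bc v)) = 0
      rw [vm_of_not_mem F bc hv]
      exact hcl
    · show (if hf : f ∈ F then h (Sum.inr ⟨f, hf⟩) else 1) = 1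
      rw [dif_neg hf]
    · show |h (Sum.inl (vm F bc v)) - (if hf : f ∈ F then h (Sum.inr ⟨f, hf⟩) else 1)| = 1
      rw [dif_pos hf]
      exact h5 _ _ ⟨v, hv, rfl⟩
  · intro w hw
    have hv := mem_conf2.1 hw
    refine Prod.ext ?_ ?_
    · funext u
      exact ofH_vm F hv u
    · funext f
      show (if hf : f ∈ F then ofH F (fun _ : Unit => 0) w (Sum.inr ⟨f, hf⟩) else 1) = w.2 f
      by_cases hf : f ∈ F
      · rw [dif_pos hf]; rfl
      · rw [dif_neg hf, hv.off f hf]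
  · intro h hh
    rw [Finset.mem_filter, Finset.mem_Icc] at hh
    obtain ⟨⟨h2, h2'⟩, _⟩ := hh
    have hcl : h (Sum.inl (Sum.inr ())) = 0 :=
      le_antisymm (h2' (Sum.inl (Sum.inr ()))) (h2 (Sum.inl (Sum.inr ())))
    funext x
    rcases x with (x | x) | x
    · show h (Sum.inl (vm F bc x.1)) = h (Sum.inl (Sum.inl x))
      rw [vm_of_mem F bc x.2]
    · exact hcl.symm
    · show (if hf : x.1 ∈ F then h (Sum.inr ⟨x.1, hf⟩) else 1) = h (Sum.inr x)
      rw [dif_pos x.2]
  · intro w hw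
    have hv := mem_conf2.1 hw
    have e1 : toH F bc (ofH F (fun _ : Unit => 0) w) = w := by
      refine Prod.ext ?_ ?_
      · funext u
        exact ofH_vm F hv u
      · funext f
        show (if hf : f ∈ F then ofH F (fun _ : Unit => 0) w (Sum.inr ⟨f, hf⟩) else 1) = w.2 f
        by_cases hf : f ∈ F
        · rw [dif_pos hf]; rfl
        · rw [dif_neg hf, hv.off f hf]
    rw [e1]
    congr 1
    unfold wt6
    rw [← Finset.prod_coe_sort]
    refine Finset.prod_congr rfl fun e _ => ?_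
    unfold Geo.wp w6
    have : (geo F bc).Flat (ofH F (fun _ : Unit => 0) w) e ↔
        w.1 (src e.1) = w.1 (tgt e.1) ∧ w.2 (fA e.1) = w.2 (fB e.1) := by
      unfold Geo.Flat
      show (ofH F (fun _ : Unit => 0) w) (Sum.inl (vm F bc (src e.1))) =
        (ofH F (fun _ : Unit => 0) w) (Sum.inl (vm F bc (tgt e.1))) ∧ _ ↔ _
      rw [ofH_vm F hv, ofH_vm F hv]
      rfl
    by_cases hfl : w.1 (src e.1) = w.1 (tgt e.1) ∧ w.2 (fA e.1) = w.2 (fB e.1)
    · rw [if_pos hfl, if_pos (this.2 hfl)]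
    · rw [if_neg hfl, if_neg (fun h => hfl (this.1 h))]

open Classical in
/-- weight of `{k v = q}` -/
def Wv (c : ℝ) (v : P2) (q : ℤ) : ℝ := ∑ p ∈ conf2 F, if p.1 v = q then wt6 c F p else 0

theorem Wv_eq (c : ℝ) {v : P2} (hv : v ∈ intVerts F) (q : ℤ) {N : ℤ} (hN : hb F ≤ N) :
    Wv F c v q = pinZ ((geo F bc).W (fun _ => c)) (lo F N) (hi F N)
      {Sum.inl (Sum.inl ⟨v, hv⟩)} q := by
  classical
  have h1 := sum_geo F c (fun p => if p.1 v = q then 1 else 0) hN
  unfold Wv pinZ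
  have h2 : ∑ p ∈ conf2 F, (if p.1 v = q then wt6 c F p else 0) =
      ∑ p ∈ conf2 F, wt6 c F p * (if p.1 v = q then 1 else 0) :=
    Finset.sum_congr rfl fun p _ => by split_ifs <;> simp
  rw [h2, h1, Finset.sum_filter]
  refine Finset.sum_congr rfl fun h _ => ?_
  have h3 : (toH F bc h).1 v = h (Sum.inl (Sum.inl ⟨v, hv⟩)) := by
    show h (Sum.inl (vm F bc v)) = _
    rw [vm_of_mem F bc hv]
  rw [h3]
  simp only [Finset.mem_singleton, forall_eq]
  split_ifs <;> simp

theorem Wv_nonneg {c : ℝ} (hc : 0 < c) (v : P2) (q : ℤ) : 0 ≤ Wv F c v q := by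
  classical
  unfold Wv
  exact Finset.sum_nonneg fun p _ => by
    split_ifs
    · exact (wt6_pos hc F p).le
    · exact le_rfl

theorem Wv_lc {c : ℝ} (hc : 1 ≤ c) {v : P2} (hv : v ∈ intVerts F) {a b : ℤ} (hab : a ≤ b) :
    Wv F c v (2 * (a - 1)) * Wv F c v (2 * (b + 1)) ≤ Wv F c v (2 * a) * Wv F c v (2 * b) := by
  classical
  rw [Wv_eq F c hv _ le_rfl, Wv_eq F c hv _ le_rfl, Wv_eq F c hv _ le_rfl, Wv_eq F c hv _ le_rfl]
  have h := pinZ_logConcave (μ := (geo F bc).W (fun _ => c))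
    ((geo F bc).lsm_W (fun _ => hc)) (s := 2) (by norm_num)
    (fun a => (geo F bc).W_shift (fun _ => c) (by norm_num) a) (lo F (hb F)) (hi F (hb F))
    {Sum.inl (Sum.inl ⟨v, hv⟩)} (q₁ := 2 * (a - 1)) (q₂ := 2 * (b + 1)) (by linarith)
  have e1 : 2 * (a - 1) + 2 = 2 * a := by ring
  have e2 : 2 * (b + 1) - 2 = 2 * b := by ring
  rw [e1, e2] at h
  exact h

/-- reflection of the heights -/
def neg2 (p : Pr2) : Pr2 := by
  classical exact (fun v => -p.1 v, fun f => if f ∈ F then -p.2 f else p.2 f)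

theorem neg2_valid {p : Pr2} (h : Valid2 F p) : Valid2 F (neg2 F p) where
  zero := fun v hv => by
    show -p.1 v = 0
    rw [h.zero v hv, neg_zero]
  even := fun v => (h.even v).neg
  off := fun f hf => by
    show (if f ∈ F then -p.2 f else p.2 f) = 1
    rw [if_neg hf, h.off f hf]
  corner := fun f hf v hv => by
    show |-p.1 v - (if f ∈ F then -p.2 f else p.2 f)| = 1
    rw [if_pos hf, ← h.corner f hf v hv, ← abs_neg]
    congr 1
    ring

theorem neg2_neg2 (p : Pr2) : neg2 F (neg2 F p) = p := by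
  refine Prod.ext ?_ ?_
  · funext v
    show - -p.1 v = p.1 v
    ring
  · funext f
    show (if f ∈ F then -(if f ∈ F then -p.2 f else p.2 f) else (if f ∈ F then -p.2 f else p.2 f)) =
      p.2 f
    split_ifs <;> ring

theorem wt6_neg2 (c : ℝ) (p : Pr2) : wt6 c F (neg2 F p) = wt6 c F p := by
  unfold wt6
  refine Finset.prod_congr rfl fun e he => ?_
  obtain ⟨h1, h2⟩ := mem_intEdges.1 he
  unfold w6
  have e1 : (neg2 F p).1 (src e) = -p.1 (src e) := rfl
  have e2 : (neg2 F p).1 (tgt e) = -p.1 (tgt e) := rfl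
  have e3 : (neg2 F p).2 (fA e) = -p.2 (fA e) := by
    show (if fA e ∈ F then -p.2 (fA e) else p.2 (fA e)) = _
    rw [if_pos h1]
  have e4 : (neg2 F p).2 (fB e) = -p.2 (fB e) := by
    show (if fB e ∈ F then -p.2 (fB e) else p.2 (fB e)) = _
    rw [if_pos h2]
  rw [e1, e2, e3, e4]
  simp only [neg_inj]

theorem Wv_neg (c : ℝ) (v : P2) (q : ℤ) : Wv F c v (-q) = Wv F c v q := by
  classical
  unfold Wv
  refine Finset.sum_bij' (fun p _ => neg2 F p) (fun p _ => neg2 F p) ?_ ?_ ?_ ?_ ?_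
  · exact fun p hp => mem_conf2.2 (neg2_valid F (mem_conf2.1 hp))
  · exact fun p hp => mem_conf2.2 (neg2_valid F (mem_conf2.1 hp))
  · exact fun p _ => neg2_neg2 F p
  · exact fun p _ => neg2_neg2 F p
  · intro p _
    rw [wt6_neg2]
    have e1 : (neg2 F p).1 v = -p.1 v := rfl
    rw [e1]
    by_cases h : p.1 v = -q
    · rw [if_pos h, if_pos (by rw [h, neg_neg])]
    · rw [if_neg h, if_neg (fun h' => h (by rw [← h', neg_neg]))]

theorem Z6_pos {c : ℝ} (hc : 1 ≤ c) : 0 < Z6 c F := by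
  rw [← Z_eq]; exact Z_pos hc F

/-- the law of `k v / 2` -/
def pv (c : ℝ) (v : P2) (j : ℤ) : ℝ := Wv F c v (2 * j) / Z6 c F

/-- bound for the half heights -/
theorem half_mem {p : Pr2} (hp : Valid2 F p) (v : P2) :
    ∃ j ∈ Finset.Icc (-(hb F)) (hb F), p.1 v = 2 * j := by
  obtain ⟨j, hj⟩ := hp.even v
  have h1 : |p.1 v| ≤ hb F := (valid_mk hp (T := ∅) (by simp)).abs_vert v
  refine ⟨j, ?_, by rw [hj]; ring⟩
  rw [Finset.mem_Icc]
  rw [abs_le] at h1
  have h0 : 0 ≤ hb F := by unfold hb; positivity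
  constructor <;> omega

theorem sum_pv {c : ℝ} (v : P2) (g : ℤ → ℝ) :
    ∑ j ∈ Finset.Icc (-(hb F)) (hb F), g j * pv F c v j =
      (∑ p ∈ conf2 F, wt6 c F p * g (p.1 v / 2)) / Z6 c F := by
  classical
  unfold pv Wv
  have h1 : ∀ j ∈ Finset.Icc (-(hb F)) (hb F),
      g j * ((∑ p ∈ conf2 F, if p.1 v = 2 * j then wt6 c F p else 0) / Z6 c F) =
      (∑ p ∈ conf2 F, if p.1 v = 2 * j then wt6 c F p * g (p.1 v / 2) else 0) / Z6 c F := by
    intro j _
    rw [← mul_div_assoc, Finset.mul_sum]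
    congr 1
    refine Finset.sum_congr rfl fun p _ => ?_
    split_ifs with h
    · rw [h]
      have : 2 * j / 2 = j := by omega
      rw [this]; ring
    · ring
  rw [Finset.sum_congr rfl h1, ← Finset.sum_div, Finset.sum_comm]
  congr 1
  refine Finset.sum_congr rfl fun p hp => ?_
  obtain ⟨j0, hj0, hj1⟩ := half_mem F (mem_conf2.1 hp) v
  rw [Finset.sum_eq_single j0]
  · rw [if_pos hj1]
  · intro j _ hj
    rw [if_neg]
    intro h
    apply hj
    omega
  · intro h
    exact absurd hj0 h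

theorem pv_zero_of_not_mem {c : ℝ} (v : P2) {j : ℤ} (hj : j ∉ Finset.Icc (-(hb F)) (hb F)) :
    pv F c v j = 0 := by
  classical
  unfold pv Wv
  rw [Finset.sum_eq_zero, zero_div]
  intro p hp
  rw [if_neg]
  intro h
  obtain ⟨j0, hj0, hj1⟩ := half_mem F (mem_conf2.1 hp) v
  apply hj
  have : j = j0 := by omega
  rw [this]; exact hj0

/-- **The law of `k v / 2` under `P_F` is symmetric and log-concave.** -/
theorem slc {c : ℝ} (hc : 1 ≤ c) {v : P2} (hv : v ∈ intVerts F) : SLC (pv F c v) where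
  nonneg := fun j => div_nonneg (Wv_nonneg F (by linarith) v _) (Z6_pos F hc).le
  symm := fun j => by
    unfold pv
    rw [mul_neg, Wv_neg]
  lc := fun a b hab => by
    unfold pv
    have hZ := Z6_pos F hc
    rw [div_mul_div_comm, div_mul_div_comm]
    exact div_le_div_of_nonneg_right (Wv_lc F hc hv hab) (by positivity)
  sum := by
    have h1 := sum_pv F (c := c) v (fun _ => 1)
    simp only [one_mul, mul_one] at h1
    have h2 : (∑ p ∈ conf2 F, wt6 c F p) / Z6 c F = 1 := div_self (Z6_pos F hc).ne'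
    rw [h2] at h1
    rw [← h1]
    exact hasSum_sum_of_ne_finset_zero fun j hj => pv_zero_of_not_mem F v hj

theorem pv_zero_eq {c : ℝ} (v : P2) : pv F c v 0 = Pr c F {ω : Cfg | ω.1 v = 0} := by
  classical
  unfold pv Wv Pr
  have h1 := E_eq6 c F (fun p => if p.1 v = 0 then 1 else 0)
  refine Eq.trans ?_ (h1.symm.trans ?_)
  · congr 1
    refine Finset.sum_congr rfl fun p _ => ?_
    simp only [mul_zero]
    split_ifs <;> simp
  · congr 1
    funext ω
    by_cases h : ω.1 v = 0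
    · rw [if_pos h, if_pos (show ω ∈ {ω : Cfg | ω.1 v = 0} from h)]
    · rw [if_neg h, if_neg (show ω ∉ {ω : Cfg | ω.1 v = 0} from h)]

theorem pr_pos {c : ℝ} (hc : 1 ≤ c) {v : P2} (hv : v ∈ intVerts F) :
    0 < Pr c F {ω : Cfg | ω.1 v = 0} := by
  rw [← pv_zero_eq]; exact (slc F hc hv).zero_pos

/-- **Second moment bound.** -/
theorem second_moment {c : ℝ} (hc : 1 ≤ c) (v : P2) :
    E c F (fun ω => (ω.1 v : ℝ) ^ 2) ≤ 2592 / (Pr c F {ω : Cfg | ω.1 v = 0}) ^ 2 := by
  by_cases hv : v ∈ intVerts F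
  · have h1 := (slc F hc hv).second_moment
    have h2 : ∑' k : ℤ, (k : ℝ) ^ 2 * pv F c v k =
        ∑ j ∈ Finset.Icc (-(hb F)) (hb F), (j : ℝ) ^ 2 * pv F c v j :=
      tsum_eq_sum fun j hj => by rw [pv_zero_of_not_mem F v hj, mul_zero]
    have h3 := sum_pv F (c := c) v (fun j => (j : ℝ) ^ 2)
    have h4 : E c F (fun ω => (ω.1 v : ℝ) ^ 2) =
        4 * ((∑ p ∈ conf2 F, wt6 c F p * (((p.1 v / 2 : ℤ)) : ℝ) ^ 2) / Z6 c F) := by
      have h5 := E_eq6 c F (fun p => (p.1 v : ℝ) ^ 2)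
      rw [h5, ← mul_div_assoc, Finset.mul_sum]
      congr 1
      refine Finset.sum_congr rfl fun p hp => ?_
      obtain ⟨j0, _, hj1⟩ := half_mem F (mem_conf2.1 hp) v
      have h6 : p.1 v / 2 = j0 := by omega
      rw [h6, hj1]
      push_cast
      ring
    rw [h4, ← h3, ← h2, ← pv_zero_eq]
    calc 4 * ∑' k : ℤ, (k : ℝ) ^ 2 * pv F c v k ≤ 4 * (648 / pv F c v 0 ^ 2) := by
          linarith [h1.2]
      _ = 2592 / pv F c v 0 ^ 2 := by ring
  · have h1 : E c F (fun ω => (ω.1 v : ℝ) ^ 2) = E c F (fun _ => 0) :=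
      E_congr fun ω hω => by rw [hω.zero v hv]; simp
    rw [h1, E_const hc]
    positivity

end Crest.Agent.R161.Slc132
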