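import Crest.Agent.R161.Dnv_132

/-!
# Row 161, block E: exactly neutral lattice test functions and their energy (helper868)

* `rho x = smoothTransition (x+1) - smoothTransition x`, `phi z = rho z.re * rho z.im`;
* `sum_rho` : `∑ rho (i/N) = N` exactly;
* `gr`, `plog_gt` : the energy of `phi_{1/M} - phi` tends to infinity.
-/

set_option autoImplicit false

noncomputable section

namespace Crest.Agent.R161.Spr868

open Filter Topology MeasureTheory Set Metric
open Crest.Agent.R161.Green722 Crest.Agent.R161.Dnv132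
open Crest.Agent.R161.Geo729 Crest.Agent.R161.Defs372 Crest.Agent.R161.Ifc372

/-! ### the profile -/

/-- one-dimensional profile -/
def rho (x : ℝ) : ℝ := Real.smoothTransition (x + 1) - Real.smoothTransition x

theorem rho_smooth : ContDiff ℝ (⊤ : ℕ∞) rho := by
  unfold rho
  exact (Real.smoothTransition.contDiff.comp (contDiff_id.add contDiff_const)).sub
    Real.smoothTransition.contDiff

theorem rho_zero {x : ℝ} (h : 1 ≤ |x|) : rho x = 0 := by
  unfold rho
  rcases le_total 0 x with h0 | h0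
  · rw [abs_of_nonneg h0] at h
    rw [Real.smoothTransition.one_of_one_le h, Real.smoothTransition.one_of_one_le (by linarith),
      sub_self]
  · rw [abs_of_nonpos h0] at h
    rw [Real.smoothTransition.zero_of_nonpos h0,
      Real.smoothTransition.zero_of_nonpos (by linarith), sub_self]

theorem rho_nonneg (x : ℝ) : 0 ≤ rho x := by
  unfold rho
  rcases le_total x 0 with h | h
  · rw [Real.smoothTransition.zero_of_nonpos h, sub_zero]
    exact Real.smoothTransition.nonneg _
  · rw [Real.smoothTransition.one_of_one_le (show 1 ≤ x + 1 by linarith)]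
    have := Real.smoothTransition.le_one x
    linarith

theorem rho_le_one (x : ℝ) : rho x ≤ 1 := by
  unfold rho
  have h1 := Real.smoothTransition.le_one (x + 1)
  have h2 := Real.smoothTransition.nonneg x
  linarith

theorem rho_zero_val : rho 0 = 1 := by
  unfold rho
  rw [zero_add, Real.smoothTransition.one, Real.smoothTransition.zero, sub_zero]

/-- exact normalisation of the lattice sums -/
theorem sum_rho {N : ℕ} (hN : 1 ≤ N) :
    ∑ i ∈ Finset.Icc (-(N : ℤ)) (N - 1), rho ((i : ℝ) / N) = N := by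
  have hN0 : (0 : ℝ) < N := by exact_mod_cast hN
  -- split into the two sums
  have h1 : ∑ i ∈ Finset.Icc (-(N : ℤ)) (N - 1), rho ((i : ℝ) / N) =
      ∑ i ∈ Finset.Icc (-(N : ℤ)) (N - 1), Real.smoothTransition (((i + N : ℤ) : ℝ) / N) -
      ∑ i ∈ Finset.Icc (-(N : ℤ)) (N - 1), Real.smoothTransition ((i : ℝ) / N) := by
    rw [← Finset.sum_sub_distrib]
    refine Finset.sum_congr rfl fun i _ => ?_
    unfold rho
    congr 2
    push_cast
    field_simp
  have h2 : ∑ i ∈ Finset.Icc (-(N : ℤ)) (N - 1), Real.smoothTransition (((i + N : ℤ) : ℝ) / N) =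
      ∑ i ∈ Finset.Icc (0 : ℤ) (2 * N - 1), Real.smoothTransition ((i : ℝ) / N) := by
    refine Finset.sum_nbij' (fun i => i + N) (fun i => i - N) ?_ ?_ ?_ ?_ ?_
    · intro i hi; rw [Finset.mem_Icc] at hi ⊢; omega
    · intro i hi; rw [Finset.mem_Icc] at hi ⊢; omega
    · intro i _; ring
    · intro i _; ring
    · intro i _; rfl
  have h3 : ∑ i ∈ Finset.Icc (0 : ℤ) (2 * N - 1), Real.smoothTransition ((i : ℝ) / N) =
      ∑ i ∈ Finset.Icc (0 : ℤ) (N - 1), Real.smoothTransition ((i : ℝ) / N) + N := by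
    have hsplit : Finset.Icc (0 : ℤ) (2 * N - 1) =
        Finset.Icc (0 : ℤ) (N - 1) ∪ Finset.Icc (N : ℤ) (2 * N - 1) := by
      ext i; rw [Finset.mem_union, Finset.mem_Icc, Finset.mem_Icc, Finset.mem_Icc]; omega
    have hdisj : Disjoint (Finset.Icc (0 : ℤ) (N - 1)) (Finset.Icc (N : ℤ) (2 * N - 1)) := by
      rw [Finset.disjoint_left]
      intro i h1 h2
      rw [Finset.mem_Icc] at h1 h2
      omega
    rw [hsplit, Finset.sum_union hdisj]
    congr 1
    have : ∀ i ∈ Finset.Icc (N : ℤ) (2 * N - 1), Real.smoothTransition ((i : ℝ) / N) = 1 := by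
      intro i hi
      rw [Finset.mem_Icc] at hi
      apply Real.smoothTransition.one_of_one_le
      rw [le_div_iff₀ hN0, one_mul]
      exact_mod_cast hi.1
    rw [Finset.sum_congr rfl this, Finset.sum_const, Int.card_Icc, nsmul_eq_mul, mul_one]
    have : ((2 * (N : ℤ) - 1 + 1 - N).toNat) = N := by omega
    rw [this]
  have h4 : ∑ i ∈ Finset.Icc (-(N : ℤ)) (N - 1), Real.smoothTransition ((i : ℝ) / N) =
      ∑ i ∈ Finset.Icc (0 : ℤ) (N - 1), Real.smoothTransition ((i : ℝ) / N) := by
    symm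
    refine Finset.sum_subset ?_ ?_
    · intro i hi; rw [Finset.mem_Icc] at hi ⊢; omega
    · intro i hi hi'
      rw [Finset.mem_Icc] at hi hi'
      apply Real.smoothTransition.zero_of_nonpos
      apply div_nonpos_of_nonpos_of_nonneg _ hN0.le
      have : i ≤ 0 := by omega
      exact_mod_cast this
  rw [h1, h2, h3, h4]
  ring

/-- the two-dimensional profile -/
def phi (z : ℂ) : ℝ := rho z.re * rho z.im

theorem phi_smooth : ContDiff ℝ (⊤ : ℕ∞) phi := by
  unfold phi
  exact (rho_smooth.comp Complex.reCLM.contDiff).mul (rho_smooth.comp Complex.imCLM.contDiff)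

theorem phi_nonneg (z : ℂ) : 0 ≤ phi z := mul_nonneg (rho_nonneg _) (rho_nonneg _)

theorem phi_le_one (z : ℂ) : phi z ≤ 1 := by
  unfold phi
  calc rho z.re * rho z.im ≤ 1 * 1 :=
        mul_le_mul (rho_le_one _) (rho_le_one _) (rho_nonneg _) zero_le_one
    _ = 1 := by ring

theorem phi_zero {z : ℂ} (h : 1 ≤ |z.re| ∨ 1 ≤ |z.im|) : phi z = 0 := by
  unfold phi
  rcases h with h | h
  · rw [rho_zero h, zero_mul]
  · rw [rho_zero h, mul_zero]

theorem phi_zero_norm {z : ℂ} (hz : 2 < ‖z‖) : phi z = 0 := by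
  apply phi_zero
  by_contra hcon
  push Not at hcon
  have := Complex.norm_le_abs_re_add_abs_im z
  linarith [hcon.1, hcon.2]

theorem phi_supp : HasCompactSupport phi :=
  HasCompactSupport.intro (isCompact_closedBall (0 : ℂ) 2) fun z hz => by
    apply phi_zero_norm
    simpa using hz

theorem phi_test : Test phi := ⟨phi_smooth, phi_supp⟩

theorem phi_tst : Tst 2 phi where
  meas := phi_smooth.continuous.measurable
  bdd := ⟨1, fun z => by rw [abs_of_nonneg (phi_nonneg z)]; exact phi_le_one z⟩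
  supp := fun z hz => phi_zero_norm hz

/-- the mass of `phi` -/
def I0 : ℝ := ∫ z, phi z

theorem I0_pos : 0 < I0 := by
  have h0 : phi 0 ≠ 0 := by
    unfold phi
    rw [Complex.zero_re, Complex.zero_im, rho_zero_val]
    norm_num
  exact phi_smooth.continuous.integral_pos_of_hasCompactSupport_nonneg_nonzero phi_supp
    phi_nonneg h0

/-! ### the dilations -/

/-- dilation by `r` -/
def gr (r : ℝ) (z : ℂ) : ℝ := (r ^ 2)⁻¹ * phi (r⁻¹ • z)

theorem gr_smooth (r : ℝ) : ContDiff ℝ (⊤ : ℕ∞) (gr r) := by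
  unfold gr
  exact contDiff_const.mul (phi_smooth.comp (contDiff_const_smul r⁻¹))

theorem gr_zero {r : ℝ} (hr : 0 < r) {z : ℂ} (hz : 2 * r < ‖z‖) : gr r z = 0 := by
  unfold gr
  rw [phi_zero_norm, mul_zero]
  rw [norm_smul, norm_inv, Real.norm_of_nonneg hr.le, inv_mul_eq_div, lt_div_iff₀ hr]
  exact hz

theorem gr_supp {r : ℝ} (hr : 0 < r) : HasCompactSupport (gr r) := by
  refine HasCompactSupport.intro (isCompact_closedBall (0 : ℂ) (2 * r)) fun z hz => ?_
  apply gr_zero hr
  simpa using hz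

theorem gr_tst {r : ℝ} (hr : 0 < r) (hr1 : r ≤ 1) : Tst 2 (gr r) where
  meas := (gr_smooth r).continuous.measurable
  bdd := by
    refine ⟨(r ^ 2)⁻¹ * 1, fun z => ?_⟩
    unfold gr
    rw [abs_mul, abs_of_nonneg (by positivity : (0:ℝ) ≤ (r ^ 2)⁻¹), abs_of_nonneg (phi_nonneg _)]
    gcongr
    exact phi_le_one _
  supp := fun z hz => gr_zero hr (lt_of_le_of_lt (by linarith) hz)

theorem gr_nonneg (r : ℝ) (z : ℂ) : 0 ≤ gr r z := mul_nonneg (by positivity) (phi_nonneg _)

theorem integral_gr {r : ℝ} (hr : 0 < r) (F : ℂ → ℝ) :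
    ∫ z, gr r z * F z = ∫ z, phi z * F (r • z) := by
  have h1 : (fun z => phi z * F (r • z)) = fun z => (fun y => r ^ 2 * (gr r y * F y)) (r • z) := by
    funext z
    simp only
    unfold gr
    rw [smul_smul, inv_mul_cancel₀ hr.ne', one_smul]
    field_simp
  rw [h1, Measure.integral_comp_smul volume (fun y => r ^ 2 * (gr r y * F y)) r,
    Complex.finrank_real_complex, integral_const_mul, smul_eq_mul,
    abs_of_nonneg (by positivity)]
  field_simp

theorem gr_integral {r : ℝ} (hr : 0 < r) : ∫ z, gr r z = I0 := by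
  have := integral_gr hr (fun _ => 1)
  simp only [mul_one] at this
  rw [this]
  rfl

theorem U_gr {r : ℝ} (hr : 0 < r) (z : ℂ) :
    U (gr r) (r • z) = I0 * Real.log r + U phi z := by
  have h1 : U (gr r) (r • z) = ∫ w, gr r w * Real.log ‖r • z - w‖ := by
    unfold U; congr 1; funext w; ring
  rw [h1, integral_gr hr]
  have h2 : ∀ᵐ w : ℂ, phi w * Real.log ‖r • z - r • w‖ =
      phi w * Real.log r + Real.log ‖z - w‖ * phi w := by
    have h3 : ∀ᵐ w : ℂ, w ≠ z := by rw [ae_iff]; simp
    filter_upwards [h3] with w hw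
    rw [← smul_sub, norm_smul, Real.norm_of_nonneg hr.le,
      Real.log_mul hr.ne' (norm_ne_zero_iff.2 (sub_ne_zero.2 hw.symm))]
    ring
  rw [integral_congr_ae h2, integral_add (phi_tst.integrable.mul_const _)
    (integrable_log_mul phi_tst z), integral_mul_const]
  rfl

/-- the test functions `phi_r - phi` -/
def fr (r : ℝ) (z : ℂ) : ℝ := gr r z - phi z

theorem fr_test {r : ℝ} (hr : 0 < r) : Test (fr r) where
  smooth := (gr_smooth r).sub phi_smooth
  supp := (gr_supp hr).sub phi_supp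

theorem fr_integral {r : ℝ} (hr : 0 < r) (hr1 : r ≤ 1) : ∫ z, fr r z = 0 := by
  unfold fr
  rw [integral_sub (gr_tst hr hr1).integrable phi_tst.integrable, gr_integral hr]
  exact sub_self _

theorem energy_fr {r : ℝ} (hr : 0 < r) (hr1 : r ≤ 1) :
    ∫ z, fr r z * U (fr r) z = I0 * (I0 * Real.log r) + 2 * (∫ z, phi z * U phi z) -
      2 * ∫ z, gr r z * U phi z := by
  have t1 := gr_tst hr hr1
  have t2 := phi_tst
  have e0 : ∀ z, fr r z * U (fr r) z = gr r z * U (gr r) z - gr r z * U phi z -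
      (phi z * U (gr r) z - phi z * U phi z) := by
    intro z
    have : U (fr r) z = U (gr r) z - U phi z := U_sub t1 t2 z
    rw [this]
    unfold fr
    ring
  have i1 := integrable_mul_U t1 t1
  have i2 := integrable_mul_U t1 t2
  have i3 := integrable_mul_U t2 t1
  have i4 := integrable_mul_U t2 t2
  have e1 : ∫ z, fr r z * U (fr r) z = (∫ z, gr r z * U (gr r) z) - (∫ z, gr r z * U phi z) -
      ((∫ z, phi z * U (gr r) z) - ∫ z, phi z * U phi z) := by
    have a1 := integral_sub i1 i2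
    have a2 := integral_sub i3 i4
    have a3 := integral_sub (i1.sub i2) (i3.sub i4)
    simp only [Pi.sub_apply] at a3
    rw [integral_congr_ae (Eventually.of_forall e0), a3, a1, a2]
  have e2 : ∫ z, gr r z * U (gr r) z = I0 * (I0 * Real.log r) + ∫ z, phi z * U phi z := by
    rw [integral_gr hr]
    simp_rw [U_gr hr, mul_add]
    rw [integral_add (t2.integrable.mul_const _) i4, integral_mul_const]
    rfl
  rw [e1, e2, symm t2 t1]
  ring

/-- bound for the potential on the disc of radius 2 -/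
theorem exists_U_bound2 : ∃ B, 0 ≤ B ∧ ∀ z : ℂ, ‖z‖ ≤ 2 → |U phi z| ≤ B := by
  set k : ℂ → ℝ := (ball (0 : ℂ) 5).indicator fun u => |Real.log ‖u‖| with hk
  have hki : Integrable k :=
    (integrable_indicator_iff isOpen_ball.measurableSet).2 (integrableOn_log 5).norm
  have hk0 : ∀ u, 0 ≤ k u := fun u => indicator_nonneg (fun _ _ => abs_nonneg _) _
  refine ⟨∫ u, k u, integral_nonneg hk0, fun z hz => ?_⟩
  unfold U
  rw [← Real.norm_eq_abs]
  refine (norm_integral_le_integral_norm _).trans ?_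
  have h2 : ∫ u, k u = ∫ w, k (z - w) := by
    rw [integral_sub_left_eq_self (fun u => k u) volume z]
  rw [h2]
  refine integral_mono (integrable_log_mul phi_tst z).norm (hki.comp_sub_left z)
    fun w => ?_
  simp only
  by_cases hw : ‖w‖ ≤ 2
  · have h3 : k (z - w) = |Real.log ‖z - w‖| := by
      rw [hk, indicator_of_mem]
      rw [mem_ball_zero_iff]
      have := norm_sub_le z w
      linarith
    rw [h3, norm_mul, Real.norm_eq_abs, Real.norm_eq_abs, abs_of_nonneg (phi_nonneg w)]
    exact mul_le_of_le_one_right (abs_nonneg _) (phi_le_one w)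
  · rw [phi_tst.supp w (not_le.mp hw), mul_zero, norm_zero]
    exact hk0 _

theorem abs_gr_U_le {r B : ℝ} (hr : 0 < r) (hr1 : r ≤ 1) (hB : ∀ z : ℂ, ‖z‖ ≤ 2 → |U phi z| ≤ B) :
    |∫ z, gr r z * U phi z| ≤ I0 * B := by
  rw [← Real.norm_eq_abs]
  refine (norm_integral_le_integral_norm _).trans ?_
  have h2 : ∫ z, ‖gr r z * U phi z‖ ≤ ∫ z, gr r z * B := by
    refine integral_mono (integrable_mul_U (gr_tst hr hr1) phi_tst).norm
      ((gr_tst hr hr1).integrable.mul_const B) fun z => ?_
    simp only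
    have h3 : 0 ≤ gr r z := gr_nonneg r z
    by_cases hz : ‖z‖ ≤ 2
    · rw [norm_mul, Real.norm_of_nonneg h3, Real.norm_eq_abs]
      gcongr
      exact hB z hz
    · rw [(gr_tst hr hr1).supp z (not_le.mp hz)]
      simp
  refine h2.trans ?_
  rw [integral_mul_const, gr_integral hr]

/-- The energy of `phi_{1/M} - phi` tends to infinity. -/
theorem plog_gt (T : ℝ) : ∃ M0 : ℕ, 1 ≤ M0 ∧ ∀ M : ℕ, M0 ≤ M →
    T < plog (fr ((M : ℝ)⁻¹)) (fr ((M : ℝ)⁻¹)) := by
  obtain ⟨B, hB0, hB⟩ := exists_U_bound2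
  set E0 := ∫ z, phi z * U phi z with hE0
  have hlog : Tendsto (fun M : ℕ => Real.log (M : ℝ)) atTop atTop :=
    Real.tendsto_log_atTop.comp tendsto_natCast_atTop_atTop
  have hI := I0_pos
  obtain ⟨M1, hM1⟩ := (tendsto_atTop.1 hlog ((2 * Real.pi * |T| + 2 * |E0| + 2 * (I0 * B) + 1) /
    (I0 * I0))).exists_forall_of_atTop
  refine ⟨max M1 1, le_max_right _ _, fun M hM => ?_⟩
  have hMpos : (0 : ℝ) < M := by
    have : 1 ≤ M := (le_max_right _ _).trans hM
    exact_mod_cast this
  have hr : (0 : ℝ) < (M : ℝ)⁻¹ := inv_pos.2 hMpos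
  have hr1 : (M : ℝ)⁻¹ ≤ 1 := by
    apply inv_le_one_of_one_le₀
    have : 1 ≤ M := (le_max_right _ _).trans hM
    exact_mod_cast this
  have h0 := hM1 M ((le_max_left _ _).trans hM)
  rw [div_le_iff₀ (by positivity)] at h0
  rw [plog_eq, energy_fr hr hr1, Real.log_inv]
  have h1 := abs_gr_U_le hr hr1 hB
  have h4 := (abs_le.1 h1).1
  have h5 := le_abs_self E0
  have hpi := Real.pi_pos
  have h6 : T ≤ |T| := le_abs_self T
  have h7 : I0 * (I0 * -Real.log M) + 2 * E0 - 2 * (∫ z, gr (M : ℝ)⁻¹ z * U phi z) <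
      -(2 * Real.pi * |T|) := by
    have : I0 * (I0 * -Real.log M) = -(Real.log M * (I0 * I0)) := by ring
    rw [this]
    linarith
  have h8 : -(2 * Real.pi)⁻¹ * (I0 * (I0 * -Real.log M) + 2 * E0 -
      2 * (∫ z, gr (M : ℝ)⁻¹ z * U phi z)) > |T| := by
    have h9 : 0 < (2 * Real.pi)⁻¹ := by positivity
    have h10 : (2 * Real.pi)⁻¹ * (2 * Real.pi * |T|) = |T| := by field_simp
    nlinarith
  exact lt_of_le_of_lt h6 h8

end Crest.Agent.R161.Spr868
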