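import Crest.Agent.R150.Hgt_989
import Crest.Agent.R150.Pln_989
import Crest.Agent.R150.Pls_989

/-!
R161 (helper597, for helper760): the torus swap lemma.

A balanced ice configuration of the torus which coincides, on the window `box R`, with the arrows
of a height function `H` can be changed into the arrows of another height function `H'` which
coincides with `H` off `box (R - 1)`; ice rule, balance are preserved and the number of `c` vertices
changes by the local amount.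
-/

set_option autoImplicit false

noncomputable section

open Crest.ProbabilityR.SixVertex Filter Topology MeasureTheory
open Crest.Agent.R150.Hgt989 Crest.Agent.R150.Pln989 Crest.Agent.R150.Pls989

namespace Crest.Agent.R161.SwT597

/-- all steps are `±1` -/
def Stp (H : ℤ × ℤ → ℤ) : Prop :=
  ∀ p q : ℤ, |H (p + 1, q) - H (p, q)| = 1 ∧ |H (p, q + 1) - H (p, q)| = 1

/-- arrows of a height function -/
def cf (H : ℤ × ℤ → ℤ) : Conf := fun v =>
  (decide (H v - H (v.1, v.2 - 1) = 1), decide (H v - H (v.1 - 1, v.2) = -1))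

/-- number of `c` vertices seen inside the window -/
def NC (R : ℕ) (H : ℤ × ℤ → ℤ) : ℕ :=
  ((box R).filter fun v =>
    (v.1 - 1, v.2) ∈ box R ∧ (cf H (v.1 - 1, v.2)).1 ≠ (cf H v).1).card

/-- the point of the window represented by a torus vertex -/
def rep {M L : ℕ} (w : ZMod M × ZMod L) : ℤ × ℤ := (w.1.valMinAbs, w.2.valMinAbs)

/-- image on the torus -/
def im (M L : ℕ) (v : ℤ × ℤ) : ZMod M × ZMod L := ((v.1 : ZMod M), (v.2 : ZMod L))

/-- replace the arrows of the window by the arrows of `cf H'` -/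
def swapT {M L : ℕ} (R : ℕ) (H' : ℤ × ℤ → ℤ) (σ : Arrows M L) : Arrows M L :=
  (fun w => if rep w ∈ box R then (cf H' (rep w)).1 else σ.1 w,
    fun w => if rep w ∈ box R then (cf H' (rep w)).2 else σ.2 w)

section

variable {M L : ℕ}

theorem im_rep [NeZero M] [NeZero L] (w : ZMod M × ZMod L) : im M L (rep w) = w := by
  ext
  · simp [im, rep]
  · simp [im, rep]

theorem rep_coord {M : ℕ} [NeZero M] {R : ℕ} (hM : 2 * R + 2 ≤ M) {a : ℤ} (ha : |a| ≤ R) :
    ((a : ZMod M)).valMinAbs = a := by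
  rw [ZMod.valMinAbs_spec]
  refine ⟨rfl, ?_, ?_⟩ <;> rw [abs_le] at ha <;> omega

theorem rep_im [NeZero M] [NeZero L] {R : ℕ} (hM : 2 * R + 2 ≤ M) (hL : 2 * R + 2 ≤ L) {v : ℤ × ℤ}
    (hv : v ∈ box R) : rep (im M L v) = v := by
  rw [mem_box] at hv
  ext
  · exact rep_coord hM hv.1
  · exact rep_coord hL hv.2

theorem swapT_im [NeZero M] [NeZero L] {R : ℕ} (hM : 2 * R + 2 ≤ M) (hL : 2 * R + 2 ≤ L)
    (H' : ℤ × ℤ → ℤ) (σ : Arrows M L) {v : ℤ × ℤ} (hv : v ∈ box R) :
    ((swapT R H' σ).1 (im M L v), (swapT R H' σ).2 (im M L v)) = cf H' v := by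
  simp only [swapT, rep_im hM hL hv, if_pos hv]

theorem lift_im (σ : Arrows M L) (v : ℤ × ℤ) : lift σ v = (σ.1 (im M L v), σ.2 (im M L v)) := rfl

/-- (iii) -/
theorem lift_swapT [NeZero M] [NeZero L] {R : ℕ} (hM : 2 * R + 2 ≤ M) (hL : 2 * R + 2 ≤ L)
    (H' : ℤ × ℤ → ℤ) (σ : Arrows M L) {v : ℤ × ℤ} (hv : v ∈ box R) :
    lift (swapT R H' σ) v = cf H' v := by
  rw [lift_im]
  exact swapT_im hM hL H' σ hv

/-- (iv) -/
theorem swapT_swapT [NeZero M] [NeZero L] {R : ℕ} {H : ℤ × ℤ → ℤ} (H' : ℤ × ℤ → ℤ)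
    {σ : Arrows M L} (hσ : ∀ v ∈ box R, lift σ v = cf H v) :
    swapT R H (swapT R H' σ) = σ := by
  have key : ∀ w, rep w ∈ box R → (cf H (rep w)) = (σ.1 w, σ.2 w) := by
    intro w hw
    rw [← hσ _ hw, lift_im, im_rep]
  refine Prod.ext ?_ ?_
  · funext w
    simp only [swapT]
    split_ifs with h
    · rw [key w h]
    · rfl
  · funext w
    simp only [swapT]
    split_ifs with h
    · rw [key w h]
    · rfl

/-! ### steps -/

theorem Stp.hor {H : ℤ × ℤ → ℤ} (h : Stp H) (v : ℤ × ℤ) :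
    H v - H (v.1 - 1, v.2) = 1 ∨ H v - H (v.1 - 1, v.2) = -1 := by
  have := (h (v.1 - 1) v.2).1
  rw [sub_add_cancel] at this
  exact (abs_eq (by norm_num : (0 : ℤ) ≤ 1)).1 this

theorem Stp.ver {H : ℤ × ℤ → ℤ} (h : Stp H) (v : ℤ × ℤ) :
    H v - H (v.1, v.2 - 1) = 1 ∨ H v - H (v.1, v.2 - 1) = -1 := by
  have := (h v.1 (v.2 - 1)).2
  rw [sub_add_cancel] at this
  exact (abs_eq (by norm_num : (0 : ℤ) ≤ 1)).1 this

/-- signed value of an arrow -/
def sgb (b : Bool) : ℤ := if b then 1 else -1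

theorem sgb_cf1 {H : ℤ × ℤ → ℤ} (h : Stp H) (v : ℤ × ℤ) :
    sgb (cf H v).1 = H v - H (v.1, v.2 - 1) := by
  unfold sgb cf
  rcases h.ver v with h1 | h1
  · simp [h1]
  · rw [h1]; simp

theorem ice_cf {H : ℤ × ℤ → ℤ} (h : Stp H) (v : ℤ × ℤ) :
    ind4 (cf H (v.1 - 1, v.2)).1 (cf H v).1 (cf H (v.1, v.2 - 1)).2 (cf H v).2 = 2 := by
  have h1 := h.ver v
  have h2 := h.hor v
  have h3 := h.ver (v.1 - 1, v.2)
  have h4 := h.hor (v.1, v.2 - 1)
  simp only at h3 h4
  unfold ind4 cf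
  simp only [decide_eq_true_eq]
  rcases h1 with h1 | h1 <;> rcases h2 with h2 | h2 <;> rcases h3 with h3 | h3 <;>
    rcases h4 with h4 | h4 <;> (try (exfalso; omega)) <;>
    (rw [h1, h2, h3, h4]; norm_num)

/-- first components agree away from the inner window -/
theorem cf1_congr {R : ℕ} {H H' : ℤ × ℤ → ℤ}
    (hH : ∀ v, v ∉ box (R - 1) → H' v = H v) {v : ℤ × ℤ}
    (h1 : v ∉ box (R - 1)) (h2 : (v.1, v.2 - 1) ∉ box (R - 1)) :
    (cf H' v).1 = (cf H v).1 := by
  simp only [cf, hH v h1, hH _ h2]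

theorem cf2_congr {R : ℕ} {H H' : ℤ × ℤ → ℤ}
    (hH : ∀ v, v ∉ box (R - 1) → H' v = H v) {v : ℤ × ℤ}
    (h1 : v ∉ box (R - 1)) (h2 : (v.1 - 1, v.2) ∉ box (R - 1)) :
    (cf H' v).2 = (cf H v).2 := by
  simp only [cf, hH v h1, hH _ h2]

/-- membership in the box as linear inequalities -/
theorem mem_box' {R : ℕ} {v : ℤ × ℤ} :
    v ∈ box R ↔ (-(R : ℤ) ≤ v.1 ∧ v.1 ≤ R) ∧ (-(R : ℤ) ≤ v.2 ∧ v.2 ≤ R) := by
  rw [mem_box, abs_le, abs_le]

/-- where the horizontal arrows may change -/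
theorem changed1 [NeZero M] [NeZero L] {R : ℕ} (hR : 1 ≤ R) {H H' : ℤ × ℤ → ℤ} {σ : Arrows M L}
    (hσ : ∀ v ∈ box R, lift σ v = cf H v)
    (hH : ∀ v, v ∉ box (R - 1) → H' v = H v) {w : ZMod M × ZMod L}
    (hw : (swapT R H' σ).1 w ≠ σ.1 w) :
    (-(R : ℤ) + 1 ≤ (rep w).1 ∧ (rep w).1 ≤ R - 1) ∧ (-(R : ℤ) + 1 ≤ (rep w).2 ∧ (rep w).2 ≤ R) := by
  by_contra hcon
  apply hw
  simp only [swapT]
  split_ifs with h
  · have h1 : (cf H (rep w)).1 = σ.1 w := by
      rw [← hσ _ h, lift_im, im_rep]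
    rw [← h1]
    rw [mem_box'] at h
    apply cf1_congr hH
    · rw [mem_box']; push_cast [Nat.cast_sub hR]; omega
    · rw [mem_box']; push_cast [Nat.cast_sub hR]; omega
  · rfl

/-- where the vertical arrows may change -/
theorem changed2 [NeZero M] [NeZero L] {R : ℕ} (hR : 1 ≤ R) {H H' : ℤ × ℤ → ℤ} {σ : Arrows M L}
    (hσ : ∀ v ∈ box R, lift σ v = cf H v)
    (hH : ∀ v, v ∉ box (R - 1) → H' v = H v) {w : ZMod M × ZMod L}
    (hw : (swapT R H' σ).2 w ≠ σ.2 w) :
    (-(R : ℤ) + 1 ≤ (rep w).1 ∧ (rep w).1 ≤ R) ∧ (-(R : ℤ) + 1 ≤ (rep w).2 ∧ (rep w).2 ≤ R - 1) := by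
  by_contra hcon
  apply hw
  simp only [swapT]
  split_ifs with h
  · have h1 : (cf H (rep w)).2 = σ.2 w := by
      rw [← hσ _ h, lift_im, im_rep]
    rw [← h1]
    rw [mem_box'] at h
    apply cf2_congr hH
    · rw [mem_box']; push_cast [Nat.cast_sub hR]; omega
    · rw [mem_box']; push_cast [Nat.cast_sub hR]; omega
  · rfl

theorem rep_of_pred1 [NeZero M] [NeZero L] {R : ℕ} (hM : 2 * R + 2 ≤ M) (hL : 2 * R + 2 ≤ L)
    {w : ZMod M × ZMod L}
    (h : ((rep (w.1 - 1, w.2)).1 + 1, (rep (w.1 - 1, w.2)).2) ∈ box R) :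
    rep w = ((rep (w.1 - 1, w.2)).1 + 1, (rep (w.1 - 1, w.2)).2) := by
  have h1 := rep_im hM hL h
  rw [← h1]
  congr 1
  have h2 := im_rep (M := M) (L := L) (w.1 - 1, w.2)
  ext
  · have := congrArg Prod.fst h2
    simp only [im] at this ⊢
    push_cast
    rw [this]; ring
  · have := congrArg Prod.snd h2
    simp only [im] at this ⊢
    rw [this]

theorem rep_of_pred2 [NeZero M] [NeZero L] {R : ℕ} (hM : 2 * R + 2 ≤ M) (hL : 2 * R + 2 ≤ L)
    {w : ZMod M × ZMod L}
    (h : ((rep (w.1, w.2 - 1)).1, (rep (w.1, w.2 - 1)).2 + 1) ∈ box R) :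
    rep w = ((rep (w.1, w.2 - 1)).1, (rep (w.1, w.2 - 1)).2 + 1) := by
  have h1 := rep_im hM hL h
  rw [← h1]
  congr 1
  have h2 := im_rep (M := M) (L := L) (w.1, w.2 - 1)
  ext
  · have := congrArg Prod.fst h2
    simp only [im] at this ⊢
    rw [this]
  · have := congrArg Prod.snd h2
    simp only [im] at this ⊢
    push_cast
    rw [this]; ring

theorem im_pred1 (w : ZMod M × ZMod L) [NeZero M] [NeZero L] :
    (w.1 - 1, w.2) = im M L ((rep w).1 - 1, (rep w).2) := by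
  have h2 := im_rep w
  ext
  · have := congrArg Prod.fst h2
    simp only [im] at this ⊢
    push_cast
    rw [this]
  · have := congrArg Prod.snd h2
    simp only [im] at this ⊢
    rw [this]

theorem im_pred2 (w : ZMod M × ZMod L) [NeZero M] [NeZero L] :
    (w.1, w.2 - 1) = im M L ((rep w).1, (rep w).2 - 1) := by
  have h2 := im_rep w
  ext
  · have := congrArg Prod.fst h2
    simp only [im] at this ⊢
    rw [this]
  · have := congrArg Prod.snd h2
    simp only [im] at this ⊢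
    push_cast
    rw [this]

theorem inDegree_swapT [NeZero M] [NeZero L] {R : ℕ} (hR : 1 ≤ R) (hM : 2 * R + 2 ≤ M)
    (hL : 2 * R + 2 ≤ L) {H H' : ℤ × ℤ → ℤ} {σ : Arrows M L} (hs : Stp H')
    (hσ : ∀ v ∈ box R, lift σ v = cf H v)
    (hH : ∀ v, v ∉ box (R - 1) → H' v = H v) (hice : ∀ v, inDegree σ v = 2)
    (w : ZMod M × ZMod L) : inDegree (swapT R H' σ) w = 2 := by
  rw [inDegree_eq]
  by_cases hw : (-(R : ℤ) + 1 ≤ (rep w).1 ∧ (rep w).1 ≤ R) ∧
      (-(R : ℤ) + 1 ≤ (rep w).2 ∧ (rep w).2 ≤ R)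
  · have b0 : rep w ∈ box R := by rw [mem_box']; omega
    have b1 : ((rep w).1 - 1, (rep w).2) ∈ box R := by
      rw [mem_box']; simp only; omega
    have b2 : ((rep w).1, (rep w).2 - 1) ∈ box R := by
      rw [mem_box']; simp only; omega
    have e0 := swapT_im hM hL H' σ b0
    have e1 := swapT_im hM hL H' σ b1
    have e2 := swapT_im hM hL H' σ b2
    rw [im_rep] at e0
    rw [← im_pred1] at e1
    rw [← im_pred2] at e2
    have := ice_cf hs (rep w)
    rw [← e0, ← e1, ← e2] at this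
    exact this
  · have u0 : (swapT R H' σ).1 w = σ.1 w := by
      by_contra h
      have := changed1 hR hσ hH h
      omega
    have u1 : (swapT R H' σ).2 w = σ.2 w := by
      by_contra h
      have := changed2 hR hσ hH h
      omega
    have u2 : (swapT R H' σ).1 (w.1 - 1, w.2) = σ.1 (w.1 - 1, w.2) := by
      by_contra h
      have h1 := changed1 hR hσ hH h
      have h2 : ((rep (w.1 - 1, w.2)).1 + 1, (rep (w.1 - 1, w.2)).2) ∈ box R := by
        rw [mem_box']; simp only; omega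
      have h3 := rep_of_pred1 hM hL h2
      rw [h3] at hw
      simp only at hw
      omega
    have u3 : (swapT R H' σ).2 (w.1, w.2 - 1) = σ.2 (w.1, w.2 - 1) := by
      by_contra h
      have h1 := changed2 hR hσ hH h
      have h2 : ((rep (w.1, w.2 - 1)).1, (rep (w.1, w.2 - 1)).2 + 1) ∈ box R := by
        rw [mem_box']; simp only; omega
      have h3 := rep_of_pred2 hM hL h2
      rw [h3] at hw
      simp only at hw
      omega
    rw [u0, u1, u2, u3, ← inDegree_eq]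
    exact hice w

/-- sums over a torus circle of functions supported on the window -/
theorem sum_circle {L : ℕ} [NeZero L] {R : ℕ} (hL : 2 * R + 2 ≤ L) (f : ZMod L → ℤ)
    (hf : ∀ j : ZMod L, ¬ |j.valMinAbs| ≤ R → f j = 0) :
    ∑ j, f j = ∑ q ∈ Finset.Icc (-(R : ℤ)) R, f (q : ZMod L) := by
  classical
  have h1 : ∑ j, f j = ∑ j ∈ Finset.univ.filter (fun j : ZMod L => |j.valMinAbs| ≤ R), f j := by
    rw [Finset.sum_filter]
    refine Finset.sum_congr rfl fun j _ => ?_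
    split_ifs with h
    · rfl
    · exact hf j h
  rw [h1]
  refine Finset.sum_nbij' (fun j => j.valMinAbs) (fun q => (q : ZMod L)) ?_ ?_ ?_ ?_ ?_
  · intro j hj
    rw [Finset.mem_filter] at hj
    rw [Finset.mem_Icc]
    exact abs_le.1 hj.2
  · intro q hq
    rw [Finset.mem_Icc] at hq
    rw [Finset.mem_filter]
    refine ⟨Finset.mem_univ _, ?_⟩
    rw [rep_coord hL (abs_le.2 hq)]
    exact abs_le.2 hq
  · intro j _
    exact ZMod.coe_valMinAbs j
  · intro q hq
    rw [Finset.mem_Icc] at hq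
    exact rep_coord hL (abs_le.2 hq)
  · intro j _
    simp only [ZMod.coe_valMinAbs]

theorem sum_torus [NeZero M] [NeZero L] {R : ℕ} (hM : 2 * R + 2 ≤ M) (hL : 2 * R + 2 ≤ L)
    (f : ZMod M × ZMod L → ℤ) (hf : ∀ w, rep w ∉ box R → f w = 0) :
    ∑ w, f w = ∑ v ∈ box R, f (im M L v) := by
  classical
  have h1 : ∑ w, f w = ∑ w ∈ Finset.univ.filter (fun w : ZMod M × ZMod L =>
      rep w ∈ box R), f w := by
    rw [Finset.sum_filter]
    refine Finset.sum_congr rfl fun j _ => ?_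
    split_ifs with h
    · rfl
    · exact hf j h
  rw [h1]
  refine Finset.sum_nbij' rep (im M L) ?_ ?_ ?_ ?_ ?_
  · intro j hj
    exact (Finset.mem_filter.1 hj).2
  · intro q hq
    rw [Finset.mem_filter]
    refine ⟨Finset.mem_univ _, ?_⟩
    rwa [rep_im hM hL hq]
  · intro j _
    exact im_rep j
  · intro q hq
    exact rep_im hM hL hq
  · intro j _
    rw [im_rep]

theorem balanced_iff {M L : ℕ} [NeZero M] [NeZero L] (σ : Arrows M L) (i : ZMod M) :
    2 * (Finset.univ.filter fun j : ZMod L => σ.1 (i, j) = true).card = L ↔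
      ∑ j : ZMod L, sgb (σ.1 (i, j)) = 0 := by
  classical
  have h1 : ∑ j : ZMod L, sgb (σ.1 (i, j)) =
      2 * ((Finset.univ.filter fun j : ZMod L => σ.1 (i, j) = true).card : ℤ) - L := by
    have h2 : ∀ j : ZMod L, sgb (σ.1 (i, j)) = 2 * (if σ.1 (i, j) = true then 1 else 0) - 1 := by
      intro j
      unfold sgb
      cases σ.1 (i, j) <;> simp
    simp only [h2, Finset.sum_sub_distrib, ← Finset.mul_sum, Finset.sum_boole, Finset.sum_const,
      Finset.card_univ, ZMod.card]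
    simp
  rw [h1]
  constructor
  · intro h; rw [sub_eq_zero]; exact_mod_cast h
  · intro h; rw [sub_eq_zero] at h; exact_mod_cast h

theorem telescope (D : ℤ → ℤ) (R : ℕ) :
    ∑ q ∈ Finset.Icc (-(R : ℤ)) R, (D q - D (q - 1)) = D R - D (-(R : ℤ) - 1) := by
  have key : ∀ n : ℕ, ∑ q ∈ Finset.Icc (-(R : ℤ)) (-(R : ℤ) + n), (D q - D (q - 1)) =
      D (-(R : ℤ) + n) - D (-(R : ℤ) - 1) := by
    intro n
    induction n with
    | zero => simp
    | succ n ih =>
      have e : Finset.Icc (-(R : ℤ)) (-(R : ℤ) + ((n + 1 : ℕ) : ℤ)) =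
          insert (-(R : ℤ) + ((n + 1 : ℕ) : ℤ)) (Finset.Icc (-(R : ℤ)) (-(R : ℤ) + n)) := by
        ext x
        simp only [Finset.mem_Icc, Finset.mem_insert]
        push_cast
        omega
      rw [e, Finset.sum_insert, ih]
      · push_cast
        rw [show -(R : ℤ) + (n + 1) - 1 = -(R : ℤ) + n by ring]
        ring
      · simp only [Finset.mem_Icc]
        push_cast
        omega
  have := key (2 * R)
  have e : -(R : ℤ) + ((2 * R : ℕ) : ℤ) = R := by push_cast; ring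
  rwa [e] at this

/-- (i) -/
theorem balanced_swapT [NeZero M] [NeZero L] {R : ℕ} (hR : 1 ≤ R) (hM : 2 * R + 2 ≤ M)
    (hL : 2 * R + 2 ≤ L) {H H' : ℤ × ℤ → ℤ} {σ : Arrows M L} (hs : Stp H) (hs' : Stp H')
    (hσ : ∀ v ∈ box R, lift σ v = cf H v)
    (hH : ∀ v, v ∉ box (R - 1) → H' v = H v) (hice : IsBalancedIce σ) :
    IsBalancedIce (swapT R H' σ) := by
  refine ⟨inDegree_swapT hR hM hL hs' hσ hH hice.1, fun i => ?_⟩
  have h0 := (balanced_iff σ i).1 (hice.2 i)
  rw [balanced_iff, ← h0, ← sub_eq_zero, ← Finset.sum_sub_distrib]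
  by_cases hi : |i.valMinAbs| ≤ R
  · rw [sum_circle hL]
    · have hsum : ∀ q ∈ Finset.Icc (-(R : ℤ)) R,
          sgb ((swapT R H' σ).1 (i, (q : ZMod L))) - sgb (σ.1 (i, (q : ZMod L))) =
          (H' (i.valMinAbs, q) - H (i.valMinAbs, q)) -
            (H' (i.valMinAbs, q - 1) - H (i.valMinAbs, q - 1)) := by
        intro q hq
        rw [Finset.mem_Icc] at hq
        have hb : ((i.valMinAbs, q) : ℤ × ℤ) ∈ box R := by
          rw [mem_box]; exact ⟨hi, abs_le.2 hq⟩
        have e1 : (i, (q : ZMod L)) = im M L (i.valMinAbs, q) := by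
          simp [im]
        have e2 : (swapT R H' σ).1 (i, (q : ZMod L)) = (cf H' (i.valMinAbs, q)).1 := by
          rw [e1, ← swapT_im hM hL H' σ hb]
        have e3 : σ.1 (i, (q : ZMod L)) = (cf H (i.valMinAbs, q)).1 := by
          rw [e1, ← hσ _ hb, lift_im]
        rw [e2, e3, sgb_cf1 hs', sgb_cf1 hs]
        ring
      rw [Finset.sum_congr rfl hsum,
        telescope (fun q => H' (i.valMinAbs, q) - H (i.valMinAbs, q)) R]
      have o1 : ((i.valMinAbs, (R : ℤ)) : ℤ × ℤ) ∉ box (R - 1) := by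
        rw [mem_box']; push_cast [Nat.cast_sub hR]; omega
      have o2 : ((i.valMinAbs, -(R : ℤ) - 1) : ℤ × ℤ) ∉ box (R - 1) := by
        rw [mem_box']; push_cast [Nat.cast_sub hR]; omega
      rw [hH _ o1, hH _ o2]
      ring
    · intro j hj
      have : (swapT R H' σ).1 (i, j) = σ.1 (i, j) := by
        simp only [swapT]
        rw [if_neg]
        rw [mem_box]
        exact fun h => hj h.2
      rw [this, sub_self]
  · refine Finset.sum_eq_zero fun j _ => ?_
    have : (swapT R H' σ).1 (i, j) = σ.1 (i, j) := by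
      simp only [swapT]
      rw [if_neg]
      rw [mem_box]
      exact fun h => hi h.1
    rw [this, sub_self]

/-- (ii) -/
theorem numTypeC_swapT [NeZero M] [NeZero L] {R : ℕ} (hR : 1 ≤ R) (hM : 2 * R + 2 ≤ M)
    (hL : 2 * R + 2 ≤ L) {H H' : ℤ × ℤ → ℤ} {σ : Arrows M L}
    (hσ : ∀ v ∈ box R, lift σ v = cf H v)
    (hH : ∀ v, v ∉ box (R - 1) → H' v = H v) :
    numTypeC (swapT R H' σ) + NC R H = numTypeC σ + NC R H' := by
  classical
  let g : Arrows M L → ZMod M × ZMod L → ℤ := fun τ w =>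
    if τ.1 (w.1 - 1, w.2) ≠ τ.1 w then 1 else 0
  have hn : ∀ τ : Arrows M L, (numTypeC τ : ℤ) = ∑ w, g τ w := by
    intro τ
    unfold numTypeC
    simp only [g, Finset.sum_boole]
  let k : (ℤ × ℤ → ℤ) → ℤ × ℤ → ℤ := fun G v =>
    if (v.1 - 1, v.2) ∈ box R ∧ (cf G (v.1 - 1, v.2)).1 ≠ (cf G v).1 then 1 else 0
  have hk : ∀ G, (NC R G : ℤ) = ∑ v ∈ box R, k G v := by
    intro G
    unfold NC
    simp only [k, Finset.sum_boole]
  have key : ∑ w, (g (swapT R H' σ) w - g σ w) = ∑ v ∈ box R, (k H' v - k H v) := by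
    have hun : ∀ w : ZMod M × ZMod L,
        ¬ (rep w ∈ box R ∧ ((rep w).1 - 1, (rep w).2) ∈ box R) →
        g (swapT R H' σ) w - g σ w = 0 := by
      intro w hw
      have u0 : (swapT R H' σ).1 w = σ.1 w := by
        by_contra h
        have h1 := changed1 hR hσ hH h
        apply hw
        rw [mem_box', mem_box']
        simp only
        omega
      have u2 : (swapT R H' σ).1 (w.1 - 1, w.2) = σ.1 (w.1 - 1, w.2) := by
        by_contra h
        have h1 := changed1 hR hσ hH h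
        have h2 : ((rep (w.1 - 1, w.2)).1 + 1, (rep (w.1 - 1, w.2)).2) ∈ box R := by
          rw [mem_box']; simp only; omega
        have h3 := rep_of_pred1 hM hL h2
        apply hw
        rw [h3]
        refine ⟨h2, ?_⟩
        rw [mem_box']
        simp only
        omega
      simp only [g, u0, u2, sub_self]
    rw [sum_torus hM hL _ (fun w hw => hun w (fun h => hw h.1))]
    refine Finset.sum_congr rfl fun v hv => ?_
    by_cases hv1 : (v.1 - 1, v.2) ∈ box R
    · have e0 := swapT_im hM hL H' σ hv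
      have e1 := swapT_im hM hL H' σ hv1
      have p1 : ((im M L v).1 - 1, (im M L v).2) = im M L (v.1 - 1, v.2) := by
        simp [im]
      have f0 := hσ v hv
      have f1 := hσ _ hv1
      rw [lift_im] at f0 f1
      simp only [g, k, p1, hv1, true_and]
      rw [← e0, ← e1, ← f0, ← f1]
    · rw [hun]
      · simp only [k, hv1, false_and, if_false, sub_self]
      · rw [rep_im hM hL hv]
        exact fun h => hv1 h.2
  rw [Finset.sum_sub_distrib, Finset.sum_sub_distrib, ← hn, ← hn, ← hk, ← hk] at key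
  omega

/-- **Torus swap lemma**: (i) - (iv). -/
theorem torus_swap [NeZero M] [NeZero L] {R : ℕ} (hR : 1 ≤ R) (hM : 2 * R + 2 ≤ M)
    (hL : 2 * R + 2 ≤ L) {H H' : ℤ × ℤ → ℤ} {σ : Arrows M L} (hs : Stp H) (hs' : Stp H')
    (hσ : ∀ v ∈ box R, lift σ v = cf H v) (hH : ∀ v, v ∉ box (R - 1) → H' v = H v)
    (hice : IsBalancedIce σ) :
    IsBalancedIce (swapT R H' σ) ∧
      numTypeC (swapT R H' σ) + NC R H = numTypeC σ + NC R H' ∧
      (∀ v ∈ box R, lift (swapT R H' σ) v = cf H' v) ∧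
      swapT R H (swapT R H' σ) = σ :=
  ⟨balanced_swapT hR hM hL hs hs' hσ hH hice, numTypeC_swapT hR hM hL hσ hH,
    fun _ hv => lift_swapT hM hL H' σ hv, swapT_swapT H' hσ⟩

/-- weights after a swap -/
theorem wgt_swapT [NeZero M] [NeZero L] {R : ℕ} (hR : 1 ≤ R) (hM : 2 * R + 2 ≤ M)
    (hL : 2 * R + 2 ≤ L) (c : ℝ) {H H' : ℤ × ℤ → ℤ} {σ : Arrows M L} (hs : Stp H) (hs' : Stp H')
    (hσ : ∀ v ∈ box R, lift σ v = cf H v) (hH : ∀ v, v ∉ box (R - 1) → H' v = H v) :
    wgt c (swapT R H' σ) * c ^ NC R H = wgt c σ * c ^ NC R H' := by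
  by_cases hice : IsBalancedIce σ
  · have h1 := balanced_swapT hR hM hL hs hs' hσ hH hice
    have h2 := numTypeC_swapT hR hM hL hσ hH
    unfold wgt
    rw [if_pos hice, if_pos h1, ← pow_add, ← pow_add, h2]
  · have h1 : ¬ IsBalancedIce (swapT R H' σ) := by
      intro h
      apply hice
      have := balanced_swapT (H := H') (H' := H) hR hM hL hs' hs
        (fun v hv => lift_swapT hM hL H' σ hv) (fun v hv => (hH v hv).symm) h
      rwa [swapT_swapT H' hσ] at this
    rw [wgt_zero c hice, wgt_zero c h1, zero_mul, zero_mul]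

/-! ### expectations -/

open Classical in
/-- indicator of the window pattern `cf H` -/
def ind (R : ℕ) (H : ℤ × ℤ → ℤ) (ω : Conf) : ℝ := if ∀ v ∈ box R, ω v = cf H v then 1 else 0

open Classical in
/-- the planar swap -/
def swapP (R : ℕ) (H' : ℤ × ℤ → ℤ) (ω : Conf) : Conf := fun v => if v ∈ box R then cf H' v else ω v

theorem lift_swapT_eq [NeZero M] [NeZero L] {R R' : ℕ} (hRR : R ≤ R') (hM : 2 * R' + 2 ≤ M)
    (hL : 2 * R' + 2 ≤ L) (H' : ℤ × ℤ → ℤ) (σ : Arrows M L) {v : ℤ × ℤ} (hv : v ∈ box R') :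
    lift (swapT R H' σ) v = swapP R H' (lift σ) v := by
  unfold swapP
  rw [lift_im]
  simp only [swapT, rep_im hM hL hv]
  split_ifs with h
  · rfl
  · rfl

theorem E_swap [NeZero M] [NeZero L] {R R' : ℕ} (hR : 1 ≤ R) (hRR : R ≤ R')
    (hM : 2 * R' + 2 ≤ M) (hL : 2 * R' + 2 ≤ L) (c : ℝ) {H H' : ℤ × ℤ → ℤ} (hs : Stp H)
    (hs' : Stp H') (hH : ∀ v, v ∉ box (R - 1) → H' v = H v) {F : Conf → ℝ}
    (hF : ∀ ω ω' : Conf, (∀ v ∈ box R', ω v = ω' v) → F ω = F ω') :
    torusExpectation M L c (fun σ => ind R H (lift σ) * F (swapP R H' (lift σ))) * c ^ NC R H' =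
      torusExpectation M L c (fun σ => ind R H' (lift σ) * F (lift σ)) * c ^ NC R H := by
  classical
  rw [torusExpectation_eq, torusExpectation_eq, div_mul_eq_mul_div, div_mul_eq_mul_div]
  congr 1
  have hM' : 2 * R + 2 ≤ M := by omega
  have hL' : 2 * R + 2 ≤ L := by omega
  have h1 : ∀ (G : ℤ × ℤ → ℤ) (K : Conf → ℝ),
      ∑ σ : Arrows M L, wgt c σ * (ind R G (lift σ) * K (lift σ)) =
      ∑ σ ∈ Finset.univ.filter (fun σ : Arrows M L => ∀ v ∈ box R, lift σ v = cf G v),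
        wgt c σ * K (lift σ) := by
    intro G K
    rw [Finset.sum_filter]
    refine Finset.sum_congr rfl fun σ _ => ?_
    unfold ind
    split_ifs <;> ring
  have e1 := h1 H (fun ω => F (swapP R H' ω))
  have e2 := h1 H' F
  rw [e1, e2, Finset.sum_mul, Finset.sum_mul]
  refine Finset.sum_nbij' (swapT R H') (swapT R H) ?_ ?_ ?_ ?_ ?_
  · intro σ hσ
    rw [Finset.mem_filter] at hσ ⊢
    exact ⟨Finset.mem_univ _, fun v hv => lift_swapT hM' hL' H' σ hv⟩
  · intro σ hσ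
    rw [Finset.mem_filter] at hσ ⊢
    exact ⟨Finset.mem_univ _, fun v hv => lift_swapT hM' hL' H σ hv⟩
  · intro σ hσ
    rw [Finset.mem_filter] at hσ
    exact swapT_swapT H' hσ.2
  · intro σ hσ
    rw [Finset.mem_filter] at hσ
    exact swapT_swapT H hσ.2
  · intro σ hσ
    rw [Finset.mem_filter] at hσ
    have h2 := wgt_swapT (σ := σ) hR hM' hL' c hs hs' hσ.2 hH
    have h3 : F (lift (swapT R H' σ)) = F (swapP R H' (lift σ)) :=
      hF _ _ fun v hv => lift_swapT_eq hRR hM hL H' σ hv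
    rw [h3]
    calc wgt c σ * F (swapP R H' (lift σ)) * c ^ NC R H'
        = (wgt c σ * c ^ NC R H') * F (swapP R H' (lift σ)) := by ring
      _ = (wgt c (swapT R H' σ) * c ^ NC R H) * F (swapP R H' (lift σ)) := by rw [h2]
      _ = _ := by ring

theorem loc_ind (R : ℕ) (H : ℤ × ℤ → ℤ) : Loc (ind R H) := by
  refine ⟨R, fun ω ω' h => ?_⟩
  unfold ind
  have : (∀ v ∈ box R, ω v = cf H v) ↔ ∀ v ∈ box R, ω' v = cf H v := by
    constructor
    · intro h1 v hv; rw [← h v hv]; exact h1 v hv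
    · intro h1 v hv; rw [h v hv]; exact h1 v hv
  by_cases h1 : ∀ v ∈ box R, ω v = cf H v
  · rw [if_pos h1, if_pos (this.1 h1)]
  · rw [if_neg h1, if_neg fun h2 => h1 (this.2 h2)]

theorem loc_swapP {F : Conf → ℝ} (hF : Loc F) (R : ℕ) (H' : ℤ × ℤ → ℤ) :
    Loc fun ω => F (swapP R H' ω) := by
  obtain ⟨R', hR'⟩ := hF
  refine ⟨R', fun ω ω' h => hR' _ _ fun v hv => ?_⟩
  unfold swapP
  split_ifs
  · rfl
  · exact h v hv

/-- **Local Gibbs property of the plane state** (ratio form). -/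
theorem plane_swap {c : ℝ} {P : Measure Conf} (hP : IsPlane c P) {R : ℕ} (hR : 1 ≤ R)
    {H H' : ℤ × ℤ → ℤ} (hs : Stp H) (hs' : Stp H') (hH : ∀ v, v ∉ box (R - 1) → H' v = H v)
    {F : Conf → ℝ} (hF : Loc F) :
    (∫ ω, ind R H ω * F (swapP R H' ω) ∂P) * c ^ NC R H' =
      (∫ ω, ind R H' ω * F ω ∂P) * c ^ NC R H := by
  obtain ⟨R₀, hR₀⟩ := hF
  obtain ⟨A, hA, hA'⟩ := hP.iter _ ((loc_ind R H).mul (loc_swapP ⟨R₀, hR₀⟩ R H'))
  obtain ⟨B, hB, hB'⟩ := hP.iter _ ((loc_ind R H').mul (⟨R₀, hR₀⟩ : Loc F))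
  have key : ∀ᶠ L in atTop, A L * c ^ NC R H' = B L * c ^ NC R H := by
    filter_upwards [eventually_ge_atTop (R + R₀ + 2)] with L hL
    have h1 := (hA L (by omega)).mul_const (c ^ NC R H')
    have h2 := (hB L (by omega)).mul_const (c ^ NC R H)
    refine tendsto_nhds_unique_of_eventuallyEq h1 h2 ?_
    filter_upwards [eventually_ge_atTop (2 * (R + R₀) + 2)] with M hM
    have : NeZero M := ⟨by omega⟩
    have : NeZero (2 * L) := ⟨by omega⟩
    rw [tm_eq, tm_eq]
    exact E_swap (R' := R + R₀) hR (by omega) (by omega) (by omega) c hs hs' hH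
      fun ω ω' h => hR₀ _ _ fun v hv => h v (box_mono (by omega) hv)
  exact tendsto_nhds_unique_of_eventuallyEq (hA'.mul_const _) (hB'.mul_const _) key

end

end Crest.Agent.R161.SwT597
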