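import Crest.Agent.R161.Tas1_682

/-!
# Row 161, block C, T4 (helper682): abstract percolation law, rectangle crossings
-/

set_option autoImplicit false

namespace Crest.Agent.R161.Tas682

open Crest.Agent.R161.Geo729 Crest.Agent.R161.Topo374 Crest.Agent.R161.Dual374
open Crest.Agent.R161.Sym597

/-- Law of a positively associated, `D4`- and translation-invariant percolation, as a set function. -/
structure Perc (P : Set Cf → ℝ) : Prop where
  nonneg : ∀ A, 0 ≤ P A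
  univ : P Set.univ = 1
  mono : ∀ A B, A ⊆ B → P A ≤ P B
  union : ∀ A B, P (A ∪ B) ≤ P A + P B
  fkg : ∀ A B, IncLoc A → IncLoc B → P A * P B ≤ P (A ∩ B)
  vert : ∀ n A, IncLoc A → P ((fun (z : Cf) (e : Edge) => z ((Refl.vert n).E e)) ⁻¹' A) = P A
  horiz : ∀ n A, IncLoc A → P ((fun (z : Cf) (e : Edge) => z ((Refl.horiz n).E e)) ⁻¹' A) = P A
  diag : ∀ A, IncLoc A → P ((fun (z : Cf) (e : Edge) => z ((Refl.diag 0).E e)) ⁻¹' A) = P A

namespace Perc

variable {P : Set Cf → ℝ} (hP : Perc P)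
include hP

theorem le_one (A : Set Cf) : P A ≤ 1 := by
  rw [← hP.univ]
  exact hP.mono _ _ (Set.subset_univ _)

theorem EV_vert (n : ℤ) {S : Set P2} (hS : S.Finite) (A B : Set P2) :
    P (EV {v | (n - v.1, v.2) ∈ S} {v | (n - v.1, v.2) ∈ A} {v | (n - v.1, v.2) ∈ B}) =
      P (EV S A B) := by
  rw [← hP.vert n (EV S A B) (EV_incLoc hS A B), EV_refl]
  rfl

theorem EV_horiz (n : ℤ) {S : Set P2} (hS : S.Finite) (A B : Set P2) :
    P (EV {v | (v.1, n - v.2) ∈ S} {v | (v.1, n - v.2) ∈ A} {v | (v.1, n - v.2) ∈ B}) =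
      P (EV S A B) := by
  rw [← hP.horiz n (EV S A B) (EV_incLoc hS A B), EV_refl]
  rfl

theorem EV_diag {S : Set P2} (hS : S.Finite) (A B : Set P2) :
    P (EV {v | (v.2, v.1) ∈ S} {v | (v.2, v.1) ∈ A} {v | (v.2, v.1) ∈ B}) = P (EV S A B) := by
  rw [← hP.diag (EV S A B) (EV_incLoc hS A B), EV_refl]
  have : (Refl.diag 0).V = fun v => (v.2, v.1) := by
    funext v
    show (v.2 - 0, v.1 + 0) = (v.2, v.1)
    simp
  rw [this]
  rfl

theorem EV_shift (a b : ℤ) {S : Set P2} (hS : S.Finite) (A B : Set P2) :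
    P (EV {v | (v.1 - a, v.2 - b) ∈ S} {v | (v.1 - a, v.2 - b) ∈ A} {v | (v.1 - a, v.2 - b) ∈ B}) =
      P (EV S A B) := by
  have fin : ∀ {T : Set P2} (f : P2 → P2), (∀ v w, f v = f w → v = w) → T.Finite →
      (f ⁻¹' T).Finite := fun f hf hT => hT.preimage (fun v _ w _ h => hf v w h)
  have h1 := hP.EV_vert (-a) hS A B
  have fin1 : {v : P2 | (-a - v.1, v.2) ∈ S}.Finite :=
    fin (fun v : P2 => (-a - v.1, v.2)) (fun v w h => by
      simp only [Prod.mk.injEq] at h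
      ext <;> omega) hS
  have h2 := hP.EV_vert 0 fin1 {v | (-a - v.1, v.2) ∈ A} {v | (-a - v.1, v.2) ∈ B}
  have fin2 : {v : P2 | (0 - v.1, v.2) ∈ {v : P2 | (-a - v.1, v.2) ∈ S}}.Finite :=
    fin (fun v : P2 => (0 - v.1, v.2)) (fun v w h => by
      simp only [Prod.mk.injEq] at h
      ext <;> omega) fin1
  have h3 := hP.EV_horiz (-b) fin2 {v : P2 | (0 - v.1, v.2) ∈ {v : P2 | (-a - v.1, v.2) ∈ A}}
    {v : P2 | (0 - v.1, v.2) ∈ {v : P2 | (-a - v.1, v.2) ∈ B}}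
  have fin3 : {v : P2 | (v.1, -b - v.2) ∈
      {v : P2 | (0 - v.1, v.2) ∈ {v : P2 | (-a - v.1, v.2) ∈ S}}}.Finite :=
    fin (fun v : P2 => (v.1, -b - v.2)) (fun v w h => by
      simp only [Prod.mk.injEq] at h
      ext <;> omega) fin2
  have h4 := hP.EV_horiz 0 fin3
    {v : P2 | (v.1, -b - v.2) ∈ {v : P2 | (0 - v.1, v.2) ∈ {v : P2 | (-a - v.1, v.2) ∈ A}}}
    {v : P2 | (v.1, -b - v.2) ∈ {v : P2 | (0 - v.1, v.2) ∈ {v : P2 | (-a - v.1, v.2) ∈ B}}}
  rw [← h1, ← h2, ← h3, ← h4]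
  have key : ∀ T : Set P2, {v : P2 | (v.1 - a, v.2 - b) ∈ T} =
      {v : P2 | (v.1, 0 - v.2) ∈ {v : P2 | (v.1, -b - v.2) ∈
        {v : P2 | (0 - v.1, v.2) ∈ {v : P2 | (-a - v.1, v.2) ∈ T}}}} := by
    intro T
    ext v
    simp only [Set.mem_ofPred_eq]
    have : (-a - (0 - v.1), -b - (0 - v.2)) = (v.1 - a, v.2 - b) := by
      ext <;> simp only <;> ring
    rw [this]
  rw [key S, key A, key B]

end Perc

/-- probability of a left-right crossing -/
def lr (P : Set Cf → ℝ) (a b c d : ℤ) : ℝ := P {z | LRc z a b c d}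

/-- probability of a bottom-top crossing -/
def bt (P : Set Cf → ℝ) (a b c d : ℤ) : ℝ := P {z | BTc z a b c d}

theorem lrc_incLoc (a b c d : ℤ) : IncLoc {z | LRc z a b c d} := by
  rw [setOf_LRc]
  exact EV_incLoc (rect_finite a b c d) _ _

theorem btc_incLoc (a b c d : ℤ) : IncLoc {z | BTc z a b c d} := by
  rw [setOf_BTc]
  exact EV_incLoc (rect_finite a b c d) _ _

/-- monotonicity of crossings -/
theorem LRc.mono {z : Cf} {a b c d a' b' c' d' : ℤ} (h : LRc z a b c d) (ha : a ≤ a')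
    (hab : a' ≤ b') (hb : b' ≤ b) (hc : c' ≤ c) (hd : d ≤ d') : LRc z a' b' c' d' := by
  obtain ⟨u, v, hu, hv, h⟩ := h
  obtain ⟨w, h1, h2, -⟩ := last_exit (fun p => p.1)
    (fun a b hab => by unfold Nbr at hab; omega) a' h (by omega) (by omega)
  obtain ⟨w', h3, h4⟩ := first_hit (fun p => p.1)
    (fun a b hab => by unfold Nbr at hab; omega) b' h2 (by omega) (by omega)
  refine ⟨w, w', h1, h3, h4.monoS ?_⟩
  rintro p ⟨⟨⟨h5, h6, h7, h8⟩, h9⟩, h10⟩
  have h9' : a' ≤ p.1 := h9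
  have h10' : p.1 ≤ b' := h10
  exact ⟨h9', h10', by omega, by omega⟩

theorem BTc.mono {z : Cf} {a b c d a' b' c' d' : ℤ} (h : BTc z a b c d) (hc : c ≤ c')
    (hcd : c' ≤ d') (hd : d' ≤ d) (ha : a' ≤ a) (hb : b ≤ b') : BTc z a' b' c' d' := by
  obtain ⟨u, v, hu, hv, h⟩ := h
  obtain ⟨w, h1, h2, -⟩ := last_exit (fun p => p.2)
    (fun a b hab => by unfold Nbr at hab; omega) c' h (by omega) (by omega)
  obtain ⟨w', h3, h4⟩ := first_hit (fun p => p.2)
    (fun a b hab => by unfold Nbr at hab; omega) d' h2 (by omega) (by omega)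
  refine ⟨w, w', h1, h3, h4.monoS ?_⟩
  rintro p ⟨⟨⟨h5, h6, h7, h8⟩, h9⟩, h10⟩
  have h9' : c' ≤ p.2 := h9
  have h10' : p.2 ≤ d' := h10
  exact ⟨by omega, by omega, h9', h10'⟩

/-- gluing two left-right crossings by a bottom-top crossing of the overlap -/
theorem LRc.glue {z : Cf} {a a' b b' c d : ℤ} (h1 : LRc z a b c d) (h2 : LRc z a' b' c d)
    (h3 : BTc z a' b c d) (ha : a ≤ a') (hb : b ≤ b') : LRc z a b' c d := by
  obtain ⟨u, v, hu, hv, h1⟩ := h1
  obtain ⟨u', v', hu', hv', h2⟩ := h2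
  obtain ⟨p, q, hp, hq, h3⟩ := h3
  obtain ⟨w, h4, h5⟩ := Tas682.glue h1 h3
    (by rintro w ⟨h1, h2, h3, h4⟩; constructor <;> omega)
    (by rintro w ⟨h1, h2, h3, h4⟩; constructor <;> omega)
  obtain ⟨w', h6, h7⟩ := Tas682.glue h2 h3
    (by rintro w ⟨h1, h2, h3, h4⟩; constructor <;> omega)
    (by rintro w ⟨h1, h2, h3, h4⟩; constructor <;> omega)
  have s1 : Rect a b c d ⊆ Rect a b' c d := by
    rintro w ⟨h1, h2, h3, h4⟩; exact ⟨h1, by omega, h3, h4⟩
  have s2 : Rect a' b' c d ⊆ Rect a b' c d := by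
    rintro w ⟨h1, h2, h3, h4⟩; exact ⟨by omega, h2, h3, h4⟩
  have s3 : Rect a' b c d ⊆ Rect a b' c d := by
    rintro w ⟨h1, h2, h3, h4⟩; exact ⟨by omega, by omega, h3, h4⟩
  refine ⟨u, v', hu, hv', ?_⟩
  have e1 : OC z (Rect a b' c d) u w := h4.monoS s1
  have e2 : OC z (Rect a b' c d) w w' := ((h5.symm).trans h7).monoS s3
  have e3 : OC z (Rect a b' c d) w' v' := ((h6.symm).trans h2).monoS s2
  exact (e1.trans e2).trans e3

namespace Perc

variable {P : Set Cf → ℝ} (hP : Perc P)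
include hP

theorem lr_shift (a b c d k l : ℤ) : lr P (a + k) (b + k) (c + l) (d + l) = lr P a b c d := by
  unfold lr
  rw [setOf_LRc, setOf_LRc, ← hP.EV_shift k l (rect_finite a b c d)]
  congr 2
  · ext v; simp only [mem_rect, Set.mem_ofPred_eq]; omega
  · ext v; simp only [Set.mem_ofPred_eq]; omega
  · ext v; simp only [Set.mem_ofPred_eq]; omega

theorem bt_eq_lr (a b c d : ℤ) : bt P a b c d = lr P c d a b := by
  unfold lr bt
  rw [setOf_LRc, setOf_BTc, ← hP.EV_diag (rect_finite c d a b)]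
  congr 2
  ext v; simp only [mem_rect, Set.mem_ofPred_eq]; omega

theorem lr_eq (a b c d : ℤ) : lr P a b c d = lr P 0 (b - a) 0 (d - c) := by
  have := hP.lr_shift 0 (b - a) 0 (d - c) a c
  simpa using this

theorem bt_eq (a b c d : ℤ) : bt P a b c d = lr P 0 (d - c) 0 (b - a) := by
  rw [hP.bt_eq_lr, hP.lr_eq]

theorem lr_mono {a b c d a' b' c' d' : ℤ} (ha : a ≤ a') (hab : a' ≤ b') (hb : b' ≤ b)
    (hc : c' ≤ c) (hd : d ≤ d') : lr P a b c d ≤ lr P a' b' c' d' :=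
  hP.mono _ _ fun _ h => LRc.mono h ha hab hb hc hd

/-- monotonicity in terms of the lengths -/
theorem h_mono {L H L' H' : ℤ} (hL' : 0 ≤ L') (hL : L' ≤ L) (hH : H ≤ H') :
    lr P 0 L 0 H ≤ lr P 0 L' 0 H' :=
  hP.lr_mono le_rfl hL' hL le_rfl hH

theorem lr_nonneg (a b c d : ℤ) : 0 ≤ lr P a b c d := hP.nonneg _

/-- gluing of two crossings of lengths `L1`, `L2` with an overlap of length `W` -/
theorem h_glue {L1 L2 W H : ℤ} (hW1 : W ≤ L1) (hW2 : W ≤ L2) :
    lr P 0 L1 0 H * lr P 0 L2 0 H * lr P 0 H 0 W ≤ lr P 0 (L1 + L2 - W) 0 H := by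
  have h1 : lr P 0 L2 0 H = lr P (L1 - W) (L1 + L2 - W) 0 H := by
    rw [hP.lr_eq (L1 - W) (L1 + L2 - W) 0 H]
    congr 1 <;> ring
  have h2 : lr P 0 H 0 W = bt P (L1 - W) L1 0 H := by
    rw [hP.bt_eq]
    congr 1 <;> ring
  rw [h1, h2]
  have h3 := hP.fkg _ _ (lrc_incLoc 0 L1 0 H) (lrc_incLoc (L1 - W) (L1 + L2 - W) 0 H)
  have h4 := hP.fkg _ _ ((lrc_incLoc 0 L1 0 H).inter (lrc_incLoc (L1 - W) (L1 + L2 - W) 0 H))
    (btc_incLoc (L1 - W) L1 0 H)
  have h5 : ({z | LRc z 0 L1 0 H} ∩ {z | LRc z (L1 - W) (L1 + L2 - W) 0 H}) ∩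
      {z | BTc z (L1 - W) L1 0 H} ⊆ {z | LRc z 0 (L1 + L2 - W) 0 H} := by
    rintro z ⟨⟨h6, h7⟩, h8⟩
    exact LRc.glue h6 h7 h8 (by omega) (by omega)
  unfold lr bt at *
  calc _ ≤ P ({z | LRc z 0 L1 0 H} ∩ {z | LRc z (L1 - W) (L1 + L2 - W) 0 H}) *
        P {z | BTc z (L1 - W) L1 0 H} := mul_le_mul_of_nonneg_right h3 (hP.nonneg _)
    _ ≤ _ := h4
    _ ≤ _ := hP.mono _ _ h5

/-- long crossings from crossings slightly longer than the square -/
theorem h_long {c0 q : ℝ} {H δ : ℤ} (hδ : 0 ≤ δ) (_hH : 0 ≤ H) (hc0 : 0 ≤ c0) (hq : 0 ≤ q)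
    (hsq : c0 ≤ lr P 0 H 0 H) (h : q ≤ lr P 0 (H + δ) 0 H) (k : ℕ) :
    (q * c0) ^ (k + 1) ≤ lr P 0 (H + (k + 1) * δ) 0 H := by
  have hc1 : c0 ≤ 1 := hsq.trans (hP.le_one _)
  induction k with
  | zero =>
      have : q * c0 ≤ q := mul_le_of_le_one_right hq hc1
      simpa using this.trans h
  | succ k ih =>
      have h1 := hP.h_glue (L1 := H + (k + 1) * δ) (L2 := H + δ) (W := H) (H := H)
        (by nlinarith) (by omega)
      have h2 : (H + (k + 1) * δ) + (H + δ) - H = H + ((k + 1 : ℕ) + 1) * δ := by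
        push_cast; ring
      rw [h2] at h1
      refine le_trans ?_ h1
      rw [pow_succ]
      calc (q * c0) ^ (k + 1) * (q * c0) = (q * c0) ^ (k + 1) * q * c0 := by ring
        _ ≤ _ := by
          apply mul_le_mul _ hsq hc0 (mul_nonneg (hP.lr_nonneg _ _ _ _) (hP.lr_nonneg _ _ _ _))
          exact mul_le_mul ih h hq (hP.lr_nonneg _ _ _ _)

/-- the four crossings of an annulus -/
theorem circ4_ge (x : P2) (n m : ℤ) :
    (lr P 0 (2 * m) 0 (m - n)) ^ 4 ≤ P {z | Circ4 z x n m} := by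
  have e1 : lr P 0 (2 * m) 0 (m - n) = lr P (x.1 - m) (x.1 + m) (x.2 + n) (x.2 + m) := by
    rw [hP.lr_eq (x.1 - m)]; congr 1 <;> ring
  have e2 : lr P 0 (2 * m) 0 (m - n) = lr P (x.1 - m) (x.1 + m) (x.2 - m) (x.2 - n) := by
    rw [hP.lr_eq (x.1 - m)]; congr 1 <;> ring
  have e3 : lr P 0 (2 * m) 0 (m - n) = bt P (x.1 + n) (x.1 + m) (x.2 - m) (x.2 + m) := by
    rw [hP.bt_eq (x.1 + n)]; congr 1 <;> ring
  have e4 : lr P 0 (2 * m) 0 (m - n) = bt P (x.1 - m) (x.1 - n) (x.2 - m) (x.2 + m) := by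
    rw [hP.bt_eq (x.1 - m)]; congr 1 <;> ring
  have i1 := lrc_incLoc (x.1 - m) (x.1 + m) (x.2 + n) (x.2 + m)
  have i2 := lrc_incLoc (x.1 - m) (x.1 + m) (x.2 - m) (x.2 - n)
  have i3 := btc_incLoc (x.1 + n) (x.1 + m) (x.2 - m) (x.2 + m)
  have i4 := btc_incLoc (x.1 - m) (x.1 - n) (x.2 - m) (x.2 + m)
  have h1 := hP.fkg _ _ i3 i4
  have h2 := hP.fkg _ _ i2 (i3.inter i4)
  have h3 := hP.fkg _ _ i1 (i2.inter (i3.inter i4))
  have h0 := hP.lr_nonneg 0 (2 * m) 0 (m - n)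
  have h4 : (lr P 0 (2 * m) 0 (m - n)) ^ 4 ≤
      P {z | LRc z (x.1 - m) (x.1 + m) (x.2 + n) (x.2 + m)} *
        (P {z | LRc z (x.1 - m) (x.1 + m) (x.2 - m) (x.2 - n)} *
          (P {z | BTc z (x.1 + n) (x.1 + m) (x.2 - m) (x.2 + m)} *
            P {z | BTc z (x.1 - m) (x.1 - n) (x.2 - m) (x.2 + m)})) := by
    unfold lr bt at *
    rw [← e1, ← e2, ← e3, ← e4]
    apply le_of_eq
    ring
  refine h4.trans (le_trans ?_ (h3.trans (hP.mono _ _ ?_)))
  · exact mul_le_mul_of_nonneg_left ((mul_le_mul_of_nonneg_left h1 (hP.nonneg _)).trans h2)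
      (hP.nonneg _)
  · rintro z ⟨a1, a2, a3, a4⟩
    exact ⟨a1, a2, a3, a4⟩

/-- an edge is open with probability at least `c0 / 2` -/
theorem h_edge {c0 : ℝ} (hsq : c0 ≤ lr P 0 1 0 1) : c0 / 2 ≤ lr P 0 1 0 0 := by
  have h1 : {z : Cf | LRc z 0 1 0 1} ⊆ {z | LRc z 0 1 0 0} ∪ {z | LRc z 0 1 1 1} := by
    rintro z ⟨u, v, hu, hv, h⟩
    -- look at the first step which changes the abscissa
    have : ∀ w, Relation.ReflTransGen (OStep z (Rect 0 1 0 1)) u w → w.1 = 0 ∨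
        LRc z 0 1 0 0 ∨ LRc z 0 1 1 1 := by
      intro w hw
      induction hw with
      | refl => exact Or.inl hu
      | @tail b c _ h2 ih =>
          rcases ih with ih | ih
          · by_cases hc : c.1 = 0
            · exact Or.inl hc
            · right
              have h3 := pstep_nbr h2.1
              have h4 := h2.2.1
              have h5 := h2.2.2
              rw [mem_rect] at h4 h5
              unfold Nbr at h3
              have hc1 : c.1 = 1 := by omega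
              have hbc : b.2 = c.2 := by omega
              have hc2 : c.2 = 0 ∨ c.2 = 1 := by omega
              rcases hc2 with hc2 | hc2
              · left
                refine ⟨b, c, ih, hc1, ?_, .single ⟨h2.1, ?_, ?_⟩⟩ <;> rw [mem_rect] <;> omega
              · right
                refine ⟨b, c, ih, hc1, ?_, .single ⟨h2.1, ?_, ?_⟩⟩ <;> rw [mem_rect] <;> omega
          · exact Or.inr ih
    rcases this v h.2 with h2 | h2 | h2
    · omega
    · exact Or.inl h2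
    · exact Or.inr h2
  have h2 := (hP.mono _ _ h1).trans (hP.union _ _)
  have h3 : P {z | LRc z 0 1 1 1} = P {z | LRc z 0 1 0 0} := by
    have := hP.lr_shift 0 1 0 0 0 1
    unfold lr at this
    simpa using this
  rw [h3] at h2
  unfold lr at *
  linarith

/-- straight crossings -/
theorem h_line {e0 : ℝ} (he : 0 ≤ e0) (h : e0 ≤ lr P 0 1 0 0) (k : ℕ) :
    e0 ^ (k + 1) ≤ lr P 0 (k + 1) 0 0 := by
  induction k with
  | zero => simpa using h
  | succ k ih =>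
      have h1 := hP.h_glue (L1 := k + 1) (L2 := 1) (W := 0) (H := 0) (by omega) (by omega)
      have h0 : lr P 0 0 0 0 = 1 := by
        unfold lr
        rw [← hP.univ]
        congr 1
        ext z
        simp only [Set.mem_ofPred_eq, Set.mem_univ, iff_true]
        exact ⟨(0, 0), (0, 0), rfl, rfl, OC.refl (by rw [mem_rect]; simp)⟩
      rw [h0, mul_one] at h1
      have h2 : ((k : ℤ) + 1) + 1 - 0 = ((k + 1 : ℕ) : ℤ) + 1 := by push_cast; ring
      rw [h2] at h1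
      refine le_trans ?_ h1
      rw [pow_succ]
      exact mul_le_mul ih h he (hP.lr_nonneg _ _ _ _)

end Perc

end Crest.Agent.R161.Tas682
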