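import Crest.Agent.R161.Tas2_682

/-!
# Row 161, block C, T4 (helper682): landing zones, X-events, the threshold `alpha`
-/

set_option autoImplicit false

namespace Crest.Agent.R161.Tas682

open Crest.Agent.R161.Geo729 Crest.Agent.R161.Topo374 Crest.Agent.R161.Dual374
open Crest.Agent.R161.Sym597

/-- square box -/
def Box (x : P2) (m : ℤ) : Set P2 := Rect (x.1 - m) (x.1 + m) (x.2 - m) (x.2 + m)

theorem mem_box {x : P2} {m : ℤ} {v : P2} :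
    v ∈ Box x m ↔ x.1 - m ≤ v.1 ∧ v.1 ≤ x.1 + m ∧ x.2 - m ≤ v.2 ∧ v.2 ≤ x.2 + m := Iff.rfl

theorem box_finite (x : P2) (m : ℤ) : (Box x m).Finite := rect_finite _ _ _ _

/-- from the left side of the box to the part `[a,b]` of the right side -/
def HR (x : P2) (m a b : ℤ) : Set Cf :=
  EV (Box x m) {v | v.1 = x.1 - m} {v | v.1 = x.1 + m ∧ x.2 + a ≤ v.2 ∧ v.2 ≤ x.2 + b}

/-- from the right side of the box to the part `[a,b]` of the left side -/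
def HL (x : P2) (m a b : ℤ) : Set Cf :=
  EV (Box x m) {v | v.1 = x.1 + m} {v | v.1 = x.1 - m ∧ x.2 + a ≤ v.2 ∧ v.2 ≤ x.2 + b}

theorem HR_incLoc (x : P2) (m a b : ℤ) : IncLoc (HR x m a b) := EV_incLoc (box_finite x m) _ _
theorem HL_incLoc (x : P2) (m a b : ℤ) : IncLoc (HL x m a b) := EV_incLoc (box_finite x m) _ _

theorem HR_mono (x : P2) (m : ℤ) {a b a' b' : ℤ} (ha : a' ≤ a) (hb : b ≤ b') :
    HR x m a b ⊆ HR x m a' b' :=
  EV_mono subset_rfl subset_rfl (by rintro v ⟨h1, h2, h3⟩; exact ⟨h1, by omega, by omega⟩)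

theorem HR_split (x : P2) (m a b c : ℤ) : HR x m a c ⊆ HR x m a b ∪ HR x m b c := by
  rintro z ⟨u, hu, v, ⟨h1, h2, h3⟩, h⟩
  rcases le_total v.2 (x.2 + b) with h4 | h4
  · exact Or.inl ⟨u, hu, v, ⟨h1, h2, h4⟩, h⟩
  · exact Or.inr ⟨u, hu, v, ⟨h1, h4, h3⟩, h⟩

/-- probability of landing in `[a,b]` -/
def rho (P : Set Cf → ℝ) (m a b : ℤ) : ℝ := P (HR (0, 0) m a b)

namespace Perc

variable {P : Set Cf → ℝ} (hP : Perc P)
include hP

theorem HR_shift (x : P2) (m a b : ℤ) : P (HR x m a b) = rho P m a b := by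
  unfold rho HR
  rw [← hP.EV_shift x.1 x.2 (box_finite (0, 0) m)]
  congr 2
  · ext v; simp only [mem_box, Set.mem_ofPred_eq]; omega
  · ext v; simp only [Set.mem_ofPred_eq]; omega
  · ext v; simp only [Set.mem_ofPred_eq]; omega

theorem HL_eq (x : P2) (m a b : ℤ) : P (HL x m a b) = rho P m a b := by
  rw [← hP.HR_shift x m a b]
  unfold HL HR
  rw [← hP.EV_vert (2 * x.1) (box_finite x m)]
  congr 2
  · ext v; simp only [mem_box, Set.mem_ofPred_eq]; omega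
  · ext v; simp only [Set.mem_ofPred_eq]; omega
  · ext v; simp only [Set.mem_ofPred_eq]; omega

theorem HR_flip (x : P2) (m a b : ℤ) : P (HR x m (-b) (-a)) = rho P m a b := by
  rw [← hP.HR_shift x m a b]
  unfold HR
  rw [← hP.EV_horiz (2 * x.2) (box_finite x m)]
  congr 2
  · ext v; simp only [mem_box, Set.mem_ofPred_eq]; omega
  · ext v; simp only [Set.mem_ofPred_eq]; omega

theorem rho_flip (m a b : ℤ) : rho P m (-b) (-a) = rho P m a b := hP.HR_flip (0, 0) m a b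

theorem rho_nonneg (m a b : ℤ) : 0 ≤ rho P m a b := hP.nonneg _

theorem rho_mono (m : ℤ) {a b a' b' : ℤ} (ha : a' ≤ a) (hb : b ≤ b') :
    rho P m a b ≤ rho P m a' b' := hP.mono _ _ (HR_mono _ m ha hb)

theorem rho_split (m a b c : ℤ) : rho P m a c ≤ rho P m a b + rho P m b c :=
  (hP.mono _ _ (HR_split (0, 0) m a b c)).trans (hP.union _ _)

theorem rho_full (m : ℤ) : lr P 0 (2 * m) 0 (2 * m) ≤ rho P m (-m) m := by
  rw [← hP.lr_shift 0 (2 * m) 0 (2 * m) (-m) (-m)]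
  unfold lr rho
  apply hP.mono
  rintro z ⟨u, v, hu, hv, h⟩
  have h1 := h.right
  rw [mem_rect] at h1
  refine ⟨u, ?_, v, ?_, h.monoS ?_⟩
  · show u.1 = (0 : ℤ) - m; omega
  · refine ⟨?_, ?_, ?_⟩
    · show v.1 = (0 : ℤ) + m; omega
    · show (0 : ℤ) + -m ≤ v.2; omega
    · show v.2 ≤ (0 : ℤ) + m; omega
  · intro w hw
    rw [mem_rect] at hw
    rw [mem_box]
    show (0 : ℤ) - m ≤ w.1 ∧ w.1 ≤ 0 + m ∧ (0 : ℤ) - m ≤ w.2 ∧ w.2 ≤ 0 + m
    omega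

theorem rho_half {c0 : ℝ} {m : ℤ} (h : c0 ≤ lr P 0 (2 * m) 0 (2 * m)) :
    c0 / 2 ≤ rho P m 0 m := by
  have h1 := h.trans (hP.rho_full m)
  have h2 := hP.rho_split m (-m) 0 m
  have h3 : rho P m (-m) 0 = rho P m 0 m := by
    have := hP.rho_flip m 0 m
    simpa using this
  linarith

end Perc

/-- `X`-event: a cluster of the box touches the four parts `± [a, m]` of the two vertical sides -/
def XB (z : Cf) (x : P2) (m a : ℤ) : Prop :=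
  ∃ q r1 r2 l1 l2 : P2, OC z (Box x m) q r1 ∧ OC z (Box x m) q r2 ∧ OC z (Box x m) q l1 ∧
    OC z (Box x m) q l2 ∧ r1.1 = x.1 + m ∧ r2.1 = x.1 + m ∧ l1.1 = x.1 - m ∧ l2.1 = x.1 - m ∧
    x.2 + a ≤ r1.2 ∧ r2.2 ≤ x.2 - a ∧ x.2 + a ≤ l1.2 ∧ l2.2 ≤ x.2 - a

theorem XB_of {z : Cf} {x : P2} {m a : ℤ} (h1 : z ∈ HR x m a m) (h2 : z ∈ HR x m (-m) (-a))
    (h3 : z ∈ HL x m a m) (h4 : z ∈ HL x m (-m) (-a))
    (h5 : BTc z (x.1 - m) (x.1 + m) (x.2 - m) (x.2 + m)) : XB z x m a := by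
  obtain ⟨p, q, hp, hq, h5⟩ := h5
  obtain ⟨u1, hu1, v1, ⟨hv1, ha1, hb1⟩, h1⟩ := h1
  obtain ⟨u2, hu2, v2, ⟨hv2, ha2, hb2⟩, h2⟩ := h2
  obtain ⟨u3, hu3, v3, ⟨hv3, ha3, hb3⟩, h3⟩ := h3
  obtain ⟨u4, hu4, v4, ⟨hv4, ha4, hb4⟩, h4⟩ := h4
  have hu1' : u1.1 = x.1 - m := hu1
  have hu2' : u2.1 = x.1 - m := hu2
  have hu3' : u3.1 = x.1 + m := hu3
  have hu4' : u4.1 = x.1 + m := hu4
  obtain ⟨w1, a1, b1⟩ := glue h1 h5
    (by intro w hw; rw [mem_box] at hw; constructor <;> omega)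
    (by intro w hw; rw [mem_rect] at hw; constructor <;> omega)
  obtain ⟨w2, a2, b2⟩ := glue h2 h5
    (by intro w hw; rw [mem_box] at hw; constructor <;> omega)
    (by intro w hw; rw [mem_rect] at hw; constructor <;> omega)
  obtain ⟨w3, a3, b3⟩ := glue h3.symm h5
    (by intro w hw; rw [mem_box] at hw; constructor <;> omega)
    (by intro w hw; rw [mem_rect] at hw; constructor <;> omega)
  obtain ⟨w4, a4, b4⟩ := glue h4.symm h5
    (by intro w hw; rw [mem_box] at hw; constructor <;> omega)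
    (by intro w hw; rw [mem_rect] at hw; constructor <;> omega)
  refine ⟨p, v1, v2, v3, v4, ?_, ?_, ?_, ?_, hv1, hv2, hv3, hv4, ha1, by omega, ha3, by omega⟩
  · exact OC.trans b1 (a1.symm.trans h1)
  · exact OC.trans b2 (a2.symm.trans h2)
  · exact OC.trans b3 a3.symm
  · exact OC.trans b4 a4.symm

/-- the event used to force `XB` -/
def XE (x : P2) (m a : ℤ) : Set Cf :=
  HR x m a m ∩ (HR x m (-m) (-a) ∩ (HL x m a m ∩ (HL x m (-m) (-a) ∩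
    {z | BTc z (x.1 - m) (x.1 + m) (x.2 - m) (x.2 + m)})))

theorem XE_sub {z : Cf} {x : P2} {m a : ℤ} (h : z ∈ XE x m a) : XB z x m a :=
  XB_of h.1 h.2.1 h.2.2.1 h.2.2.2.1 h.2.2.2.2

theorem XE_incLoc (x : P2) (m a : ℤ) : IncLoc (XE x m a) :=
  (HR_incLoc _ _ _ _).inter ((HR_incLoc _ _ _ _).inter ((HL_incLoc _ _ _ _).inter
    ((HL_incLoc _ _ _ _).inter (btc_incLoc _ _ _ _))))

theorem Perc.fkg_ge {P : Set Cf → ℝ} (hP : Perc P) {A B : Set Cf} (hA : IncLoc A) (hB : IncLoc B)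
    {a b : ℝ} (ha : 0 ≤ a) (hb : 0 ≤ b) (h1 : a ≤ P A) (h2 : b ≤ P B) : a * b ≤ P (A ∩ B) :=
  (mul_le_mul h1 h2 hb (ha.trans h1)).trans (hP.fkg A B hA hB)

theorem Perc.XE_ge {P : Set Cf → ℝ} (hP : Perc P) (x : P2) {m a : ℤ} {c0 r : ℝ} (hc0 : 0 ≤ c0)
    (hr : 0 ≤ r) (h : c0 ≤ lr P 0 (2 * m) 0 (2 * m)) (h1 : r ≤ rho P m a m) :
    r * (r * (r * (r * c0))) ≤ P (XE x m a) := by
  have e1 : r ≤ P (HR x m a m) := by rw [hP.HR_shift]; exact h1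
  have e2 : r ≤ P (HR x m (-m) (-a)) := by rw [hP.HR_flip]; exact h1
  have e3 : r ≤ P (HL x m a m) := by rw [hP.HL_eq]; exact h1
  have e4 : r ≤ P (HL x m (-m) (-a)) := by rw [hP.HL_eq, hP.rho_flip]; exact h1
  have e5 : c0 ≤ P {z | BTc z (x.1 - m) (x.1 + m) (x.2 - m) (x.2 + m)} := by
    have := hP.bt_eq (x.1 - m) (x.1 + m) (x.2 - m) (x.2 + m)
    unfold bt at this
    rw [this]
    have h3 : x.2 + m - (x.2 - m) = 2 * m := by ring
    have h4 : x.1 + m - (x.1 - m) = 2 * m := by ring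
    rw [h3, h4]
    exact h
  unfold XE
  exact hP.fkg_ge (HR_incLoc _ _ _ _) ((HR_incLoc _ _ _ _).inter ((HL_incLoc _ _ _ _).inter
    ((HL_incLoc _ _ _ _).inter (btc_incLoc _ _ _ _)))) hr (by positivity) e1
    (hP.fkg_ge (HR_incLoc _ _ _ _) ((HL_incLoc _ _ _ _).inter
      ((HL_incLoc _ _ _ _).inter (btc_incLoc _ _ _ _))) hr (by positivity) e2
      (hP.fkg_ge (HL_incLoc _ _ _ _) ((HL_incLoc _ _ _ _).inter (btc_incLoc _ _ _ _)) hr
        (by positivity) e3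
        (hP.fkg_ge (HL_incLoc _ _ _ _) (btc_incLoc _ _ _ _) hr hc0 e4 e5)))

/-! ### the threshold -/

/-- `φ(a) = P(H(0,a)) - P(H(a,m))` -/
def phi (P : Set Cf → ℝ) (m a : ℤ) : ℝ := rho P m 0 a - rho P m a m

theorem Perc.phi_mono {P : Set Cf → ℝ} (hP : Perc P) (m : ℤ) {a b : ℤ} (h : a ≤ b) :
    phi P m a ≤ phi P m b := by
  unfold phi
  have h1 := hP.rho_mono m (le_refl 0) h
  have h2 := hP.rho_mono m h (le_refl m)
  linarith

open Classical in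
/-- the threshold -/
noncomputable def alpha (P : Set Cf → ℝ) (c0 : ℝ) (m : ℕ) : ℕ :=
  Nat.findGreatest (fun a => phi P m a ≤ c0 / 4) (m / 2)

theorem alpha_le (P : Set Cf → ℝ) (c0 : ℝ) (m : ℕ) : alpha P c0 m ≤ m / 2 :=
  Nat.findGreatest_le _

theorem Perc.alpha_spec {P : Set Cf → ℝ} (hP : Perc P) {c0 : ℝ} (hc0 : 0 ≤ c0) (m : ℕ) :
    phi P m (alpha P c0 m) ≤ c0 / 4 := by
  classical
  have h0 : phi P m (0 : ℕ) ≤ c0 / 4 := by
    unfold phi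
    have := hP.rho_mono m (le_refl (0 : ℤ)) (show (0 : ℤ) ≤ m by omega)
    simp only [Nat.cast_zero]
    linarith
  exact Nat.findGreatest_spec (P := fun a : ℕ => phi P m a ≤ c0 / 4) (Nat.zero_le _) h0

theorem Perc.of_alpha_lt {P : Set Cf → ℝ} (hP : Perc P) {c0 : ℝ} {m : ℕ} {a : ℤ}
    (h : alpha P c0 m < m / 2) (ha : (alpha P c0 m : ℤ) < a) : c0 / 4 < phi P m a := by
  classical
  have h1 : ¬ phi P m ((alpha P c0 m + 1 : ℕ) : ℤ) ≤ c0 / 4 :=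
    Nat.findGreatest_is_greatest (P := fun a : ℕ => phi P m a ≤ c0 / 4) (Nat.lt_succ_self _) h
  have h2 := hP.phi_mono m (show ((alpha P c0 m + 1 : ℕ) : ℤ) ≤ a by push_cast; omega)
  exact (not_le.1 h1).trans_le h2

/-- (P1) -/
theorem Perc.bound1 {P : Set Cf → ℝ} (hP : Perc P) {c0 : ℝ} (hc0 : 0 ≤ c0) {m : ℕ}
    (h : c0 ≤ lr P 0 (2 * m) 0 (2 * m)) : c0 / 8 ≤ rho P m (alpha P c0 m) m := by
  have h1 := hP.alpha_spec hc0 m
  have h2 := hP.rho_half h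
  have h3 := hP.rho_split m 0 (alpha P c0 m) m
  unfold phi at h1
  linarith

/-- (P2) -/
theorem Perc.bound2 {P : Set Cf → ℝ} (hP : Perc P) {c0 : ℝ} {m : ℕ} {a : ℤ}
    (h : alpha P c0 m < m / 2) (ha : (alpha P c0 m : ℤ) < a) :
    c0 / 4 ≤ rho P m 0 a := by
  have h1 := hP.of_alpha_lt h ha
  have h2 := hP.rho_nonneg m a m
  unfold phi at h1
  linarith

/-- the constant of (P1) -/
noncomputable def c1 (c0 : ℝ) : ℝ := c0 / 8 * (c0 / 8 * (c0 / 8 * (c0 / 8 * c0)))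

theorem c1_nonneg {c0 : ℝ} (h : 0 ≤ c0) : 0 ≤ c1 c0 := by unfold c1; positivity

theorem c1_pos {c0 : ℝ} (h : 0 < c0) : 0 < c1 c0 := by unfold c1; positivity

theorem Perc.XE_alpha {P : Set Cf → ℝ} (hP : Perc P) {c0 : ℝ} (hc0 : 0 ≤ c0) {m : ℕ}
    (h : c0 ≤ lr P 0 (2 * m) 0 (2 * m)) (x : P2) : c1 c0 ≤ P (XE x m (alpha P c0 m)) :=
  hP.XE_ge x hc0 (by positivity) h (hP.bound1 hc0 h)

/-! ### Lemma A: `alpha = m / 2` -/

/-- two `X`-clusters shifted vertically meet -/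
theorem XB_link {z : Cf} {x x' : P2} {m a : ℤ} (d : ℤ) (hx1 : x'.1 = x.1) (hx2 : x'.2 = x.2 + d)
    (hd : d ≤ 2 * a) (hd' : m ≤ a + d) (hd0 : 0 ≤ d)
    {q r1 r2 : P2} (h1 : OC z (Box x m) q r1) (h2 : OC z (Box x m) q r2)
    (e1 : r1.1 = x.1 + m) (e2 : r2.1 = x.1 + m) (f1 : x.2 + a ≤ r1.2) (f2 : r2.2 ≤ x.2 - a)
    {q' r' l' : P2} (h3 : OC z (Box x' m) q' r') (h4 : OC z (Box x' m) q' l')
    (e3 : r'.1 = x.1 + m) (e4 : l'.1 = x.1 - m) (f3 : r'.2 ≤ x'.2 - a) :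
    OC z (Box x m ∪ Box x' m) q q' := by
  have m1 := h1.right
  have m2 := h2.right
  have m3 := h3.right
  rw [mem_box] at m1 m2 m3
  obtain ⟨w, g1, g2⟩ := interR (x.2 - m) (x.2 + m + d) (h4.symm.trans h3) (h2.symm.trans h1)
    (by omega) (by omega) (by omega) (by omega) (by omega) (by omega)
    (by intro w hw; rw [mem_box] at hw; refine ⟨?_, ?_, ?_⟩ <;> omega)
    (by intro w hw; rw [mem_box] at hw; constructor <;> omega)
  have k1 : OC z (Box x m) q w := h2.trans g2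
  have k2 : OC z (Box x' m) q' w := h4.trans g1
  exact (k1.monoS Set.subset_union_left).trans (k2.monoS Set.subset_union_right).symm

/-- `XB` with the centre of the cluster displayed -/
def XBq (z : Cf) (x : P2) (m a : ℤ) (q : P2) : Prop :=
  ∃ r1 r2 l1 l2 : P2, OC z (Box x m) q r1 ∧ OC z (Box x m) q r2 ∧ OC z (Box x m) q l1 ∧
    OC z (Box x m) q l2 ∧ r1.1 = x.1 + m ∧ r2.1 = x.1 + m ∧ l1.1 = x.1 - m ∧ l2.1 = x.1 - m ∧
    x.2 + a ≤ r1.2 ∧ r2.2 ≤ x.2 - a ∧ x.2 + a ≤ l1.2 ∧ l2.2 ≤ x.2 - a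

theorem XB_link2 {z : Cf} {x x' : P2} {m a : ℤ} (d : ℤ) (hx1 : x'.1 = x.1) (hx2 : x'.2 = x.2 + d)
    (hd : d ≤ 2 * a) (hd' : m ≤ a + d) (hd0 : 0 ≤ d) {q q' : P2} (h : XBq z x m a q)
    (h' : XBq z x' m a q') {S : Set P2} (hS : Box x m ⊆ S) (hS' : Box x' m ⊆ S) : OC z S q q' := by
  obtain ⟨r01, r02, l01, l02, a1, a2, a3, a4, b1, b2, b3, b4, c1, c2, c3, c4⟩ := h
  obtain ⟨r11, r12, l11, l12, d1, d2, d3, d4, e1, e2, e3, e4, f1, f2, f3, f4⟩ := h'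
  exact (XB_link d hx1 hx2 hd hd' hd0 a1 a2 b1 b2 c1 c2 d2 d3 (by omega) (by omega) f2).monoS
    (Set.union_subset hS hS')

theorem XBq.bot {z : Cf} {x : P2} {m a : ℤ} {q : P2} (h : XBq z x m a q) {S : Set P2}
    (hS : Box x m ⊆ S) : ∃ r, OC z S q r ∧ r.2 ≤ x.2 - a := by
  obtain ⟨r01, r02, l01, l02, a1, a2, a3, a4, b1, b2, b3, b4, c1, c2, c3, c4⟩ := h
  exact ⟨r02, a2.monoS hS, c2⟩

theorem XBq.top {z : Cf} {x : P2} {m a : ℤ} {q : P2} (h : XBq z x m a q) {S : Set P2}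
    (hS : Box x m ⊆ S) : ∃ r, OC z S q r ∧ x.2 + a ≤ r.2 := by
  obtain ⟨r01, r02, l01, l02, a1, a2, a3, a4, b1, b2, b3, b4, c1, c2, c3, c4⟩ := h
  exact ⟨r01, a1.monoS hS, c1⟩

theorem XB_chain {z : Cf} {m a : ℤ} {x0 x1 x2 x3 : P2} (hx0 : x0 = (0, 0)) (hx1 : x1 = (0, 2 * a))
    (hx2 : x2 = (0, 4 * a)) (hx3 : x3 = (0, 6 * a)) (h0 : XB z x0 m a) (h1 : XB z x1 m a)
    (h2 : XB z x2 m a) (h3 : XB z x3 m a) (ha : 0 ≤ a)
    (hm : m ≤ 3 * a) : BTc z (-m) m (-a) (7 * a) := by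
  have y0 : x0.1 = 0 ∧ x0.2 = 0 := by rw [hx0]; simp
  have y1 : x1.1 = 0 ∧ x1.2 = 2 * a := by rw [hx1]; simp
  have y2 : x2.1 = 0 ∧ x2.2 = 4 * a := by rw [hx2]; simp
  have y3 : x3.1 = 0 ∧ x3.2 = 6 * a := by rw [hx3]; simp
  clear hx0 hx1 hx2 hx3
  obtain ⟨q0, h0⟩ : ∃ q, XBq z x0 m a q := h0
  obtain ⟨q1, h1⟩ : ∃ q, XBq z x1 m a q := h1
  obtain ⟨q2, h2⟩ : ∃ q, XBq z x2 m a q := h2
  obtain ⟨q3, h3⟩ : ∃ q, XBq z x3 m a q := h3
  set S : Set P2 := Rect (-m) m (-m) (6 * a + m) with hS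
  have s0 : Box x0 m ⊆ S := by
    intro w hw; rw [mem_box] at hw; rw [hS, mem_rect]; omega
  have s1 : Box x1 m ⊆ S := by
    intro w hw; rw [mem_box] at hw; rw [hS, mem_rect]; omega
  have s2 : Box x2 m ⊆ S := by
    intro w hw; rw [mem_box] at hw; rw [hS, mem_rect]; omega
  have s3 : Box x3 m ⊆ S := by
    intro w hw; rw [mem_box] at hw; rw [hS, mem_rect]; omega
  have L1 := XB_link2 (2 * a) (by omega) (by omega) le_rfl (by omega) (by omega) h0 h1 s0 s1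
  have L2 := XB_link2 (2 * a) (by omega) (by omega) le_rfl (by omega) (by omega) h1 h2 s1 s2
  have L3 := XB_link2 (2 * a) (by omega) (by omega) le_rfl (by omega) (by omega) h2 h3 s2 s3
  obtain ⟨r, hr, hr2⟩ := h0.bot s0
  obtain ⟨r', hr', hr2'⟩ := h3.top s3
  have t : OC z S r r' := (((hr.symm.trans L1).trans L2).trans L3).trans hr'
  obtain ⟨w, p1, p2, -⟩ := last_exit (fun p => p.2)
    (fun a b hab => by unfold Nbr at hab; omega) (-a) t (by omega) (by omega)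
  obtain ⟨w', p3, p4⟩ := first_hit (fun p => p.2)
    (fun a b hab => by unfold Nbr at hab; omega) (7 * a) p2 (by omega) (by omega)
  refine ⟨w, w', p1, p3, p4.monoS ?_⟩
  rintro p ⟨⟨h5, h9⟩, h10⟩
  rw [hS, mem_rect] at h5
  have h9' : -a ≤ p.2 := h9
  have h10' : p.2 ≤ 7 * a := h10
  exact ⟨h5.1, h5.2.1, h9', h10'⟩

theorem Perc.lemmaA {P : Set Cf → ℝ} (hP : Perc P) {c0 : ℝ} (hc0 : 0 ≤ c0) {m : ℕ} (hm : 2 ≤ m)
    (h : c0 ≤ lr P 0 (2 * m) 0 (2 * m)) (ha : alpha P c0 m = m / 2) :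
    c1 c0 * (c1 c0 * (c1 c0 * c1 c0)) ≤ lr P 0 (8 * (m / 2 : ℕ)) 0 (2 * m) := by
  set a : ℤ := ((m / 2 : ℕ) : ℤ) with haa
  have hX : ∀ x, c1 c0 ≤ P (XE x m a) := fun x => by
    have := hP.XE_alpha hc0 h x
    rw [ha] at this
    exact this
  have hc := c1_nonneg hc0
  have h1 : c1 c0 * (c1 c0 * (c1 c0 * c1 c0)) ≤ P (XE (0, 0) m a ∩ (XE (0, 2 * a) m a ∩
      (XE (0, 4 * a) m a ∩ XE (0, 6 * a) m a))) :=
    hP.fkg_ge (XE_incLoc _ _ _) ((XE_incLoc _ _ _).inter ((XE_incLoc _ _ _).inter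
      (XE_incLoc _ _ _))) hc (by positivity) (hX _)
      (hP.fkg_ge (XE_incLoc _ _ _) ((XE_incLoc _ _ _).inter (XE_incLoc _ _ _)) hc (by positivity)
        (hX _) (hP.fkg_ge (XE_incLoc _ _ _) (XE_incLoc _ _ _) hc hc (hX _) (hX _)))
  have h2 : bt P (-m) m (-a) (7 * a) = lr P 0 (8 * a) 0 (2 * m) := by
    rw [hP.bt_eq]
    congr 1 <;> ring
  rw [← h2]
  refine h1.trans (hP.mono _ _ ?_)
  rintro z ⟨z1, z2, z3, z4⟩
  exact XB_chain rfl rfl rfl rfl (XE_sub z1) (XE_sub z2) (XE_sub z3) (XE_sub z4) (by omega) (by omega)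

/-! ### Lemma B -/

theorem XB_bridge {z : Cf} {m m' h β α' : ℤ} (hβ : β ≤ 2 * α') (hh : h = β - α') (hα : 2 * α' ≤ m')
    (hm' : 3 * m' ≤ 2 * m) (hβ0 : 0 ≤ β) (hβm : 2 * β ≤ m + 1) (hm : 3 ≤ m) (_hm0 : 0 ≤ m')
    (h1 : z ∈ HR (0, -h) m 0 β) (h2 : z ∈ HL (2 * m - 2 * m', -h) m 0 β)
    (h3 : XB z (m - m', 0) m' α') : LRc z (-m) (3 * m - 2 * m') (-h - m) (-h + m) := by
  obtain ⟨u, hu, v, ⟨hv1, hv2, hv3⟩, h1⟩ := h1
  obtain ⟨u', hu', v', ⟨hv1', hv2', hv3'⟩, h2⟩ := h2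
  obtain ⟨q, r1, r2, l1, l2, a1, a2, a3, a4, b1, b2, b3, b4, c1, c2, c3, c4⟩ := h3
  have hu1 : u.1 = 0 - m := hu
  have hu1' : u'.1 = 2 * m - 2 * m' + m := hu'
  simp only at b1 b2 b3 b4 c1 c2 c3 c4 hv1 hv2 hv3 hv1' hv2' hv3'
  have m1 := a1.right
  have m2 := a2.right
  have m3 := a3.right
  have m4 := a4.right
  rw [mem_box] at m1 m2 m3 m4
  simp only at m1 m2 m3 m4
  obtain ⟨w, g1, g2⟩ := interR (-h - m) (-h + m) h1 (a2.symm.trans a1)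
    (by omega) (by omega) (by omega) (by omega) (by omega) (by omega)
    (by intro w hw; rw [mem_box] at hw; simp only at hw; refine ⟨?_, ?_, ?_⟩ <;> omega)
    (by intro w hw; rw [mem_box] at hw; simp only at hw; constructor <;> omega)
  obtain ⟨w', g3, g4⟩ := interL (-h - m) (-h + m) h2.symm (a4.symm.trans a3)
    (by omega) (by omega) (by omega) (by omega) (by omega) (by omega)
    (by intro w hw; rw [mem_box] at hw; simp only at hw; refine ⟨?_, ?_, ?_⟩ <;> omega)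
    (by intro w hw; rw [mem_box] at hw; simp only at hw; constructor <;> omega)
  set S : Set P2 := Rect (-m) (3 * m - 2 * m') (-h - m) (-h + m) with hS
  have s1 : Box (0, -h) m ⊆ S := by
    intro w hw; rw [mem_box] at hw; rw [hS, mem_rect]; simp only at hw; omega
  have s2 : Box (2 * m - 2 * m', -h) m ⊆ S := by
    intro w hw; rw [mem_box] at hw; rw [hS, mem_rect]; simp only at hw; omega
  have s3 : Box (m - m', 0) m' ⊆ S := by
    intro w hw; rw [mem_box] at hw; rw [hS, mem_rect]; simp only at hw; omega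
  have k1 : OC z S u q := (g1.monoS s1).trans ((a2.trans g2).monoS s3).symm
  have k2 : OC z S v' q := (g3.monoS s2).trans ((a4.trans g4).monoS s3).symm
  exact ⟨u, u', by omega, by omega, (k1.trans k2.symm).trans (h2.monoS s2).symm⟩

theorem Perc.lemmaB {P : Set Cf → ℝ} (hP : Perc P) {c0 : ℝ} (hc0 : 0 ≤ c0) {m m' : ℕ}
    (hm : 3 ≤ m) (hmm : 3 * m' ≤ 2 * m) (h : c0 ≤ lr P 0 (2 * m') 0 (2 * m'))
    (ha : alpha P c0 m < m / 2) (haa : alpha P c0 m + 1 ≤ 2 * alpha P c0 m') :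
    c0 / 4 * (c0 / 4 * c1 c0) ≤ lr P 0 (4 * m - 2 * m') 0 (2 * m) := by
  set β : ℤ := (alpha P c0 m : ℤ) + 1 with hβ
  set α' : ℤ := (alpha P c0 m' : ℤ) with hα'
  have h1 : c0 / 4 ≤ rho P m 0 β := hP.bound2 ha (by omega)
  have hle := alpha_le P c0 m'
  have e1 : c0 / 4 ≤ P (HR (0, -(β - α')) m 0 β) := by rw [hP.HR_shift]; exact h1
  have e2 : c0 / 4 ≤ P (HL (2 * m - 2 * m', -(β - α')) m 0 β) := by rw [hP.HL_eq]; exact h1
  have e3 : c1 c0 ≤ P (XE ((m : ℤ) - m', 0) m' α') := hP.XE_alpha hc0 h _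
  have hc := c1_nonneg hc0
  have h2 : c0 / 4 * (c0 / 4 * c1 c0) ≤ P (HR (0, -(β - α')) m 0 β ∩
      (HL (2 * m - 2 * m', -(β - α')) m 0 β ∩ XE ((m : ℤ) - m', 0) m' α')) :=
    hP.fkg_ge (HR_incLoc _ _ _ _) ((HL_incLoc _ _ _ _).inter (XE_incLoc _ _ _)) (by positivity)
      (by positivity) e1 (hP.fkg_ge (HL_incLoc _ _ _ _) (XE_incLoc _ _ _) (by positivity) hc e2 e3)
  have h3 : lr P 0 (4 * m - 2 * m') 0 (2 * m) =
      lr P (-m) (3 * m - 2 * m') (-(β - α') - m) (-(β - α') + m) := by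
    rw [hP.lr_eq (-m : ℤ)]
    congr 1 <;> ring
  rw [h3]
  refine h2.trans (hP.mono _ _ ?_)
  rintro z ⟨z1, z2, z3⟩
  exact XB_bridge (by omega) rfl (by omega) (by omega) (by omega) (by omega) (by omega) (by omega)
    z1 z2 (XE_sub z3)

/-! ### Lemma C -/

theorem circ_bridge {z : Cf} {t s : ℤ} (hs : 0 ≤ s) (hst : 2 * s ≤ t)
    (h1 : z ∈ HR (0, 0) t 0 s) (h2 : z ∈ HL (2 * t, 0) t 0 s) (h3 : Circ4 z (t, 0) s (2 * s)) :
    LRc z (-t) (3 * t) (-t) t := by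
  obtain ⟨u, hu, v, ⟨hv1, hv2, hv3⟩, h1⟩ := h1
  obtain ⟨u', hu', v', ⟨hv1', hv2', hv3'⟩, h2⟩ := h2
  have hu1 : u.1 = 0 - t := hu
  have hu1' : u'.1 = 2 * t + t := hu'
  simp only at hv1 hv2 hv3 hv1' hv2' hv3'
  obtain ⟨c, hc, hC⟩ := circ4_meet hs (by omega) h3
  have far : ∀ w : P2, (w.1 ≤ -t ∨ 3 * t ≤ w.1) → 2 * s ≤ sd (t, 0) w := by
    intro w hw
    by_contra hcon
    have := sd_le.1 (show sd (t, 0) w ≤ 2 * s - 1 by omega)
    simp only at this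
    omega
  obtain ⟨w, g1, g2⟩ := hC _ v u h1.symm (sd_le.2 (by simp only; omega)) (far u (by omega))
  obtain ⟨w', g3, g4⟩ := hC _ v' u' h2.symm (sd_le.2 (by simp only; omega)) (far u' (by omega))
  set S : Set P2 := Rect (-t) (3 * t) (-t) t with hS
  have s1 : Box (0, 0) t ⊆ S := by
    intro w hw; rw [mem_box] at hw; rw [hS, mem_rect]; simp only at hw; omega
  have s2 : Box (2 * t, 0) t ⊆ S := by
    intro w hw; rw [mem_box] at hw; rw [hS, mem_rect]; simp only at hw; omega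
  have s3 : Rect (t - 2 * s) (t + 2 * s) (0 - 2 * s) (0 + 2 * s) ⊆ S := by
    intro w hw; rw [mem_rect] at hw; rw [hS, mem_rect]; omega
  have k1 : OC z S u c := (h1.trans g1).monoS s1 |>.trans (g2.monoS s3).symm
  have k2 : OC z S u' c := (h2.trans g3).monoS s2 |>.trans (g4.monoS s3).symm
  exact ⟨u, u', by omega, by omega, k1.trans k2.symm⟩

theorem circ4_incLoc (x : P2) (n m : ℤ) : IncLoc {z | Circ4 z x n m} := by
  have : {z : Cf | Circ4 z x n m} = {z | LRc z (x.1 - m) (x.1 + m) (x.2 + n) (x.2 + m)} ∩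
      ({z | LRc z (x.1 - m) (x.1 + m) (x.2 - m) (x.2 - n)} ∩
      ({z | BTc z (x.1 + n) (x.1 + m) (x.2 - m) (x.2 + m)} ∩
      {z | BTc z (x.1 - m) (x.1 - n) (x.2 - m) (x.2 + m)})) := by
    ext z; rfl
  rw [this]
  exact (lrc_incLoc _ _ _ _).inter ((lrc_incLoc _ _ _ _).inter ((btc_incLoc _ _ _ _).inter
    (btc_incLoc _ _ _ _)))

theorem Perc.lemmaC {P : Set Cf → ℝ} (hP : Perc P) {c0 : ℝ} (hc0 : 0 ≤ c0) {s t : ℕ}
    (hst : 2 * s ≤ t) (ha : alpha P c0 t < s) :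
    c0 / 4 * (c0 / 4 * lr P 0 (4 * s) 0 s ^ 4) ≤ lr P 0 (4 * t) 0 (2 * t) := by
  have h1 : c0 / 4 ≤ rho P t 0 s := hP.bound2 (by omega) (by omega)
  have e1 : c0 / 4 ≤ P (HR (0, 0) t 0 s) := by rw [hP.HR_shift]; exact h1
  have e2 : c0 / 4 ≤ P (HL (2 * t, 0) t 0 s) := by rw [hP.HL_eq]; exact h1
  have e3 : lr P 0 (4 * s) 0 s ^ 4 ≤ P {z | Circ4 z (t, 0) s (2 * s)} := by
    have := hP.circ4_ge (t, 0) s (2 * s)
    have h4 : (2 : ℤ) * (2 * s) = 4 * s := by ring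
    have h5 : (2 : ℤ) * s - s = s := by ring
    rwa [h4, h5] at this
  have h0 := hP.lr_nonneg 0 (4 * s) 0 s
  have h2 : c0 / 4 * (c0 / 4 * lr P 0 (4 * s) 0 s ^ 4) ≤ P (HR (0, 0) t 0 s ∩
      (HL (2 * t, 0) t 0 s ∩ {z | Circ4 z (t, 0) s (2 * s)})) :=
    hP.fkg_ge (HR_incLoc _ _ _ _) ((HL_incLoc _ _ _ _).inter (circ4_incLoc _ _ _)) (by positivity)
      (by positivity) e1 (hP.fkg_ge (HL_incLoc _ _ _ _) (circ4_incLoc _ _ _) (by positivity)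
        (by positivity) e2 e3)
  have h3 : lr P 0 (4 * t) 0 (2 * t) = lr P (-t) (3 * t) (-t) t := by
    rw [hP.lr_eq (-t : ℤ)]
    congr 1 <;> ring
  rw [h3]
  refine h2.trans (hP.mono _ _ ?_)
  rintro z ⟨z1, z2, z3⟩
  exact circ_bridge (by omega) (by omega) z1 z2 z3

end Crest.Agent.R161.Tas682
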