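import Crest.Agent.R161.Tas3_682

/-!
# Row 161, block C, T4 (helper682): the scale argument (Tassion)
-/

set_option autoImplicit false

namespace Crest.Agent.R161.Tas682

open Crest.Agent.R161.Geo729 Crest.Agent.R161.Topo374 Crest.Agent.R161.Dual374
open Crest.Agent.R161.Sym597

/-- square crossings -/
def Sq (P : Set Cf → ℝ) (c0 : ℝ) : Prop := ∀ n : ℕ, 1 ≤ n → c0 ≤ lr P 0 n 0 n

theorem Sq.two {P : Set Cf → ℝ} {c0 : ℝ} (h : Sq P c0) {m : ℕ} (hm : 1 ≤ m) :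
    c0 ≤ lr P 0 (2 * m) 0 (2 * m) := by
  have := h (2 * m) (by omega)
  push_cast at this
  exact this

/-- one-arm event -/
def Arm (s N : ℤ) : Set Cf :=
  {z | ∃ u v : P2, |u.1| ≤ s ∧ |u.2| ≤ s ∧ (N ≤ |v.1| ∨ N ≤ |v.2|) ∧
    Relation.ReflTransGen (PStep (fun e => z e = true)) u v}

/-- constants -/
noncomputable def c2 (c0 : ℝ) : ℝ :=
  min ((c1 c0 * (c1 c0 * (c1 c0 * c1 c0)) * c0) ^ 9) ((c0 / 4 * (c0 / 4 * c1 c0) * c0) ^ 9)

theorem c2_pos {c0 : ℝ} (h : 0 < c0) : 0 < c2 c0 := by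
  have := c1_pos h
  unfold c2
  apply lt_min <;> positivity

/-- the constant of Lemma C -/
noncomputable def fC (c0 g : ℝ) : ℝ := (c0 / 4 * (c0 / 4 * g ^ 4) * c0) ^ 3

theorem fC_pos {c0 g : ℝ} (h : 0 < c0) (hg : 0 < g) : 0 < fC c0 g := by
  unfold fC; positivity

theorem fC_mono {c0 g g' : ℝ} (h : 0 ≤ c0) (hg : 0 ≤ g) (hgg : g ≤ g') : fC c0 g ≤ fC c0 g' := by
  unfold fC
  have : g ^ 4 ≤ g' ^ 4 := pow_le_pow_left₀ hg hgg 4
  gcongr

namespace Perc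

variable {P : Set Cf → ℝ} (hP : Perc P)
include hP

theorem lemmaAB {c0 : ℝ} (hc0 : 0 < c0) (hsq : Sq P c0) {m m' : ℕ} (hm : 3 ≤ m) (hm' : 1 ≤ m')
    (hmm : 3 * m' ≤ 2 * m) (haa : alpha P c0 m + 1 ≤ 2 * alpha P c0 m') :
    c2 c0 ≤ lr P 0 (4 * (2 * m : ℕ)) 0 (2 * m : ℕ) := by
  have hc1 := c1_pos hc0
  push_cast
  rcases lt_or_ge (alpha P c0 m) (m / 2) with ha | ha
  · have h1 := hP.lemmaB hc0.le hm hmm (hsq.two hm') ha haa
    have h2 : (4 : ℤ) * m - 2 * m' = 2 * m + (2 * m - 2 * m') := by ring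
    rw [h2] at h1
    have h3 := hP.h_long (by omega) (by omega) hc0.le (by positivity) (hsq.two (by omega)) h1 8
    have h4 : c2 c0 ≤ (c0 / 4 * (c0 / 4 * c1 c0) * c0) ^ (8 + 1) := min_le_right _ _
    refine h4.trans (h3.trans (hP.h_mono (by omega) ?_ le_rfl))
    push_cast
    omega
  · have ha' : alpha P c0 m = m / 2 := le_antisymm (alpha_le P c0 m) ha
    have h1 := hP.lemmaA hc0.le (by omega) (hsq.two (by omega)) ha'
    have h2 : (8 : ℤ) * (m / 2 : ℕ) = 2 * m + (8 * (m / 2 : ℕ) - 2 * m) := by ring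
    rw [h2] at h1
    have h3 := hP.h_long (by omega) (by omega) hc0.le (by positivity) (hsq.two (by omega)) h1 8
    have h4 : c2 c0 ≤ (c1 c0 * (c1 c0 * (c1 c0 * c1 c0)) * c0) ^ (8 + 1) := min_le_left _ _
    refine h4.trans (h3.trans (hP.h_mono (by omega) ?_ le_rfl))
    push_cast
    omega

theorem lemmaC' {c0 : ℝ} (hc0 : 0 < c0) (hsq : Sq P c0) {s t : ℕ} (ht : 1 ≤ t) (hst : 2 * s ≤ t)
    (ha : alpha P c0 t < s) : fC c0 (lr P 0 (4 * s) 0 s) ≤ lr P 0 (4 * (2 * t : ℕ)) 0 (2 * t : ℕ) := by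
  push_cast
  have h0 := hP.lr_nonneg 0 (4 * s) 0 s
  have h1 := hP.lemmaC hc0.le hst ha
  have h2 : (4 : ℤ) * t = 2 * t + 2 * t := by ring
  rw [h2] at h1
  have h3 := hP.h_long (by omega) (by omega) hc0.le (by positivity) (hsq.two ht) h1 2
  refine h3.trans (hP.h_mono (by omega) ?_ le_rfl)
  push_cast
  omega

/-- from one scale to comparable scales -/
theorem spread {c0 q : ℝ} (hc0 : 0 < c0) (hsq : Sq P c0) (hq : 0 ≤ q) {H : ℕ} (hH : 1 ≤ H)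
    (h : q ≤ lr P 0 (4 * H) 0 H) (K C n : ℕ) (hn : H ≤ n) (hn' : n ≤ C * H) :
    (q * c0) ^ (K * C + 1) ≤ lr P 0 (K * n) 0 n := by
  have h2 : (4 : ℤ) * H = H + 3 * H := by ring
  rw [h2] at h
  have h3 := hP.h_long (by omega) (by omega) hc0.le hq (hsq H hH) h (K * C)
  refine h3.trans (hP.h_mono (by positivity) ?_ (by omega))
  have h4 : (K : ℤ) * n ≤ K * (C * H) := by
    have : (n : ℤ) ≤ C * H := by exact_mod_cast hn'
    exact mul_le_mul_of_nonneg_left this (by positivity)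
  have h5 : (0 : ℤ) ≤ K * C * H := by positivity
  push_cast
  nlinarith

end Perc

/-! ### growth of the threshold -/

/-- the scales `t ↦ ⌈3t/2⌉` -/
def Tn (t0 : ℕ) : ℕ → ℕ
  | 0 => t0
  | j + 1 => (3 * Tn t0 j + 1) / 2

theorem Tn_ge (t0 : ℕ) (j : ℕ) : t0 ≤ Tn t0 j := by
  induction j with
  | zero => exact le_rfl
  | succ j ih => unfold Tn; omega

theorem Tn_three (t0 : ℕ) (j : ℕ) : 3 * Tn t0 j ≤ 2 * Tn t0 (j + 1) := by
  show 3 * Tn t0 j ≤ 2 * ((3 * Tn t0 j + 1) / 2)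
  omega

theorem Tn_le {t0 : ℕ} (h : 1 ≤ t0) (j : ℕ) : Tn t0 j ≤ 2 ^ j * t0 := by
  induction j with
  | zero => simp [Tn]
  | succ j ih =>
      have h1 := Tn_ge t0 j
      have h2 : Tn t0 (j + 1) ≤ 2 * Tn t0 j := by
        show (3 * Tn t0 j + 1) / 2 ≤ 2 * Tn t0 j
        omega
      calc Tn t0 (j + 1) ≤ 2 * Tn t0 j := h2
        _ ≤ 2 * (2 ^ j * t0) := Nat.mul_le_mul_left _ ih
        _ = 2 ^ (j + 1) * t0 := by ring

theorem Tn_bound (t0 : ℕ) (j : ℕ) : 2 ^ j * (Tn t0 j + 1) ≤ 3 ^ j * (t0 + 1) := by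
  induction j with
  | zero => simp [Tn]
  | succ j ih =>
      have h2 : 2 * (Tn t0 (j + 1) + 1) ≤ 3 * (Tn t0 j + 1) := by
        show 2 * ((3 * Tn t0 j + 1) / 2 + 1) ≤ 3 * (Tn t0 j + 1)
        omega
      calc 2 ^ (j + 1) * (Tn t0 (j + 1) + 1) = 2 ^ j * (2 * (Tn t0 (j + 1) + 1)) := by ring
        _ ≤ 2 ^ j * (3 * (Tn t0 j + 1)) := Nat.mul_le_mul_left _ h2
        _ = 3 * (2 ^ j * (Tn t0 j + 1)) := by ring
        _ ≤ 3 * (3 ^ j * (t0 + 1)) := Nat.mul_le_mul_left _ ih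
        _ = 3 ^ (j + 1) * (t0 + 1) := by ring

theorem four_three (J : ℕ) : (J + 3) * 3 ^ J ≤ 3 * 4 ^ J := by
  induction J with
  | zero => simp
  | succ J ih =>
      have h3 : 0 < 3 ^ J := by positivity
      calc (J + 1 + 3) * 3 ^ (J + 1) = (3 * J + 12) * 3 ^ J := by ring
        _ ≤ (4 * J + 12) * 3 ^ J := Nat.mul_le_mul_right _ (by omega)
        _ = 4 * ((J + 3) * 3 ^ J) := by ring
        _ ≤ 4 * (3 * 4 ^ J) := Nat.mul_le_mul_left _ ih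
        _ = 3 * 4 ^ (J + 1) := by ring

theorem growth {P : Set Cf → ℝ} {c0 : ℝ} {t0 s C : ℕ} (hs : 1 ≤ s) (ht : t0 + 1 ≤ C * s)
    (ha : s ≤ alpha P c0 t0) :
    ∃ j, j < 3 * C ∧ alpha P c0 (Tn t0 (j + 1)) + 1 ≤ 2 * alpha P c0 (Tn t0 j) := by
  by_contra hcon
  push Not at hcon
  have h1 : ∀ j, j ≤ 3 * C → 2 ^ j * s ≤ alpha P c0 (Tn t0 j) := by
    intro j
    induction j with
    | zero => intro _; simpa [Tn] using ha
    | succ j ih =>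
        intro hj
        have h2 := ih (by omega)
        have h3 := hcon j (by omega)
        calc 2 ^ (j + 1) * s = 2 * (2 ^ j * s) := by ring
          _ ≤ 2 * alpha P c0 (Tn t0 j) := Nat.mul_le_mul_left _ h2
          _ ≤ _ := by omega
  set J := 3 * C with hJ
  have h2 := h1 J le_rfl
  have h3 := alpha_le P c0 (Tn t0 J)
  have h4 := Tn_bound t0 J
  have h5 : 2 * (2 ^ J * s) ≤ Tn t0 J + 1 := by omega
  have h6 : 2 ^ J * (2 * (2 ^ J * s)) ≤ 3 ^ J * (C * s) :=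
    (Nat.mul_le_mul_left _ h5).trans (h4.trans (Nat.mul_le_mul_left _ ht))
  have h7 := four_three J
  have h8 : (2 ^ J * (2 * (2 ^ J * s)) : ℕ) = 2 * 4 ^ J * s := by
    have : (4 : ℕ) ^ J = 2 ^ J * 2 ^ J := by rw [← mul_pow]; norm_num
    rw [this]; ring
  rw [h8] at h6
  have h9 : 2 * 4 ^ J * s ≤ (3 ^ J * C) * s := by rw [mul_assoc (3 ^ J)]; exact h6
  have h10 : 2 * 4 ^ J ≤ 3 ^ J * C := Nat.le_of_mul_le_mul_right h9 hs
  have h11 : 3 * (2 * 4 ^ J) ≤ 3 ^ J * J := by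
    calc 3 * (2 * 4 ^ J) ≤ 3 * (3 ^ J * C) := Nat.mul_le_mul_left _ h10
      _ = 3 ^ J * J := by rw [hJ]; ring
  have h12 : (J + 3) * 3 ^ J = 3 ^ J * J + 3 * 3 ^ J := by ring
  have h13 : 0 < 3 ^ J := by positivity
  have h14 : 0 < 4 ^ J := by positivity
  omega

/-- crossing blocking hypothesis, in terms of `P` -/
def Blk (P : Set Cf → ℝ) (c0 : ℝ) : Prop :=
  ∀ c3 : ℝ, 0 < c3 → ∃ C1 s0 : ℕ, 4 ≤ C1 ∧ ∀ s : ℕ, s0 ≤ s →
    (∀ n : ℕ, 4 * s ≤ n → n ≤ C1 * s → c3 ≤ lr P 0 (4 * n) 0 n) → P (Arm s (C1 * s)) ≤ c0 / 8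

theorem HR_arm {t s N : ℤ} (hs : 0 ≤ s) (_ht : 0 ≤ t) (hN : N ≤ 2 * t) :
    HR (-t, 0) t 0 s ⊆ Arm s N := by
  rintro z ⟨u, hu, v, ⟨hv1, hv2, hv3⟩, h⟩
  have hu1 : u.1 = -t - t := hu
  simp only at hv1 hv2 hv3
  refine ⟨v, u, ?_, ?_, Or.inl ?_, ?_⟩
  · rw [abs_le]; omega
  · rw [abs_le]; omega
  · rw [le_abs]; omega
  · exact Relation.ReflTransGen.mono (fun _ _ h => h.1) _ _ h.symm.2

namespace Perc

variable {P : Set Cf → ℝ} (hP : Perc P)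
include hP

/-- **Step**: from a good scale to a good scale at bounded ratio -/
theorem step {c0 q : ℝ} (hc0 : 0 < c0) (hq : 0 < q) (hsq : Sq P c0) (hblk : Blk P c0) :
    ∃ C2 s0 : ℕ, 1 ≤ C2 ∧ ∀ s : ℕ, s0 ≤ s → q ≤ lr P 0 (4 * s) 0 s →
      ∃ s', 2 * s ≤ s' ∧ s' ≤ C2 * s ∧ c2 c0 ≤ lr P 0 (4 * s') 0 s' := by
  have hf := fC_pos hc0 hq
  obtain ⟨C1, s0, hC1, hb⟩ := hblk ((fC c0 q * c0) ^ (4 * 2 + 1)) (by positivity)
  refine ⟨2 * (2 ^ (3 * (C1 + 1)) * C1), max s0 3, ?_, ?_⟩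
  · have : 0 < 2 ^ (3 * (C1 + 1)) * C1 := Nat.mul_pos (by positivity) (by omega)
    omega
  intro s hs hgs
  have hs3 : 3 ≤ s := (le_max_right _ _).trans hs
  have hs0 : s0 ≤ s := (le_max_left _ _).trans hs
  -- some scale has a large threshold
  obtain ⟨t, ht1, ht2, ht3⟩ : ∃ t, 2 * s ≤ t ∧ t ≤ C1 * s ∧ s ≤ alpha P c0 t := by
    by_contra hcon
    push Not at hcon
    have h1 : ∀ n : ℕ, 4 * s ≤ n → n ≤ C1 * s →
        (fC c0 q * c0) ^ (4 * 2 + 1) ≤ lr P 0 (4 * n) 0 n := by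
      intro n hn hn'
      have h2 := hP.lemmaC' hc0 hsq (s := s) (t := n / 2) (by omega) (by omega)
        (hcon (n / 2) (by omega) (by omega))
      have h3 : fC c0 q ≤ lr P 0 (4 * (2 * (n / 2) : ℕ)) 0 (2 * (n / 2) : ℕ) :=
        (fC_mono hc0.le hq.le hgs).trans h2
      exact hP.spread hc0 hsq hf.le (by omega) h3 4 2 n (by omega) (by omega)
    have h2 := hb s hs0 h1
    have h3 : 2 * s ≤ C1 * s := Nat.mul_le_mul_right _ (by omega)
    have h4 := hcon (C1 * s) h3 le_rfl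
    have h5 : c0 / 4 ≤ rho P (C1 * s : ℕ) 0 s := hP.bound2 (by omega) (by omega)
    rw [← hP.HR_shift (-((C1 * s : ℕ) : ℤ), 0)] at h5
    have h6 := hP.mono _ _ (HR_arm (t := ((C1 * s : ℕ) : ℤ)) (s := s) (N := C1 * s) (by omega)
      (by omega) (by push_cast; nlinarith))
    linarith
  have h4s : t + 1 ≤ (C1 + 1) * s := by
    have : (C1 + 1) * s = C1 * s + s := by ring
    omega
  obtain ⟨j, hj, hjj⟩ := growth (by omega) h4s ht3
  refine ⟨2 * Tn t (j + 1), ?_, ?_, ?_⟩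
  · have := Tn_ge t (j + 1)
    omega
  · have h5 := Tn_le (t0 := t) (by omega) (j + 1)
    have h6 : 2 ^ (j + 1) ≤ 2 ^ (3 * (C1 + 1)) := Nat.pow_le_pow_right (by norm_num) (by omega)
    calc 2 * Tn t (j + 1) ≤ 2 * (2 ^ (j + 1) * t) := Nat.mul_le_mul_left _ h5
      _ ≤ 2 * (2 ^ (3 * (C1 + 1)) * (C1 * s)) :=
          Nat.mul_le_mul_left _ (Nat.mul_le_mul h6 ht2)
      _ = _ := by ring
  · have h5 := Tn_ge t j
    have h6 := Tn_ge t (j + 1)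
    have h7 := hP.lemmaAB hc0 hsq (m := Tn t (j + 1)) (m' := Tn t j) (by omega) (by omega)
      (Tn_three t j) hjj
    push_cast at h7 ⊢
    exact h7

/-- crossing probability of a thin rectangle at scale `1` -/
theorem g1_pos {c0 : ℝ} (hc0 : 0 < c0) (hsq : Sq P c0) : (c0 / 2) ^ 4 ≤ lr P 0 (4 * (1 : ℕ)) 0 (1 : ℕ) := by
  have h1 : c0 / 2 ≤ lr P 0 1 0 0 := hP.h_edge (by simpa using hsq 1 le_rfl)
  have h2 := hP.h_line (by positivity) h1 3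
  refine h2.trans ?_
  push_cast
  exact hP.h_mono (by norm_num) (by norm_num) (by norm_num)

/-- **Start**: arbitrarily large good scales -/
theorem start {c0 : ℝ} (hc0 : 0 < c0) (hsq : Sq P c0) (s0 : ℕ) :
    ∃ s, s0 ≤ s ∧ 1 ≤ s ∧ min (c2 c0) (fC c0 ((c0 / 2) ^ 4)) ≤ lr P 0 (4 * s) 0 s := by
  by_cases h : ∃ t, max s0 3 ≤ t ∧ 1 ≤ alpha P c0 t
  · obtain ⟨t, ht, hta⟩ := h
    have ht3 : 3 ≤ t := (le_max_right _ _).trans ht
    have ht0 : s0 ≤ t := (le_max_left _ _).trans ht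
    obtain ⟨j, -, hjj⟩ := growth (P := P) (c0 := c0) (t0 := t) (s := 1) (C := t + 1) le_rfl
      (by omega) hta
    have h5 := Tn_ge t j
    have h6 := Tn_ge t (j + 1)
    refine ⟨2 * Tn t (j + 1), by omega, by omega, ?_⟩
    have h7 := hP.lemmaAB hc0 hsq (m := Tn t (j + 1)) (m' := Tn t j) (by omega) (by omega)
      (Tn_three t j) hjj
    push_cast at h7 ⊢
    exact (min_le_left _ _).trans h7
  · push Not at h
    have h1 := h (max s0 3) le_rfl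
    have h3 : 3 ≤ max s0 3 := le_max_right _ _
    have h4 : s0 ≤ max s0 3 := le_max_left _ _
    refine ⟨2 * max s0 3, by omega, by omega, ?_⟩
    have h2 := hP.lemmaC' hc0 hsq (s := 1) (t := max s0 3) (by omega) (by omega) (by omega)
    have h5 : fC c0 ((c0 / 2) ^ 4) ≤ fC c0 (lr P 0 (4 * (1 : ℕ)) 0 (1 : ℕ)) :=
      fC_mono hc0.le (by positivity) (hP.g1_pos hc0 hsq)
    push_cast at h2 h5 ⊢
    exact (min_le_right _ _).trans (h5.trans h2)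

/-- **RSW** (Tassion) -/
theorem rsw {c0 : ℝ} (hc0 : 0 < c0) (hsq : Sq P c0) (hblk : Blk P c0) (K : ℕ) :
    ∃ c : ℝ, 0 < c ∧ ∃ n0 : ℕ, ∀ n : ℕ, n0 ≤ n → c ≤ lr P 0 (K * n) 0 n := by
  set q : ℝ := min (c2 c0) (fC c0 ((c0 / 2) ^ 4)) with hq
  have hq0 : 0 < q := lt_min (c2_pos hc0) (fC_pos hc0 (by positivity))
  obtain ⟨C2, s0, hC2, hstep⟩ := hP.step hc0 hq0 hsq hblk
  obtain ⟨s, hs, hs1, hgs⟩ := hP.start hc0 hsq s0
  refine ⟨(q * c0) ^ (K * C2 + 1), by positivity, s, ?_⟩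
  have key : ∀ n, s ≤ n → ∃ s', s ≤ s' ∧ s' ≤ n ∧ n ≤ C2 * s' ∧ q ≤ lr P 0 (4 * s') 0 s' := by
    intro n hn
    induction n, hn using Nat.le_induction with
    | base => exact ⟨s, le_rfl, le_rfl, Nat.le_mul_of_pos_left _ hC2, hgs⟩
    | succ n hn ih =>
        obtain ⟨s', h1, h2, h3, h4⟩ := ih
        by_cases h5 : n + 1 ≤ C2 * s'
        · exact ⟨s', h1, by omega, h5, h4⟩
        · obtain ⟨s'', h6, h7, h8⟩ := hstep s' (hs.trans h1) h4
          have h9 : C2 * s' ≤ C2 * s'' := Nat.mul_le_mul_left _ (by omega)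
          have h10 : C2 * s' + C2 ≤ C2 * s'' := by
            have : C2 * (s' + 1) ≤ C2 * s'' := Nat.mul_le_mul_left _ (by omega)
            rw [mul_add, mul_one] at this
            exact this
          exact ⟨s'', by omega, by omega, by omega, (min_le_left _ _).trans h8⟩
  intro n hn
  obtain ⟨s', h1, h2, h3, h4⟩ := key n hn
  exact hP.spread hc0 hsq hq0.le (by omega) h4 K C2 n h2 h3

end Perc

end Crest.Agent.R161.Tas682
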