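import Crest.Agent.R161.Rho2_770
import Crest.Agent.R161.Sm_868

/-!
# Two-sided factorisation and the good pair (helper770, R161 block E: F2)

* `two_sided` : `P_F (DF = D, DI = D', level D' - level D = Q) = P_F (DF = D) · P_{D'} (DI = D') ·
  zQ c (D \ D') (tch D') Q · Z c D' / Z c D`.
* `good_pair` : if the heights of the inner and of the outer hull agree with conditional probability
  `≤ θ`, then for some pair of hulls `z_0 ≤ θ ∑ z_{2k}`.
-/

set_option autoImplicit false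

noncomputable section

namespace Crest.Agent.R161.Ann770

open Finset hiding box
open Crest.Agent.R161.Geo729 Crest.Agent.R161.Defs372 Crest.Agent.R161.Dmp341
open Crest.Agent.R161.Hull374 Crest.Agent.R161.Dual374 Crest.Agent.R161.Ifc372
open Crest.Agent.R161.Exp760 (DF doms mem_doms)
open Crest.Agent.R161.Out868

/-! ### geometry of nested hulls -/

theorem sep_of_balls {x : P2} {m n : ℕ} (hmn : m + 1 ≤ n) {D' D : Finset P2} (hD' : D' ⊆ ball x m)
    (hD : ball x n ⊆ D) : Sep D' D := by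
  intro v hv
  obtain ⟨f, hf, hvf⟩ := tch_iff.1 hv
  have h1 := hD' hf
  rw [Out868.mem_ball] at h1
  rw [mem_intVerts, intV_iff]
  intro g hg
  refine Finset.mem_coe.2 (hD ?_)
  rw [Out868.mem_ball]
  obtain ⟨a, b⟩ := v
  obtain ⟨f1, f2⟩ := f
  obtain ⟨g1, g2⟩ := g
  simp only [Geo729.IsCorner, Prod.mk.injEq] at hvf hg
  simp only at h1 ⊢
  omega

theorem bdV_sub_int {D' D : Finset P2} (h : Sep D' D) {v : P2} (hv : v ∈ bdV D') : v ∈ intVerts D :=
  h v (tch_iff.2 (mem_bdV.1 hv).1)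

theorem bdE_sub_int {D' D : Finset P2} (h : Sep D' D) {e : Edge} (he : e ∈ bdE D') :
    e ∈ intEdges D := by
  obtain ⟨h1, _⟩ := bdE_ends he
  have h2 := bdV_sub_int h h1
  exact mem_intEdges.2 ⟨corner_mem_of_int h2 (Dmp341.isCorner_src_fA e),
    corner_mem_of_int h2 (Dmp341.isCorner_src_fB e)⟩

theorem cutE_insL {D' D : Finset P2} (h : Sep D' D) (ω : Cfg) :
    CutE D' (insL D ω) ↔ CutE D' ω := by
  unfold CutE
  refine forall₂_congr fun e he => ?_
  rw [insL_z, if_pos (bdE_sub_int h he)]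

theorem DI_congr {x : P2} {n m : ℕ} {ω ω' : Cfg} (h : ∀ e, ω.2.2 e = ω'.2.2 e) :
    DI x n m ω = DI x n m ω' := by
  have : cutE ω = cutE ω' := by
    funext e
    unfold cutE
    rw [h e]
  unfold DI
  rw [this]

theorem DI_insL_insL {x : P2} {n m : ℕ} {D' D : Finset P2} (h : D' ⊆ D) (ω : Cfg) :
    DI x n m (insL D' (insL D ω)) = DI x n m (insL D' ω) := by
  refine DI_congr fun e => ?_
  have e1 := insL_z (D := D') (insL D ω) e
  have e2 := insL_z (D := D') ω e
  rw [e1, e2]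
  by_cases he : e ∈ intEdges D'
  · rw [if_pos he, if_pos he, insL_z, if_pos (intEdges_mono h he)]
  · rw [if_neg he, if_neg he]

theorem DI_insL {x : P2} {n m : ℕ} (hn : 1 ≤ n) {D' D : Finset P2} (h : Sep D' D)
    (hne : D'.Nonempty) (ω : Cfg) : DI x n m (insL D ω) = D' ↔ DI x n m ω = D' := by
  rw [DI_iff hn hne, DI_iff hn hne ω, cutE_insL h, DI_insL_insL h.sub]

theorem bdV_nonempty {D : Finset P2} (h : D.Nonempty) : (bdV D).Nonempty :=
  let ⟨v, hv⟩ := Exp760.exists_bdV h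
  ⟨v, hv⟩

theorem level_insL {D' D : Finset P2} (h : Sep D' D) (hne : D'.Nonempty) (ω : Cfg) :
    level D' (insL D ω) = level D' ω - level D ω := by
  have hb := bdV_nonempty hne
  unfold level
  rw [dif_pos hb, dif_pos hb]
  have h1 := bdV_sub_int h hb.choose_spec
  show (insL D ω).1 hb.choose = _
  unfold insL ins
  simp only [h1, if_true]
  rfl

/-! ### the factorisation -/

open Classical in
/-- weight of a pair of hulls -/
def pairW (c : ℝ) (F : Finset P2) (x : P2) (n₁ m₁ m₂ : ℕ) (D' D : Finset P2) : ℝ :=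
  E c F (fun ω => if DF (ball x m₂) x ω = D then (1 : ℝ) else 0) * (Z c D' / Z c D) *
    E c D' (fun β => if DI x n₁ m₁ β = D' then (1 : ℝ) else 0)

theorem pairW_nonneg {c : ℝ} (hc : 1 ≤ c) (F : Finset P2) (x : P2) (n₁ m₁ m₂ : ℕ)
    (D' D : Finset P2) : 0 ≤ pairW c F x n₁ m₁ m₂ D' D := by
  classical
  unfold pairW
  refine mul_nonneg (mul_nonneg (E_nonneg hc fun ω _ => ?_)
    (div_nonneg (Z_pos hc _).le (Z_pos hc _).le)) (E_nonneg hc fun ω _ => ?_)
  · split_ifs <;> norm_num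
  · split_ifs <;> norm_num

open Classical in
theorem two_sided {c : ℝ} (hc : 1 ≤ c) {F : Finset P2} {x : P2} {n₁ m₁ n₂ m₂ : ℕ} (h1 : 1 ≤ n₁)
    (h12 : m₁ + 1 ≤ n₂) (hF : ball x m₂ ⊆ F) {D' D : Finset P2} (hD' : D' ∈ hulls x n₁ m₁)
    (hD : D ∈ hulls x n₂ m₂) {Q : ℤ} (hQ : Even Q) :
    E c F (fun ω => if DF (ball x m₂) x ω = D ∧ DI x n₁ m₁ ω = D' ∧
      level D' ω - level D ω = Q then 1 else 0) =
      pairW c F x n₁ m₁ m₂ D' D * zQ c (D \ D') (tch D') Q := by
  have hn2 : 1 ≤ n₂ := by omega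
  obtain ⟨hD'1, hD'2, hD'3⟩ := mem_doms.1 hD'
  obtain ⟨hD1, hD2, hD3⟩ := mem_doms.1 hD
  have hsep : Sep D' D := sep_of_balls h12 hD'1 hD2
  have hne : D'.Nonempty := ⟨x, hD'2 (self_mem_ball h1)⟩
  have hout := outer_isHull c (F := F) (x := x) hn2 hF
  have hinn := inner_isHull c (F := D) (x := x) (n := n₁) (m := m₁) h1
    ((ball_mono x (by omega)).trans hD2)
  -- condition on the outer hull
  have s1 : E c F (fun ω => if DF (ball x m₂) x ω = D ∧ DI x n₁ m₁ ω = D' ∧
      level D' ω - level D ω = Q then (1 : ℝ) else 0) =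
      E c F (fun ω => if CutE D ω then (if DF (ball x m₂) x ω = D then (1 : ℝ) else 0) *
        (fun β => if DI x n₁ m₁ β = D' ∧ level D' β = Q then (1 : ℝ) else 0) (insL D ω) else 0) := by
    refine E_congr' fun ω hω hok => ?_
    have e1 := hout.iff D hD ω hω hok
    have e2 := DI_insL (x := x) (m := m₁) h1 hsep hne ω
    have e3 := level_insL hsep hne ω
    beta_reduce
    simp only [e2, e3]
    by_cases h3 : DF (ball x m₂) x ω = D
    · have h4 : CutE D ω := (e1.1 h3).1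
      simp only [h3, h4, true_and, if_true, one_mul]
    · simp [h3]
  have hg : OutLoc D (fun ω => if DF (ball x m₂) x ω = D then (1 : ℝ) else 0) := by
    intro ω ω' a1 a2 a3
    have := hout.out D hD ω ω' a1 a2 a3
    simp only [this]
  have s2 := E_cutE hc (hout.sub D hD) (hout.dom D hD) hg
    (f := fun β => if DI x n₁ m₁ β = D' ∧ level D' β = Q then (1 : ℝ) else 0)
  have s3 : E c F (fun ω => if CutE D ω then (if DF (ball x m₂) x ω = D then (1 : ℝ) else 0)
      else 0) = E c F (fun ω => if DF (ball x m₂) x ω = D then (1 : ℝ) else 0) := by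
    refine E_congr' fun ω hω hok => ?_
    have e1 := hout.iff D hD ω hω hok
    by_cases h3 : DF (ball x m₂) x ω = D
    · have h4 : CutE D ω := (e1.1 h3).1
      simp [h3, h4]
    · simp [h3]
  -- the inner hull inside `D`
  have s4 : E c D (fun β => if DI x n₁ m₁ β = D' ∧ level D' β = Q then (1 : ℝ) else 0) =
      E c D (fun β => if CutAt D' Q β then (1 : ℝ) *
        (fun γ => if DI x n₁ m₁ γ = D' then (1 : ℝ) else 0) (ins D' Q β) else 0) := by
    refine E_congr' fun β hβ hok => ?_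
    have e1 := hinn.iff D' hD' β hβ hok
    by_cases h3 : CutAt D' Q β
    · have h4 : level D' β = Q := h3.level_eq (bdV_nonempty hne)
      have h5 : insL D' β = ins D' Q β := by unfold insL; rw [h4]
      have h6 : (DI x n₁ m₁ β = D') ↔ DI x n₁ m₁ (ins D' Q β) = D' := by
        rw [e1, h5]
        simp [h3.cutE]
      simp only [h3, h4, h6, and_true, if_true, one_mul]
    · rw [if_neg h3, if_neg]
      rintro ⟨h4, h5⟩
      apply h3
      have h6 : CutE D' β := (e1.1 h4).1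
      have := cutAt_level (hinn.dom D' hD') hβ.even h6 hok
      rwa [h5] at this
  have s5 := E_cut hc hsep.sub Q (g := fun _ => (1 : ℝ))
    (f := fun γ => if DI x n₁ m₁ γ = D' then (1 : ℝ) else 0) (fun _ _ _ _ _ => rfl)
  have s6 : E c D (fun β => if CutAt D' Q β then (1 : ℝ) else 0) =
      zQ c (D \ D') (tch D') Q * Z c D' / Z c D := by
    rw [← pr_cutAt c hsep hQ]
    unfold Pr
    refine E_congr fun β _ => ?_
    by_cases h : CutAt D' Q β <;> simp [h]
  rw [s1, s2, s3, s4, s5, s6]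
  unfold pairW
  ring

/-! ### the good pair -/

open Classical in
/-- **Good pair.** -/
theorem good_pair {c : ℝ} (hc : 1 ≤ c) {F : Finset P2} {x : P2} {n₁ m₁ n₂ m₂ : ℕ} (h1 : 1 ≤ n₁)
    (h12 : m₁ + 1 ≤ n₂) (hF : ball x m₂ ⊆ F) {θ : ℝ}
    (hpos : 0 < E c F (fun ω => if DI x n₁ m₁ ω ∈ hulls x n₁ m₁ ∧ DF (ball x m₂) x ω ∈ hulls x n₂ m₂
      then 1 else 0))
    (hle : E c F (fun ω => if (DI x n₁ m₁ ω ∈ hulls x n₁ m₁ ∧ DF (ball x m₂) x ω ∈ hulls x n₂ m₂) ∧
      level (DI x n₁ m₁ ω) ω = level (DF (ball x m₂) x ω) ω then 1 else 0) ≤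
      θ * E c F (fun ω => if DI x n₁ m₁ ω ∈ hulls x n₁ m₁ ∧ DF (ball x m₂) x ω ∈ hulls x n₂ m₂
      then 1 else 0)) :
    ∃ D' ∈ hulls x n₁ m₁, ∃ D ∈ hulls x n₂ m₂, ∃ N : ℕ,
      zQ c (D \ D') (tch D') 0 ≤ θ * ∑ k ∈ Finset.Icc (-(N : ℤ)) N, zQ c (D \ D') (tch D') (2 * k) := by
  by_contra hcon
  push Not at hcon
  set N : ℕ := (hb F).toNat with hN
  have hbF : 0 ≤ hb F := by unfold hb; positivity
  have hNb : (N : ℤ) = hb F := Int.toNat_of_nonneg hbF
  -- decomposition of the total probability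
  have t1 : E c F (fun ω => if DI x n₁ m₁ ω ∈ hulls x n₁ m₁ ∧ DF (ball x m₂) x ω ∈ hulls x n₂ m₂
      then (1 : ℝ) else 0) = ∑ D' ∈ hulls x n₁ m₁, ∑ D ∈ hulls x n₂ m₂,
        pairW c F x n₁ m₁ m₂ D' D *
          ∑ k ∈ Finset.Icc (-(N : ℤ)) N, zQ c (D \ D') (tch D') (2 * k) := by
    have e1 : ∀ D' ∈ hulls x n₁ m₁, ∀ D ∈ hulls x n₂ m₂, pairW c F x n₁ m₁ m₂ D' D *
          ∑ k ∈ Finset.Icc (-(N : ℤ)) N, zQ c (D \ D') (tch D') (2 * k) =
        E c F (fun ω => ∑ k ∈ Finset.Icc (-(N : ℤ)) N, if DF (ball x m₂) x ω = D ∧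
          DI x n₁ m₁ ω = D' ∧ level D' ω - level D ω = 2 * k then (1 : ℝ) else 0) := by
      intro D' hD' D hD
      rw [E_sum, Finset.mul_sum]
      exact Finset.sum_congr rfl fun k _ => (two_sided hc h1 h12 hF hD' hD (even_two_mul k)).symm
    have e2 : ∑ D' ∈ hulls x n₁ m₁, ∑ D ∈ hulls x n₂ m₂,
        pairW c F x n₁ m₁ m₂ D' D *
          ∑ k ∈ Finset.Icc (-(N : ℤ)) N, zQ c (D \ D') (tch D') (2 * k) =
        ∑ D' ∈ hulls x n₁ m₁, ∑ D ∈ hulls x n₂ m₂,
        E c F (fun ω => ∑ k ∈ Finset.Icc (-(N : ℤ)) N, if DF (ball x m₂) x ω = D ∧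
          DI x n₁ m₁ ω = D' ∧ level D' ω - level D ω = 2 * k then (1 : ℝ) else 0) :=
      Finset.sum_congr rfl fun D' hD' => Finset.sum_congr rfl fun D hD => e1 D' hD' D hD
    rw [e2]
    simp only [← E_sum]
    refine E_congr fun ω hω => ?_
    by_cases hA : DI x n₁ m₁ ω ∈ hulls x n₁ m₁ ∧ DF (ball x m₂) x ω ∈ hulls x n₂ m₂
    · rw [if_pos hA, Finset.sum_eq_single (DI x n₁ m₁ ω), Finset.sum_eq_single (DF (ball x m₂) x ω)]
      · -- the level difference
        have hev : Even (level (DI x n₁ m₁ ω) ω - level (DF (ball x m₂) x ω) ω) :=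
          (even_level hω.even).sub (even_level hω.even)
        obtain ⟨r, hr⟩ := hev
        have hlev : ∀ D : Finset P2, |level D ω| ≤ hb F := by
          intro D
          unfold level
          split_ifs with h
          · exact hω.abs_vert _
          · simpa using hbF
        rw [Finset.sum_eq_single r]
        · rw [if_pos ⟨rfl, rfl, by rw [hr]; ring⟩]
        · intro k _ hk
          rw [if_neg]
          rintro ⟨_, _, h3⟩
          apply hk
          omega
        · intro hr'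
          exfalso
          apply hr'
          rw [Finset.mem_Icc, hNb]
          have a1 := abs_le.1 (hlev (DI x n₁ m₁ ω))
          have a2 := abs_le.1 (hlev (DF (ball x m₂) x ω))
          omega
      · intro D _ hD
        refine Finset.sum_eq_zero fun k _ => ?_
        rw [if_neg (fun h => hD h.1.symm)]
      · intro h; exact absurd hA.2 h
      · intro D' _ hD'
        refine Finset.sum_eq_zero fun D _ => Finset.sum_eq_zero fun k _ => ?_
        rw [if_neg (fun h => hD' h.2.1.symm)]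
      · intro h; exact absurd hA.1 h
    · rw [if_neg hA]
      symm
      refine Finset.sum_eq_zero fun D' hD' => Finset.sum_eq_zero fun D hD =>
        Finset.sum_eq_zero fun k _ => ?_
      rw [if_neg]
      rintro ⟨h3, h4, _⟩
      exact hA ⟨by rw [h4]; exact hD', by rw [h3]; exact hD⟩
  have t0 : E c F (fun ω => if (DI x n₁ m₁ ω ∈ hulls x n₁ m₁ ∧ DF (ball x m₂) x ω ∈ hulls x n₂ m₂) ∧
      level (DI x n₁ m₁ ω) ω = level (DF (ball x m₂) x ω) ω then (1 : ℝ) else 0) =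
      ∑ D' ∈ hulls x n₁ m₁, ∑ D ∈ hulls x n₂ m₂,
        pairW c F x n₁ m₁ m₂ D' D * zQ c (D \ D') (tch D') 0 := by
    have e2 : ∑ D' ∈ hulls x n₁ m₁, ∑ D ∈ hulls x n₂ m₂,
        pairW c F x n₁ m₁ m₂ D' D * zQ c (D \ D') (tch D') 0 =
        ∑ D' ∈ hulls x n₁ m₁, ∑ D ∈ hulls x n₂ m₂,
        E c F (fun ω => if DF (ball x m₂) x ω = D ∧
          DI x n₁ m₁ ω = D' ∧ level D' ω - level D ω = 0 then (1 : ℝ) else 0) :=
      Finset.sum_congr rfl fun D' hD' => Finset.sum_congr rfl fun D hD =>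
        (two_sided hc h1 h12 hF hD' hD Even.zero).symm
    rw [e2]
    simp only [← E_sum]
    refine E_congr fun ω hω => ?_
    by_cases hA : DI x n₁ m₁ ω ∈ hulls x n₁ m₁ ∧ DF (ball x m₂) x ω ∈ hulls x n₂ m₂
    · rw [Finset.sum_eq_single (DI x n₁ m₁ ω), Finset.sum_eq_single (DF (ball x m₂) x ω)]
      · by_cases hl : level (DI x n₁ m₁ ω) ω = level (DF (ball x m₂) x ω) ω
        · rw [if_pos ⟨hA, hl⟩, if_pos ⟨rfl, rfl, by rw [hl, sub_self]⟩]
        · rw [if_neg (fun h => hl h.2), if_neg (fun h => hl (sub_eq_zero.1 h.2.2))]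
      · intro D _ hD
        rw [if_neg (fun h => hD h.1.symm)]
      · intro h; exact absurd hA.2 h
      · intro D' _ hD'
        refine Finset.sum_eq_zero fun D _ => ?_
        rw [if_neg (fun h => hD' h.2.1.symm)]
      · intro h; exact absurd hA.1 h
    · rw [if_neg (fun h => hA h.1)]
      symm
      refine Finset.sum_eq_zero fun D' hD' => Finset.sum_eq_zero fun D hD => ?_
      rw [if_neg]
      rintro ⟨h3, h4, _⟩
      exact hA ⟨by rw [h4]; exact hD', by rw [h3]; exact hD⟩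
  rw [t0, t1] at hle
  rw [t1] at hpos
  -- some pair has positive weight
  have hlt : θ * ∑ D' ∈ hulls x n₁ m₁, ∑ D ∈ hulls x n₂ m₂, pairW c F x n₁ m₁ m₂ D' D *
      ∑ k ∈ Finset.Icc (-(N : ℤ)) N, zQ c (D \ D') (tch D') (2 * k) <
      ∑ D' ∈ hulls x n₁ m₁, ∑ D ∈ hulls x n₂ m₂,
        pairW c F x n₁ m₁ m₂ D' D * zQ c (D \ D') (tch D') 0 := by
    obtain ⟨D'₀, hD'₀, hp⟩ := Finset.exists_lt_of_sum_lt (s := hulls x n₁ m₁)
      (f := fun _ => (0 : ℝ)) (by simpa using hpos)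
    obtain ⟨D₀, hD₀, hp2⟩ := Finset.exists_lt_of_sum_lt (s := hulls x n₂ m₂)
      (f := fun _ => (0 : ℝ)) (by simpa using hp)
    have hw : 0 < pairW c F x n₁ m₁ m₂ D'₀ D₀ := by
      rcases (pairW_nonneg hc F x n₁ m₁ m₂ D'₀ D₀).lt_or_eq with h | h
      · exact h
      · rw [← h, zero_mul] at hp2; exact absurd hp2 (lt_irrefl _)
    rw [Finset.mul_sum]
    refine Finset.sum_lt_sum (fun D' hD' => ?_) ⟨D'₀, hD'₀, ?_⟩
    · rw [Finset.mul_sum]
      refine Finset.sum_le_sum fun D hD => ?_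
      have := mul_le_mul_of_nonneg_left (hcon D' hD' D hD N).le (pairW_nonneg hc F x n₁ m₁ m₂ D' D)
      linarith
    · rw [Finset.mul_sum]
      refine Finset.sum_lt_sum (fun D hD => ?_) ⟨D₀, hD₀, ?_⟩
      · have := mul_le_mul_of_nonneg_left (hcon D'₀ hD'₀ D hD N).le
          (pairW_nonneg hc F x n₁ m₁ m₂ D'₀ D)
        linarith
      · have := mul_lt_mul_of_pos_left (hcon D'₀ hD'₀ D₀ hD₀ N) hw
        linarith
  exact absurd hle (not_le.2 hlt)

end Crest.Agent.R161.Ann770
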