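import Crest.Agent.R161.Topo_374

/-!
Further planar lemmas (helper374): U-turn lemmas and circuits made of four crossings.
-/

set_option autoImplicit false

namespace Crest.Agent.R161.Topo374

/-- vertical walk -/
lemma vwalk (x y : ℤ) (n : ℕ) : Walk {w | w.1 = x ∧ y ≤ w.2 ∧ w.2 ≤ y + n} (x, y) (x, y + n) := by
  induction n with
  | zero => simpa using Walk.refl (T := {w | w.1 = x ∧ y ≤ w.2 ∧ w.2 ≤ y + (0 : ℕ)}) (a := (x, y)) (by simp)
  | succ n ih =>
      have h1 : Walk {w | w.1 = x ∧ y ≤ w.2 ∧ w.2 ≤ y + ((n + 1 : ℕ) : ℤ)} (x, y) (x, y + n) :=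
        ih.mono (by rintro w ⟨h1, h2, h3⟩; refine ⟨h1, h2, ?_⟩; push_cast; omega)
      refine h1.trans (Walk.step h1.right ?_ ?_)
      · exact ⟨rfl, by show y ≤ y + ((n + 1 : ℕ) : ℤ); push_cast; omega, le_refl _⟩
      · unfold Nbr
        right
        refine ⟨rfl, Or.inl ?_⟩
        show y + ((n + 1 : ℕ) : ℤ) = y + n + 1
        push_cast; ring

lemma vwalk' (x y y' : ℤ) (h : y ≤ y') : Walk {w | w.1 = x ∧ y ≤ w.2 ∧ w.2 ≤ y'} (x, y) (x, y') := by
  have := vwalk x y (y' - y).toNat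
  rwa [show y + ((y' - y).toNat : ℤ) = y' by omega] at this

lemma inS_symm {T : Set V} : ∀ u v, InS T u v → InS T v u := fun _ _ h => ⟨h.2, h.1⟩

lemma inS_mono {T T' : Set V} (h : T ⊆ T') : ∀ u v, InS T u v → InS T' u v :=
  fun _ _ h1 => ⟨h h1.1, h h1.2⟩

/-- **U-turn lemma 1.** -/
theorem uturn1 {T1 T2 : Set V} {a : V} {r l y ym yp : ℤ} (h1 : Walk T1 a (r, y))
    (h2 : Walk T2 (r, ym) (r, yp)) (hT1 : ∀ w ∈ T1, w.1 ≤ r)
    (hT2 : ∀ w ∈ T2, l ≤ w.1 ∧ w.1 ≤ r) (ha : a.1 < l) (hym : ym ≤ y) (hyp : y ≤ yp) :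
    (T1 ∩ T2).Nonempty := by
  by_contra hne
  have hdis : ∀ v ∈ T1, v ∉ T2 := fun v hv hv' => hne ⟨v, hv, hv'⟩
  have hyne : y ≠ yp := by
    rintro rfl
    exact hdis _ h1.right h2.right
  have hlr : l ≤ r := (hT2 _ h2.left).1.trans (hT2 _ h2.left).2
  set E : Set V := {w | w.1 = r + 1 ∧ ym ≤ w.2 ∧ w.2 ≤ yp} with hE
  set T : Set V := T2 ∪ E with hT
  obtain ⟨N2, hN2⟩ := h2.toPW
  obtain ⟨N3, hN3⟩ := (vwalk' (r + 1) ym yp (by omega)).toPW
  have hN3' := hN3.symm inS_symm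
  have e1 : Nbr (r, yp) (r + 1, yp) := by unfold Nbr; simp
  have e2 : Nbr (r + 1, ym) (r, ym) := by unfold Nbr; simp
  have m1 : ((r, yp) : V) ∈ T := Or.inl h2.right
  have m2 : ((r + 1, yp) : V) ∈ T := Or.inr ⟨rfl, by simp only; omega, le_rfl⟩
  have m3 : ((r + 1, ym) : V) ∈ T := Or.inr ⟨rfl, le_rfl, by simp only; omega⟩
  have m4 : ((r, ym) : V) ∈ T := Or.inl h2.left
  have hc := (((hN2.mono (inS_mono (T' := T) (fun _ h => Or.inl h))).trans
    (PW.single (R := InS T) e1 ⟨m1, m2⟩)).trans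
    (hN3'.mono (inS_mono (T' := T) (fun _ h => Or.inr h)))).trans
    (PW.single (R := InS T) e2 ⟨m3, m4⟩)
  have hcol2 : ∀ j, N2 r j = 0 := fun j => hN2.col r j
    (fun u v h => by have := (hT2 v h.2).2; omega) (fun u v h => by have := (hT2 u h.1).2; omega)
  have hcol3 : ∀ j, N3 r j = 0 := fun j => hN3.col r j
    (fun u v h => by have := h.1.1; omega) (fun u v h => by have := h.2.1; omega)
  have hconst := closed_const (T := T) (T' := T1) (fun u v h => h) hc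
    (fun v hv hv' => by
      rcases hv' with h | h
      · exact hdis v hv h
      · have h3 := hT1 v hv
        have h4 := h.1
        omega) h1
  simp only at hconst
  rw [hcol2, hcol3] at hconst
  have hl : ∀ i j, i < l → N2 i j = 0 ∧ N3 i j = 0 ∧ stepN (r, yp) (r + 1, yp) i j = 0 ∧
      stepN (r + 1, ym) (r, ym) i j = 0 := by
    intro i j hi
    refine ⟨hN2.col i j (fun u v h => by have := (hT2 u h.1).1; omega)
      (fun u v h => by have := (hT2 v h.2).1; omega), hN3.col i j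
      (fun u v h => by have := h.1.1; omega) (fun u v h => by have := h.2.1; omega), ?_, ?_⟩
    · unfold stepN; rw [if_neg]; rintro ⟨_, h, _⟩; simp only at h; omega
    · unfold stepN; rw [if_neg]; rintro ⟨_, h, _⟩; simp only at h; omega
  obtain ⟨h5, h6, h7, h8⟩ := hl a.1 a.2 ha
  rw [h5, h6, h7, h8] at hconst
  have h9 : stepN (r, yp) (r + 1, yp) r y = 1 := by
    unfold stepN; rw [if_pos]; refine ⟨rfl, Or.inl ⟨rfl, rfl⟩, ?_⟩; simp only; omega
  have h10 : stepN (r + 1, ym) (r, ym) r y = 0 := by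
    unfold stepN; rw [if_neg]; rintro ⟨_, _, h⟩; simp only at h; omega
  rw [h9, h10] at hconst
  exact absurd hconst (by decide)

/-- **U-turn lemma 2.** -/
theorem uturn2 {T1 T2 : Set V} {l y0 y1 y0' y1' : ℤ} (h1 : Walk T1 (l, y0) (l, y1))
    (h2 : Walk T2 (l, y0') (l, y1')) (hT1 : ∀ w ∈ T1, l ≤ w.1) (hT2 : ∀ w ∈ T2, l ≤ w.1)
    (ha : y0 ≤ y0') (hb : y0' ≤ y1) (hc : y1 ≤ y1') : (T1 ∩ T2).Nonempty := by
  by_contra hne
  have hdis : ∀ v ∈ T2, v ∉ T1 := fun v hv hv' => hne ⟨v, hv', hv⟩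
  have hyne : y0' ≠ y1 := by
    rintro rfl
    exact hdis _ h2.left h1.right
  set E : Set V := {w | w.1 = l - 1 ∧ y0 ≤ w.2 ∧ w.2 ≤ y1} with hE
  set T : Set V := T1 ∪ E with hT
  obtain ⟨N1, hN1⟩ := h1.toPW
  obtain ⟨N3, hN3⟩ := (vwalk' (l - 1) y0 y1 (by omega)).toPW
  have hN3' := hN3.symm inS_symm
  have e1 : Nbr (l, y1) (l - 1, y1) := by unfold Nbr; simp
  have e2 : Nbr (l - 1, y0) (l, y0) := by unfold Nbr; simp
  have m1 : ((l, y1) : V) ∈ T := Or.inl h1.right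
  have m2 : ((l - 1, y1) : V) ∈ T := Or.inr ⟨rfl, by simp only; omega, le_rfl⟩
  have m3 : ((l - 1, y0) : V) ∈ T := Or.inr ⟨rfl, le_rfl, by simp only; omega⟩
  have m4 : ((l, y0) : V) ∈ T := Or.inl h1.left
  have hc' := (((hN1.mono (inS_mono (T' := T) (fun _ h => Or.inl h))).trans
    (PW.single (R := InS T) e1 ⟨m1, m2⟩)).trans
    (hN3'.mono (inS_mono (T' := T) (fun _ h => Or.inr h)))).trans
    (PW.single (R := InS T) e2 ⟨m3, m4⟩)
  have hdisT : ∀ v ∈ T2, v ∉ T := by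
    intro v hv hv'
    rcases hv' with h | h
    · exact hdis v hv h
    · have h3 := hT2 v hv
      have h4 := h.1
      omega
  have hcol1 : ∀ j, N1 (l - 1) j = 0 := fun j => hN1.col _ j
    (fun u v h => by have := hT1 u h.1; omega) (fun u v h => by have := hT1 v h.2; omega)
  have hcol3 : ∀ j, N3 (l - 1) j = 0 := fun j => hN3.col _ j
    (fun u v h => by have := h.2.1; omega) (fun u v h => by have := h.1.1; omega)
  have hconst := closed_const (T := T) (T' := T2) (fun u v h => h) hc' hdisT h2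
  have k1 := hc'.horiz l y0' (fun h => hdisT _ h2.left h.1) (fun h => hdisT _ h2.left h.2)
  have k2 := hc'.horiz l y1' (fun h => hdisT _ h2.right h.1) (fun h => hdisT _ h2.right h.2)
  rw [zmod2_add_self] at k1 k2
  have k1' := zmod2_eq_of_add k1
  have k2' := zmod2_eq_of_add k2
  simp only at hconst k1' k2'
  rw [← k1', ← k2', hcol1, hcol1, hcol3, hcol3] at hconst
  have s1 : stepN (l, y1) (l - 1, y1) (l - 1) y0' = 1 := by
    unfold stepN; rw [if_pos]; refine ⟨rfl, Or.inr ⟨rfl, ?_⟩, ?_⟩ <;> simp only <;> omega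
  have s2 : stepN (l - 1, y0) (l, y0) (l - 1) y0' = 0 := by
    unfold stepN; rw [if_neg]; rintro ⟨_, _, h⟩; simp only at h; omega
  have s3 : stepN (l, y1) (l - 1, y1) (l - 1) y1' = 0 := by
    unfold stepN; rw [if_neg]; rintro ⟨_, _, h⟩; simp only at h; omega
  have s4 : stepN (l - 1, y0) (l, y0) (l - 1) y1' = 0 := by
    unfold stepN; rw [if_neg]; rintro ⟨_, _, h⟩; simp only at h; omega
  rw [s1, s2, s3, s4] at hconst
  exact absurd hconst (by decide)

/-- A closed walk surrounding the box of half-side `s` centred at `(cx, cy)` and contained in the box of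
half-side `2 s`. -/
def Surr (T : Set V) (cx cy s : ℤ) : Prop :=
  ∃ (c : V) (N : ℤ → ℤ → ZMod 2), PW (InS T) c c N ∧
    (∀ i j, cx - s ≤ i → i < cx + s → cy - s ≤ j → j < cy + s → N i j = 1) ∧
    (∀ i j, (i < cx - 2 * s ∨ cx + 2 * s ≤ i ∨ j < cy - 2 * s ∨ cy + 2 * s ≤ j) → N i j = 0)

/-- Four crossings make a circuit. -/
theorem surr_of_four {T Tt Tb Tl Tr : Set V} {cx cy s : ℤ} (hs : 0 < s)
    (ht : Tt ⊆ T) (hb : Tb ⊆ T) (hl : Tl ⊆ T) (hr : Tr ⊆ T)
    {at' bt ab bb al bl ar br : V}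
    (wt : Walk Tt at' bt) (wb : Walk Tb ab bb) (wl : Walk Tl al bl) (wr : Walk Tr ar br)
    (hTt : ∀ w ∈ Tt, cx - 2 * s ≤ w.1 ∧ w.1 ≤ cx + 2 * s ∧ cy + s ≤ w.2 ∧ w.2 ≤ cy + 2 * s)
    (hTb : ∀ w ∈ Tb, cx - 2 * s ≤ w.1 ∧ w.1 ≤ cx + 2 * s ∧ cy - 2 * s ≤ w.2 ∧ w.2 ≤ cy - s)
    (hTl : ∀ w ∈ Tl, cx - 2 * s ≤ w.1 ∧ w.1 ≤ cx - s ∧ cy - 2 * s ≤ w.2 ∧ w.2 ≤ cy + 2 * s)
    (hTr : ∀ w ∈ Tr, cx + s ≤ w.1 ∧ w.1 ≤ cx + 2 * s ∧ cy - 2 * s ≤ w.2 ∧ w.2 ≤ cy + 2 * s)
    (hat : at'.1 = cx - 2 * s) (hbt : bt.1 = cx + 2 * s)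
    (hab : ab.1 = cx - 2 * s) (hbb : bb.1 = cx + 2 * s)
    (hal : al.2 = cy - 2 * s) (hbl : bl.2 = cy + 2 * s)
    (har : ar.2 = cy - 2 * s) (hbr : br.2 = cy + 2 * s)
    (hcomp : ∀ (X : Set V) (p q : V), (X = Tt ∨ X = Tb ∨ X = Tl ∨ X = Tr) → p ∈ X → q ∈ X → Walk X p q) :
    Surr T cx cy s := by
  obtain ⟨w1, w1t, w1l⟩ := cross wt wl (fun w hw => by have := hTt w hw; omega)
    (fun w hw => by have := hTl w hw; omega)
  obtain ⟨w2, w2t, w2r⟩ := cross wt wr (fun w hw => by have := hTt w hw; omega)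
    (fun w hw => by have := hTr w hw; omega)
  obtain ⟨w3, w3b, w3r⟩ := cross wb wr (fun w hw => by have := hTb w hw; omega)
    (fun w hw => by have := hTr w hw; omega)
  obtain ⟨w4, w4b, w4l⟩ := cross wb wl (fun w hw => by have := hTb w hw; omega)
    (fun w hw => by have := hTl w hw; omega)
  obtain ⟨Nt, hNt⟩ := (hcomp Tt w1 w2 (Or.inl rfl) w1t w2t).toPW
  obtain ⟨Nr, hNr⟩ := (hcomp Tr w2 w3 (Or.inr (Or.inr (Or.inr rfl))) w2r w3r).toPW
  obtain ⟨Nb, hNb⟩ := (hcomp Tb w3 w4 (Or.inr (Or.inl rfl)) w3b w4b).toPW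
  obtain ⟨Nl, hNl⟩ := (hcomp Tl w4 w1 (Or.inr (Or.inr (Or.inl rfl))) w4l w1l).toPW
  have hc := (((hNt.mono (inS_mono ht)).trans (hNr.mono (inS_mono hr))).trans
    (hNb.mono (inS_mono hb))).trans (hNl.mono (inS_mono hl))
  refine ⟨w1, _, hc, ?_, ?_⟩
  · intro i j h1 h2 h3 h4
    have k1 : Nt i j = 1 := by
      rw [hNt.total i j (fun u v h => by have := hTt u h.1; omega),
        ind_true (by have := hTl w1 w1l; omega), ind_false (by have := hTr w2 w2r; omega)]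
      decide
    have k2 : Nr i j = 0 := hNr.col i j (fun u v h => by have := hTr u h.1; omega)
      (fun u v h => by have := hTr v h.2; omega)
    have k3 : Nb i j = 0 := hNb.top i j (fun u v h => by have := hTb u h.1; omega)
    have k4 : Nl i j = 0 := hNl.col i j (fun u v h => by have := hTl v h.2; omega)
      (fun u v h => by have := hTl u h.1; omega)
    rw [k1, k2, k3, k4]; decide
  · intro i j hij
    have hall : ∀ (X : Set V), (X = Tt ∨ X = Tb ∨ X = Tl ∨ X = Tr) → ∀ w ∈ X,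
        cx - 2 * s ≤ w.1 ∧ w.1 ≤ cx + 2 * s ∧ cy - 2 * s ≤ w.2 ∧ w.2 ≤ cy + 2 * s := by
      rintro X (rfl | rfl | rfl | rfl) w hw
      · have := hTt w hw; omega
      · have := hTb w hw; omega
      · have := hTl w hw; omega
      · have := hTr w hw; omega
    set T' : Set V := Tt ∪ Tb ∪ Tl ∪ Tr with hT'
    have hT'all : ∀ w ∈ T', cx - 2 * s ≤ w.1 ∧ w.1 ≤ cx + 2 * s ∧ cy - 2 * s ≤ w.2 ∧ w.2 ≤ cy + 2 * s := by
      rintro w (((h | h) | h) | h)
      · exact hall Tt (Or.inl rfl) w h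
      · exact hall Tb (Or.inr (Or.inl rfl)) w h
      · exact hall Tl (Or.inr (Or.inr (Or.inl rfl))) w h
      · exact hall Tr (Or.inr (Or.inr (Or.inr rfl))) w h
    have hc' := (((hNt.mono (inS_mono (T' := T') (fun _ h => Or.inl (Or.inl (Or.inl h))))).trans
      (hNr.mono (inS_mono (T' := T') (fun _ h => Or.inr h)))).trans
      (hNb.mono (inS_mono (T' := T') (fun _ h => Or.inl (Or.inl (Or.inr h)))))).trans
      (hNl.mono (inS_mono (T' := T') (fun _ h => Or.inl (Or.inr h))))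
    rcases hij with h | h | h | h
    · exact hc'.col i j (fun u v h1 => by have := hT'all u h1.1; omega)
        (fun u v h1 => by have := hT'all v h1.2; omega)
    · exact hc'.col i j (fun u v h1 => by have := hT'all v h1.2; omega)
        (fun u v h1 => by have := hT'all u h1.1; omega)
    · rw [hc'.total i j (fun u v h1 => by have := hT'all u h1.1; omega), zmod2_add_self]
    · exact hc'.top i j (fun u v h1 => by have := hT'all u h1.1; omega)

/-- A walk from inside to outside meets the circuit. -/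
theorem surr_meet {T T' : Set V} {cx cy s : ℤ} (h : Surr T cx cy s) {p q : V} (hw : Walk T' p q)
    (hp : cx - s ≤ p.1 ∧ p.1 < cx + s ∧ cy - s ≤ p.2 ∧ p.2 < cy + s)
    (hq : q.1 < cx - 2 * s ∨ cx + 2 * s ≤ q.1 ∨ q.2 < cy - 2 * s ∨ cy + 2 * s ≤ q.2) :
    (T ∩ T').Nonempty := by
  by_contra hne
  obtain ⟨c, N, hN, h1, h2⟩ := h
  have := closed_const (T := T) (T' := T') (fun u v h => h) hN (fun v hv hv' => hne ⟨v, hv', hv⟩) hw
  rw [h1 _ _ hp.1 hp.2.1 hp.2.2.1 hp.2.2.2, h2 _ _ hq] at this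
  exact absurd this (by decide)

end Crest.Agent.R161.Topo374
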