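import Crest.Agent.R161.W1_369

/-!
R161, STEP 6 (helper369), part W2: the law of exactly neutral lattice functionals.
-/

set_option autoImplicit false

noncomputable section

open Filter Topology MeasureTheory
open scoped ComplexConjugate

namespace Crest.Agent.R161.Ward369

open Crest.Agent.R161.Geo729 Crest.Agent.R161.Defs372 Crest.Agent.R161.Ifc372
open Crest.Agent.R161.Aut373

/-- Gaussian input: law of the mass-zero smooth smeared heights, and a crude bound for the second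
moments of the heights (heights are normalised at the origin). -/
structure LawHyp (A : ℝ) (P : Measure Cfg) : Prop where
  law : ∀ f : ℂ → ℝ, Test f → ∫ z, f z = 0 →
    Tendsto (fun δ : ℝ => ∫ ω, Complex.exp (Complex.I * (X δ f ω : ℂ)) ∂P) (𝓝[>] 0)
      (𝓝 ((Real.exp (-(A * plog f f) / 2) : ℝ) : ℂ))
  lin : ∃ C : ℝ, 0 ≤ C ∧ ∀ v : P2, ∫ ω, (ω.1 v : ℝ) ^ 2 ∂P ≤ C * (1 + |(v.1 : ℝ)| + |(v.2 : ℝ)|)

theorem X_eq (δ : ℝ) (f : ℂ → ℝ) (ω : Cfg) :
    X δ f ω = Yl (fun v => δ ^ 2 * f (ptC δ v)) ω := by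
  unfold X Yl
  rw [← tsum_mul_left]
  exact tsum_congr fun v => by ring

theorem norm_exp_sub_le (x y : ℝ) :
    ‖Complex.exp (Complex.I * (x : ℂ)) - Complex.exp (Complex.I * (y : ℂ))‖ ≤ |x - y| := by
  have h1 : Complex.exp (Complex.I * (x : ℂ)) - Complex.exp (Complex.I * (y : ℂ)) =
      Complex.exp (Complex.I * (y : ℂ)) * (Complex.exp (Complex.I * ((x - y : ℝ) : ℂ)) - 1) := by
    rw [mul_sub, ← Complex.exp_add, mul_one]
    congr 2
    push_cast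
    ring
  rw [h1, norm_mul, mul_comm Complex.I (y : ℂ), Complex.norm_exp_ofReal_mul_I, one_mul]
  exact Real.norm_exp_I_mul_ofReal_sub_one_le

theorem loc_k (v : P2) : Loc (({v} : Finset P2) : Set P2) (fun ω : Cfg => (ω.1 v : ℝ)) := by
  intro ω ω' h
  simp only
  rw [(h v (by simp)).1]

variable {c A : ℝ} {P : Measure Cfg}

/-- `L¹` estimate for small lattice functionals -/
theorem int_abs_Yl_le (hP : IsState c P) {r : P2 → ℝ} {S : Finset P2} (hr : ∀ v, v ∉ S → r v = 0)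
    {B : ℝ} (hB : ∀ v ∈ S, ∫ ω, |(ω.1 v : ℝ)| ∂P ≤ B) :
    ∫ ω, |Yl r ω| ∂P ≤ (∑ v ∈ S, |r v|) * B := by
  have := hP.prob
  have h1 : ∀ v : P2, Integrable (fun ω : Cfg => (ω.1 v : ℝ)) P := fun v =>
    loc_integrable hP (loc_k v)
  calc ∫ ω, |Yl r ω| ∂P ≤ ∫ ω, ∑ v ∈ S, |r v| * |(ω.1 v : ℝ)| ∂P := by
        refine integral_mono (loc_integrable hP (loc_Yl hr)).abs
          (integrable_finsetSum _ fun v _ => (h1 v).abs.const_mul _) fun ω => ?_
        rw [Yl_eq_sum hr]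
        refine (Finset.abs_sum_le_sum_abs _ _).trans (Finset.sum_le_sum fun v _ => ?_)
        rw [abs_mul]
    _ = ∑ v ∈ S, |r v| * ∫ ω, |(ω.1 v : ℝ)| ∂P := by
        rw [integral_finsetSum _ fun v _ => (h1 v).abs.const_mul _]
        exact Finset.sum_congr rfl fun v _ => integral_const_mul _ _
    _ ≤ ∑ v ∈ S, |r v| * B := Finset.sum_le_sum fun v hv =>
        mul_le_mul_of_nonneg_left (hB v hv) (abs_nonneg _)
    _ = (∑ v ∈ S, |r v|) * B := (Finset.sum_mul _ _ _).symm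

theorem int_abs_k_le (hP : IsState c P) {C : ℝ} (v : P2)
    (hC : ∫ ω, (ω.1 v : ℝ) ^ 2 ∂P ≤ C * (1 + |(v.1 : ℝ)| + |(v.2 : ℝ)|)) {t : ℝ} (ht : 0 < t) :
    ∫ ω, |(ω.1 v : ℝ)| ∂P ≤ t⁻¹ + t * (C * (1 + |(v.1 : ℝ)| + |(v.2 : ℝ)|)) := by
  have := hP.prob
  have h1 : Integrable (fun ω : Cfg => (ω.1 v : ℝ)) P := loc_integrable hP (loc_k v)
  have h2 : Integrable (fun ω : Cfg => (ω.1 v : ℝ) ^ 2) P :=
    loc_integrable hP (loc_comp (loc_k v) (fun x : ℝ => x ^ 2))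
  calc ∫ ω, |(ω.1 v : ℝ)| ∂P ≤ ∫ ω, (t⁻¹ + t * (ω.1 v : ℝ) ^ 2) ∂P := by
        refine integral_mono h1.abs ((integrable_const _).add (h2.const_mul _)) fun ω => ?_
        simp only
        set x : ℝ := |(ω.1 v : ℝ)| with hx
        have hx2 : (ω.1 v : ℝ) ^ 2 = x ^ 2 := by rw [hx, sq_abs]
        rw [hx2]
        have hx0 : 0 ≤ x := abs_nonneg _
        have h3 : 0 ≤ (t * x - 1) ^ 2 := sq_nonneg _
        have h4 : x ≤ t⁻¹ * (1 + (t * x) ^ 2) := by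
          rw [inv_mul_eq_div, le_div_iff₀ ht]
          nlinarith [mul_nonneg ht.le hx0]
        calc x ≤ t⁻¹ * (1 + (t * x) ^ 2) := h4
          _ = t⁻¹ + t * x ^ 2 := by field_simp
    _ = t⁻¹ + t * ∫ ω, (ω.1 v : ℝ) ^ 2 ∂P := by
        rw [integral_add (integrable_const _) (h2.const_mul _), integral_const_mul]
        simp
    _ ≤ _ := by gcongr

/-- `L¹` closeness of lattice approximations -/
theorem lat_L1 (hP : IsState c P) (h : LawHyp A P) {δ : ℕ → ℝ} (hδ : Mesh δ)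
    {a : ℕ → P2 → ℝ} {f : ℂ → ℝ} (ha : Lat δ a f) :
    ∃ C : ℝ, 0 ≤ C ∧ ∀ n, ∫ ω, |Yl (a n) ω - X (δ n) f ω| ∂P ≤ C * √(δ n) := by
  obtain ⟨C1, R, hC1, hR, h1⟩ := ha.sum_error hδ
  obtain ⟨C2, hC2, h2⟩ := h.lin
  refine ⟨C1 * (1 + C2 * (1 + 2 * R)), by positivity, fun n => ?_⟩
  obtain ⟨h3, h4⟩ := h1 n
  have hp := hδ.pos n
  have hp1 := hδ.le_one n
  set s := √(δ n) with hs
  have hs0 : 0 < s := Real.sqrt_pos.2 hp
  have hs2 : s * s = δ n := Real.mul_self_sqrt hp.le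
  have hs1 : s ≤ 1 := by
    rw [hs, Real.sqrt_le_one]
    exact hp1
  set r : P2 → ℝ := fun v => a n v - δ n ^ 2 * f (ptC (δ n) v) with hr
  have hr0 : ∀ v, v ∉ lbox (δ n) R → r v = 0 := fun v hv => by
    rw [hr]
    simp only
    rw [(h3 v hv).1, (h3 v hv).2]
    ring
  have hY : ∀ ω, Yl (a n) ω - X (δ n) f ω = Yl r ω := by
    intro ω
    rw [X_eq, hr, Yl_sub]
    · exact fin0_of_subset (S := lbox (δ n) R) fun v hv => (h3 v hv).1
    · exact fin0_of_subset (S := lbox (δ n) R) fun v hv => by rw [(h3 v hv).2, mul_zero]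
  simp_rw [hY]
  refine (int_abs_Yl_le hP hr0 (B := (1 + C2 * (1 + 2 * R)) * s⁻¹) fun v hv => ?_).trans ?_
  · refine (int_abs_k_le hP v (h2 v) hs0).trans ?_
    obtain ⟨h5, h6⟩ := mem_lbox_abs hp hv
    have h7 : s * (1 + |(v.1 : ℝ)| + |(v.2 : ℝ)|) ≤ (1 + 2 * R) * s⁻¹ := by
      rw [← div_eq_mul_inv, le_div_iff₀ hs0]
      calc s * (1 + |(v.1 : ℝ)| + |(v.2 : ℝ)|) * s
          = (s * s) + (s * s) * |(v.1 : ℝ)| + (s * s) * |(v.2 : ℝ)| := by ring
        _ ≤ 1 + 2 * R := by rw [hs2]; linarith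
    calc s⁻¹ + s * (C2 * (1 + |(v.1 : ℝ)| + |(v.2 : ℝ)|))
        = s⁻¹ + C2 * (s * (1 + |(v.1 : ℝ)| + |(v.2 : ℝ)|)) := by ring
      _ ≤ s⁻¹ + C2 * ((1 + 2 * R) * s⁻¹) := by gcongr
      _ = (1 + C2 * (1 + 2 * R)) * s⁻¹ := by ring
  · calc (∑ v ∈ lbox (δ n) R, |r v|) * ((1 + C2 * (1 + 2 * R)) * s⁻¹)
        ≤ (C1 * δ n) * ((1 + C2 * (1 + 2 * R)) * s⁻¹) := by gcongr
      _ = C1 * (1 + C2 * (1 + 2 * R)) * s := by
        rw [← hs2]
        field_simp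

/-- **Law of exactly neutral lattice approximations.** -/
theorem law_lat (hP : IsState c P) (h : LawHyp A P) {δ : ℕ → ℝ} (hδ : Mesh δ)
    {a : ℕ → P2 → ℝ} {f : ℂ → ℝ} (ha : Lat δ a f) (hf : Test f) (hm : ∀ n, mass (a n) = 0) :
    Tendsto (fun n => ∫ ω, eY (a n) ω ∂P) atTop
      (𝓝 ((Real.exp (-(A * plog f f) / 2) : ℝ) : ℂ)) := by
  have := hP.prob
  -- the mass of `f`
  have hf0 : ∫ z, f z = 0 := by
    obtain ⟨C, hC, h1⟩ := ha.mass hδ hf
    have h2 : Tendsto (fun n => C * δ n) atTop (𝓝 (C * 0)) := hδ.lim.const_mul C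
    rw [mul_zero] at h2
    have h3 : |∫ z, f z| ≤ 0 := by
      refine ge_of_tendsto' h2 fun n => ?_
      have := h1 n
      rwa [hm n, zero_sub, abs_neg] at this
    exact abs_eq_zero.1 (le_antisymm h3 (abs_nonneg _))
  have hδ' : Tendsto δ atTop (𝓝[>] 0) :=
    tendsto_nhdsWithin_iff.2 ⟨hδ.lim, Eventually.of_forall fun n => hδ.pos n⟩
  have h1 := (h.law f hf hf0).comp hδ'
  obtain ⟨C, hC, h2⟩ := lat_L1 hP h hδ ha
  have h3 : Tendsto (fun n => (∫ ω, eY (a n) ω ∂P) -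
      ∫ ω, Complex.exp (Complex.I * (X (δ n) f ω : ℂ)) ∂P) atTop (𝓝 0) := by
    have h4 : Tendsto (fun n => C * √(δ n)) atTop (𝓝 0) := by
      have := (hδ.lim.sqrt).const_mul C
      rwa [Real.sqrt_zero, mul_zero] at this
    refine squeeze_zero_norm (fun n => ?_) h4
    obtain ⟨R, hR, hR0⟩ := Test.exists_radius hf
    obtain ⟨C1, R1, hC1, hR1, h5⟩ := ha.sum_error hδ
    have hl1 : Loc ((lbox (δ n) R1 : Finset P2) : Set P2) (Yl (a n)) :=
      loc_Yl fun v hv => ((h5 n).1 v hv).1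
    have hl2 : Loc ((lbox (δ n) R1 : Finset P2) : Set P2) (X (δ n) f) := by
      have : X (δ n) f = Yl (fun v => δ n ^ 2 * f (ptC (δ n) v)) := funext fun ω => X_eq _ _ ω
      rw [this]
      exact loc_Yl fun v hv => by rw [((h5 n).1 v hv).2, mul_zero]
    have hi1 : Integrable (fun ω => eY (a n) ω) P :=
      loc_integrable hP (loc_comp hl1 fun x : ℝ => Complex.exp (Complex.I * (x : ℂ)))
    have hi2 : Integrable (fun ω => Complex.exp (Complex.I * (X (δ n) f ω : ℂ))) P :=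
      loc_integrable hP (loc_comp hl2 fun x : ℝ => Complex.exp (Complex.I * (x : ℂ)))
    have hi3 : Integrable (fun ω => |Yl (a n) ω - X (δ n) f ω|) P :=
      ((loc_integrable hP hl1).sub (loc_integrable hP hl2)).abs
    rw [← integral_sub hi1 hi2]
    calc ‖∫ ω, eY (a n) ω - Complex.exp (Complex.I * (X (δ n) f ω : ℂ)) ∂P‖
        ≤ ∫ ω, |Yl (a n) ω - X (δ n) f ω| ∂P :=
          norm_integral_le_of_norm_le hi3 (Eventually.of_forall fun ω => norm_exp_sub_le _ _)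
      _ ≤ C * √(δ n) := h2 n
  have h6 := h1.add h3
  rw [add_zero] at h6
  refine h6.congr fun n => ?_
  simp only [Function.comp_apply]
  ring

end Crest.Agent.R161.Ward369
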