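import Crest.Agent.R161.W2_369

/-!
R161, STEP 6 (helper369), part W3: calculus of the logarithmic energy form `plog`.
-/

set_option autoImplicit false

noncomputable section

open Filter Topology MeasureTheory
open scoped ComplexConjugate

namespace Crest.Agent.R161.Ward369

open Crest.Agent.R161.Geo729 Crest.Agent.R161.Defs372 Crest.Agent.R161.Ifc372
open Crest.Agent.R161.Aut373 Crest.Agent.R161.Green722

theorem Test.tst {f : ℂ → ℝ} (hf : Test f) : ∃ R : ℝ, 0 < R ∧ Tst R f := by
  obtain ⟨R, hR, h⟩ := Test.exists_radius hf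
  obtain ⟨M, hM, h'⟩ := Test.exists_bdd hf
  exact ⟨R, hR, ⟨hf.smooth.continuous.measurable, ⟨M, h'⟩, h⟩⟩

/-- kernel -/
def kl (z w : ℂ) : ℝ := -(2 * Real.pi)⁻¹ * Real.log ‖z - w‖

theorem integrable_kl {r : ℝ} {f g : ℂ → ℝ} (hf : Tst r f) (hg : Tst r g) :
    Integrable (fun p : ℂ × ℂ => f p.1 * kl p.1 p.2 * g p.2) := by
  have h := (integrable_log_kernel hf hg).const_mul (-(2 * Real.pi)⁻¹)
  refine h.congr (Eventually.of_forall fun p => ?_)
  simp only [kl]
  ring

theorem plog_eq_prod {r : ℝ} {f g : ℂ → ℝ} (hf : Tst r f) (hg : Tst r g) :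
    plog f g = ∫ p : ℂ × ℂ, f p.1 * kl p.1 p.2 * g p.2 :=
  (integral_prod _ (integrable_kl hf hg)).symm

theorem plog_symm {r : ℝ} {f g : ℂ → ℝ} (hf : Tst r f) (hg : Tst r g) : plog f g = plog g f := by
  rw [plog_eq_prod hf hg, plog_eq_prod hg hf]
  have h := integral_prod_swap (μ := (volume : Measure ℂ)) (ν := (volume : Measure ℂ))
    (fun p : ℂ × ℂ => g p.1 * kl p.1 p.2 * f p.2)
  calc ∫ p : ℂ × ℂ, f p.1 * kl p.1 p.2 * g p.2
      = ∫ p : ℂ × ℂ, (fun p : ℂ × ℂ => g p.1 * kl p.1 p.2 * f p.2) p.swap := by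
        congr 1
        funext p
        simp only [Prod.fst_swap, Prod.snd_swap, kl, norm_sub_rev p.2 p.1]
        ring
    _ = _ := h

theorem plog_add_left {r : ℝ} {f f' g : ℂ → ℝ} (hf : Tst r f) (hf' : Tst r f') (hg : Tst r g) :
    plog (fun z => f z + f' z) g = plog f g + plog f' g := by
  rw [plog_eq_prod hf hg, plog_eq_prod hf' hg, plog_eq_prod (hf.add hf') hg,
    ← integral_add (integrable_kl hf hg) (integrable_kl hf' hg)]
  congr 1
  funext p
  ring

theorem plog_add_right {r : ℝ} {f g g' : ℂ → ℝ} (hf : Tst r f) (hg : Tst r g) (hg' : Tst r g') :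
    plog f (fun z => g z + g' z) = plog f g + plog f g' := by
  rw [plog_symm hf (hg.add hg'), plog_add_left hg hg' hf, plog_symm hg hf, plog_symm hg' hf]

theorem plog_smul_left (f g : ℂ → ℝ) (c : ℝ) : plog (fun z => c * f z) g = c * plog f g := by
  unfold plog
  rw [← integral_const_mul]
  congr 1
  funext z
  rw [← integral_const_mul]
  congr 1
  funext w
  ring

theorem plog_smul_right (f g : ℂ → ℝ) (c : ℝ) : plog f (fun z => c * g z) = c * plog f g := by
  unfold plog
  rw [← integral_const_mul]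
  congr 1
  funext z
  rw [← integral_const_mul]
  congr 1
  funext w
  ring

/-- expansion of the energy of `g + s a + t b` -/
theorem plog_expand {r : ℝ} {g a b : ℂ → ℝ} (hg : Tst r g) (ha : Tst r a) (hb : Tst r b) (s t : ℝ) :
    plog (fun z => g z + (s * a z + t * b z)) (fun z => g z + (s * a z + t * b z)) =
      plog g g + 2 * s * plog g a + 2 * t * plog g b + s ^ 2 * plog a a + t ^ 2 * plog b b +
        2 * s * t * plog a b := by
  have hsa : Tst r (fun z => s * a z) := ha.const_mul s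
  have htb : Tst r (fun z => t * b z) := hb.const_mul t
  have hs := hsa.add htb
  rw [plog_add_left hg hs (hg.add hs), plog_add_right hg hg hs, plog_add_right hs hg hs,
    plog_add_right hg hsa htb, plog_symm hs hg, plog_add_right hg hsa htb,
    plog_add_left hsa htb hs, plog_add_right hsa hsa htb, plog_add_right htb hsa htb]
  simp only [plog_smul_left, plog_smul_right]
  rw [plog_symm hb ha]
  ring

open Laplacian in
/-- the logarithmic potential of `-Δψ` is `ψ` -/
theorem plog_lap (g : ℂ → ℝ) {ψ : ℂ → ℝ} (hψ : Test ψ) :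
    plog g (fun z => -(Δ ψ) z) = ∫ z, g z * ψ z := by
  unfold plog
  congr 1
  funext z
  have h := LP_lap hψ.smooth hψ.supp z
  unfold LP at h
  calc ∫ w, g z * (-(2 * Real.pi)⁻¹ * Real.log ‖z - w‖) * (-(Δ ψ) w)
      = ∫ w, (g z * (1 / (2 * Real.pi))) * (Real.log ‖z - w‖ * (Δ ψ) w) := by
        congr 1
        funext w
        ring
    _ = g z * ((1 / (2 * Real.pi)) * ∫ w, Real.log ‖z - w‖ * (Δ ψ) w) := by
        rw [integral_const_mul]
        ring
    _ = g z * ψ z := by rw [h]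

/-! ### reflections -/

/-- reflection in the vertical line `re z = x` -/
def rf (x : ℝ) (z : ℂ) : ℂ := ((2 * x : ℝ) : ℂ) + -(conj z)

theorem rf_rf (x : ℝ) (z : ℂ) : rf x (rf x z) = z := by
  unfold rf
  rw [map_add, map_neg, Complex.conj_ofReal, Complex.conj_conj]
  ring

theorem rf_re (x : ℝ) (z : ℂ) : (rf x z).re = 2 * x - z.re := by
  simp [rf]
  ring

theorem rf_im (x : ℝ) (z : ℂ) : (rf x z).im = z.im := by
  simp [rf]

theorem rf_sub (x : ℝ) (z w : ℂ) : ‖rf x z - rf x w‖ = ‖z - w‖ := by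
  have : rf x z - rf x w = -(conj (z - w)) := by
    unfold rf
    simp
    ring
  rw [this, norm_neg, RCLike.norm_conj]

theorem rf_rf_sub (x y : ℝ) (z : ℂ) : ‖rf x z - rf y z‖ = 2 * |x - y| := by
  have : rf x z - rf y z = ((2 * (x - y) : ℝ) : ℂ) := by
    unfold rf
    push_cast
    ring
  rw [this, Complex.norm_real, Real.norm_eq_abs, abs_mul, abs_two]

theorem mp_rf (x : ℝ) : MeasurePreserving (rf x) := by
  have h1 : MeasurePreserving (fun z : ℂ => -(conj z)) :=
    (Complex.conjLIE.trans (LinearIsometryEquiv.neg ℝ)).measurePreserving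
  exact (measurePreserving_add_left (volume : Measure ℂ) ((2 * x : ℝ) : ℂ)).comp h1

/-- reflection as a measurable equivalence -/
def rfE (x : ℝ) : ℂ ≃ᵐ ℂ where
  toFun := rf x
  invFun := rf x
  left_inv := rf_rf x
  right_inv := rf_rf x
  measurable_toFun := (mp_rf x).measurable
  measurable_invFun := (mp_rf x).measurable

theorem integral_rf (x : ℝ) (F : ℂ → ℝ) : ∫ z, F (rf x z) = ∫ z, F z :=
  (mp_rf x).integral_comp (rfE x).measurableEmbedding F

theorem plog_rf (x : ℝ) (f g : ℂ → ℝ) : plog (fun z => f (rf x z)) (fun z => g (rf x z)) =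
    plog f g := by
  unfold plog
  have h1 : ∀ z, ∫ w, f (rf x z) * (-(2 * Real.pi)⁻¹ * Real.log ‖z - w‖) * g (rf x w) =
      ∫ w, f (rf x z) * (-(2 * Real.pi)⁻¹ * Real.log ‖rf x z - w‖) * g w := by
    intro z
    rw [← integral_rf x (fun w => f (rf x z) * (-(2 * Real.pi)⁻¹ * Real.log ‖rf x z - w‖) * g w)]
    congr 1
    funext w
    rw [rf_sub]
  simp_rw [h1]
  exact integral_rf x (fun z => ∫ w, f z * (-(2 * Real.pi)⁻¹ * Real.log ‖z - w‖) * g w)

theorem Test.rf {f : ℂ → ℝ} (hf : Test f) (x : ℝ) : Test (fun z => f (rf x z)) where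
  smooth := by
    have h1 : ContDiff ℝ (⊤ : ℕ∞) (Ward369.rf x) := by
      unfold Ward369.rf
      exact contDiff_const.add (Complex.conjCLE.contDiff.neg)
    exact hf.smooth.comp h1
  supp := by
    obtain ⟨R, hR, h⟩ := Test.exists_radius hf
    refine HasCompactSupport.intro (isCompact_closedBall (0 : ℂ) (R + 2 * |x|)) fun z hz => ?_
    rw [Metric.mem_closedBall, dist_zero_right, not_le] at hz
    refine h _ ?_
    have h1 : ‖z‖ ≤ 2 * |x| + ‖Ward369.rf x z‖ := by
      have h2 : conj z = ((2 * x : ℝ) : ℂ) - Ward369.rf x z := by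
        unfold Ward369.rf
        ring
      have h3 : ‖conj z‖ = ‖z‖ := RCLike.norm_conj z
      rw [← h3, h2]
      refine (norm_sub_le _ _).trans ?_
      rw [Complex.norm_real, Real.norm_eq_abs, abs_mul, abs_two]
    linarith

/-! ### small energies -/

theorem plog_small {ι : Type*} {l : Filter ι} [l.IsCountablyGenerated] {e : ι → ℂ → ℝ} {R M : ℝ}
    (hm : ∀ i, Measurable (e i)) (hM : ∀ i z, |e i z| ≤ M) (hR : ∀ i z, R < ‖z‖ → e i z = 0)
    (h0 : ∀ᵐ z : ℂ, Tendsto (fun i => e i z) l (𝓝 0)) :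
    Tendsto (fun i => plog (e i) (e i)) l (𝓝 0) := by
  classical
  rcases isEmpty_or_nonempty ι with hι | ⟨⟨i0⟩⟩
  · exact tendsto_of_isEmpty
  have hM0 : 0 ≤ M := (abs_nonneg _).trans (hM i0 0)
  have hT : ∀ i, Tst R (e i) := fun i => ⟨hm i, ⟨M, hM i⟩, hR i⟩
  set E0 : ℂ → ℝ := (Metric.closedBall (0 : ℂ) R).indicator fun _ => M with hE0
  have hE : Tst R E0 := by
    refine ⟨measurable_const.indicator Metric.isClosed_closedBall.measurableSet, ⟨M, fun z => ?_⟩,
      fun z hz => ?_⟩
    · rw [hE0, Set.indicator_apply]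
      split_ifs
      · rw [abs_of_nonneg hM0]
      · rw [abs_zero]; exact hM0
    · rw [hE0, Set.indicator_of_notMem]
      rw [Metric.mem_closedBall, dist_zero_right, not_le]
      exact hz
  have hle : ∀ i z, |e i z| ≤ |E0 z| := by
    intro i z
    by_cases hz : z ∈ Metric.closedBall (0 : ℂ) R
    · rw [hE0, Set.indicator_of_mem hz, abs_of_nonneg hM0]
      exact hM i z
    · rw [Metric.mem_closedBall, dist_zero_right, not_le] at hz
      rw [hR i z hz, abs_zero]
      exact abs_nonneg _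
  have h1 : ∀ i, plog (e i) (e i) = ∫ p : ℂ × ℂ, e i p.1 * kl p.1 p.2 * e i p.2 := fun i =>
    plog_eq_prod (hT i) (hT i)
  simp_rw [h1]
  have h2 : (0 : ℝ) = ∫ _p : ℂ × ℂ, (0 : ℝ) := by simp
  rw [h2]
  refine tendsto_integral_filter_of_dominated_convergence
    (fun p => |E0 p.1 * kl p.1 p.2 * E0 p.2|) ?_ ?_ ?_ ?_
  · exact Eventually.of_forall fun i => (integrable_kl (hT i) (hT i)).aestronglyMeasurable
  · refine Eventually.of_forall fun i => Eventually.of_forall fun p => ?_
    rw [Real.norm_eq_abs, abs_mul, abs_mul, abs_mul, abs_mul]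
    exact mul_le_mul (mul_le_mul_of_nonneg_right (hle i p.1) (abs_nonneg _)) (hle i p.2)
      (abs_nonneg _) (mul_nonneg (abs_nonneg _) (abs_nonneg _))
  · exact (integrable_kl hE hE).abs
  · have h3 : ∀ᵐ p : ℂ × ℂ, Tendsto (fun i => e i p.1) l (𝓝 0) :=
      (Measure.quasiMeasurePreserving_fst (μ := (volume : Measure ℂ))
        (ν := (volume : Measure ℂ))).ae h0
    filter_upwards [h3] with p hp
    have h4 : ∀ i, ‖e i p.1 * kl p.1 p.2 * e i p.2‖ ≤ |e i p.1| * (|kl p.1 p.2| * M) := by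
      intro i
      rw [Real.norm_eq_abs, abs_mul, abs_mul, mul_assoc]
      gcongr
      exact hM i p.2
    refine squeeze_zero_norm h4 ?_
    have h5 := (hp.abs).mul_const (|kl p.1 p.2| * M)
    rwa [abs_zero, zero_mul] at h5

end Crest.Agent.R161.Ward369
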