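import Crest.Agent.R161.W3_369

/-!
R161, STEP 5 (helper369), part W4: half-plane smallness of the observable
`e^{iY(a)} (e^{iY(dψ)} - κ₀)` about a vertical line to the left of the supports.
-/

set_option autoImplicit false

noncomputable section

open Filter Topology MeasureTheory
open scoped ComplexConjugate

namespace Crest.Agent.R161.Ward369

open Crest.Agent.R161.Geo729 Crest.Agent.R161.Defs372 Crest.Agent.R161.Ifc372
open Crest.Agent.R161.Aut373 Crest.Agent.R161.Green722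

/-- lattice reflection in the vertical line `x = ℓ` -/
def sg (ℓ : ℤ) : P2 ≃ P2 where
  toFun v := (2 * ℓ - v.1, v.2)
  invFun v := (2 * ℓ - v.1, v.2)
  left_inv v := by ext <;> simp
  right_inv v := by ext <;> simp

theorem sg_apply (ℓ : ℤ) (v : P2) : sg ℓ v = (2 * ℓ - v.1, v.2) := rfl
theorem sg_symm (ℓ : ℤ) : (sg ℓ).symm = sg ℓ := rfl

theorem ptC_sg (δ : ℝ) (ℓ : ℤ) (v : P2) : ptC δ (sg ℓ v) = rf (δ * ℓ) (ptC δ v) := by
  refine Complex.ext ?_ ?_
  · rw [rf_re, ptC_re, ptC_re, sg_apply]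
    push_cast
    ring
  · rw [rf_im, ptC_im, ptC_im, sg_apply]

theorem Lat.refl {δ : ℕ → ℝ} {a : ℕ → P2 → ℝ} {f : ℂ → ℝ} (hδ : Mesh δ) (h : Lat δ a f)
    (hf : Test f) {ℓ : ℕ → ℤ} {x C0 : ℝ} (hℓ : ∀ n, |δ n * ℓ n - x| ≤ C0 * δ n) :
    Lat δ (fun n v => a n (sg (ℓ n) v)) (fun z => f (rf x z)) where
  close := by
    obtain ⟨C, hC, h1⟩ := h.close
    obtain ⟨L, hL, hLip⟩ := Test.exists_lip hf
    have hC0 : 0 ≤ C0 := by
      have := (abs_nonneg _).trans (hℓ 0)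
      exact nonneg_of_mul_nonneg_left this (hδ.pos 0)
    refine ⟨C + L * (2 * C0), by positivity, fun n v => ?_⟩
    have hp := hδ.pos n
    have h2 := h1 n (sg (ℓ n) v)
    rw [ptC_sg] at h2
    have h3 := hLip (rf (δ n * ℓ n) (ptC (δ n) v)) (rf x (ptC (δ n) v))
    rw [rf_rf_sub] at h3
    have h4 : L * (2 * |δ n * ℓ n - x|) ≤ L * (2 * (C0 * δ n)) := by
      gcongr
      exact hℓ n
    calc |a n (sg (ℓ n) v) - δ n ^ 2 * f (rf x (ptC (δ n) v))|
        = |(a n (sg (ℓ n) v) - δ n ^ 2 * f (rf (δ n * ℓ n) (ptC (δ n) v))) +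
            δ n ^ 2 * (f (rf (δ n * ℓ n) (ptC (δ n) v)) - f (rf x (ptC (δ n) v)))| := by
          congr 1; ring
      _ ≤ C * δ n ^ 3 + δ n ^ 2 * (L * (2 * (C0 * δ n))) := by
          refine (abs_add_le _ _).trans (add_le_add h2 ?_)
          rw [abs_mul, abs_of_nonneg (by positivity : (0 : ℝ) ≤ δ n ^ 2)]
          gcongr
          exact h3.trans h4
      _ = (C + L * (2 * C0)) * δ n ^ 3 := by ring
  supp := by
    obtain ⟨R, hR, h1, h2⟩ := h.supp
    have hC0 : 0 ≤ C0 := by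
      have := (abs_nonneg _).trans (hℓ 0)
      exact nonneg_of_mul_nonneg_left this (hδ.pos 0)
    have key : ∀ (y : ℝ) (z : ℂ), ‖z‖ ≤ 2 * |y| + ‖rf y z‖ := by
      intro y z
      have h2 : conj z = ((2 * y : ℝ) : ℂ) - rf y z := by
        unfold rf
        ring
      have h3 : ‖conj z‖ = ‖z‖ := RCLike.norm_conj z
      rw [← h3, h2]
      refine (norm_sub_le _ _).trans ?_
      rw [Complex.norm_real, Real.norm_eq_abs, abs_mul, abs_two]
    refine ⟨R + 2 * (|x| + C0), by positivity, fun n v hv => h1 n _ ?_, fun z hz => h2 _ ?_⟩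
    · rw [ptC_sg]
      have h3 := key (δ n * ℓ n) (ptC (δ n) v)
      have h4 : |δ n * (ℓ n : ℝ)| ≤ |x| + C0 := by
        have h5 := hℓ n
        have h6 : C0 * δ n ≤ C0 * 1 := by gcongr; exact hδ.le_one n
        calc |δ n * (ℓ n : ℝ)| = |x + (δ n * ℓ n - x)| := by congr 1; ring
          _ ≤ |x| + |δ n * ℓ n - x| := abs_add_le _ _
          _ ≤ |x| + C0 := by linarith
      linarith
    · have h3 := key x z
      linarith

variable {c A : ℝ} {P : Measure Cfg} {δ : ℕ → ℝ}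

/-- the observable -/
def Obs (a d : P2 → ℝ) (κ₀ : ℝ) (ω : Cfg) : ℂ := eY a ω * (eY d ω - (κ₀ : ℂ))

theorem norm_Obs_le (a d : P2 → ℝ) {κ₀ : ℝ} (ω : Cfg) : ‖Obs a d κ₀ ω‖ ≤ 1 + |κ₀| := by
  unfold Obs
  rw [norm_mul, norm_eY, one_mul]
  refine (norm_sub_le _ _).trans ?_
  rw [norm_eY, Complex.norm_real, Real.norm_eq_abs]

/-- the Gaussian constant -/
def k0 (A : ℝ) (f ψ : ℂ → ℝ) : ℝ :=
  Real.exp (-(A * ((∫ z, f z * ψ z) + (∫ z, -(Laplacian.laplacian ψ) z * ψ z) / 2)))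

theorem int4 {F1 F2 F3 F4 : Cfg → ℂ} (h1 : Integrable F1 P) (h2 : Integrable F2 P)
    (h3 : Integrable F3 P) (h4 : Integrable F4 P) (k : ℂ) :
    ∫ ω, (F1 ω - k * F2 ω - k * F3 ω + k ^ 2 * F4 ω) ∂P =
      ∫ ω, F1 ω ∂P - k * ∫ ω, F2 ω ∂P - k * ∫ ω, F3 ω ∂P + k ^ 2 * ∫ ω, F4 ω ∂P := by
  have i2 : Integrable (fun ω => k * F2 ω) P := h2.const_mul k
  have i3 : Integrable (fun ω => k * F3 ω) P := h3.const_mul k
  have i4 : Integrable (fun ω => k ^ 2 * F4 ω) P := h4.const_mul _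
  have j1 : Integrable (fun ω => F1 ω - k * F2 ω) P := h1.sub i2
  have j2 : Integrable (fun ω => F1 ω - k * F2 ω - k * F3 ω) P := j1.sub i3
  rw [integral_add j2 i4, integral_sub j1 i3, integral_sub h1 i2, integral_const_mul,
    integral_const_mul, integral_const_mul]

/-- **Half-plane smallness.** -/
theorem half_small (hP : IsState c P) (h : LawHyp A P) (hδ : Mesh δ) {Θ : ℤ → Cfg → Cfg}
    (hΘ : ∀ ℓ ω v, (Θ ℓ ω).1 v = ω.1 (2 * ℓ - v.1, v.2))
    {a : ℕ → P2 → ℝ} {f ψ : ℂ → ℝ} (ha : Lat δ a f) (hf : Test f) (hψ : Test ψ) {x₀ C0 : ℝ}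
    (hfx : ∀ z : ℂ, z.re ≤ x₀ → f z = 0) (hψx : ∀ z ∈ tsupport ψ, x₀ < z.re)
    {ℓ : ℕ → ℤ} (hℓ : ∀ n, |δ n * ℓ n - x₀| ≤ C0 * δ n) :
    Tendsto (fun n => (∫ ω, conj (Obs (a n) (dL (δ n) ψ) (k0 A f ψ) (Θ (ℓ n) ω)) *
      Obs (a n) (dL (δ n) ψ) (k0 A f ψ) ω ∂P).re) atTop (𝓝 0) := by
  have := hP.prob
  set κ₀ := k0 A f ψ with hκ
  set D : ℂ → ℝ := fun z => -(Laplacian.laplacian ψ) z with hD
  have hDt : Test D := Test.neg (Test.lap hψ)
  have hd : Lat δ (fun n => dL (δ n) ψ) D := lat_dL hδ hψ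
  have har := ha.refl hδ hf hℓ
  have hdr := hd.refl hδ hDt hℓ
  set g : ℂ → ℝ := fun z => f z - f (rf x₀ z) with hg
  have hgt : Test g := Test.sub hf (Test.rf hf x₀)
  set b : ℂ → ℝ := fun z => D (rf x₀ z) with hb
  have hbt : Test b := Test.rf hDt x₀
  have hgn : Lat δ (fun n v => a n v - a n (sg (ℓ n) v)) g := ha.sub har
  -- the four terms
  set T : ℝ → ℝ → ℕ → ℂ := fun s t n => ∫ ω, eY (fun v => (a n v - a n (sg (ℓ n) v)) +
    (s * dL (δ n) ψ v + t * dL (δ n) ψ (sg (ℓ n) v))) ω ∂P with hT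
  have hlim : ∀ s t : ℝ, Tendsto (T s t) atTop
      (𝓝 ((Real.exp (-(A * plog (fun z => g z + (s * D z + t * b z))
        (fun z => g z + (s * D z + t * b z))) / 2) : ℝ) : ℂ)) := by
    intro s t
    refine law_lat hP h hδ (hgn.add ((hd.smul s).add (hdr.smul t)))
      (Test.add hgt (Test.add (Test.smul hDt s) (Test.smul hbt t))) fun n => ?_
    have f1 := ha.fin0 hδ n
    have f2 := har.fin0 hδ n
    have f3 := hd.fin0 hδ n
    have f4 := hdr.fin0 hδ n
    rw [mass_add (f1.sub f2) ((f3.mul_left _).add (f4.mul_left _)), mass_sub f1 f2,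
      mass_add (f3.mul_left _) (f4.mul_left _), mass_smul, mass_smul,
      mass_equiv (a n) (sg (ℓ n)), mass_equiv (dL (δ n) ψ) (sg (ℓ n)), mass_dL (hδ.pos n) hψ]
    ring
  -- energies
  obtain ⟨r1, _, t1⟩ := Test.tst hgt
  obtain ⟨r2, _, t2⟩ := Test.tst hDt
  obtain ⟨r3, _, t3⟩ := Test.tst hbt
  have t1' := t1.mono (le_max_left r1 (max r2 r3))
  have t2' := t2.mono ((le_max_left r2 r3).trans (le_max_right r1 _))
  have t3' := t3.mono ((le_max_right r2 r3).trans (le_max_right r1 _))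
  have hψ0 : ∀ z : ℂ, z.re ≤ x₀ → ψ z = 0 := fun z hz =>
    image_eq_zero_of_notMem_tsupport fun hcon => absurd (hψx z hcon) (not_lt.2 hz)
  have hD0 : ∀ z : ℂ, z.re ≤ x₀ → D z = 0 := fun z hz => by
    rw [hD]
    simp only
    rw [lapC_eq_zero fun hcon => absurd (hψx z hcon) (not_lt.2 hz), neg_zero]
  set F : ℝ := ∫ z, f z * ψ z with hF
  set DD : ℝ := ∫ z, D z * ψ z with hDD
  have e1 : plog g D = F := by
    rw [plog_lap g hψ]
    congr 1
    funext z
    rcases le_or_gt z.re x₀ with hz | hz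
    · rw [hψ0 z hz, mul_zero, mul_zero]
    · rw [hg]
      simp only
      rw [hfx (rf x₀ z) (by rw [rf_re]; linarith), sub_zero]
  have e2 : plog g b = -F := by
    have h1 : g = fun z => -g (rf x₀ z) := by
      funext z
      rw [hg]
      simp only
      rw [rf_rf]
      ring
    have h2 : plog (fun z => g (rf x₀ z)) b = plog g D := plog_rf x₀ g D
    rw [h1]
    have h3 : plog (fun z => -g (rf x₀ z)) b = -plog (fun z => g (rf x₀ z)) b := by
      have := plog_smul_left (fun z => g (rf x₀ z)) b (-1)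
      simpa only [neg_one_mul] using this
    rw [h3, h2, e1]
  have e3 : plog D D = DD := plog_lap D hψ
  have e4 : plog b b = DD := by rw [← e3]; exact plog_rf x₀ D D
  have e5 : plog D b = 0 := by
    rw [plog_symm t2' t3', plog_lap b hψ]
    have : ∀ z, b z * ψ z = 0 := by
      intro z
      rcases le_or_gt z.re x₀ with hz | hz
      · rw [hψ0 z hz, mul_zero]
      · rw [hb]
        simp only
        rw [hD0 (rf x₀ z) (by rw [rf_re]; linarith), zero_mul]
    simp_rw [this]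
    simp
  have hE : ∀ s t : ℝ, plog (fun z => g z + (s * D z + t * b z))
        (fun z => g z + (s * D z + t * b z)) =
      plog g g + 2 * s * F - 2 * t * F + (s ^ 2 + t ^ 2) * DD := by
    intro s t
    rw [plog_expand t1' t2' t3', e1, e2, e3, e4, e5]
    ring
  have hκ' : κ₀ = Real.exp (-(A * (F + DD / 2))) := rfl
  -- the combination
  have hcomb : Tendsto (fun n => T 1 (-1) n - (κ₀ : ℂ) * T 1 0 n - (κ₀ : ℂ) * T 0 (-1) n +
      (κ₀ : ℂ) ^ 2 * T 0 0 n) atTop (𝓝 0) := by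
    have h1 := (((hlim 1 (-1)).sub ((hlim 1 0).const_mul (κ₀ : ℂ))).sub
      ((hlim 0 (-1)).const_mul (κ₀ : ℂ))).add ((hlim 0 0).const_mul ((κ₀ : ℂ) ^ 2))
    have h2 : ((Real.exp (-(A * plog (fun z => g z + ((1 : ℝ) * D z + (-1 : ℝ) * b z))
        (fun z => g z + ((1 : ℝ) * D z + (-1 : ℝ) * b z))) / 2) : ℝ) : ℂ) -
        (κ₀ : ℂ) * ((Real.exp (-(A * plog (fun z => g z + ((1 : ℝ) * D z + (0 : ℝ) * b z))
        (fun z => g z + ((1 : ℝ) * D z + (0 : ℝ) * b z))) / 2) : ℝ) : ℂ) -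
        (κ₀ : ℂ) * ((Real.exp (-(A * plog (fun z => g z + ((0 : ℝ) * D z + (-1 : ℝ) * b z))
        (fun z => g z + ((0 : ℝ) * D z + (-1 : ℝ) * b z))) / 2) : ℝ) : ℂ) +
        (κ₀ : ℂ) ^ 2 * ((Real.exp (-(A * plog (fun z => g z + ((0 : ℝ) * D z + (0 : ℝ) * b z))
        (fun z => g z + ((0 : ℝ) * D z + (0 : ℝ) * b z))) / 2) : ℝ) : ℂ) = 0 := by
      rw [hE, hE, hE, hE]
      have e6 : Real.exp (-(A * (plog g g + 2 * 1 * F - 2 * -1 * F + (1 ^ 2 + (-1) ^ 2) * DD)) / 2) =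
          Real.exp (-(A * plog g g) / 2) * (κ₀ * κ₀) := by
        rw [hκ', ← Real.exp_add, ← Real.exp_add]
        congr 1
        ring
      have e7 : Real.exp (-(A * (plog g g + 2 * 1 * F - 2 * 0 * F + (1 ^ 2 + 0 ^ 2) * DD)) / 2) =
          Real.exp (-(A * plog g g) / 2) * κ₀ := by
        rw [hκ', ← Real.exp_add]
        congr 1
        ring
      have e8 : Real.exp (-(A * (plog g g + 2 * 0 * F - 2 * -1 * F + (0 ^ 2 + (-1) ^ 2) * DD)) / 2) =
          Real.exp (-(A * plog g g) / 2) * κ₀ := by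
        rw [hκ', ← Real.exp_add]
        congr 1
        ring
      have e9 : Real.exp (-(A * (plog g g + 2 * 0 * F - 2 * 0 * F + (0 ^ 2 + 0 ^ 2) * DD)) / 2) =
          Real.exp (-(A * plog g g) / 2) := by
        congr 1
        ring
      rw [e6, e7, e8, e9]
      push_cast
      ring
    rw [h2] at h1
    exact h1
  -- identification
  have hid : ∀ n, ∫ ω, conj (Obs (a n) (dL (δ n) ψ) κ₀ (Θ (ℓ n) ω)) *
      Obs (a n) (dL (δ n) ψ) κ₀ ω ∂P = T 1 (-1) n - (κ₀ : ℂ) * T 1 0 n -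
        (κ₀ : ℂ) * T 0 (-1) n + (κ₀ : ℂ) ^ 2 * T 0 0 n := by
    intro n
    have f1 := ha.fin0 hδ n
    have f2 := har.fin0 hδ n
    have f3 := hd.fin0 hδ n
    have f4 := hdr.fin0 hδ n
    have hE' : ∀ (s t : ℝ) (ω : Cfg), eY (fun v => (a n v - a n (sg (ℓ n) v)) +
        (s * dL (δ n) ψ v + t * dL (δ n) ψ (sg (ℓ n) v))) ω =
        Complex.exp (Complex.I * ((Yl (a n) ω - Yl (fun v => a n (sg (ℓ n) v)) ω + (s *
          Yl (dL (δ n) ψ) ω + t * Yl (fun v => dL (δ n) ψ (sg (ℓ n) v)) ω) : ℝ) : ℂ)) := by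
      intro s t ω
      unfold eY
      rw [Yl_add (f1.sub f2) ((f3.mul_left _).add (f4.mul_left _)), Yl_sub f1 f2,
        Yl_add (f3.mul_left _) (f4.mul_left _), Yl_smul, Yl_smul]
    have hint : ∀ s t : ℝ, Integrable (fun ω => eY (fun v => (a n v - a n (sg (ℓ n) v)) +
        (s * dL (δ n) ψ v + t * dL (δ n) ψ (sg (ℓ n) v))) ω) P := by
      intro s t
      have hfin := (f1.sub f2).add ((f3.mul_left (fun _ => s)).add (f4.mul_left (fun _ => t)))
      refine loc_integrable hP (S := hfin.toFinset) (loc_eY fun v hv => ?_)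
      by_contra hcon
      exact hv ((Set.Finite.mem_toFinset hfin).2 hcon)
    have hpt : ∀ ω, conj (Obs (a n) (dL (δ n) ψ) κ₀ (Θ (ℓ n) ω)) *
        Obs (a n) (dL (δ n) ψ) κ₀ ω = eY (fun v => (a n v - a n (sg (ℓ n) v)) +
        (1 * dL (δ n) ψ v + (-1) * dL (δ n) ψ (sg (ℓ n) v))) ω -
        (κ₀ : ℂ) * eY (fun v => (a n v - a n (sg (ℓ n) v)) +
        (1 * dL (δ n) ψ v + 0 * dL (δ n) ψ (sg (ℓ n) v))) ω -
        (κ₀ : ℂ) * eY (fun v => (a n v - a n (sg (ℓ n) v)) +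
        (0 * dL (δ n) ψ v + (-1) * dL (δ n) ψ (sg (ℓ n) v))) ω +
        (κ₀ : ℂ) ^ 2 * eY (fun v => (a n v - a n (sg (ℓ n) v)) +
        (0 * dL (δ n) ψ v + 0 * dL (δ n) ψ (sg (ℓ n) v))) ω := by
      intro ω
      rw [hE', hE', hE', hE']
      have h1 : ∀ u : P2 → ℝ, Yl u (Θ (ℓ n) ω) = Yl (fun v => u (sg (ℓ n) v)) ω := fun u =>
        Yl_equiv u (sg (ℓ n)) ω _ fun v => hΘ _ _ _
      unfold Obs eY
      rw [h1, h1, map_mul, map_sub, Complex.conj_ofReal, ← Complex.exp_conj, ← Complex.exp_conj,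
        map_mul, map_mul, Complex.conj_I, Complex.conj_ofReal, Complex.conj_ofReal]
      set p := Yl (a n) ω
      set q := Yl (fun v => a n (sg (ℓ n) v)) ω
      set u := Yl (dL (δ n) ψ) ω
      set w := Yl (fun v => dL (δ n) ψ (sg (ℓ n) v)) ω
      have x1 : Complex.exp (Complex.I * ((p - q + (1 * u + -1 * w) : ℝ) : ℂ)) =
          Complex.exp (-Complex.I * q) * Complex.exp (Complex.I * p) *
            (Complex.exp (-Complex.I * w) * Complex.exp (Complex.I * u)) := by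
        rw [← Complex.exp_add, ← Complex.exp_add, ← Complex.exp_add]
        congr 1
        push_cast
        ring
      have x2 : Complex.exp (Complex.I * ((p - q + (1 * u + 0 * w) : ℝ) : ℂ)) =
          Complex.exp (-Complex.I * q) * Complex.exp (Complex.I * p) *
            Complex.exp (Complex.I * u) := by
        rw [← Complex.exp_add, ← Complex.exp_add]
        congr 1
        push_cast
        ring
      have x3 : Complex.exp (Complex.I * ((p - q + (0 * u + -1 * w) : ℝ) : ℂ)) =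
          Complex.exp (-Complex.I * q) * Complex.exp (Complex.I * p) *
            Complex.exp (-Complex.I * w) := by
        rw [← Complex.exp_add, ← Complex.exp_add]
        congr 1
        push_cast
        ring
      have x4 : Complex.exp (Complex.I * ((p - q + (0 * u + 0 * w) : ℝ) : ℂ)) =
          Complex.exp (-Complex.I * q) * Complex.exp (Complex.I * p) := by
        rw [← Complex.exp_add]
        congr 1
        push_cast
        ring
      rw [x1, x2, x3, x4]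
      ring
    simp_rw [hpt]
    exact int4 (hint 1 (-1)) (hint 1 0) (hint 0 (-1)) (hint 0 0) _
  simp_rw [hid]
  have h1 := (Complex.continuous_re.tendsto 0).comp hcomb
  rw [Complex.zero_re] at h1
  exact h1

end Crest.Agent.R161.Ward369
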