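import Crest.Agent.R161.W4_369
import Crest.Agent.R161.PeelP_369

/-!
R161, STEP 6 (helper369), part W5: cutting in the corridors; the peeling theorem applied to a
block, for a fixed corridor width.
-/

set_option autoImplicit false

noncomputable section

open Filter Topology MeasureTheory
open scoped ComplexConjugate

namespace Crest.Agent.R161.Ward369

open Crest.Agent.R161.Geo729 Crest.Agent.R161.Defs372 Crest.Agent.R161.Ifc372
open Crest.Agent.R161.Aut373 Crest.Agent.R161.Green722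
open Crest.Agent.R161.PeelP369 (PGeo PProb RPHyp)

/-! ### one-dimensional cutoffs -/

/-- `0` for `t ≤ c + γ`, `1` for `t ≥ c + 2γ` -/
def cup (c γ t : ℝ) : ℝ := Real.smoothTransition ((t - c) / γ - 1)
/-- `0` for `t ≥ c - γ`, `1` for `t ≤ c - 2γ` -/
def cdn (c γ t : ℝ) : ℝ := Real.smoothTransition ((c - t) / γ - 1)

section cut

variable {c γ t : ℝ}

theorem cup_nonneg : 0 ≤ cup c γ t := Real.smoothTransition.nonneg _
theorem cup_le_one : cup c γ t ≤ 1 := Real.smoothTransition.le_one _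
theorem cdn_nonneg : 0 ≤ cdn c γ t := Real.smoothTransition.nonneg _
theorem cdn_le_one : cdn c γ t ≤ 1 := Real.smoothTransition.le_one _

theorem cup_zero (hγ : 0 < γ) (h : t ≤ c + γ) : cup c γ t = 0 := by
  refine Real.smoothTransition.zero_of_nonpos ?_
  have : (t - c) / γ ≤ 1 := by rw [div_le_one hγ]; linarith
  linarith

theorem cup_one (hγ : 0 < γ) (h : c + 2 * γ ≤ t) : cup c γ t = 1 := by
  refine Real.smoothTransition.one_of_one_le ?_
  have : 2 ≤ (t - c) / γ := by rw [le_div_iff₀ hγ]; linarith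
  linarith

theorem cdn_zero (hγ : 0 < γ) (h : c - γ ≤ t) : cdn c γ t = 0 := by
  refine Real.smoothTransition.zero_of_nonpos ?_
  have : (c - t) / γ ≤ 1 := by rw [div_le_one hγ]; linarith
  linarith

theorem cdn_one (hγ : 0 < γ) (h : t ≤ c - 2 * γ) : cdn c γ t = 1 := by
  refine Real.smoothTransition.one_of_one_le ?_
  have : 2 ≤ (c - t) / γ := by rw [le_div_iff₀ hγ]; linarith
  linarith

theorem cup_ne (hγ : 0 < γ) (h : cup c γ t ≠ 0) : c + γ ≤ t := by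
  by_contra hcon
  exact h (cup_zero hγ (not_le.1 hcon).le)

theorem cdn_ne (hγ : 0 < γ) (h : cdn c γ t ≠ 0) : t ≤ c - γ := by
  by_contra hcon
  exact h (cdn_zero hγ (not_le.1 hcon).le)

end cut

theorem contDiff_cup_re (c γ : ℝ) : ContDiff ℝ (⊤ : ℕ∞) (fun z : ℂ => cup c γ z.re) := by
  unfold cup
  refine Real.smoothTransition.contDiff.comp ?_
  exact ((Complex.reCLM.contDiff.sub contDiff_const).div_const _).sub contDiff_const

theorem contDiff_cup_im (c γ : ℝ) : ContDiff ℝ (⊤ : ℕ∞) (fun z : ℂ => cup c γ z.im) := by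
  unfold cup
  refine Real.smoothTransition.contDiff.comp ?_
  exact ((Complex.imCLM.contDiff.sub contDiff_const).div_const _).sub contDiff_const

theorem contDiff_cdn_re (c γ : ℝ) : ContDiff ℝ (⊤ : ℕ∞) (fun z : ℂ => cdn c γ z.re) := by
  unfold cdn
  refine Real.smoothTransition.contDiff.comp ?_
  exact ((contDiff_const.sub Complex.reCLM.contDiff).div_const _).sub contDiff_const

theorem contDiff_cdn_im (c γ : ℝ) : ContDiff ℝ (⊤ : ℕ∞) (fun z : ℂ => cdn c γ z.im) := by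
  unfold cdn
  refine Real.smoothTransition.contDiff.comp ?_
  exact ((contDiff_const.sub Complex.imCLM.contDiff).div_const _).sub contDiff_const

/-! ### cutoffs of the groups -/

/-- cutoff of group `i` -/
def chi (G : PGeo) (i : Fin 4) (z : ℂ) : ℝ :=
  match i with
  | 0 => cup G.x₁ G.γ z.re
  | 1 => cdn G.x₁ G.γ z.re * cup G.y₁ G.γ z.im
  | 2 => cdn G.x₁ G.γ z.re * cdn G.y₀ G.γ z.im
  | 3 => cdn G.x₀ G.γ z.re * (cup G.y₀ G.γ z.im * cdn G.y₁ G.γ z.im)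

/-- cutoff of the block -/
def chiB (G : PGeo) (z : ℂ) : ℝ :=
  (cup G.x₀ G.γ z.re * cdn G.x₁ G.γ z.re) * (cup G.y₀ G.γ z.im * cdn G.y₁ G.γ z.im)

/-- what is left: the corridors -/
def chiE (G : PGeo) (z : ℂ) : ℝ := 1 - ∑ i, chi G i z - chiB G z

theorem contDiff_chi (G : PGeo) (i : Fin 4) : ContDiff ℝ (⊤ : ℕ∞) (chi G i) := by
  fin_cases i
  · exact contDiff_cup_re _ _
  · exact (contDiff_cdn_re _ _).mul (contDiff_cup_im _ _)
  · exact (contDiff_cdn_re _ _).mul (contDiff_cdn_im _ _)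
  · exact (contDiff_cdn_re _ _).mul ((contDiff_cup_im _ _).mul (contDiff_cdn_im _ _))

theorem contDiff_chiB (G : PGeo) : ContDiff ℝ (⊤ : ℕ∞) (chiB G) :=
  ((contDiff_cup_re _ _).mul (contDiff_cdn_re _ _)).mul
    ((contDiff_cup_im _ _).mul (contDiff_cdn_im _ _))

theorem contDiff_chiE (G : PGeo) : ContDiff ℝ (⊤ : ℕ∞) (chiE G) := by
  unfold chiE
  exact (contDiff_const.sub (ContDiff.sum fun i _ => contDiff_chi G i)).sub (contDiff_chiB G)

theorem chi_mem (G : PGeo) (i : Fin 4) (z : ℂ) : 0 ≤ chi G i z ∧ chi G i z ≤ 1 := by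
  fin_cases i
  · exact ⟨cup_nonneg, cup_le_one⟩
  · exact ⟨mul_nonneg cdn_nonneg cup_nonneg, mul_le_one₀ cdn_le_one cup_nonneg cup_le_one⟩
  · exact ⟨mul_nonneg cdn_nonneg cdn_nonneg, mul_le_one₀ cdn_le_one cdn_nonneg cdn_le_one⟩
  · exact ⟨mul_nonneg cdn_nonneg (mul_nonneg cup_nonneg cdn_nonneg),
      mul_le_one₀ cdn_le_one (mul_nonneg cup_nonneg cdn_nonneg)
        (mul_le_one₀ cup_le_one cdn_nonneg cdn_le_one)⟩

theorem chiB_mem (G : PGeo) (z : ℂ) : 0 ≤ chiB G z ∧ chiB G z ≤ 1 :=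
  ⟨mul_nonneg (mul_nonneg cup_nonneg cdn_nonneg) (mul_nonneg cup_nonneg cdn_nonneg),
    mul_le_one₀ (mul_le_one₀ cup_le_one cdn_nonneg cdn_le_one)
      (mul_nonneg cup_nonneg cdn_nonneg) (mul_le_one₀ cup_le_one cdn_nonneg cdn_le_one)⟩

theorem chi_abs_le (G : PGeo) (i : Fin 4) (z : ℂ) : |chi G i z| ≤ 1 := by
  rw [abs_of_nonneg (chi_mem G i z).1]
  exact (chi_mem G i z).2

theorem chiB_abs_le (G : PGeo) (z : ℂ) : |chiB G z| ≤ 1 := by
  rw [abs_of_nonneg (chiB_mem G z).1]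
  exact (chiB_mem G z).2

theorem chiE_abs_le (G : PGeo) (z : ℂ) : |chiE G z| ≤ 4 := by
  have h0 := chi_mem G 0 z
  have h1 := chi_mem G 1 z
  have h2 := chi_mem G 2 z
  have h3 := chi_mem G 3 z
  have h4 := chiB_mem G z
  unfold chiE
  rw [Fin.sum_univ_four, abs_le]
  constructor <;> linarith [h0.1, h0.2, h1.1, h1.2, h2.1, h2.2, h3.1, h3.2, h4.1, h4.2]

theorem chi_reg (G : PGeo) (i : Fin 4) {z : ℂ} (h : chi G i z ≠ 0) (hL : ‖z‖ ≤ G.L) :
    G.reg i z.re z.im := by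
  have hγ := G.γpos
  have h1 := (Complex.abs_re_le_norm z).trans hL
  have h2 := (Complex.abs_im_le_norm z).trans hL
  rw [abs_le] at h1 h2
  fin_cases i
  · exact ⟨cup_ne hγ h, h1.2, h2.1, h2.2⟩
  · change cdn G.x₁ G.γ z.re * cup G.y₁ G.γ z.im ≠ 0 at h
    exact ⟨h1.1, cdn_ne hγ (left_ne_zero_of_mul h), cup_ne hγ (right_ne_zero_of_mul h), h2.2⟩
  · change cdn G.x₁ G.γ z.re * cdn G.y₀ G.γ z.im ≠ 0 at h
    exact ⟨h1.1, cdn_ne hγ (left_ne_zero_of_mul h), h2.1, cdn_ne hγ (right_ne_zero_of_mul h)⟩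
  · change cdn G.x₀ G.γ z.re * (cup G.y₀ G.γ z.im * cdn G.y₁ G.γ z.im) ≠ 0 at h
    have h3 := right_ne_zero_of_mul h
    exact ⟨h1.1, cdn_ne hγ (left_ne_zero_of_mul h), cup_ne hγ (left_ne_zero_of_mul h3),
      cdn_ne hγ (right_ne_zero_of_mul h3)⟩

theorem chiB_reg (G : PGeo) {z : ℂ} (h : chiB G z ≠ 0) : G.regO z.re z.im := by
  have hγ := G.γpos
  have h1 := left_ne_zero_of_mul h
  have h2 := right_ne_zero_of_mul h
  exact ⟨cup_ne hγ (left_ne_zero_of_mul h1), cdn_ne hγ (right_ne_zero_of_mul h1),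
    cup_ne hγ (left_ne_zero_of_mul h2), cdn_ne hγ (right_ne_zero_of_mul h2)⟩

theorem chiB_one (G : PGeo) {z : ℂ} (h1 : G.x₀ + 2 * G.γ ≤ z.re) (h2 : z.re ≤ G.x₁ - 2 * G.γ)
    (h3 : G.y₀ + 2 * G.γ ≤ z.im) (h4 : z.im ≤ G.y₁ - 2 * G.γ) : chiB G z = 1 := by
  have hγ := G.γpos
  unfold chiB
  rw [cup_one hγ h1, cdn_one hγ h2, cup_one hγ h3, cdn_one hγ h4]
  norm_num

/-- change of the margin -/
def PGeo.shr (G : PGeo) (γ : ℝ) (h0 : 0 < γ) (h : γ ≤ G.γ) : PGeo where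
  x₀ := G.x₀
  x₁ := G.x₁
  y₀ := G.y₀
  y₁ := G.y₁
  γ := γ
  L := G.L
  γpos := h0
  hx := by have := G.hx; linarith
  hy := by have := G.hy; linarith
  hx₀ := by have := G.hx₀; linarith
  hx₁ := by have := G.hx₁; linarith
  hy₀ := by have := G.hy₀; linarith
  hy₁ := by have := G.hy₁; linarith

theorem reg_shr (G : PGeo) (γ : ℝ) (h0 : 0 < γ) (h : γ ≤ G.γ) (i : Fin 4) {x y : ℝ}
    (hr : G.reg i x y) : (PGeo.shr G γ h0 h).reg i x y := by
  fin_cases i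
  · obtain ⟨h1, h2, h3, h4⟩ := hr
    exact ⟨by change G.x₁ + γ ≤ x; linarith, h2, h3, h4⟩
  · obtain ⟨h1, h2, h3, h4⟩ := hr
    exact ⟨h1, by change x ≤ G.x₁ - γ; linarith, by change G.y₁ + γ ≤ y; linarith, h4⟩
  · obtain ⟨h1, h2, h3, h4⟩ := hr
    exact ⟨h1, by change x ≤ G.x₁ - γ; linarith, h3, by change y ≤ G.y₀ - γ; linarith⟩
  · obtain ⟨h1, h2, h3, h4⟩ := hr
    exact ⟨h1, by change x ≤ G.x₀ - γ; linarith, by change G.y₀ + γ ≤ y; linarith,
      by change y ≤ G.y₁ - γ; linarith⟩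

/-- the corridors shrink to the four lines -/
theorem chiE_eventually (G : PGeo) (z : ℂ) (h1 : z.re ≠ G.x₀) (h2 : z.re ≠ G.x₁)
    (h3 : z.im ≠ G.y₀) (h4 : z.im ≠ G.y₁) : ∃ η : ℝ, 0 < η ∧ ∀ (γ : ℝ) (h0 : 0 < γ)
      (h : γ ≤ G.γ), γ < η → chiE (PGeo.shr G γ h0 h) z = 0 := by
  set η : ℝ := min (min |z.re - G.x₀| |z.re - G.x₁|) (min |z.im - G.y₀| |z.im - G.y₁|) / 2 with hη
  have p1 : 0 < |z.re - G.x₀| := abs_pos.2 (sub_ne_zero.2 h1)
  have p2 : 0 < |z.re - G.x₁| := abs_pos.2 (sub_ne_zero.2 h2)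
  have p3 : 0 < |z.im - G.y₀| := abs_pos.2 (sub_ne_zero.2 h3)
  have p4 : 0 < |z.im - G.y₁| := abs_pos.2 (sub_ne_zero.2 h4)
  refine ⟨η, by rw [hη]; have := lt_min (lt_min p1 p2) (lt_min p3 p4); positivity,
    fun γ h0 h hγ => ?_⟩
  have q1 : 2 * γ < |z.re - G.x₀| := by
    have : η * 2 ≤ |z.re - G.x₀| := by
      rw [hη, div_mul_cancel₀ _ two_ne_zero]
      exact (min_le_left _ _).trans (min_le_left _ _)
    linarith
  have q2 : 2 * γ < |z.re - G.x₁| := by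
    have : η * 2 ≤ |z.re - G.x₁| := by
      rw [hη, div_mul_cancel₀ _ two_ne_zero]
      exact (min_le_left _ _).trans (min_le_right _ _)
    linarith
  have q3 : 2 * γ < |z.im - G.y₀| := by
    have : η * 2 ≤ |z.im - G.y₀| := by
      rw [hη, div_mul_cancel₀ _ two_ne_zero]
      exact (min_le_right _ _).trans (min_le_left _ _)
    linarith
  have q4 : 2 * γ < |z.im - G.y₁| := by
    have : η * 2 ≤ |z.im - G.y₁| := by
      rw [hη, div_mul_cancel₀ _ two_ne_zero]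
      exact (min_le_right _ _).trans (min_le_right _ _)
    linarith
  have key : ∀ t c : ℝ, 2 * γ < |t - c| →
      (c < t ∧ cup c γ t = 1 ∧ cdn c γ t = 0) ∨ (t < c ∧ cup c γ t = 0 ∧ cdn c γ t = 1) := by
    intro t c hq
    rcases le_abs.1 hq.le with h5 | h5
    · left
      exact ⟨by linarith, cup_one h0 (by linarith), cdn_zero h0 (by linarith)⟩
    · right
      exact ⟨by linarith, cup_zero h0 (by linarith), cdn_one h0 (by linarith)⟩
  have hxx : G.x₀ < G.x₁ := by have := G.hx; have := G.γpos; linarith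
  have hyy : G.y₀ < G.y₁ := by have := G.hy; have := G.γpos; linarith
  unfold chiE
  rw [Fin.sum_univ_four]
  change 1 - (cup G.x₁ γ z.re + cdn G.x₁ γ z.re * cup G.y₁ γ z.im +
    cdn G.x₁ γ z.re * cdn G.y₀ γ z.im +
    cdn G.x₀ γ z.re * (cup G.y₀ γ z.im * cdn G.y₁ γ z.im)) -
    (cup G.x₀ γ z.re * cdn G.x₁ γ z.re) * (cup G.y₀ γ z.im * cdn G.y₁ γ z.im) = 0
  rcases key _ _ q1 with ⟨a1, a2, a3⟩ | ⟨a1, a2, a3⟩ <;>
  rcases key _ _ q2 with ⟨b1, b2, b3⟩ | ⟨b1, b2, b3⟩ <;>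
  rcases key _ _ q3 with ⟨c1, c2, c3⟩ | ⟨c1, c2, c3⟩ <;>
  rcases key _ _ q4 with ⟨d1, d2, d3⟩ | ⟨d1, d2, d3⟩ <;>
  first
    | (exfalso; linarith)
    | (rw [a2, a3, b2, b3, c2, c3, d2, d3]; norm_num)

end Crest.Agent.R161.Ward369
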