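import Crest.Agent.R161.W5_369

/-!
R161, STEP 6 (helper369), part W6: the peeling theorem applied to a block, for a fixed corridor
width.
-/

set_option autoImplicit false

noncomputable section

open Filter Topology MeasureTheory
open scoped ComplexConjugate

namespace Crest.Agent.R161.Ward369

open Crest.Agent.R161.Geo729 Crest.Agent.R161.Defs372 Crest.Agent.R161.Ifc372
open Crest.Agent.R161.Aut373 Crest.Agent.R161.Green722
open Crest.Agent.R161.PeelP369 (PGeo PProb RPHyp)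

/-- Inputs of the Ward step: the state, its Gaussian law, reflection positivity. -/
structure WIn (c A : ℝ) (P : Measure Cfg) (κ : ℤ) (Θ : ℤ → Cfg → Cfg) : Prop where
  st : IsState c P
  law : LawHyp A P
  rp : RPHyp P κ Θ
  κ0 : 0 ≤ κ
  hΘ : ∀ ℓ ω v, (Θ ℓ ω).1 v = ω.1 (2 * ℓ - v.1, v.2)

/-- Patch functionals distributed over the four groups. -/
structure Patches (δ : ℕ → ℝ) (G : PGeo) (ι : Type*) [Fintype ι] where
  Z : ℕ → ι → Cfg → ℂ
  grp : ι → Fin 4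
  T : ℕ → ι → Finset P2
  α : ι → ℝ
  hZ : ∀ n j ω, ‖Z n j ω‖ ≤ 1
  loc : ∀ n j, Loc (T n j : Set P2) (Z n j)
  supp : ∀ n j, ∀ v ∈ T n j, G.reg (grp j) (δ n * v.1) (δ n * v.2)
  chg : ∀ n j, Aut373.Chg (α j) (Z n j)
  neutral : ∑ j, α j = 0

/-- Data for a fixed corridor width. -/
structure WDat (δ : ℕ → ℝ) (G : PGeo) (a : ℕ → P2 → ℝ) (f ψ b : ℂ → ℝ) : Prop where
  mesh : Mesh δ
  small : ∀ n, δ n ≤ G.γ
  lat : Lat δ a f
  test : Test f
  mass0 : ∀ n, mass (a n) = 0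
  suppa : ∀ n v, G.L < ‖ptC (δ n) v‖ → a n v = 0
  tψ : Test ψ
  suppψ : ∀ z, ψ z ≠ 0 → G.x₀ + 2 * G.γ ≤ z.re ∧ z.re ≤ G.x₁ - 2 * G.γ ∧
    G.y₀ + 2 * G.γ ≤ z.im ∧ z.im ≤ G.y₁ - 2 * G.γ
  tb : Test b
  suppb : ∀ z, b z ≠ 0 → G.x₁ + G.γ ≤ z.re ∧ ‖z‖ ≤ G.L
  massb : ∀ n, 1 / 2 ≤ mass (fun v => δ n ^ 2 * b (ptC (δ n) v))

section core

variable {δ : ℕ → ℝ} {G : PGeo} {a : ℕ → P2 → ℝ} {f ψ b : ℂ → ℝ}

/-- coefficient of the compensating bump -/
def rho (δ : ℕ → ℝ) (G : PGeo) (a : ℕ → P2 → ℝ) (b : ℂ → ℝ) (n : ℕ) : ℝ :=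
  mass (fun v => chiE G (ptC (δ n) v) * a n v) / mass (fun v => δ n ^ 2 * b (ptC (δ n) v))

/-- test function of group `i` -/
def aG (δ : ℕ → ℝ) (G : PGeo) (a : ℕ → P2 → ℝ) (b : ℂ → ℝ) (n : ℕ) (i : Fin 4) (v : P2) : ℝ :=
  chi G i (ptC (δ n) v) * a n v +
    (if i = 0 then rho δ G a b n else 0) * (δ n ^ 2 * b (ptC (δ n) v))

/-- test function of the block -/
def aB (δ : ℕ → ℝ) (G : PGeo) (a : ℕ → P2 → ℝ) (n : ℕ) (v : P2) : ℝ :=
  chiB G (ptC (δ n) v) * a n v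

/-- error function -/
def eN (δ : ℕ → ℝ) (G : PGeo) (a : ℕ → P2 → ℝ) (b : ℂ → ℝ) (n : ℕ) (v : P2) : ℝ :=
  chiE G (ptC (δ n) v) * a n v - rho δ G a b n * (δ n ^ 2 * b (ptC (δ n) v))

theorem sum_aG (n : ℕ) (v : P2) :
    ∑ i, aG δ G a b n i v + aB δ G a n v = a n v - eN δ G a b n v := by
  unfold aG aB eN chiE
  rw [Fin.sum_univ_four, Fin.sum_univ_four]
  simp only [Fin.isValue, ↓reduceIte, one_ne_zero, Fin.reduceEq, zero_mul, add_zero]
  ring

variable (W : WDat δ G a f ψ b)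

include W

theorem WDat.fa (n : ℕ) : Fin0 (a n) := W.lat.fin0 W.mesh n

theorem WDat.fb (n : ℕ) : Fin0 (fun v => δ n ^ 2 * b (ptC (δ n) v)) :=
  (fin0_test (W.mesh.pos n) W.tb).mul_left _

theorem WDat.fG (n : ℕ) (i : Fin 4) : Fin0 (aG δ G a b n i) :=
  ((W.fa n).mul_left _).add ((W.fb n).mul_left _)

theorem WDat.fB (n : ℕ) : Fin0 (aB δ G a n) := (W.fa n).mul_left _

theorem WDat.fE (n : ℕ) : Fin0 (eN δ G a b n) :=
  ((W.fa n).mul_left _).sub ((W.fb n).mul_left _)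

theorem WDat.mass_eN (n : ℕ) : mass (eN δ G a b n) = 0 := by
  have h1 := W.massb n
  have h2 : mass (fun v => δ n ^ 2 * b (ptC (δ n) v)) ≠ 0 := by linarith
  unfold eN
  rw [mass_sub ((W.fa n).mul_left _) ((W.fb n).mul_left _), mass_smul]
  unfold rho
  rw [div_mul_cancel₀ _ h2, sub_self]

theorem WDat.mass_sum (n : ℕ) : ∑ i, mass (aG δ G a b n i) + mass (aB δ G a n) = 0 := by
  have h1 : mass (fun v => ∑ i, aG δ G a b n i v + aB δ G a n v) =
      ∑ i, mass (aG δ G a b n i) + mass (aB δ G a n) := by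
    rw [Fin.sum_univ_four]
    simp only [Fin.sum_univ_four]
    rw [mass_add ((((W.fG n 0).add (W.fG n 1)).add (W.fG n 2)).add (W.fG n 3)) (W.fB n),
      mass_add (((W.fG n 0).add (W.fG n 1)).add (W.fG n 2)) (W.fG n 3),
      mass_add ((W.fG n 0).add (W.fG n 1)) (W.fG n 2), mass_add (W.fG n 0) (W.fG n 1)]
  rw [← h1]
  simp_rw [sum_aG]
  rw [mass_sub (W.fa n) (W.fE n), W.mass0 n, W.mass_eN n, sub_zero]

theorem WDat.eY_sum (n : ℕ) (ω : Cfg) :
    (∏ i, eY (aG δ G a b n i) ω) * eY (aB δ G a n) ω =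
      eY (fun v => a n v - eN δ G a b n v) ω := by
  have h : (fun v => a n v - eN δ G a b n v) =
      fun v => ((((aG δ G a b n 0 v + aG δ G a b n 1 v) + aG δ G a b n 2 v) +
        aG δ G a b n 3 v)) + aB δ G a n v := by
    funext v
    rw [← sum_aG, Fin.sum_univ_four]
  rw [h, eY_add ((((W.fG n 0).add (W.fG n 1)).add (W.fG n 2)).add (W.fG n 3)) (W.fB n),
    eY_add (((W.fG n 0).add (W.fG n 1)).add (W.fG n 2)) (W.fG n 3),
    eY_add ((W.fG n 0).add (W.fG n 1)) (W.fG n 2), eY_add (W.fG n 0) (W.fG n 1),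
    Fin.prod_univ_four]

theorem WDat.aG_supp (n : ℕ) (i : Fin 4) (v : P2) (hv : aG δ G a b n i v ≠ 0) :
    v ∈ lbox (δ n) G.L ∧ G.reg i (δ n * v.1) (δ n * v.2) := by
  have hp := W.mesh.pos n
  rw [← ptC_re, ← ptC_im]
  by_cases h1 : chi G i (ptC (δ n) v) * a n v = 0
  · unfold aG at hv
    rw [h1, zero_add] at hv
    have h2 : i = 0 := by
      by_contra hcon
      rw [if_neg hcon, zero_mul] at hv
      exact hv rfl
    subst h2
    have h3 := right_ne_zero_of_mul (right_ne_zero_of_mul hv)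
    obtain ⟨h4, h5⟩ := W.suppb _ h3
    refine ⟨mem_lbox hp h5, h4, ?_, ?_, ?_⟩
    · exact (Complex.re_le_norm _).trans h5
    · have := (abs_le.1 ((Complex.abs_im_le_norm _).trans h5)).1
      exact this
    · have := (abs_le.1 ((Complex.abs_im_le_norm _).trans h5)).2
      exact this
  · have h2 := left_ne_zero_of_mul h1
    have h3 := right_ne_zero_of_mul h1
    have h4 : ‖ptC (δ n) v‖ ≤ G.L := by
      by_contra hcon
      exact h3 (W.suppa n v (not_le.1 hcon))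
    exact ⟨mem_lbox hp h4, chi_reg G i h2 h4⟩

theorem WDat.aB_supp (n : ℕ) (v : P2) (hv : aB δ G a n v ≠ 0) :
    v ∈ lbox (δ n) G.L ∧ G.regO (δ n * v.1) (δ n * v.2) := by
  have hp := W.mesh.pos n
  rw [← ptC_re, ← ptC_im]
  have h2 := left_ne_zero_of_mul hv
  have h3 := right_ne_zero_of_mul hv
  have h4 : ‖ptC (δ n) v‖ ≤ G.L := by
    by_contra hcon
    exact h3 (W.suppa n v (not_le.1 hcon))
  exact ⟨mem_lbox hp h4, chiB_reg G h2⟩

theorem WDat.regO_lbox (n : ℕ) (v : P2) (h : G.regO (δ n * v.1) (δ n * v.2)) :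
    v ∈ lbox (δ n) (2 * G.L) := by
  have hp := W.mesh.pos n
  refine mem_lbox hp ?_
  obtain ⟨h1, h2, h3, h4⟩ := h
  have := G.hx₀; have := G.hx₁; have := G.hy₀; have := G.hy₁; have := G.γpos
  have h5 : |(ptC (δ n) v).re| ≤ G.L := by
    rw [ptC_re, abs_le]
    constructor <;> linarith
  have h6 : |(ptC (δ n) v).im| ≤ G.L := by
    rw [ptC_im, abs_le]
    constructor <;> linarith
  linarith [Complex.norm_le_abs_re_add_abs_im (ptC (δ n) v)]

theorem WDat.dL_supp (n : ℕ) (v : P2) (hv : dL (δ n) ψ v ≠ 0) :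
    G.regO (δ n * v.1) (δ n * v.2) := by
  have hp := W.mesh.pos n
  have hs := W.small n
  have key : ∀ w : P2, ψ (ptC (δ n) w) ≠ 0 → |(w.1 : ℝ) - v.1| ≤ 1 → |(w.2 : ℝ) - v.2| ≤ 1 →
      G.regO (δ n * v.1) (δ n * v.2) := by
    intro w hw h1 h2
    obtain ⟨g1, g2, g3, g4⟩ := W.suppψ _ hw
    rw [ptC_re] at g1 g2
    rw [ptC_im] at g3 g4
    rw [abs_le] at h1 h2
    have e1 : δ n * ((w.1 : ℝ) - v.1) ≤ δ n := by nlinarith
    have e2 : -δ n ≤ δ n * ((w.1 : ℝ) - v.1) := by nlinarith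
    have e3 : δ n * ((w.2 : ℝ) - v.2) ≤ δ n := by nlinarith
    have e4 : -δ n ≤ δ n * ((w.2 : ℝ) - v.2) := by nlinarith
    refine ⟨?_, ?_, ?_, ?_⟩ <;> nlinarith
  by_contra hcon
  apply hv
  have k0 : ∀ w : P2, |(w.1 : ℝ) - v.1| ≤ 1 → |(w.2 : ℝ) - v.2| ≤ 1 →
      ψ (ptC (δ n) w) = 0 := fun w h1 h2 => by
    by_contra h3
    exact hcon (key w h3 h1 h2)
  unfold dL
  rw [k0 v (by simp) (by simp), k0 (v.1 + 1, v.2) (by simp) (by simp),
    k0 (v.1 - 1, v.2) (by simp) (by simp), k0 (v.1, v.2 + 1) (by simp) (by simp),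
    k0 (v.1, v.2 - 1) (by simp) (by simp)]
  ring

end core

section main

variable {c A : ℝ} {P : Measure Cfg} {κ : ℤ} {Θ : ℤ → Cfg → Cfg} {δ : ℕ → ℝ} {G : PGeo}
  {a : ℕ → P2 → ℝ} {f ψ b : ℂ → ℝ} {ι : Type*} [Fintype ι]

open Classical in
/-- the peeling problem -/
def prob (I : WIn c A P κ Θ) (W : WDat δ G a f ψ b) (Q : Patches δ G ι) : PProb P κ Θ where
  G := G
  prob := I.st.prob
  rp := I.rp
  κ0 := I.κ0
  δ := δ
  δpos := W.mesh.pos
  δlim := W.mesh.lim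
  A := fun n i ω => eY (aG δ G a b n i) ω * ∏ j ∈ Finset.univ.filter (Q.grp · = i), Q.Z n j ω
  O := fun n => Obs (aB δ G a n) (dL (δ n) ψ) (k0 A f ψ)
  M := 1 + |k0 A f ψ|
  hA := fun n i ω => by
    rw [norm_mul, norm_eY, one_mul]
    exact PProb.norm_prod_le _ _ fun j _ => Q.hZ n j ω
  hO := fun n ω => norm_Obs_le _ _ ω
  S := fun n i => (lbox (δ n) G.L).filter (fun v => G.reg i (δ n * v.1) (δ n * v.2)) ∪
    (Finset.univ.filter (Q.grp · = i)).biUnion (Q.T n)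
  T := fun n => (lbox (δ n) (2 * G.L)).filter (fun v => G.regO (δ n * v.1) (δ n * v.2))
  locA := fun n i => by
    refine PeelP369.loc_mul ?_ ?_
    · refine loc_eY fun v hv => ?_
      by_contra hcon
      obtain ⟨h1, h2⟩ := W.aG_supp n i v hcon
      exact hv (Finset.mem_union_left _ (Finset.mem_filter.2 ⟨h1, h2⟩))
    · refine PeelP369.loc_prod _ fun j hj => PeelP369.loc_mono (Q.loc n j) ?_
      intro v hv
      exact Finset.mem_coe.2 (Finset.mem_union_right _ (Finset.mem_biUnion.2 ⟨j, hj, hv⟩))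
  locO := fun n => by
    refine PeelP369.loc_mul (loc_eY fun v hv => ?_) ?_
    · by_contra hcon
      obtain ⟨h1, h2⟩ := W.aB_supp n v hcon
      exact hv (Finset.mem_filter.2 ⟨W.regO_lbox n v h2, h2⟩)
    · refine loc_comp (f := eY (dL (δ n) ψ)) (loc_eY fun v hv => ?_)
        (fun x : ℂ => x - (k0 A f ψ : ℂ))
      by_contra hcon
      have h2 := W.dL_supp n v hcon
      exact hv (Finset.mem_filter.2 ⟨W.regO_lbox n v h2, h2⟩)
  suppA := fun n i v hv => by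
    rcases Finset.mem_union.1 hv with h | h
    · exact (Finset.mem_filter.1 h).2
    · obtain ⟨j, hj, hv⟩ := Finset.mem_biUnion.1 h
      have := Q.supp n j v hv
      rwa [(Finset.mem_filter.1 hj).2] at this
  suppO := fun n v hv => (Finset.mem_filter.1 hv).2
  α := fun n i => mass (aG δ G a b n i) + ∑ j ∈ Finset.univ.filter (Q.grp · = i), Q.α j
  β := fun n => mass (aB δ G a n)
  chgA := fun n i => (PeelP369.Chg.mul (chg_eY (W.fG n i))
    (PeelP369.Chg.prod _ fun j _ => Q.chg n j))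
  chgO := fun n => by
    have h1 : PeelP369.Chg 0 (fun ω => eY (dL (δ n) ψ) ω - (k0 A f ψ : ℂ)) := by
      have h2 := chg_eY (lat_dL W.mesh W.tψ |>.fin0 W.mesh n)
      rw [mass_dL (W.mesh.pos n) W.tψ] at h2
      intro ω hω t ht
      have h3 := h2 ω hω t ht
      simp only [zero_mul, Complex.ofReal_zero, mul_zero, Complex.exp_zero, one_mul] at h3 ⊢
      rw [h3]
    have h4 := PeelP369.Chg.mul (chg_eY (W.fB n)) h1
    rw [add_zero] at h4
    exact h4
  neutral := fun n => by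
    rw [Finset.sum_add_distrib]
    have h1 := W.mass_sum n
    have h2 : ∑ i, ∑ j ∈ Finset.univ.filter (Q.grp · = i), Q.α j = ∑ j, Q.α j :=
      Finset.sum_fiberwise _ _ _
    rw [h2, Q.neutral]
    linarith
  ℓ := fun n => ⌈G.x₀ / δ n⌉
  hℓ := by
    have h1 : ∀ n, |δ n * (⌈G.x₀ / δ n⌉ : ℝ) - G.x₀| ≤ 1 * δ n := fun n => by
      have hp := W.mesh.pos n
      have h2 := Int.le_ceil (G.x₀ / δ n)
      have h3 := Int.ceil_lt_add_one (G.x₀ / δ n)
      rw [div_le_iff₀ hp] at h2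
      have h4 : (⌈G.x₀ / δ n⌉ : ℝ) * δ n < G.x₀ + δ n := by
        calc (⌈G.x₀ / δ n⌉ : ℝ) * δ n < (G.x₀ / δ n + 1) * δ n := by gcongr
          _ = G.x₀ + δ n := by field_simp
      rw [abs_le]
      constructor <;> linarith
    rw [tendsto_iff_norm_sub_tendsto_zero]
    refine squeeze_zero (fun n => norm_nonneg _) (fun n => ?_) W.mesh.lim
    have := h1 n
    rw [one_mul] at this
    exact this
  hℓL := fun n => by
    have hp := W.mesh.pos n
    have h2 := Int.le_ceil (G.x₀ / δ n)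
    rw [div_le_iff₀ hp] at h2
    linarith
  small := by
    have h1 : ∀ n, |δ n * (⌈G.x₀ / δ n⌉ : ℝ) - G.x₀| ≤ 1 * δ n := fun n => by
      have hp := W.mesh.pos n
      have h2 := Int.le_ceil (G.x₀ / δ n)
      have h3 := Int.ceil_lt_add_one (G.x₀ / δ n)
      rw [div_le_iff₀ hp] at h2
      have h4 : (⌈G.x₀ / δ n⌉ : ℝ) * δ n < G.x₀ + δ n := by
        calc (⌈G.x₀ / δ n⌉ : ℝ) * δ n < (G.x₀ / δ n + 1) * δ n := by gcongr
          _ = G.x₀ + δ n := by field_simp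
      rw [abs_le]
      constructor <;> linarith
    have hγ := G.γpos
    have h2 := half_small I.st I.law W.mesh I.hΘ (W.lat.mul (chiB_abs_le G))
      (Test.smooth_mul W.test (contDiff_chiB G)) W.tψ (x₀ := G.x₀) (C0 := 1)
      (ℓ := fun n => ⌈G.x₀ / δ n⌉) ?_ ?_ h1
    · have h3 : k0 A (fun z => chiB G z * f z) ψ = k0 A f ψ := by
        unfold k0
        congr 5
        funext z
        by_cases hz : ψ z = 0
        · rw [hz, mul_zero, mul_zero]
        · obtain ⟨g1, g2, g3, g4⟩ := W.suppψ z hz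
          change chiB G z * f z * ψ z = f z * ψ z
          rw [chiB_one G g1 g2 g3 g4, one_mul]
      rw [h3] at h2
      exact h2
    · intro z hz
      have : chiB G z = 0 := by
        unfold chiB
        rw [cup_zero hγ (by linarith), zero_mul, zero_mul]
      rw [this, zero_mul]
    · intro z hz
      have hcl : IsClosed {z : ℂ | G.x₀ + 2 * G.γ ≤ z.re} :=
        isClosed_le continuous_const Complex.continuous_re
      have h4 : tsupport ψ ⊆ {z : ℂ | G.x₀ + 2 * G.γ ≤ z.re} :=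
        closure_minimal (fun z hz => (W.suppψ z hz).1) hcl
      have h5 : G.x₀ + 2 * G.γ ≤ z.re := h4 hz
      linarith

/-- **Ward step for a fixed corridor width.** -/
theorem ward_fixed (I : WIn c A P κ Θ) (W : WDat δ G a f ψ b) (Q : Patches δ G ι) :
    Tendsto (fun n => ∫ ω, eY (fun v => a n v - eN δ G a b n v) ω *
      (eY (dL (δ n) ψ) ω - (k0 A f ψ : ℂ)) * ∏ j, Q.Z n j ω ∂P) atTop (𝓝 0) := by
  classical
  refine (prob I W Q).tendsto.congr fun n => ?_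
  refine integral_congr_ae (Eventually.of_forall fun ω => ?_)
  change (∏ i, (eY (aG δ G a b n i) ω * ∏ j ∈ Finset.univ.filter (Q.grp · = i), Q.Z n j ω)) *
    (eY (aB δ G a n) ω * (eY (dL (δ n) ψ) ω - (k0 A f ψ : ℂ))) =
    eY (fun v => a n v - eN δ G a b n v) ω * (eY (dL (δ n) ψ) ω - (k0 A f ψ : ℂ)) *
      ∏ j, Q.Z n j ω
  rw [Finset.prod_mul_distrib, Finset.prod_fiberwise, ← W.eY_sum]
  ring

end main

end Crest.Agent.R161.Ward369
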