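import Crest.Agent.R161.W6_369

/-!
R161, STEP 6 (helper369), part W7: the Ward step in a block (corridor width tending to zero).
-/

set_option autoImplicit false

noncomputable section

open Filter Topology MeasureTheory
open scoped ComplexConjugate

namespace Crest.Agent.R161.Ward369

open Crest.Agent.R161.Geo729 Crest.Agent.R161.Defs372 Crest.Agent.R161.Ifc372
open Crest.Agent.R161.Aut373 Crest.Agent.R161.Green722
open Crest.Agent.R161.PeelP369 (PGeo PProb RPHyp)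

variable {c A : ℝ} {P : Measure Cfg} {κ : ℤ} {Θ : ℤ → Cfg → Cfg} {δ : ℕ → ℝ} {G : PGeo}
  {a : ℕ → P2 → ℝ} {f ψ b : ℂ → ℝ} {ι : Type*} [Fintype ι]

/-- the continuum error function -/
def eC (G : PGeo) (f b : ℂ → ℝ) (z : ℂ) : ℝ :=
  chiE G z * f z - (∫ w, chiE G w * f w) * b z

theorem test_eC (G : PGeo) (hf : Test f) (hb : Test b) : Test (eC G f b) :=
  Test.sub (Test.smooth_mul hf (contDiff_chiE G)) (Test.smul hb _)

/-- the lattice error function approximates the continuum one -/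
theorem lat_eN (W : WDat δ G a f ψ b) (hb1 : ∫ z, b z = 1) :
    Lat δ (eN δ G a b) (eC G f b) := by
  set m : ℝ := ∫ w, chiE G w * f w with hm
  have hfE : Test (fun z => chiE G z * f z) := Test.smooth_mul W.test (contDiff_chiE G)
  have hlE : Lat δ (fun n v => chiE G (ptC (δ n) v) * a n v) (fun z => chiE G z * f z) :=
    W.lat.mul (chiE_abs_le G)
  have hlb : Lat δ (fun n v => δ n ^ 2 * b (ptC (δ n) v)) b := Lat.of_test W.tb
  obtain ⟨C1, hC1, h1⟩ := hlE.mass W.mesh hfE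
  obtain ⟨C2, hC2, h2⟩ := hlb.mass W.mesh W.tb
  have hr : ∀ n, |rho δ G a b n - m| ≤ (2 * (C1 + |m| * C2)) * δ n := by
    intro n
    have h3 := W.massb n
    set β : ℝ := mass (fun v => δ n ^ 2 * b (ptC (δ n) v)) with hβ
    set mn : ℝ := mass (fun v => chiE G (ptC (δ n) v) * a n v) with hmn
    have h4 : |mn - m| ≤ C1 * δ n := h1 n
    have h5 : |β - 1| ≤ C2 * δ n := by rw [← hb1]; exact h2 n
    have hβ0 : 0 < β := by linarith
    have h6 : rho δ G a b n - m = ((mn - m) - m * (β - 1)) / β := by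
      unfold rho
      rw [← hβ, ← hmn]
      field_simp
      ring
    rw [h6, abs_div, abs_of_pos hβ0, div_le_iff₀ hβ0]
    have hp := W.mesh.pos n
    calc |(mn - m) - m * (β - 1)| ≤ |mn - m| + |m * (β - 1)| := abs_sub _ _
      _ ≤ C1 * δ n + |m| * (C2 * δ n) := by
          rw [abs_mul]
          gcongr
      _ = (C1 + |m| * C2) * δ n := by ring
      _ ≤ 2 * (C1 + |m| * C2) * δ n * β := by
          have : 0 ≤ (C1 + |m| * C2) * δ n := by positivity
          nlinarith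
  exact hlE.sub (hlb.smul_seq W.mesh W.tb hr)

theorem err_lim (I : WIn c A P κ Θ) (W : WDat δ G a f ψ b) (hb1 : ∫ z, b z = 1) :
    Tendsto (fun n => ∫ ω, eY (eN δ G a b n) ω ∂P) atTop
      (𝓝 ((Real.exp (-(A * plog (eC G f b) (eC G f b)) / 2) : ℝ) : ℂ)) :=
  law_lat I.st I.law W.mesh (lat_eN W hb1) (test_eC G W.test W.tb) W.mass_eN

theorem integrable_eY (hP : IsState c P) {u : P2 → ℝ} (hu : Fin0 u) :
    Integrable (fun ω => eY u ω) P := by
  refine loc_integrable hP (S := hu.toFinset) (loc_eY fun v hv => ?_)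
  by_contra hcon
  exact hv ((Set.Finite.mem_toFinset hu).2 hcon)

/-- `∫ |e^{iY} - 1| ≤ √(2 - 2 Re ∫ e^{iY})` -/
theorem int_eY_sub_one (hP : IsState c P) {u : P2 → ℝ} (hu : Fin0 u) :
    ∫ ω, ‖eY u ω - 1‖ ∂P ≤ √(2 - 2 * (∫ ω, eY u ω ∂P).re) := by
  have := hP.prob
  have hi := integrable_eY hP hu
  have h1 : ∀ ω, ‖eY u ω - 1‖ ^ 2 = 2 - 2 * (eY u ω).re := by
    intro ω
    have h2 : Complex.normSq (eY u ω) = 1 := by
      rw [Complex.normSq_eq_norm_sq, norm_eY, one_pow]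
    rw [← Complex.normSq_eq_norm_sq, Complex.normSq_sub, h2]
    simp
    ring
  have h3 : Integrable (fun ω => ‖eY u ω - 1‖) P := (hi.sub (integrable_const _)).norm
  have h4 : Integrable (fun ω => ‖eY u ω - 1‖ ^ 2) P := by
    simp_rw [h1]
    exact (integrable_const _).sub (hi.re.const_mul 2)
  have h5 : (∫ ω, ‖eY u ω - 1‖ ∂P) ^ 2 ≤ ∫ ω, ‖eY u ω - 1‖ ^ 2 ∂P := by
    set m := ∫ ω, ‖eY u ω - 1‖ ∂P with hm
    have h6 : 0 ≤ ∫ ω, (‖eY u ω - 1‖ - m) ^ 2 ∂P := integral_nonneg fun ω => sq_nonneg _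
    have h7 : ∫ ω, (‖eY u ω - 1‖ - m) ^ 2 ∂P = ∫ ω, ‖eY u ω - 1‖ ^ 2 ∂P - m ^ 2 := by
      have h8 : ∀ ω, (‖eY u ω - 1‖ - m) ^ 2 = (‖eY u ω - 1‖ ^ 2 - 2 * m * ‖eY u ω - 1‖) + m ^ 2 :=
        fun ω => by ring
      simp_rw [h8]
      have h9 : Integrable (fun ω => 2 * m * ‖eY u ω - 1‖) P := h3.const_mul _
      have h10 : Integrable (fun ω => ‖eY u ω - 1‖ ^ 2 - 2 * m * ‖eY u ω - 1‖) P := h4.sub h9
      rw [integral_add h10 (integrable_const _), integral_sub h4 h9, integral_const_mul,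
        ← hm]
      simp
      ring
    linarith
  refine Real.le_sqrt_of_sq_le (h5.trans ?_)
  simp_rw [h1]
  have hre : Integrable (fun ω => (eY u ω).re) P := hi.re
  rw [integral_sub (integrable_const _) (hre.const_mul 2), integral_const_mul]
  have h10 := integral_re hi
  simp only [RCLike.re_eq_complex_re] at h10
  rw [h10]
  simp

/-- the correlation -/
def Phi (P : Measure Cfg) (A : ℝ) (δ : ℕ → ℝ) (a : ℕ → P2 → ℝ) (f ψ : ℂ → ℝ)
    (Z : ℕ → ι → Cfg → ℂ) (n : ℕ) : ℂ :=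
  ∫ ω, eY (a n) ω * (eY (dL (δ n) ψ) ω - (k0 A f ψ : ℂ)) * ∏ j, Z n j ω ∂P

theorem prod_le_one (Q : Patches δ G ι) (n : ℕ) (ω : Cfg) : ‖∏ j, Q.Z n j ω‖ ≤ 1 :=
  PProb.norm_prod_le _ _ fun j _ => Q.hZ n j ω

theorem integrable_prod (hP : IsState c P) (Q : Patches δ G ι) (n : ℕ) :
    Integrable (fun ω => ∏ j, Q.Z n j ω) P := by
  classical
  refine loc_integrable hP (S := Finset.univ.biUnion (Q.T n))
    (PeelP369.loc_prod _ fun j _ => PeelP369.loc_mono (Q.loc n j) fun v hv => ?_)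
  exact Finset.mem_coe.2 (Finset.mem_biUnion.2 ⟨j, Finset.mem_univ j, hv⟩)

theorem integrable_term (hP : IsState c P) (Q : Patches δ G ι) (n : ℕ) {u d : P2 → ℝ}
    (hu : Fin0 u) (hd : Fin0 d) (k : ℂ) :
    Integrable (fun ω => eY u ω * (eY d ω - k) * ∏ j, Q.Z n j ω) P := by
  have := hP.prob
  have h1 := integrable_eY hP hu
  have h2 := (integrable_eY hP hd).sub (integrable_const k)
  have h3 := integrable_prod hP Q n
  refine Integrable.of_bound (C := 1 + ‖k‖)
    ((h1.aestronglyMeasurable.mul h2.aestronglyMeasurable).mul h3.aestronglyMeasurable) ?_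
  refine Eventually.of_forall fun ω => ?_
  rw [norm_mul, norm_mul, norm_eY, one_mul]
  calc _ ≤ (1 + ‖k‖) * 1 := by
        gcongr
        · refine (norm_sub_le _ _).trans ?_
          rw [norm_eY]
        · exact prod_le_one Q n ω
    _ = _ := mul_one _

/-- bound for a fixed corridor width -/
theorem ward_limsup (I : WIn c A P κ Θ) (W : WDat δ G a f ψ b) (Q : Patches δ G ι)
    (hb1 : ∫ z, b z = 1) {ε : ℝ} (hε : 0 < ε) : ∀ᶠ n in atTop,
      ‖Phi P A δ a f ψ Q.Z n‖ ≤ (1 + |k0 A f ψ|) *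
        √(2 - 2 * Real.exp (-(A * plog (eC G f b) (eC G f b)) / 2)) + ε := by
  have hprob := I.st.prob
  have h1 := ward_fixed I W Q
  have h2 := err_lim I W hb1
  set k := k0 A f ψ with hk
  have h3 : Tendsto (fun n => ‖∫ ω, eY (fun v => a n v - eN δ G a b n v) ω *
      (eY (dL (δ n) ψ) ω - (k : ℂ)) * ∏ j, Q.Z n j ω ∂P‖ +
      (1 + |k|) * √(2 - 2 * (∫ ω, eY (eN δ G a b n) ω ∂P).re)) atTop
      (𝓝 (0 + (1 + |k|) * √(2 - 2 * Real.exp (-(A * plog (eC G f b) (eC G f b)) / 2)))) := by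
    refine Tendsto.add ?_ ?_
    · have := h1.norm
      rwa [norm_zero] at this
    · have h4 := (Complex.continuous_re.tendsto _).comp h2
      rw [Complex.ofReal_re] at h4
      exact ((((h4.const_mul 2).const_sub 2).sqrt).const_mul (1 + |k|))
  rw [zero_add] at h3
  filter_upwards [h3.eventually (gt_mem_nhds (lt_add_of_pos_right _ hε))] with n hn
  refine le_trans ?_ hn.le
  -- comparison
  have hfa := W.fa n
  have hfe := W.fE n
  have hd : Fin0 (dL (δ n) ψ) := (lat_dL W.mesh W.tψ).fin0 W.mesh n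
  have i1 := integrable_term I.st Q n hfa hd (k : ℂ)
  have i2 := integrable_term I.st Q n (hfa.sub hfe) hd (k : ℂ)
  have e1 : Phi P A δ a f ψ Q.Z n - ∫ ω, eY (fun v => a n v - eN δ G a b n v) ω *
      (eY (dL (δ n) ψ) ω - (k : ℂ)) * ∏ j, Q.Z n j ω ∂P =
      ∫ ω, (eY (a n) ω * (eY (dL (δ n) ψ) ω - (k : ℂ)) * ∏ j, Q.Z n j ω -
        eY (fun v => a n v - eN δ G a b n v) ω *
      (eY (dL (δ n) ψ) ω - (k : ℂ)) * ∏ j, Q.Z n j ω) ∂P := (integral_sub i1 i2).symm
  have e2 : ∀ ω, ‖eY (a n) ω * (eY (dL (δ n) ψ) ω - (k : ℂ)) * ∏ j, Q.Z n j ω -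
        eY (fun v => a n v - eN δ G a b n v) ω *
      (eY (dL (δ n) ψ) ω - (k : ℂ)) * ∏ j, Q.Z n j ω‖ ≤
      (1 + |k|) * ‖eY (eN δ G a b n) ω - 1‖ := by
    intro ω
    have e3 : eY (a n) ω = eY (fun v => a n v - eN δ G a b n v) ω * eY (eN δ G a b n) ω := by
      rw [← eY_add (hfa.sub hfe) hfe]
      congr 1
      funext v
      ring
    have e4 : eY (a n) ω * (eY (dL (δ n) ψ) ω - (k : ℂ)) * ∏ j, Q.Z n j ω -
        eY (fun v => a n v - eN δ G a b n v) ω *
      (eY (dL (δ n) ψ) ω - (k : ℂ)) * ∏ j, Q.Z n j ω =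
      Obs (fun v => a n v - eN δ G a b n v) (dL (δ n) ψ) k ω *
        (eY (eN δ G a b n) ω - 1) * ∏ j, Q.Z n j ω := by
      rw [e3]
      unfold Obs
      ring
    rw [e4, norm_mul, norm_mul]
    calc _ ≤ (1 + |k|) * ‖eY (eN δ G a b n) ω - 1‖ * 1 := by
          gcongr
          · exact norm_Obs_le _ _ ω
          · exact prod_le_one Q n ω
      _ = _ := mul_one _
  have i3 : Integrable (fun ω => (1 + |k|) * ‖eY (eN δ G a b n) ω - 1‖) P :=
    (((integrable_eY I.st hfe).sub (integrable_const _)).norm).const_mul _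
  have e5 : ‖Phi P A δ a f ψ Q.Z n - ∫ ω, eY (fun v => a n v - eN δ G a b n v) ω *
      (eY (dL (δ n) ψ) ω - (k : ℂ)) * ∏ j, Q.Z n j ω ∂P‖ ≤
      (1 + |k|) * √(2 - 2 * (∫ ω, eY (eN δ G a b n) ω ∂P).re) := by
    rw [e1]
    refine (norm_integral_le_of_norm_le i3 (Eventually.of_forall e2)).trans ?_
    rw [integral_const_mul]
    gcongr
    exact int_eY_sub_one I.st hfe
  have e6 := norm_add_le (Phi P A δ a f ψ Q.Z n - ∫ ω, eY (fun v => a n v - eN δ G a b n v) ω *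
      (eY (dL (δ n) ψ) ω - (k : ℂ)) * ∏ j, Q.Z n j ω ∂P)
      (∫ ω, eY (fun v => a n v - eN δ G a b n v) ω *
      (eY (dL (δ n) ψ) ω - (k : ℂ)) * ∏ j, Q.Z n j ω ∂P)
  rw [sub_add_cancel] at e6
  linarith

/-! ### shifts and change of margin -/

theorem Mesh.shift (hδ : Mesh δ) (N : ℕ) : Mesh (fun n => δ (n + N)) :=
  ⟨fun n => hδ.pos _, fun n => hδ.le_one _, (tendsto_add_atTop_iff_nat N).2 hδ.lim⟩

theorem Lat.shift (h : Lat δ a f) (N : ℕ) : Lat (fun n => δ (n + N)) (fun n => a (n + N)) f where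
  close := by
    obtain ⟨C, hC, h1⟩ := h.close
    exact ⟨C, hC, fun n v => h1 _ v⟩
  supp := by
    obtain ⟨R, hR, h1, h2⟩ := h.supp
    exact ⟨R, hR, fun n v => h1 _ v, h2⟩

/-- shift of the patches -/
def Patches.shift (Q : Patches δ G ι) (N : ℕ) : Patches (fun n => δ (n + N)) G ι where
  Z := fun n => Q.Z (n + N)
  grp := Q.grp
  T := fun n => Q.T (n + N)
  α := Q.α
  hZ := fun n j ω => Q.hZ _ j ω
  loc := fun n j => Q.loc _ j
  supp := fun n j v hv => Q.supp _ j v hv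
  chg := fun n j => Q.chg _ j
  neutral := Q.neutral

/-- smaller margin -/
def Patches.shr (Q : Patches δ G ι) (γ : ℝ) (h0 : 0 < γ) (h : γ ≤ G.γ) :
    Patches δ (PGeo.shr G γ h0 h) ι where
  Z := Q.Z
  grp := Q.grp
  T := Q.T
  α := Q.α
  hZ := Q.hZ
  loc := Q.loc
  supp := fun n j v hv => reg_shr G γ h0 h _ (Q.supp n j v hv)
  chg := Q.chg
  neutral := Q.neutral

theorem ae_re_ne (x : ℝ) : ∀ᵐ z : ℂ, z.re ≠ x := by
  have h1 : ∀ᵐ t : ℝ, t ≠ x := by
    rw [ae_iff]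
    simp
  have h2 : ∀ᵐ p : ℝ × ℝ, p.1 ≠ x :=
    (Measure.quasiMeasurePreserving_fst (μ := (volume : Measure ℝ))
      (ν := (volume : Measure ℝ))).ae h1
  exact Complex.volume_preserving_equiv_real_prod.quasiMeasurePreserving.ae h2

theorem ae_im_ne (x : ℝ) : ∀ᵐ z : ℂ, z.im ≠ x := by
  have h1 : ∀ᵐ t : ℝ, t ≠ x := by
    rw [ae_iff]
    simp
  have h2 : ∀ᵐ p : ℝ × ℝ, p.2 ≠ x :=
    (Measure.quasiMeasurePreserving_snd (μ := (volume : Measure ℝ))
      (ν := (volume : Measure ℝ))).ae h1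
  exact Complex.volume_preserving_equiv_real_prod.quasiMeasurePreserving.ae h2

/-- margins tending to zero -/
def gk (G : PGeo) (k : ℕ) : ℝ := G.γ / (2 * (k + 1))

theorem gk_pos (G : PGeo) (k : ℕ) : 0 < gk G k := by
  have := G.γpos
  unfold gk
  positivity

theorem gk_le (G : PGeo) (k : ℕ) : 2 * gk G k ≤ G.γ := by
  have := G.γpos
  unfold gk
  have h : 2 * (G.γ / (2 * ((k : ℝ) + 1))) = G.γ / (k + 1) := by
    field_simp
  rw [h]
  exact div_le_self this.le (by linarith [(Nat.cast_nonneg k : (0 : ℝ) ≤ k)])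

theorem gk_le' (G : PGeo) (k : ℕ) : gk G k ≤ G.γ := by
  have := gk_le G k
  have := gk_pos G k
  linarith

theorem gk_lim (G : PGeo) : Tendsto (gk G) atTop (𝓝 0) := by
  have h1 : Tendsto (fun k : ℕ => G.γ / 2 * (1 / ((k : ℝ) + 1))) atTop (𝓝 (G.γ / 2 * 0)) :=
    tendsto_one_div_add_atTop_nhds_zero_nat.const_mul _
  rw [mul_zero] at h1
  refine h1.congr fun k => ?_
  unfold gk
  field_simp

/-- geometry with small margin -/
def Gk (G : PGeo) (k : ℕ) : PGeo := PGeo.shr G (gk G k) (gk_pos G k) (gk_le' G k)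

theorem chiE_lim (G : PGeo) : ∀ᵐ z : ℂ, Tendsto (fun k => chiE (Gk G k) z) atTop (𝓝 0) := by
  filter_upwards [ae_re_ne G.x₀, ae_re_ne G.x₁, ae_im_ne G.y₀, ae_im_ne G.y₁] with z h1 h2 h3 h4
  obtain ⟨η, hη, h⟩ := chiE_eventually G z h1 h2 h3 h4
  refine tendsto_const_nhds.congr' ?_
  filter_upwards [(gk_lim G).eventually (gt_mem_nhds hη)] with k hk
  exact (h _ _ _ hk).symm

theorem int_chiE_lim (G : PGeo) (hf : Test f) :
    Tendsto (fun k => ∫ w, chiE (Gk G k) w * f w) atTop (𝓝 0) := by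
  have h0 : (0 : ℝ) = ∫ _w : ℂ, (0 : ℝ) := by simp
  rw [h0]
  refine tendsto_integral_of_dominated_convergence (fun w => 4 * |f w|) ?_ ?_ ?_ ?_
  · intro k
    exact ((contDiff_chiE (Gk G k)).continuous.mul hf.smooth.continuous).aestronglyMeasurable
  · exact (Test.integrable hf).abs.const_mul 4
  · intro k
    refine Eventually.of_forall fun w => ?_
    rw [Real.norm_eq_abs, abs_mul]
    gcongr
    exact chiE_abs_le _ _
  · filter_upwards [chiE_lim G] with w hw
    have := hw.mul_const (f w)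
    rwa [zero_mul] at this

theorem plog_eC_lim (G : PGeo) (hf : Test f) (hb : Test b) :
    Tendsto (fun k => plog (eC (Gk G k) f b) (eC (Gk G k) f b)) atTop (𝓝 0) := by
  obtain ⟨Rf, hRf, hf0⟩ := Test.exists_radius hf
  obtain ⟨Rb, hRb, hb0⟩ := Test.exists_radius hb
  obtain ⟨Mf, hMf, hf1⟩ := Test.exists_bdd hf
  obtain ⟨Mb, hMb, hb1⟩ := Test.exists_bdd hb
  set J : ℝ := ∫ w, 4 * |f w| with hJ
  have hJ0 : 0 ≤ J := integral_nonneg fun w => by positivity
  have hm : ∀ k, |∫ w, chiE (Gk G k) w * f w| ≤ J := by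
    intro k
    rw [← Real.norm_eq_abs]
    refine norm_integral_le_of_norm_le ((Test.integrable hf).abs.const_mul 4)
      (Eventually.of_forall fun w => ?_)
    rw [Real.norm_eq_abs, abs_mul]
    gcongr
    exact chiE_abs_le _ _
  refine plog_small (R := max Rf Rb) (M := 4 * Mf + J * Mb) ?_ ?_ ?_ ?_
  · intro k
    exact (test_eC (Gk G k) hf hb).smooth.continuous.measurable
  · intro k z
    unfold eC
    refine (abs_sub _ _).trans ?_
    rw [abs_mul, abs_mul]
    gcongr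
    · exact chiE_abs_le _ _
    · exact hf1 z
    · exact hm k
    · exact hb1 z
  · intro k z hz
    unfold eC
    rw [hf0 z ((le_max_left _ _).trans_lt hz), hb0 z ((le_max_right _ _).trans_lt hz)]
    ring
  · filter_upwards [chiE_lim G] with z hz
    have h1 := (hz.mul_const (f z)).sub ((int_chiE_lim G hf).mul_const (b z))
    rw [zero_mul, zero_mul, sub_zero] at h1
    exact h1

/-- a normalised bump to the right of the block -/
theorem exists_bump (G : PGeo) (hL : |G.x₁| + G.γ + 3 ≤ G.L) : ∃ b : ℂ → ℝ, Test b ∧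
    ∫ z, b z = 1 ∧ ∀ z, b z ≠ 0 → G.x₁ + G.γ ≤ z.re ∧ ‖z‖ ≤ G.L := by
  set c0 : ℂ := ((G.x₁ + G.γ + 3 / 2 : ℝ) : ℂ) with hc0
  let B : ContDiffBump c0 := ⟨1 / 2, 1, by norm_num, by norm_num⟩
  refine ⟨B.normed volume, ⟨B.contDiff_normed, B.hasCompactSupport_normed⟩, B.integral_normed,
    fun z hz => ?_⟩
  have h1 : z ∈ Function.support (B.normed volume) := hz
  rw [B.support_normed_eq] at h1
  have h2 : ‖z - c0‖ < 1 := by
    rw [← dist_eq_norm]
    exact h1
  have hγ := G.γpos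
  constructor
  · have h3 := (Complex.abs_re_le_norm (z - c0)).trans_lt h2
    rw [Complex.sub_re, hc0, Complex.ofReal_re, abs_lt] at h3
    linarith [h3.1]
  · have h3 : ‖z‖ ≤ ‖z - c0‖ + ‖c0‖ := by
      have := norm_add_le (z - c0) c0
      rwa [sub_add_cancel] at this
    have h4 : ‖c0‖ ≤ |G.x₁| + G.γ + 3 / 2 := by
      rw [hc0, Complex.norm_real, Real.norm_eq_abs]
      calc |G.x₁ + G.γ + 3 / 2| = |G.x₁ + (G.γ + 3 / 2)| := by rw [add_assoc]
        _ ≤ |G.x₁| + |G.γ + 3 / 2| := abs_add_le _ _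
        _ = |G.x₁| + G.γ + 3 / 2 := by rw [abs_of_pos (by linarith : 0 < G.γ + 3 / 2)]; ring
    linarith

/-- **Ward step in a block.** -/
theorem ward_block (I : WIn c A P κ Θ) (hδ : Mesh δ) (ha : Lat δ a f) (hf : Test f)
    (hm : ∀ n, mass (a n) = 0) (hsa : ∀ n v, G.L < ‖ptC (δ n) v‖ → a n v = 0) (hψ : Test ψ)
    (hψG : ∀ z, ψ z ≠ 0 → G.regO z.re z.im) (hL : |G.x₁| + G.γ + 3 ≤ G.L)
    (Q : Patches δ G ι) : Tendsto (Phi P A δ a f ψ Q.Z) atTop (𝓝 0) := by
  obtain ⟨b, hb, hb1, hbG⟩ := exists_bump G hL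
  rw [Metric.tendsto_nhds]
  intro ε hε
  -- choice of the corridor width
  have h1 : Tendsto (fun k => (1 + |k0 A f ψ|) * √(2 - 2 * Real.exp (-(A * plog (eC (Gk G k) f b)
      (eC (Gk G k) f b)) / 2))) atTop (𝓝 0) := by
    have h2 := (((((((plog_eC_lim G hf hb).const_mul A).neg).div_const 2).rexp).const_mul
      2).const_sub 2).sqrt.const_mul (1 + |k0 A f ψ|)
    have h3 : (1 + |k0 A f ψ|) * √(2 - 2 * Real.exp (-(A * 0) / 2)) = 0 := by
      simp
    rw [h3] at h2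
    exact h2
  obtain ⟨k, hk⟩ := (h1.eventually (gt_mem_nhds (half_pos hε))).exists
  -- shift
  obtain ⟨C, hC, hCb⟩ := (Lat.of_test (δ := δ) hb).mass hδ hb
  have h4 : Tendsto (fun n => C * δ n) atTop (𝓝 0) := by
    have := hδ.lim.const_mul C
    rwa [mul_zero] at this
  obtain ⟨N, hN⟩ := eventually_atTop.1 ((h4.eventually (gt_mem_nhds (by norm_num :
    (0 : ℝ) < 1 / 2))).and (hδ.lim.eventually (gt_mem_nhds (gk_pos G k))))
  have W : WDat (fun n => δ (n + N)) (Gk G k) (fun n => a (n + N)) f ψ b :=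
    { mesh := Mesh.shift hδ N
      small := fun n => (hN (n + N) (Nat.le_add_left _ _)).2.le
      lat := Lat.shift ha N
      test := hf
      mass0 := fun n => hm _
      suppa := fun n v hv => hsa _ v hv
      tψ := hψ
      suppψ := fun z hz => by
        have h5 := gk_le G k
        obtain ⟨g1, g2, g3, g4⟩ := hψG z hz
        change G.x₀ + 2 * gk G k ≤ z.re ∧ z.re ≤ G.x₁ - 2 * gk G k ∧
          G.y₀ + 2 * gk G k ≤ z.im ∧ z.im ≤ G.y₁ - 2 * gk G k
        refine ⟨by linarith, by linarith, by linarith, by linarith⟩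
      tb := hb
      suppb := fun z hz => by
        have h5 := gk_le' G k
        obtain ⟨g1, g2⟩ := hbG z hz
        refine ⟨?_, g2⟩
        change G.x₁ + gk G k ≤ z.re
        linarith
      massb := fun n => by
        have h5 := (hN (n + N) (Nat.le_add_left _ _)).1
        have h6 := hCb (n + N)
        rw [hb1] at h6
        have h7 := (abs_le.1 (h6.trans h5.le)).1
        linarith }
  have h5 := ward_limsup I W ((Q.shr (gk G k) (gk_pos G k) (gk_le' G k)).shift N) hb1 (half_pos hε)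
  have h6 : ∀ᶠ n in atTop, ‖Phi P A δ a f ψ Q.Z (n + N)‖ < ε := by
    filter_upwards [h5] with n hn
    have h7 : Phi P A (fun n => δ (n + N)) (fun n => a (n + N)) f ψ
        ((Q.shr (gk G k) (gk_pos G k) (gk_le' G k)).shift N).Z n = Phi P A δ a f ψ Q.Z (n + N) := rfl
    rw [h7] at hn
    linarith
  have h8 : ∀ᶠ n in atTop, ‖Phi P A δ a f ψ Q.Z n‖ < ε := by
    rw [← Filter.map_add_atTop_eq_nat N, Filter.eventually_map]
    exact h6
  filter_upwards [h8] with n hn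
  rwa [dist_zero_right]

end Crest.Agent.R161.Ward369
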