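import Crest.Agent.R161.W7_369

/-!
R161, STEP 6 (helper369), part W8: partition of unity over blocks of grid squares and the main
theorem of the peeling argument.
-/

set_option autoImplicit false

noncomputable section

open Filter Topology MeasureTheory
open scoped ComplexConjugate

namespace Crest.Agent.R161.Ward369

open Crest.Agent.R161.Geo729 Crest.Agent.R161.Defs372 Crest.Agent.R161.Ifc372
open Crest.Agent.R161.Aut373 Crest.Agent.R161.Green722
open Crest.Agent.R161.PeelP369 (PGeo PProb RPHyp)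

/-! ### one-dimensional partition of unity -/

/-- smooth step: `0` for `t ≤ -1/4`, `1` for `t ≥ 1/4` -/
def gst (t : ℝ) : ℝ := Real.smoothTransition (2 * t + 1 / 2)

/-- bump supported in `[-3/4, 3/4]` -/
def tht (t : ℝ) : ℝ := gst (t + 1 / 2) - gst (t - 1 / 2)

theorem gst_zero {t : ℝ} (h : t ≤ -(1 / 4)) : gst t = 0 :=
  Real.smoothTransition.zero_of_nonpos (by linarith)

theorem gst_one {t : ℝ} (h : 1 / 4 ≤ t) : gst t = 1 :=
  Real.smoothTransition.one_of_one_le (by linarith)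

theorem contDiff_gst : ContDiff ℝ (⊤ : ℕ∞) gst :=
  Real.smoothTransition.contDiff.comp ((contDiff_const.mul contDiff_id).add contDiff_const)

theorem contDiff_tht : ContDiff ℝ (⊤ : ℕ∞) tht :=
  (contDiff_gst.comp (contDiff_id.add contDiff_const)).sub
    (contDiff_gst.comp (contDiff_id.sub contDiff_const))

theorem tht_ne {t : ℝ} (h : tht t ≠ 0) : |t| < 3 / 4 := by
  by_contra hcon
  rw [not_lt] at hcon
  apply h
  unfold tht
  rcases le_abs.1 hcon with h1 | h1
  · rw [gst_one (by linarith), gst_one (by linarith), sub_self]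
  · rw [gst_zero (by linarith), gst_zero (by linarith), sub_self]

theorem sum_tht (K : ℕ) (t : ℝ) (ht : |t| ≤ K) :
    ∑ k ∈ Finset.Icc (-(K : ℤ)) K, tht (t - k) = 1 := by
  have h1 : ∀ K : ℕ, ∑ k ∈ Finset.Icc (-(K : ℤ)) K, tht (t - k) =
      gst (t + K + 1 / 2) - gst (t - K - 1 / 2) := by
    intro K
    induction K with
    | zero => simp [tht]
    | succ K ih =>
      have h2 : Finset.Icc (-((K + 1 : ℕ) : ℤ)) ((K + 1 : ℕ) : ℤ) =
          insert (-((K + 1 : ℕ) : ℤ)) (insert (((K + 1 : ℕ) : ℤ)) (Finset.Icc (-(K : ℤ)) K)) := by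
        ext x
        simp only [Finset.mem_insert, Finset.mem_Icc]
        push_cast
        omega
      rw [h2, Finset.sum_insert, Finset.sum_insert, ih]
      · unfold tht
        push_cast
        have e3 : t - (K + 1) + 1 / 2 = t - K - 1 / 2 := by ring
        have e0 : t - -((K : ℝ) + 1) + 1 / 2 = t + (K + 1) + 1 / 2 := by ring
        have e0' : t - -((K : ℝ) + 1) - 1 / 2 = t + K + 1 / 2 := by ring
        rw [e0, e0', e3]
        ring
      · simp only [Finset.mem_Icc]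
        push_cast
        omega
      · simp only [Finset.mem_insert, Finset.mem_Icc]
        push_cast
        omega
  rw [h1, gst_one (by linarith [(abs_le.1 ht).1]), gst_zero (by linarith [(abs_le.1 ht).2]),
    sub_zero]

/-- two-dimensional bump around the grid point `(r k, r l)` -/
def th2 (r : ℝ) (p : ℤ × ℤ) (z : ℂ) : ℝ := tht (z.re / r - p.1) * tht (z.im / r - p.2)

theorem contDiff_th2 (r : ℝ) (p : ℤ × ℤ) : ContDiff ℝ (⊤ : ℕ∞) (th2 r p) := by
  unfold th2
  refine ContDiff.mul (contDiff_tht.comp ?_) (contDiff_tht.comp ?_)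
  · exact (Complex.reCLM.contDiff.div_const _).sub contDiff_const
  · exact (Complex.imCLM.contDiff.div_const _).sub contDiff_const

theorem th2_ne {r : ℝ} (hr : 0 < r) {p : ℤ × ℤ} {z : ℂ} (h : th2 r p z ≠ 0) :
    |z.re - r * p.1| < 3 / 4 * r ∧ |z.im - r * p.2| < 3 / 4 * r := by
  have h1 := tht_ne (left_ne_zero_of_mul h)
  have h2 := tht_ne (right_ne_zero_of_mul h)
  have key : ∀ (x : ℝ) (m : ℤ), |x / r - m| < 3 / 4 → |x - r * m| < 3 / 4 * r := by
    intro x m hx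
    have e : x - r * m = (x / r - m) * r := by field_simp
    rw [e, abs_mul, abs_of_pos hr]
    gcongr
  exact ⟨key _ _ h1, key _ _ h2⟩

/-- the index set -/
def IK (K : ℕ) : Finset (ℤ × ℤ) := Finset.Icc (-(K : ℤ)) K ×ˢ Finset.Icc (-(K : ℤ)) K

theorem sum_th2 {r : ℝ} (K : ℕ) (z : ℂ) (h1 : |z.re / r| ≤ K) (h2 : |z.im / r| ≤ K) :
    ∑ p ∈ IK K, th2 r p z = 1 := by
  unfold IK th2
  rw [Finset.sum_product]
  simp only
  simp_rw [← Finset.mul_sum]
  rw [sum_tht K _ h2]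
  simp only [mul_one]
  exact sum_tht K _ h1

/-! ### patches in grid squares -/

/-- Patch functionals supported in grid squares of side `r`, with margin `γ`. -/
structure SqPatches (δ : ℕ → ℝ) (r γ : ℝ) (ι : Type*) [Fintype ι] where
  Z : ℕ → ι → Cfg → ℂ
  sq : ι → ℤ × ℤ
  T : ℕ → ι → Finset P2
  α : ι → ℝ
  hZ : ∀ n j ω, ‖Z n j ω‖ ≤ 1
  loc : ∀ n j, Loc (T n j : Set P2) (Z n j)
  supp : ∀ n j, ∀ v ∈ T n j,
    (r * (sq j).1 + γ ≤ δ n * v.1 ∧ δ n * v.1 ≤ r * ((sq j).1 + 1) - γ) ∧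
    (r * (sq j).2 + γ ≤ δ n * v.2 ∧ δ n * v.2 ≤ r * ((sq j).2 + 1) - γ)
  chg : ∀ n j, Aut373.Chg (α j) (Z n j)
  neutral : ∑ j, α j = 0

/-- `z` is away from all the patches -/
def Away {δ : ℕ → ℝ} {r γ : ℝ} {ι : Type*} [Fintype ι] (Q : SqPatches δ r γ ι) (z : ℂ) : Prop :=
  ∀ j, 5 / 4 * r ≤ |z.re - r * ((Q.sq j).1 + 1 / 2)| ∨ 5 / 4 * r ≤ |z.im - r * ((Q.sq j).2 + 1 / 2)|

variable {c A : ℝ} {P : Measure Cfg} {κ : ℤ} {Θ : ℤ → Cfg → Cfg} {δ : ℕ → ℝ} {r γ : ℝ}
  {ι : Type*} [Fintype ι]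

/-- group of a square relative to the block centred at the grid point `p` -/
def grpOf (p s : ℤ × ℤ) : Fin 4 :=
  if p.1 + 1 ≤ s.1 then 0 else if p.2 + 1 ≤ s.2 then 1 else if s.2 + 2 ≤ p.2 then 2 else 3

/-- block geometry -/
def blk (r γ L : ℝ) (p : ℤ × ℤ) (hγ : 0 < γ) (hr : γ ≤ r / 4)
    (hL : r * (|(p.1 : ℝ)| + |(p.2 : ℝ)| + 2) + γ ≤ L) : PGeo where
  x₀ := r * (p.1 - 1)
  x₁ := r * (p.1 + 1)
  y₀ := r * (p.2 - 1)
  y₁ := r * (p.2 + 1)
  γ := γ
  L := L
  γpos := hγ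
  hx := by linarith
  hy := by linarith
  hx₀ := by
    have hr0 : 0 < r := by linarith
    have h1 := neg_abs_le (p.1 : ℝ)
    have h2 := abs_nonneg (p.2 : ℝ)
    nlinarith
  hx₁ := by
    have hr0 : 0 < r := by linarith
    have h1 := le_abs_self (p.1 : ℝ)
    have h2 := abs_nonneg (p.2 : ℝ)
    nlinarith
  hy₀ := by
    have hr0 : 0 < r := by linarith
    have h1 := neg_abs_le (p.2 : ℝ)
    have h2 := abs_nonneg (p.1 : ℝ)
    nlinarith
  hy₁ := by
    have hr0 : 0 < r := by linarith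
    have h1 := le_abs_self (p.2 : ℝ)
    have h2 := abs_nonneg (p.1 : ℝ)
    nlinarith

/-- the square `s` is not in the block of `p` -/
def OffBlk (p s : ℤ × ℤ) : Prop := ¬((s.1 = p.1 - 1 ∨ s.1 = p.1) ∧ (s.2 = p.2 - 1 ∨ s.2 = p.2))

theorem offBlk_of_away {Q : SqPatches δ r γ ι} {z : ℂ} (hr : 0 < r) (h : Away Q z) {p : ℤ × ℤ}
    (hp : th2 r p z ≠ 0) (j : ι) : OffBlk p (Q.sq j) := by
  obtain ⟨h1, h2⟩ := th2_ne hr hp
  rintro ⟨h3, h4⟩
  have key : ∀ (x : ℝ) (m s : ℤ), |x - r * m| < 3 / 4 * r → (s = m - 1 ∨ s = m) →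
      |x - r * (s + 1 / 2)| < 5 / 4 * r := by
    intro x m s hx hs
    have e : |r * (m : ℝ) - r * (s + 1 / 2)| = r / 2 := by
      rcases hs with rfl | rfl
      · push_cast
        have : r * (m : ℝ) - r * ((m : ℝ) - 1 + 1 / 2) = r / 2 := by ring
        rw [this, abs_of_pos (by positivity)]
      · have : r * (s : ℝ) - r * ((s : ℝ) + 1 / 2) = -(r / 2) := by ring
        rw [this, abs_neg, abs_of_pos (by positivity)]
    calc |x - r * (s + 1 / 2)| = |(x - r * m) + (r * (m : ℝ) - r * (s + 1 / 2))| := by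
          congr 1; ring
      _ ≤ |x - r * m| + |r * (m : ℝ) - r * (s + 1 / 2)| := abs_add_le _ _
      _ < 3 / 4 * r + r / 2 := by rw [e]; linarith
      _ = 5 / 4 * r := by ring
  rcases h j with h5 | h5
  · exact absurd (key _ _ _ h1 h3) (not_lt.2 h5)
  · exact absurd (key _ _ _ h2 h4) (not_lt.2 h5)

/-- the squares distributed over the four groups -/
def SqPatches.toPatches (Q : SqPatches δ r γ ι) {L : ℝ} (p : ℤ × ℤ) (hγ : 0 < γ) (hr : γ ≤ r / 4)
    (hL : r * (|(p.1 : ℝ)| + |(p.2 : ℝ)| + 2) + γ ≤ L)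
    (hL2 : ∀ j, r * (|((Q.sq j).1 : ℝ)| + |((Q.sq j).2 : ℝ)| + 1) ≤ L)
    (hoff : ∀ j, OffBlk p (Q.sq j)) : Patches δ (blk r γ L p hγ hr hL) ι where
  Z := Q.Z
  grp := fun j => grpOf p (Q.sq j)
  T := Q.T
  α := Q.α
  hZ := Q.hZ
  loc := Q.loc
  supp := by
    intro n j v hv
    obtain ⟨⟨h1, h2⟩, h3, h4⟩ := Q.supp n j v hv
    have hr0 : 0 < r := by linarith
    set s := Q.sq j with hs
    have hL' := hL2 j
    rw [← hs] at hL'
    have o := hoff j
    rw [← hs] at o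
    unfold OffBlk at o
    have a1 := neg_abs_le (s.1 : ℝ)
    have a2 := le_abs_self (s.1 : ℝ)
    have a3 := neg_abs_le (s.2 : ℝ)
    have a4 := le_abs_self (s.2 : ℝ)
    have b1 := abs_nonneg (s.1 : ℝ)
    have b2 := abs_nonneg (s.2 : ℝ)
    have c1 : -L ≤ δ n * v.1 := by nlinarith
    have c2 : δ n * v.1 ≤ L := by nlinarith
    have c3 : -L ≤ δ n * v.2 := by nlinarith
    have c4 : δ n * v.2 ≤ L := by nlinarith
    have mono : ∀ m m' : ℤ, m ≤ m' → r * (m : ℝ) ≤ r * (m' : ℝ) := by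
      intro m m' h
      have : (m : ℝ) ≤ m' := by exact_mod_cast h
      gcongr
    unfold grpOf
    split_ifs with g1 g2 g3
    · have := mono _ _ g1
      push_cast at this
      exact ⟨by change r * ((p.1 : ℝ) + 1) + γ ≤ _; linarith, c2, c3, c4⟩
    · have e1 := mono s.1 p.1 (by omega)
      have e2 := mono _ _ g2
      push_cast at e1 e2
      exact ⟨c1, by change _ ≤ r * ((p.1 : ℝ) + 1) - γ; linarith,
        by change r * ((p.2 : ℝ) + 1) + γ ≤ _; linarith, c4⟩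
    · have e1 := mono s.1 p.1 (by omega)
      have e2 := mono _ _ g3
      push_cast at e1 e2
      exact ⟨c1, by change _ ≤ r * ((p.1 : ℝ) + 1) - γ; linarith, c3,
        by change _ ≤ r * ((p.2 : ℝ) - 1) - γ; linarith⟩
    · have e1 := mono (s.1 + 2) p.1 (by omega)
      have e2 := mono s.2 p.2 (by omega)
      have e3 := mono (p.2 - 1) s.2 (by omega)
      push_cast at e1 e2 e3
      exact ⟨c1, by change _ ≤ r * ((p.1 : ℝ) - 1) - γ; linarith,
        by change r * ((p.2 : ℝ) - 1) + γ ≤ _; linarith,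
        by change _ ≤ r * ((p.2 : ℝ) + 1) - γ; linarith⟩
  chg := Q.chg
  neutral := Q.neutral

/-! ### energies -/

/-- Dirichlet energy `∫ (-Δψ) ψ` -/
def En (ψ : ℂ → ℝ) : ℝ := ∫ z, -(Laplacian.laplacian ψ) z * ψ z

theorem lap_add {φ χ : ℂ → ℝ} (hφ : Test φ) (hχ : Test χ) (z : ℂ) :
    (Laplacian.laplacian (fun z => φ z + χ z)) z =
      (Laplacian.laplacian φ) z + (Laplacian.laplacian χ) z := by
  have h1 : ContDiffAt ℝ 2 φ z := (contDiff_infty.mp hφ.smooth 2).contDiffAt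
  have h2 : ContDiffAt ℝ 2 χ z := (contDiff_infty.mp hχ.smooth 2).contDiffAt
  exact h1.laplacian_add h2

theorem En_eq_plog {ψ : ℂ → ℝ} (hψ : Test ψ) :
    En ψ = plog (fun z => -(Laplacian.laplacian ψ) z) (fun z => -(Laplacian.laplacian ψ) z) :=
  (plog_lap _ hψ).symm

theorem En_add {φ χ : ℂ → ℝ} (hφ : Test φ) (hχ : Test χ) :
    En (fun z => φ z + χ z) = En φ + 2 * (∫ z, -(Laplacian.laplacian φ) z * χ z) + En χ := by
  obtain ⟨r1, _, t1⟩ := Test.tst (Test.neg (Test.lap hφ))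
  obtain ⟨r2, _, t2⟩ := Test.tst (Test.neg (Test.lap hχ))
  have t1' := t1.mono (le_max_left r1 r2)
  have t2' := t2.mono (le_max_right r1 r2)
  rw [En_eq_plog (Test.add hφ hχ)]
  have h1 : (fun z => -(Laplacian.laplacian (fun z => φ z + χ z)) z) =
      fun z => -(Laplacian.laplacian φ) z + -(Laplacian.laplacian χ) z := by
    funext z
    rw [lap_add hφ hχ]
    ring
  rw [h1, plog_add_left t1' t2' (t1'.add t2'), plog_add_right t1' t1' t2',
    plog_add_right t2' t1' t2', plog_symm t2' t1', ← En_eq_plog hφ, ← En_eq_plog hχ,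
    plog_lap _ hχ]
  ring

theorem dL_add (δ : ℝ) (φ χ : ℂ → ℝ) : dL δ (fun z => φ z + χ z) =
    fun v => dL δ φ v + dL δ χ v := by
  funext v
  unfold dL
  ring

/-- the statement for one test function -/
def TT (P : Measure Cfg) (A : ℝ) (Q : SqPatches δ r γ ι) (φ : ℂ → ℝ) : Prop :=
  Tendsto (fun n => ∫ ω, (eY (dL (δ n) φ) ω - ((Real.exp (-(A * En φ) / 2) : ℝ) : ℂ)) *
    ∏ j, Q.Z n j ω ∂P) atTop (𝓝 0)

theorem TT_zero (Q : SqPatches δ r γ ι) : TT P A Q (fun _ => 0) := by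
  unfold TT
  have h1 : ∀ n ω, (eY (dL (δ n) (fun _ => 0)) ω -
      ((Real.exp (-(A * En (fun _ => (0 : ℝ))) / 2) : ℝ) : ℂ)) * ∏ j, Q.Z n j ω = 0 := by
    intro n ω
    have h2 : dL (δ n) (fun _ => 0) = fun _ => 0 := by
      funext v
      unfold dL
      ring
    have h3 : En (fun _ => (0 : ℝ)) = 0 := by
      unfold En
      simp
    rw [h2, eY_zero, h3]
    simp
  simp_rw [h1]
  simp

theorem integrable_prodSq (hP : IsState c P) (Q : SqPatches δ r γ ι) (n : ℕ) :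
    Integrable (fun ω => ∏ j, Q.Z n j ω) P := by
  classical
  refine loc_integrable hP (S := Finset.univ.biUnion (Q.T n))
    (PeelP369.loc_prod _ fun j _ => PeelP369.loc_mono (Q.loc n j) fun v hv => ?_)
  exact Finset.mem_coe.2 (Finset.mem_biUnion.2 ⟨j, Finset.mem_univ j, hv⟩)

theorem integrable_termSq (hP : IsState c P) (Q : SqPatches δ r γ ι) (n : ℕ) {u : P2 → ℝ}
    (hu : Fin0 u) (k : ℂ) :
    Integrable (fun ω => (eY u ω - k) * ∏ j, Q.Z n j ω) P := by
  have := hP.prob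
  have h2 := (integrable_eY hP hu).sub (integrable_const k)
  have h3 := integrable_prodSq hP Q n
  refine Integrable.of_bound (C := 1 + ‖k‖)
    (h2.aestronglyMeasurable.mul h3.aestronglyMeasurable) ?_
  refine Eventually.of_forall fun ω => ?_
  rw [norm_mul]
  calc _ ≤ (1 + ‖k‖) * 1 := by
        gcongr
        · refine (norm_sub_le _ _).trans ?_
          rw [norm_eY]
        · exact PProb.norm_prod_le _ _ fun j _ => Q.hZ n j ω
    _ = _ := mul_one _

/-- telescoping step -/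
theorem TT_step (I : WIn c A P κ Θ) (hδ : Mesh δ) (hγ : 0 < γ) (hr : γ ≤ r / 4)
    (Q : SqPatches δ r γ ι) {φ χ : ℂ → ℝ} (hφ : Test φ) (hχ : Test χ) (p : ℤ × ℤ)
    (hχp : ∀ z, χ z ≠ 0 → |z.re - r * p.1| < 3 / 4 * r ∧ |z.im - r * p.2| < 3 / 4 * r)
    (hoff : ∀ j, OffBlk p (Q.sq j)) (h : TT P A Q φ) : TT P A Q (fun z => φ z + χ z) := by
  have hprob := I.st.prob
  have hr0 : 0 < r := by linarith
  obtain ⟨R, hR, hR1, -⟩ := (lat_dL hδ hφ).supp
  set B : ℝ := ∑ j, r * (|((Q.sq j).1 : ℝ)| + |((Q.sq j).2 : ℝ)| + 1) with hB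
  have hB0 : 0 ≤ B := Finset.sum_nonneg fun j _ => by positivity
  set L : ℝ := R + r * (|(p.1 : ℝ)| + |(p.2 : ℝ)| + 2) + γ + 3 + B with hL
  have hL1 : r * (|(p.1 : ℝ)| + |(p.2 : ℝ)| + 2) + γ ≤ L := by rw [hL]; linarith
  have hL2 : ∀ j, r * (|((Q.sq j).1 : ℝ)| + |((Q.sq j).2 : ℝ)| + 1) ≤ L := by
    intro j
    have h1 : r * (|((Q.sq j).1 : ℝ)| + |((Q.sq j).2 : ℝ)| + 1) ≤ B :=
      Finset.single_le_sum (f := fun j => r * (|((Q.sq j).1 : ℝ)| + |((Q.sq j).2 : ℝ)| + 1))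
        (fun j _ => by positivity) (Finset.mem_univ j)
    have h2 : 0 ≤ r * (|(p.1 : ℝ)| + |(p.2 : ℝ)| + 2) := by positivity
    rw [hL]
    linarith
  set f : ℂ → ℝ := fun z => -(Laplacian.laplacian φ) z with hf
  have key := ward_block (G := blk r γ L p hγ hr hL1) I hδ (a := fun n => dL (δ n) φ) (f := f)
    (lat_dL hδ hφ) (Test.neg (Test.lap hφ)) (fun n => mass_dL (hδ.pos n) hφ) ?_ hχ ?_ ?_
    (Q.toPatches p hγ hr hL1 hL2 hoff)
  · -- combination
    set k : ℝ := k0 A f χ with hk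
    set k1 : ℝ := Real.exp (-(A * En φ) / 2) with hk1
    have hkk : Real.exp (-(A * En (fun z => φ z + χ z)) / 2) = k * k1 := by
      rw [hk, hk1, k0, ← Real.exp_add, En_add hφ hχ]
      congr 1
      have : En χ = ∫ z, -(Laplacian.laplacian χ) z * χ z := rfl
      rw [this]
      ring
    have h1 := key.add (h.const_mul (k : ℂ))
    rw [mul_zero, add_zero] at h1
    refine h1.congr fun n => ?_
    have f1 : Fin0 (dL (δ n) φ) := (lat_dL hδ hφ).fin0 hδ n
    have f2 : Fin0 (dL (δ n) χ) := (lat_dL hδ hχ).fin0 hδ n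
    have i1 : Integrable (fun ω => eY (dL (δ n) φ) ω * (eY (dL (δ n) χ) ω - (k : ℂ)) *
        ∏ j, Q.Z n j ω) P :=
      integrable_term I.st (Q.toPatches p hγ hr hL1 hL2 hoff) n f1 f2 (k : ℂ)
    have i2 := (integrable_termSq I.st Q n f1 (k1 : ℂ)).const_mul (k : ℂ)
    change (∫ ω, eY (dL (δ n) φ) ω * (eY (dL (δ n) χ) ω - (k : ℂ)) * ∏ j, Q.Z n j ω ∂P) +
      (k : ℂ) * (∫ ω, (eY (dL (δ n) φ) ω - (k1 : ℂ)) * ∏ j, Q.Z n j ω ∂P) = _
    rw [← integral_const_mul, ← integral_add i1 i2]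
    refine integral_congr_ae (Eventually.of_forall fun ω => ?_)
    simp only
    rw [hkk, dL_add, eY_add f1 f2]
    push_cast
    change eY (dL (δ n) φ) ω * (eY (dL (δ n) χ) ω - (k : ℂ)) * ∏ j, Q.Z n j ω +
      (k : ℂ) * ((eY (dL (δ n) φ) ω - (k1 : ℂ)) * ∏ j, Q.Z n j ω) = _
    ring
  · intro n v hv
    refine hR1 n v ?_
    have h2 : 0 ≤ r * (|(p.1 : ℝ)| + |(p.2 : ℝ)| + 2) := by positivity
    change L < _ at hv
    rw [hL] at hv
    linarith
  · intro z hz
    obtain ⟨h1, h2⟩ := hχp z hz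
    rw [abs_lt] at h1 h2
    change r * ((p.1 : ℝ) - 1) + γ ≤ z.re ∧ z.re ≤ r * ((p.1 : ℝ) + 1) - γ ∧
      r * ((p.2 : ℝ) - 1) + γ ≤ z.im ∧ z.im ≤ r * ((p.2 : ℝ) + 1) - γ
    refine ⟨by linarith [h1.1], by linarith [h1.2], by linarith [h2.1], by linarith [h2.2]⟩
  · change |r * ((p.1 : ℝ) + 1)| + γ + 3 ≤ L
    have h1 : |r * ((p.1 : ℝ) + 1)| ≤ r * (|(p.1 : ℝ)| + |(p.2 : ℝ)| + 2) := by
      rw [abs_mul, abs_of_pos hr0]
      gcongr
      have h2 := abs_add_le (p.1 : ℝ) 1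
      rw [abs_one] at h2
      have h3 := abs_nonneg (p.2 : ℝ)
      linarith
    rw [hL]
    linarith

/-- **Main theorem of the peeling argument (STEP 6).** For every test function `ψ` supported away
from the patches, conditionally on any product of neutral patch functionals the field
`-Δψ` is Gaussian with the Dirichlet energy as variance. -/
theorem ward_main (I : WIn c A P κ Θ) (hδ : Mesh δ) (hγ : 0 < γ) (hr : γ ≤ r / 4)
    (Q : SqPatches δ r γ ι) {ψ : ℂ → ℝ} (hψ : Test ψ) (hfar : ∀ z, ψ z ≠ 0 → Away Q z) :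
    TT P A Q ψ := by
  have hr0 : 0 < r := by linarith
  obtain ⟨R, hR, hR0⟩ := Test.exists_radius hψ
  obtain ⟨K, hK⟩ := exists_nat_ge (R / r)
  -- partial sums
  have hsum : ∀ s : Finset (ℤ × ℤ), Test (fun z => ∑ p ∈ s, th2 r p z * ψ z) ∧
      TT P A Q (fun z => ∑ p ∈ s, th2 r p z * ψ z) := by
    intro s
    induction s using Finset.induction_on with
    | empty => exact ⟨by simpa using test_zero, by simpa using TT_zero Q⟩
    | insert p s hp ih =>
      have hχ : Test (fun z => th2 r p z * ψ z) := Test.smooth_mul hψ (contDiff_th2 r p)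
      have e1 : (fun z => ∑ p ∈ insert p s, th2 r p z * ψ z) =
          fun z => (∑ p ∈ s, th2 r p z * ψ z) + th2 r p z * ψ z := by
        funext z
        rw [Finset.sum_insert hp, add_comm]
      rw [e1]
      refine ⟨Test.add ih.1 hχ, ?_⟩
      by_cases hz : ∃ z, th2 r p z * ψ z ≠ 0
      · obtain ⟨z, hz⟩ := hz
        refine TT_step I hδ hγ hr Q ih.1 hχ p (fun z hz => th2_ne hr0 (left_ne_zero_of_mul hz))
          (fun j => ?_) ih.2
        exact offBlk_of_away hr0 (hfar z (right_ne_zero_of_mul hz)) (left_ne_zero_of_mul hz) j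
      · push Not at hz
        have e2 : (fun z => (∑ p ∈ s, th2 r p z * ψ z) + th2 r p z * ψ z) =
            fun z => ∑ p ∈ s, th2 r p z * ψ z := by
          funext z
          rw [hz z, add_zero]
        rw [e2]
        exact ih.2
  have h1 := (hsum (IK K)).2
  have e : (fun z => ∑ p ∈ IK K, th2 r p z * ψ z) = ψ := by
    funext z
    rw [← Finset.sum_mul]
    by_cases hz : ψ z = 0
    · rw [hz, mul_zero]
    · have hzR : ‖z‖ ≤ R := by
        by_contra hcon
        exact hz (hR0 z (not_le.1 hcon))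
      rw [sum_th2 K z, one_mul]
      · rw [abs_div, abs_of_pos hr0]
        exact (div_le_div_of_nonneg_right ((Complex.abs_re_le_norm z).trans hzR) hr0.le).trans hK
      · rw [abs_div, abs_of_pos hr0]
        exact (div_le_div_of_nonneg_right ((Complex.abs_im_le_norm z).trans hzR) hr0.le).trans hK
  rw [e] at h1
  exact h1

end Crest.Agent.R161.Ward369
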