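import Crest.Agent.R161.Sm_373
import Crest.Agent.R161.PeelP_369

/-!
# Row 161, Ward step (helper682), part 1

* `sm_area` : second moment bound `∫ (XL a)² ≤ C β Σ |a|` for mass zero densities bounded by
  `β / N²` in the box of size `N` (refinement of `Sm373.sm_bound`).
* `int_norm_exp_sub_le` : `∫ ‖G (e^{iX} - e^{iY})‖ ≤ M √(∫ (X-Y)²)`.
-/

set_option autoImplicit false

noncomputable section

namespace Crest.Agent.R161.War682

open Finset MeasureTheory
open Crest.Agent.R161.Geo729 Crest.Agent.R161.Defs372 Crest.Agent.R161.Ifc372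
open Crest.Agent.R161.Aut373 Crest.Agent.R161.RPlim373 Crest.Agent.R161.Sm373

variable {c : ℝ} {P : Measure Cfg}

/-- **Second moment bound by the area of the support.** -/
theorem sm_area (hP : IsState c P) (hV : VBound P) : ∃ C : ℝ, 0 ≤ C ∧ ∀ N : ℕ, 1 ≤ N →
    ∀ a : P2 →₀ ℝ, (∀ v, a v ≠ 0 → v ∈ bx N) → mass a = 0 → ∀ β : ℝ, 0 ≤ β →
      (∀ v, |a v| ≤ β / N ^ 2) → ∫ ω, (XL a ω) ^ 2 ∂P ≤ C * β * ∑ v ∈ bx N, |a v| := by
  obtain ⟨C₁, hC₁0, hC₁⟩ := VV_le hV
  obtain ⟨C, hC0, hC⟩ := hV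
  refine ⟨(1 / 2) * (165 * C + 3 * C₁), by positivity, fun N hN a ha h0 β hβ hab => ?_⟩
  have hN' : (1 : ℝ) ≤ N := by exact_mod_cast hN
  have hNpos : (0 : ℝ) < N := by linarith
  have hq : ((N : ℤ), (0 : ℤ)) ≠ (0 : P2) := by
    intro h
    have := congrArg Prod.fst h
    simp at this
    omega
  set q : P2 := ((N : ℤ), (0 : ℤ)) with hqdef
  have hnq : nrm q = N := by
    simp [nrm, hqdef, Real.sqrt_sq (by positivity : (0 : ℝ) ≤ N)]
  have hsum0 : ∑ v ∈ bx N, a v = 0 := by rw [← mass_eq ha, h0]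
  rw [integral_XL_sq hP ha h0]
  have e1 : ∑ x ∈ bx N, ∑ y ∈ bx N, a x * a y * Ifc372.VV P (x - y) =
      ∑ x ∈ bx N, ∑ y ∈ bx N, a x * a y * (Ifc372.VV P (x - y) - Ifc372.VV P q) := by
    have : ∑ x ∈ bx N, ∑ y ∈ bx N, a x * a y * Ifc372.VV P q = 0 := by
      have e : ∀ x ∈ bx N, ∑ y ∈ bx N, a x * a y * Ifc372.VV P q = 0 := by
        intro x _
        have : ∑ y ∈ bx N, a x * a y * Ifc372.VV P q = a x * Ifc372.VV P q * ∑ y ∈ bx N, a y := by
          rw [Finset.mul_sum]
          exact Finset.sum_congr rfl fun y _ => by ring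
        rw [this, hsum0, mul_zero]
      exact Finset.sum_eq_zero e
    rw [← sub_zero (∑ x ∈ bx N, ∑ y ∈ bx N, a x * a y * Ifc372.VV P (x - y)), ← this,
      ← Finset.sum_sub_distrib]
    refine Finset.sum_congr rfl fun x _ => ?_
    rw [← Finset.sum_sub_distrib]
    exact Finset.sum_congr rfl fun y _ => by ring
  rw [e1]
  have hVq : Ifc372.VV P q ≤ C₁ * (1 + Real.log N) :=
    hC₁ N hN q (by simp [hqdef]; omega) (by simp [hqdef])
  have hlogN : Real.log N ≤ 2 * N := by
    have := Real.log_le_sub_one_of_pos (by linarith : (0 : ℝ) < N)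
    linarith
  -- row bounds
  have hrow : ∀ x ∈ bx N, |∑ y ∈ bx N, a x * a y * (Ifc372.VV P (x - y) - Ifc372.VV P q)| ≤
      |a x| * ((β / N ^ 2) * (C * (165 * (N : ℝ) ^ 2) + 3 * C₁ * N)) := by
    intro x hx
    rw [← Finset.sum_filter_add_sum_filter_not (bx N) (fun y => y ≠ x)]
    have hA : |∑ y ∈ (bx N).filter (fun y => y ≠ x), a x * a y * (Ifc372.VV P (x - y) - Ifc372.VV P q)| ≤
        |a x| * ((β / N ^ 2) * (C * (165 * (N : ℝ) ^ 2))) := by
      calc _ ≤ ∑ y ∈ (bx N).filter (fun y => y ≠ x),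
            |a x * a y * (Ifc372.VV P (x - y) - Ifc372.VV P q)| := Finset.abs_sum_le_sum_abs _ _
        _ ≤ ∑ y ∈ (bx N).filter (fun y => y ≠ x), (|a x| * (β / N ^ 2)) *
            (C * (3 + (√((N : ℝ) / m1 (x - y).1) + √((N : ℝ) / m1 (x - y).2)))) := by
            refine Finset.sum_le_sum fun y hy => ?_
            rw [Finset.mem_filter] at hy
            obtain ⟨hy1, hy2⟩ := hy
            have hne : x - y ≠ 0 := sub_ne_zero.2 (Ne.symm hy2)
            rw [mem_bx] at hx hy1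
            have hx1 := abs_le.1 hx.1
            have hx2 := abs_le.1 hx.2
            have hy11 := abs_le.1 hy1.1
            have hy12 := abs_le.1 hy1.2
            have hz1 : |(x - y).1| ≤ 2 * N := by
              rw [abs_le, Prod.fst_sub]
              omega
            have hz2 : |(x - y).2| ≤ 2 * N := by
              rw [abs_le, Prod.snd_sub]
              omega
            have h3 := hC (x - y) q hne hq
            rw [hnq] at h3
            have h4 := Sm373.abs_log_le hN hne hz1 hz2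
            have h5 : |Ifc372.VV P (x - y) - Ifc372.VV P q| ≤
                C * (3 + (√((N : ℝ) / m1 (x - y).1) + √((N : ℝ) / m1 (x - y).2))) := by
              refine h3.trans ?_
              apply mul_le_mul_of_nonneg_left _ hC0
              linarith
            rw [abs_mul, abs_mul]
            have h6 : |a x| * |a y| ≤ |a x| * (β / N ^ 2) :=
              mul_le_mul_of_nonneg_left (hab y) (abs_nonneg _)
            exact mul_le_mul h6 h5 (abs_nonneg _) (mul_nonneg (abs_nonneg _) (by positivity))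
        _ = (|a x| * (β / N ^ 2)) * (C * ∑ y ∈ (bx N).filter (fun y => y ≠ x),
            (3 + (√((N : ℝ) / m1 (x - y).1) + √((N : ℝ) / m1 (x - y).2)))) := by
            rw [Finset.mul_sum, Finset.mul_sum]
        _ ≤ (|a x| * (β / N ^ 2)) * (C * (165 * (N : ℝ) ^ 2)) := by
            gcongr
            exact row_sum_le hN hx
        _ = _ := by ring
    have hB : |∑ y ∈ (bx N).filter (fun y => ¬ y ≠ x), a x * a y * (Ifc372.VV P (x - y) - Ifc372.VV P q)| ≤
        |a x| * ((β / N ^ 2) * (3 * C₁ * N)) := by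
      have : (bx N).filter (fun y => ¬ y ≠ x) = {x} := by
        ext y
        simp only [ne_eq, not_not, Finset.mem_filter, Finset.mem_singleton]
        exact ⟨fun h => h.2, fun h => ⟨h ▸ hx, h⟩⟩
      rw [this, Finset.sum_singleton, sub_self, VV_zero, zero_sub, abs_mul, abs_mul, abs_neg,
        abs_of_nonneg (VV_nonneg P q)]
      have h7 : Ifc372.VV P q ≤ 3 * C₁ * N := by
        refine hVq.trans ?_
        nlinarith
      rw [mul_assoc]
      apply mul_le_mul_of_nonneg_left _ (abs_nonneg _)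
      exact mul_le_mul (hab x) h7 (VV_nonneg P q) (by positivity)
    calc _ ≤ _ := abs_add_le _ _
      _ ≤ |a x| * ((β / N ^ 2) * (C * (165 * (N : ℝ) ^ 2))) +
          |a x| * ((β / N ^ 2) * (3 * C₁ * N)) := add_le_add hA hB
      _ = _ := by ring
  have hfac : (β / N ^ 2) * (C * (165 * (N : ℝ) ^ 2) + 3 * C₁ * N) ≤ (165 * C + 3 * C₁) * β := by
    have e : (β / N ^ 2) * (C * (165 * (N : ℝ) ^ 2) + 3 * C₁ * N) =
        165 * C * β + 3 * C₁ * β * (1 / N) := by
      field_simp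
    rw [e]
    have : 1 / (N : ℝ) ≤ 1 := by
      rw [div_le_one hNpos]
      exact hN'
    nlinarith [mul_nonneg (mul_nonneg hC₁0 hβ) (by linarith : (0 : ℝ) ≤ 1 - 1 / N)]
  have htot : |∑ x ∈ bx N, ∑ y ∈ bx N, a x * a y * (Ifc372.VV P (x - y) - Ifc372.VV P q)| ≤
      ((165 * C + 3 * C₁) * β) * ∑ x ∈ bx N, |a x| := by
    calc _ ≤ ∑ x ∈ bx N, |∑ y ∈ bx N, a x * a y * (Ifc372.VV P (x - y) - Ifc372.VV P q)| :=
          Finset.abs_sum_le_sum_abs _ _
      _ ≤ ∑ x ∈ bx N, |a x| * ((β / N ^ 2) * (C * (165 * (N : ℝ) ^ 2) + 3 * C₁ * N)) :=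
          Finset.sum_le_sum hrow
      _ ≤ ∑ x ∈ bx N, |a x| * ((165 * C + 3 * C₁) * β) :=
          Finset.sum_le_sum fun x _ => mul_le_mul_of_nonneg_left hfac (abs_nonneg _)
      _ = _ := by rw [← Finset.sum_mul]; ring
  have h8 := neg_abs_le (∑ x ∈ bx N, ∑ y ∈ bx N, a x * a y * (Ifc372.VV P (x - y) - Ifc372.VV P q))
  linarith

/-! ### exponentials -/

theorem norm_exp_I_sub_le (x y : ℝ) :
    ‖Complex.exp (Complex.I * (x : ℝ)) - Complex.exp (Complex.I * (y : ℝ))‖ ≤ |x - y| := by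
  have h1 : Complex.exp (Complex.I * (x : ℝ)) - Complex.exp (Complex.I * (y : ℝ)) =
      Complex.exp (Complex.I * (y : ℝ)) * (Complex.exp (Complex.I * ((x - y : ℝ) : ℂ)) - 1) := by
    rw [mul_sub, ← Complex.exp_add, mul_one]
    congr 2
    push_cast
    ring
  rw [h1, norm_mul, mul_comm Complex.I ((y : ℝ) : ℂ), Complex.norm_exp_ofReal_mul_I, one_mul]
  have := Real.norm_exp_I_mul_ofReal_sub_one_le (x := x - y)
  simpa using this

theorem norm_exp_I (x : ℝ) : ‖Complex.exp (Complex.I * (x : ℝ))‖ = 1 := by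
  rw [mul_comm, Complex.norm_exp_ofReal_mul_I]

theorem int_abs_le_sqrt [IsProbabilityMeasure P] {X : Cfg → ℝ} (h2 : MemLp X 2 P) :
    ∫ ω, |X ω| ∂P ≤ √(∫ ω, (X ω) ^ 2 ∂P) := by
  have h1 : Integrable (fun ω => |X ω|) P := (h2.integrable (by norm_num)).abs
  have hsq : Integrable (fun ω => (X ω) ^ 2) P := h2.integrable_sq
  apply Real.le_sqrt_of_sq_le
  have hv := ProbabilityTheory.variance_nonneg (fun ω => |X ω|) P
  have hm : MemLp (fun ω => |X ω|) 2 P := h2.abs
  rw [ProbabilityTheory.variance_eq_sub hm] at hv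
  have e : ∫ ω, ((fun ω => |X ω|) ^ 2) ω ∂P = ∫ ω, (X ω) ^ 2 ∂P := by
    refine integral_congr_ae (Filter.Eventually.of_forall fun ω => ?_)
    simp
  rw [e] at hv
  linarith

end Crest.Agent.R161.War682
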