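import Crest.Agent.R161.Ring1_421
import Crest.Agent.R161.CloL_389
import Crest.Agent.R161.Mix_695

/-!
# Row 161, Ward step (helper682), part 2: charged functionals of the ring cells

* `pC M g a` : indicator of a plus circuit in the collar of the coarse cell `a`
* `zf T M g a` : `z1` (charge `π/2`) for `a ∈ T`, `z0` (charge `0`) for `a ∉ T`
* `sym_ind_Ep` : `sym (ind Ep) = ∑_{T ⊆ ringCells} (1 + (-1)^|T|) ∏_a zf T a` on even configurations
-/

set_option autoImplicit false

noncomputable section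

namespace Crest.Agent.R161.War682

open Finset MeasureTheory
open Crest.Agent.R161.Geo729 Crest.Agent.R161.Defs372 Crest.Agent.R161.Ifc372
open Crest.Agent.R161.Dual374 Crest.Agent.R161.Hull374 Crest.Agent.R161.Clo389
open Crest.Agent.R161.Mix695 (sym ind Per4)

/-- plus circuit in the collar of the coarse cell `a` -/
def CC (M g : ℕ) (a : P2) (ω : Cfg) : Prop := Circ (plusE ω) (ctr M a) (M - 2 * g) (M - g)

/-- its indicator -/
def pC (M g : ℕ) (a : P2) (ω : Cfg) : ℝ := ind (CC M g a) ω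

def z0 (M g : ℕ) (a : P2) (ω : Cfg) : ℝ := (pC M g a ω + pC M g a (addH 2 ω)) / 2

def z1 (M g : ℕ) (a : P2) (ω : Cfg) : ℝ := (pC M g a ω - pC M g a (addH 2 ω)) / 2

open Classical in
/-- the functional of the cell `a` in the term `T` of the expansion -/
def zf (T : Finset P2) (M g : ℕ) (a : P2) (ω : Cfg) : ℝ := if a ∈ T then z1 M g a ω else z0 M g a ω

theorem ind_prod {V : Finset P2} (M g : ℕ) (ω : Cfg) :
    ind (fun ω => Ep M g V (plusE ω)) ω = ∏ a ∈ ringCells V, pC M g a ω := by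
  classical
  unfold pC
  by_cases h : Ep M g V (plusE ω)
  · rw [Mix695.ind_of h]
    refine (Finset.prod_eq_one fun a ha => ?_).symm
    exact Mix695.ind_of (h a ha)
  · rw [Mix695.ind_of_not h]
    unfold Ep at h
    push Not at h
    obtain ⟨a, ha, hn⟩ := h
    exact (Finset.prod_eq_zero ha (Mix695.ind_of_not hn)).symm

theorem prod_zf {V T : Finset P2} (hT : T ⊆ V) (M g : ℕ) (ω : Cfg) :
    ∏ a ∈ V, zf T M g a ω = (∏ a ∈ T, z1 M g a ω) * ∏ a ∈ V \ T, z0 M g a ω := by
  classical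
  rw [← Finset.prod_sdiff hT, mul_comm]
  congr 1
  · refine Finset.prod_congr rfl fun a ha => ?_
    simp [zf, ha]
  · refine Finset.prod_congr rfl fun a ha => ?_
    have : a ∉ T := (Finset.mem_sdiff.1 ha).2
    simp [zf, this]

theorem sym_ind_Ep {V : Finset P2} (M g : ℕ) (ω : Cfg) :
    sym (ind (fun ω => Ep M g V (plusE ω))) ω =
      ∑ T ∈ (ringCells V).powerset, (1 + (-1) ^ T.card) * ∏ a ∈ ringCells V, zf T M g a ω := by
  classical
  unfold sym
  rw [ind_prod, ind_prod]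
  have h1 : ∏ a ∈ ringCells V, pC M g a ω = ∏ a ∈ ringCells V, (z1 M g a ω + z0 M g a ω) := by
    refine Finset.prod_congr rfl fun a _ => ?_
    unfold z0 z1
    ring
  have h2 : ∏ a ∈ ringCells V, pC M g a (addH 2 ω) =
      ∏ a ∈ ringCells V, ((-z1 M g a ω) + z0 M g a ω) := by
    refine Finset.prod_congr rfl fun a _ => ?_
    unfold z0 z1
    ring
  rw [h1, h2, Finset.prod_add, Finset.prod_add, ← Finset.sum_add_distrib]
  refine Finset.sum_congr rfl fun T hT => ?_
  rw [prod_zf (Finset.mem_powerset.1 hT), Finset.prod_neg]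
  ring

/-! ### bounds -/

theorem pC_mem (M g : ℕ) (a : P2) (ω : Cfg) : 0 ≤ pC M g a ω ∧ pC M g a ω ≤ 1 :=
  ⟨Mix695.ind_nonneg _ _, Mix695.ind_le_one _ _⟩

theorem abs_zf_le (T : Finset P2) (M g : ℕ) (a : P2) (ω : Cfg) : |zf T M g a ω| ≤ 1 := by
  have h1 := pC_mem M g a ω
  have h2 := pC_mem M g a (addH 2 ω)
  unfold zf z0 z1
  split_ifs
  · rw [abs_le]; constructor <;> linarith [h1.1, h1.2, h2.1, h2.2]
  · rw [abs_le]; constructor <;> linarith [h1.1, h1.2, h2.1, h2.2]

/-! ### charges -/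

theorem plusE_addH4k (ω : Cfg) (k : ℤ) (e : Edge) : plusE (addH (4 * k) ω) e ↔ plusE ω e := by
  unfold plusE addH
  simp only
  have : (4 : ℤ) ∣ ω.1 (src e) + 4 * k ↔ (4 : ℤ) ∣ ω.1 (src e) := by omega
  rw [this]

theorem pC_addH4k (M g : ℕ) (a : P2) (ω : Cfg) (k : ℤ) :
    pC M g a (addH (4 * k) ω) = pC M g a ω := by
  unfold pC ind CC
  have : plusE (addH (4 * k) ω) = plusE ω := by
    funext e
    exact propext (plusE_addH4k ω k e)
  rw [this]

theorem addH_addH' (a b : ℤ) (ω : Cfg) : addH a (addH b ω) = addH (a + b) ω :=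
  Mix695.addH_addH a b ω

/-- charge of the functional `zf` -/
def chz (T : Finset P2) (a : P2) : ℝ := by
  classical exact if a ∈ T then Real.pi / 2 else 0

theorem exp_half_pi_even (k : ℤ) :
    Complex.exp (Complex.I * ((Real.pi / 2 * ((4 * k : ℤ) : ℝ) : ℝ) : ℂ)) = 1 := by
  rw [Complex.exp_eq_one_iff]
  exact ⟨k, by push_cast; ring⟩

theorem exp_half_pi_odd (k : ℤ) :
    Complex.exp (Complex.I * ((Real.pi / 2 * ((4 * k + 2 : ℤ) : ℝ) : ℝ) : ℂ)) = -1 := by
  have : Complex.I * ((Real.pi / 2 * ((4 * k + 2 : ℤ) : ℝ) : ℝ) : ℂ) =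
      Complex.I * ((Real.pi / 2 * ((4 * k : ℤ) : ℝ) : ℝ) : ℂ) + Real.pi * Complex.I := by
    push_cast
    ring
  rw [this, Complex.exp_add, exp_half_pi_even, Complex.exp_pi_mul_I, one_mul]

theorem chg_zf (T : Finset P2) (M g : ℕ) (a : P2) :
    Aut373.Chg (chz T a) (fun ω => ((zf T M g a ω : ℝ) : ℂ)) := by
  classical
  intro ω _ t ht
  obtain ⟨b, rfl⟩ := ht
  rcases Int.even_or_odd' b with ⟨k, rfl | rfl⟩
  · have e : 2 * k + 2 * k = 4 * k := by ring
    rw [e]
    have h1 : pC M g a (addH (4 * k) ω) = pC M g a ω := pC_addH4k M g a ω k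
    have h2 : pC M g a (addH 2 (addH (4 * k) ω)) = pC M g a (addH 2 ω) := by
      rw [addH_addH', show (2 : ℤ) + 4 * k = 4 * k + 2 by ring, ← addH_addH', pC_addH4k]
    have h3 : zf T M g a (addH (4 * k) ω) = zf T M g a ω := by
      unfold zf z0 z1
      rw [h1, h2]
    simp only [h3]
    unfold chz
    split_ifs with hT
    · rw [exp_half_pi_even, one_mul]
    · simp
  · have e : 2 * k + 1 + (2 * k + 1) = 4 * k + 2 := by ring
    rw [e]
    have h1 : pC M g a (addH (4 * k + 2) ω) = pC M g a (addH 2 ω) := by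
      rw [← addH_addH', pC_addH4k]
    have h2 : pC M g a (addH 2 (addH (4 * k + 2) ω)) = pC M g a ω := by
      rw [addH_addH', show (2 : ℤ) + (4 * k + 2) = 4 * (k + 1) by ring, pC_addH4k]
    unfold chz zf z0 z1
    simp only [h1, h2]
    split_ifs with hT
    · rw [exp_half_pi_odd]
      push_cast
      ring
    · simp [add_comm]

/-! ### locality -/

/-- sites of the cell functional -/
def cellS (M g : ℕ) (a : P2) : Finset P2 := ball (ctr M a) (M - g + 1)

theorem loc_pC (M g : ℕ) (a : P2) : Loc (cellS M g a : Set P2) (pC M g a) := by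
  intro ω ω' h
  have key : CC M g a ω ↔ CC M g a ω' := by
    unfold CC Circ
    refine Ring421.reach_subset_iff fun e he => ?_
    refine (plusE_agree h (e := e) ?_).1
    obtain ⟨⟨i, j⟩, b⟩ := e
    unfold cellS
    rw [Finset.mem_coe, Arc389.mem_ball]
    rw [Finset.mem_coe, Finset.mem_coe, Arc389.mem_ball, Arc389.mem_ball] at he
    cases b
    · simp only [fA_mk, fB_h] at he ⊢
      push_cast
      omega
    · simp only [fA_mk, fB_v] at he ⊢
      push_cast
      omega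
  unfold pC ind
  by_cases hh : CC M g a ω
  · simp [hh, key.1 hh]
  · have hh' : ¬ CC M g a ω' := fun h' => hh (key.2 h')
    simp [hh, hh']

theorem loc_zf (T : Finset P2) (M g : ℕ) (a : P2) :
    Loc (cellS M g a : Set P2) (fun ω => ((zf T M g a ω : ℝ) : ℂ)) := by
  intro ω ω' h
  have h1 := loc_pC M g a ω ω' h
  have h2 := loc_pC M g a _ _ (Mix695.agreeOn_addH h 2)
  unfold zf z0 z1
  simp only [h1, h2]

theorem mem_cellS {M g : ℕ} {a v : P2} (hg : g ≤ M) (h : v ∈ cellS M g a) :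
    2 * (M : ℤ) * a.1 + g - 1 ≤ v.1 ∧ v.1 ≤ 2 * M * a.1 + 2 * M - g ∧
      2 * (M : ℤ) * a.2 + g - 1 ≤ v.2 ∧ v.2 ≤ 2 * M * a.2 + 2 * M - g := by
  unfold cellS at h
  rw [Arc389.mem_ball] at h
  simp only [ctr] at h
  have : ((M - g + 1 : ℕ) : ℤ) = M - g + 1 := by omega
  rw [this] at h
  obtain ⟨h1, h2, h3, h4⟩ := h
  refine ⟨?_, ?_, ?_, ?_⟩ <;> linarith

end Crest.Agent.R161.War682
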