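import Crest.Agent.R161.War2_682
import Crest.Agent.R161.W8_369

/-!
# Row 161, Ward step (helper682), part 3: the ring functionals as patches

* `alp T a` : charges `± π/2` on `T` with total charge zero (for `|T|` even)
* `qT` : the term `T` of the expansion as `SqPatches`
* `supp_ev` : the supports are in the grid squares for `n` large
-/

set_option autoImplicit false

noncomputable section

namespace Crest.Agent.R161.War682

open Finset MeasureTheory Filter Topology
open Crest.Agent.R161.Geo729 Crest.Agent.R161.Defs372 Crest.Agent.R161.Ifc372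
open Crest.Agent.R161.Dual374 Crest.Agent.R161.Hull374 Crest.Agent.R161.Clo389
open Crest.Agent.R161.Ward369
open Crest.Agent.R161.Mix695 (sym ind Per4)

theorem Chg.sub_pi {α : ℝ} {F : Cfg → ℂ} (hF : Aut373.Chg α F) : Aut373.Chg (α - Real.pi) F := by
  intro ω hω a ha
  rw [hF ω hω a ha]
  congr 1
  obtain ⟨b, rfl⟩ := ha
  have : Complex.I * ((α * ((b + b : ℤ) : ℝ) : ℝ) : ℂ) =
      Complex.I * (((α - Real.pi) * ((b + b : ℤ) : ℝ) : ℝ) : ℂ) + b * (2 * Real.pi * Complex.I) := by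
    push_cast
    ring
  rw [this, Complex.exp_add, Complex.exp_int_mul_two_pi_mul_I, mul_one]

theorem exists_alp {T V : Finset P2} (hT : T ⊆ V) (he : Even T.card) :
    ∃ α : P2 → ℝ, ∑ a ∈ V, α a = 0 ∧
      ∀ (M g : ℕ) (a : P2), Aut373.Chg (α a) (fun ω => ((zf T M g a ω : ℝ) : ℂ)) := by
  classical
  obtain ⟨k, hk⟩ := he
  obtain ⟨T1, hT1, hc⟩ := Finset.exists_subset_card_eq (s := T) (n := k) (by omega)
  refine ⟨fun a => if a ∈ T1 then Real.pi / 2 else if a ∈ T then Real.pi / 2 - Real.pi else 0,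
    ?_, ?_⟩
  · have h1 : ∑ a ∈ V, (if a ∈ T1 then Real.pi / 2 else if a ∈ T then Real.pi / 2 - Real.pi else 0) =
        ∑ a ∈ T, (if a ∈ T1 then Real.pi / 2 else if a ∈ T then Real.pi / 2 - Real.pi else 0) := by
      refine (Finset.sum_subset hT fun a _ ha => ?_).symm
      rw [if_neg fun h => ha (hT1 h), if_neg ha]
    rw [h1, ← Finset.sum_sdiff hT1]
    have h2 : ∑ a ∈ T \ T1, (if a ∈ T1 then Real.pi / 2 else if a ∈ T then Real.pi / 2 - Real.pi
        else 0) = ∑ a ∈ T \ T1, (Real.pi / 2 - Real.pi) := by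
      refine Finset.sum_congr rfl fun a ha => ?_
      rw [Finset.mem_sdiff] at ha
      rw [if_neg ha.2, if_pos ha.1]
    have h3 : ∑ a ∈ T1, (if a ∈ T1 then Real.pi / 2 else if a ∈ T then Real.pi / 2 - Real.pi
        else 0) = ∑ a ∈ T1, (Real.pi / 2) :=
      Finset.sum_congr rfl fun a ha => by rw [if_pos ha]
    rw [h2, h3, Finset.sum_const, Finset.sum_const, Finset.card_sdiff_of_subset hT1, hc, hk]
    simp only [Nat.add_sub_cancel, nsmul_eq_mul]
    ring
  · intro M g a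
    have h := chg_zf T M g a
    unfold chz at h
    by_cases h1 : a ∈ T1
    · rw [if_pos (hT1 h1)] at h
      simp only [if_pos h1]
      exact h
    · by_cases h2 : a ∈ T
      · rw [if_pos h2] at h
        simp only [if_neg h1, if_pos h2]
        exact Chg.sub_pi h
      · rw [if_neg h2] at h
        simp only [if_neg h1, if_neg h2]
        exact h

/-- supports of the cell functionals in the grid squares -/
def SuppOk (V : Finset P2) (δ r γ : ℝ) (M g : ℕ) : Prop :=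
  ∀ a ∈ ringCells V, ∀ v ∈ cellS M g a,
    (r * (a.1 : ℝ) + γ ≤ δ * v.1 ∧ δ * v.1 ≤ r * ((a.1 : ℝ) + 1) - γ) ∧
    (r * (a.2 : ℝ) + γ ≤ δ * v.2 ∧ δ * v.2 ≤ r * ((a.2 : ℝ) + 1) - γ)

/-- **The term `T` of the expansion as patches.** -/
def qT {V T : Finset P2} (hT : T ⊆ ringCells V) (he : Even T.card) (δ : ℕ → ℝ) (r γ : ℝ)
    (M g : ℕ → ℕ) (hs : ∀ n, SuppOk V (δ n) r γ (M n) (g n)) :
    SqPatches δ r γ {a // a ∈ ringCells V} where
  Z := fun n a ω => ((zf T (M n) (g n) a.1 ω : ℝ) : ℂ)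
  sq := fun a => a.1
  T := fun n a => cellS (M n) (g n) a.1
  α := fun a => (exists_alp hT he).choose a.1
  hZ := fun n a ω => by
    rw [Complex.norm_real]
    exact abs_zf_le T _ _ _ ω
  loc := fun n a => loc_zf T _ _ _
  supp := fun n a v hv => hs n a.1 a.2 v hv
  chg := fun n a => (exists_alp hT he).choose_spec.2 _ _ _
  neutral := (Finset.sum_coe_sort (ringCells V) (fun a => (exists_alp hT he).choose a)).trans
    (exists_alp hT he).choose_spec.1

theorem supp_ev (V : Finset P2) {δ : ℕ → ℝ} {g : ℕ → ℕ} {lam : ℕ} {r : ℝ} (hlam : 1 ≤ lam)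
    (hr : 0 < r) (hδ : ∀ n, 0 < δ n) (hδ0 : Tendsto δ atTop (𝓝 0))
    (hg : Tendsto (fun n => δ n * (2 * lam * g n)) atTop (𝓝 r)) :
    ∀ᶠ n in atTop, SuppOk V (δ n) r (r / (4 * lam)) (lam * g n) (g n) := by
  have hlam' : (1 : ℝ) ≤ lam := by exact_mod_cast hlam
  -- bound of the cells
  obtain ⟨K, hK⟩ : ∃ K : ℝ, 1 ≤ K ∧ ∀ a ∈ ringCells V, |(a.1 : ℝ)| ≤ K ∧ |(a.2 : ℝ)| ≤ K := by
    refine ⟨1 + ∑ a ∈ ringCells V, (|(a.1 : ℝ)| + |(a.2 : ℝ)|), ?_, fun a ha => ?_⟩
    · have : 0 ≤ ∑ a ∈ ringCells V, (|(a.1 : ℝ)| + |(a.2 : ℝ)|) :=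
        Finset.sum_nonneg fun a _ => by positivity
      linarith
    · have : |(a.1 : ℝ)| + |(a.2 : ℝ)| ≤ ∑ a ∈ ringCells V, (|(a.1 : ℝ)| + |(a.2 : ℝ)|) :=
        Finset.single_le_sum (f := fun a : P2 => |(a.1 : ℝ)| + |(a.2 : ℝ)|)
          (fun a _ => by positivity) ha
      have h1 := abs_nonneg (a.1 : ℝ)
      have h2 := abs_nonneg (a.2 : ℝ)
      constructor <;> linarith
  obtain ⟨hK1, hK⟩ := hK
  -- tolerance
  set η : ℝ := r / (16 * lam * (K + 1)) with hη
  have hη0 : 0 < η := by positivity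
  have h1 : ∀ᶠ n in atTop, |δ n * (2 * lam * g n) - r| < η := by
    have := (Metric.tendsto_nhds.1 hg) η hη0
    filter_upwards [this] with n hn
    rwa [Real.dist_eq] at hn
  have h2 : ∀ᶠ n in atTop, δ n < r / (16 * lam) := hδ0.eventually_lt_const (by positivity)
  filter_upwards [h1, h2] with n hn1 hn2
  intro a ha v hv
  obtain ⟨hK1', hK2'⟩ := hK a ha
  have hgM : g n ≤ lam * g n := Nat.le_mul_of_pos_left _ hlam
  obtain ⟨m1, m2, m3, m4⟩ := mem_cellS hgM hv
  have hδn := hδ n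
  rw [abs_lt] at hn1
  -- `ρ = 2 lam g δ`
  set ρ : ℝ := δ n * (2 * lam * g n) with hρ
  have hgδ : δ n * (g n : ℝ) = ρ / (2 * lam) := by
    rw [hρ]; field_simp
  have hηl : η ≤ r / (32 * lam) := by
    rw [hη]
    apply div_le_div_of_nonneg_left hr.le (by positivity)
    nlinarith
  have hηK : η * (K + 1) = r / (16 * lam) := by
    rw [hη]; field_simp
  have key : ∀ (x y : ℤ), |(x : ℝ)| ≤ K →
      2 * ((lam * g n : ℕ) : ℤ) * x + (g n : ℤ) - 1 ≤ y →
      y ≤ 2 * ((lam * g n : ℕ) : ℤ) * x + 2 * ((lam * g n : ℕ) : ℤ) - (g n : ℤ) →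
      r * (x : ℝ) + r / (4 * lam) ≤ δ n * y ∧ δ n * y ≤ r * ((x : ℝ) + 1) - r / (4 * lam) := by
    intro x y hx h3 h4
    have h3' : 2 * ((lam : ℝ) * g n) * x + g n - 1 ≤ y := by exact_mod_cast h3
    have h4' : (y : ℝ) ≤ 2 * ((lam : ℝ) * g n) * x + 2 * ((lam : ℝ) * g n) - g n := by
      exact_mod_cast h4
    have h5 : ρ * x + ρ / (2 * lam) - δ n ≤ δ n * y := by
      calc ρ * x + ρ / (2 * lam) - δ n = δ n * (2 * ((lam : ℝ) * g n) * x + g n - 1) := by
            rw [← hgδ, hρ]; ring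
        _ ≤ δ n * y := mul_le_mul_of_nonneg_left h3' hδn.le
    have h6 : δ n * y ≤ ρ * x + ρ - ρ / (2 * lam) := by
      calc δ n * y ≤ δ n * (2 * ((lam : ℝ) * g n) * x + 2 * ((lam : ℝ) * g n) - g n) :=
            mul_le_mul_of_nonneg_left h4' hδn.le
        _ = ρ * x + ρ - ρ / (2 * lam) := by rw [← hgδ, hρ]; ring
    have h7 : |(ρ - r) * x| ≤ η * K := by
      rw [abs_mul]
      exact mul_le_mul (abs_le.2 ⟨by linarith [hn1.1], by linarith [hn1.2]⟩) hx (abs_nonneg _)
        hη0.le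
    rw [abs_le] at h7
    have h8 : (r - η) / (2 * lam) ≤ ρ / (2 * lam) := by
      apply div_le_div_of_nonneg_right _ (by positivity)
      linarith [hn1.1]
    have h9 : η / (2 * lam) ≤ η / 2 := by
      apply div_le_div_of_nonneg_left hη0.le (by norm_num)
      linarith
    have h10 : (r - η) / (2 * lam) = r / (2 * lam) - η / (2 * lam) := by ring
    have e1 : r / (2 * lam) = 2 * (r / (4 * lam)) := by field_simp; ring
    have e2 : r / (16 * lam) = (r / (4 * lam)) / 4 := by field_simp; ring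
    have e3 : r / (32 * lam) = (r / (4 * lam)) / 8 := by field_simp; ring
    have hq : 0 < r / (4 * lam) := by positivity
    have hηK' : η * K = r / (16 * lam) - η := by rw [← hηK]; ring
    constructor
    · nlinarith
    · nlinarith
  exact ⟨key a.1 v.1 hK1' m1 m2, key a.2 v.2 hK2' m3 m4⟩

end Crest.Agent.R161.War682
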