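import Crest.Agent.R161.War3_682
import Crest.Agent.R161.Ring_695

/-!
# Row 161, Ward step (helper682), part 4: the Ward identity on the ring event

* `wardRing : WIn c A P κ Θ → Ring695.WardRing P A`, from `Ward369.ward_main` and the expansion of
  the ring event in charged cell functionals.
-/

set_option autoImplicit false

noncomputable section

namespace Crest.Agent.R161.War682

open Finset MeasureTheory Filter Topology
open Crest.Agent.R161.Geo729 Crest.Agent.R161.Defs372 Crest.Agent.R161.Ifc372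
open Crest.Agent.R161.Dual374 Crest.Agent.R161.Hull374 Crest.Agent.R161.Clo389
open Crest.Agent.R161.Ward369
open Crest.Agent.R161.Asm695 (disc)
open Crest.Agent.R161.Lap695 (lap5)
open Crest.Agent.R161.Mix695 (sym ind Per4)
open Crest.ProbabilityR.AshkinTeller (pos)

/-! ### geometry -/

theorem away_of {δ : ℕ → ℝ} {r γ R1 : ℝ} {ι : Type*} [Fintype ι] (hr : 0 < r)
    (Q : SqPatches δ r γ ι) (hsq : ∀ j, Q.sq j ∈ ringCells (disc 1 R1)) {z : ℂ}
    (hz : ‖z‖ < r * (R1 - 6)) : Away Q z := by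
  intro j
  by_contra hcon
  rw [not_or, not_le, not_le] at hcon
  obtain ⟨h1, h2⟩ := hcon
  set a : P2 := Q.sq j with ha
  have key : ∀ (x : ℝ) (m : ℤ), |x - r * ((m : ℝ) + 1 / 2)| < 5 / 4 * r →
      ∃ e : ℤ, (e = 0 ∨ e = 1) ∧ |x - r * ((m + e : ℤ) : ℝ)| ≤ 3 / 4 * r := by
    intro x m hx
    rw [abs_lt] at hx
    rcases le_total x (r * ((m : ℝ) + 1 / 2)) with h | h
    · refine ⟨0, Or.inl rfl, ?_⟩
      rw [abs_le]
      push_cast
      constructor <;> nlinarith [hx.1, hx.2]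
    · refine ⟨1, Or.inr rfl, ?_⟩
      rw [abs_le]
      push_cast
      constructor <;> nlinarith [hx.1, hx.2]
  obtain ⟨e1, he1, h1'⟩ := key _ _ h1
  obtain ⟨e2, he2, h2'⟩ := key _ _ h2
  set u : P2 := (a.1 + e1, a.2 + e2) with hu
  have hc : Geo729.IsCorner u a := by
    unfold Geo729.IsCorner
    rcases he1 with rfl | rfl <;> rcases he2 with rfl | rfl <;> simp [hu]
  have h3 := (RingGeo695.ringCell_norm (hsq j) hc).1
  have h4 : ‖z - (r : ℂ) * pos 1 u‖ ≤ 3 / 2 * r := by
    refine (Complex.norm_le_abs_re_add_abs_im _).trans ?_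
    have e1' : (z - (r : ℂ) * pos 1 u).re = z.re - r * ((a.1 + e1 : ℤ) : ℝ) := by
      simp [pos, hu]
    have e2' : (z - (r : ℂ) * pos 1 u).im = z.im - r * ((a.2 + e2 : ℤ) : ℝ) := by
      simp [pos, hu]
    rw [e1', e2']
    linarith
  have h5 : r * ‖pos 1 u‖ ≤ ‖z‖ + 3 / 2 * r := by
    have h6 := norm_sub_norm_le ((r : ℂ) * pos 1 u) z
    rw [norm_sub_rev, norm_mul, Complex.norm_real, Real.norm_eq_abs, abs_of_pos hr] at h6
    linarith
  nlinarith

/-! ### the functional -/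

theorem dL_eq (δ : ℝ) (ψ : ℂ → ℝ) (v : P2) : dL δ ψ v = -lap5 δ ψ (pos δ v) := by
  unfold dL lap5 ptC pos
  have e1 : (δ : ℂ) * ((v.1 : ℂ) + (v.2 : ℂ) * Complex.I) + δ =
      (δ : ℂ) * (((v.1 + 1 : ℤ) : ℂ) + (v.2 : ℂ) * Complex.I) := by push_cast; ring
  have e2 : (δ : ℂ) * ((v.1 : ℂ) + (v.2 : ℂ) * Complex.I) - δ =
      (δ : ℂ) * (((v.1 - 1 : ℤ) : ℂ) + (v.2 : ℂ) * Complex.I) := by push_cast; ring
  have e3 : (δ : ℂ) * ((v.1 : ℂ) + (v.2 : ℂ) * Complex.I) + δ * Complex.I =
      (δ : ℂ) * ((v.1 : ℂ) + ((v.2 + 1 : ℤ) : ℂ) * Complex.I) := by push_cast; ring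
  have e4 : (δ : ℂ) * ((v.1 : ℂ) + (v.2 : ℂ) * Complex.I) - δ * Complex.I =
      (δ : ℂ) * ((v.1 : ℂ) + ((v.2 - 1 : ℤ) : ℂ) * Complex.I) := by push_cast; ring
  rw [e1, e2, e3, e4]
  ring

theorem Yl_dL {δ : ℝ} {ψ : ℂ → ℝ} {T : Finset P2} (s : ℝ)
    (hT : ∀ v, lap5 δ ψ (pos δ v) ≠ 0 → v ∈ T) (ω : Cfg) :
    Yl (dL δ (fun z => s * ψ z)) ω = s * Asm695.Lin T (fun v => -lap5 δ ψ (pos δ v)) ω := by
  have h1 : dL δ (fun z => s * ψ z) = fun v => s * dL δ ψ v := by
    funext v
    unfold dL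
    ring
  rw [h1, Yl_smul, Yl_eq_sum (S := T)]
  · unfold Asm695.Lin
    congr 1
    refine Finset.sum_congr rfl fun v _ => ?_
    rw [dL_eq]
    ring
  · intro v hv
    rw [dL_eq]
    by_contra hne
    exact hv (hT v fun h => hne (by rw [h, neg_zero]))

theorem En_smul {ψ : ℂ → ℝ} (hψ : ContDiff ℝ (⊤ : ℕ∞) ψ) (s : ℝ) :
    En (fun z => s * ψ z) = s ^ 2 * ∫ z, ψ z * (-(Laplacian.laplacian ψ) z) := by
  unfold En
  rw [← integral_const_mul]
  congr 1
  funext z
  have h1 : (Laplacian.laplacian (fun z => s * ψ z)) z = s * (Laplacian.laplacian ψ) z := by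
    have := InnerProductSpace.laplacian_smul (f := ψ) (x := z) s
      ((contDiff_infty.mp hψ 2).contDiffAt)
    exact this
  rw [h1]
  ring

/-! ### the Ward identity -/

/-- **The Ward identity on the ring event.** -/
theorem wardRing {c A : ℝ} {P : Measure Cfg} {κ : ℤ} {Θ : ℤ → Cfg → Cfg} (I : WIn c A P κ Θ) :
    Ring695.WardRing P A := by
  classical
  intro r R1 lam hr hR1 hlam ψ s hψ hψc hψ0 dl g hdl hdl0 hg T hT
  have := I.st.prob
  set V : Finset P2 := disc 1 R1 with hV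
  set γ : ℝ := r / (4 * lam) with hγ
  have hlam' : (16 : ℝ) ≤ lam := by exact_mod_cast hlam
  have hγ0 : 0 < γ := by positivity
  have hγr : γ ≤ r / 4 := by
    rw [hγ]
    apply div_le_div_of_nonneg_left hr.le (by norm_num)
    linarith
  -- large `n`
  have hev := (supp_ev V (by omega) hr hdl hdl0 hg).and
    (hdl0.eventually_le_const (zero_lt_one))
  obtain ⟨N0, hN0⟩ := eventually_atTop.1 hev
  -- shifted sequences
  set d : ℕ → ℝ := fun n => dl (n + N0) with hd
  have hmesh : Mesh d :=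
    { pos := fun n => hdl _
      le_one := fun n => (hN0 (n + N0) (by omega)).2
      lim := hdl0.comp (tendsto_add_atTop_nat N0) }
  have hs : ∀ n, SuppOk V (d n) r γ (lam * g (n + N0)) (g (n + N0)) :=
    fun n => (hN0 (n + N0) (by omega)).1
  set φ : ℂ → ℝ := fun z => s * ψ z with hφ
  have hTφ : Test φ := Test.smul (⟨hψ, hψc⟩ : Test ψ) s
  set k : ℝ := Real.exp (-(s ^ 2 * (A * ∫ z, ψ z * (-(Laplacian.laplacian ψ) z)) / 2)) with hk
  have hkk : Real.exp (-(A * En φ) / 2) = k := by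
    rw [hk, hφ, En_smul hψ]
    congr 1
    ring
  set L : ℕ → Cfg → ℝ := fun n ω =>
    s * Asm695.Lin (T n) (fun v => -lap5 (dl n) ψ (pos (dl n) v)) ω with hL
  -- the real functional of one term
  set Fz : Finset P2 → ℕ → Cfg → ℝ := fun S n ω =>
    (Real.cos (L n ω) - k) * ∏ a ∈ ringCells V, zf S (lam * g n) (g n) a ω with hFz
  have fin0 : ∀ n, Fin0 (dL (d n) φ) := fun n => (lat_dL hmesh hTφ).fin0 hmesh n
  have hYl : ∀ n ω, Yl (dL (d n) φ) ω = L (n + N0) ω := fun n ω =>
    Yl_dL s (hT (n + N0)) ω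
  have hre : ∀ (x : ℝ) (y : ℝ), ((Complex.exp (Complex.I * (x : ℂ)) - (k : ℂ)) * (y : ℂ)).re =
      (Real.cos x - k) * y := by
    intro x y
    rw [Complex.re_mul_ofReal, Complex.sub_re, Complex.ofReal_re, mul_comm Complex.I,
      Complex.exp_ofReal_mul_I_re]
  -- one even term
  have hterm : ∀ S ∈ (ringCells V).powerset, Even S.card →
      (∀ n, Integrable (Fz S (n + N0)) P) ∧
        Tendsto (fun n => ∫ ω, Fz S (n + N0) ω ∂P) atTop (𝓝 0) := by
    intro S hS he
    have hS' := Finset.mem_powerset.1 hS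
    set Q := qT hS' he d r γ (fun n => lam * g (n + N0)) (fun n => g (n + N0)) hs with hQ
    have hfar : ∀ z, φ z ≠ 0 → Away Q z := by
      intro z hz
      refine away_of hr Q (fun j => j.2) ?_
      by_contra hcon
      apply hz
      rw [hφ]
      simp only
      rw [hψ0 z (not_lt.1 hcon), mul_zero]
    have hmain := ward_main I hmesh hγ0 hγr Q hTφ hfar
    unfold TT at hmain
    rw [hkk] at hmain
    have hprod : ∀ n ω, ∏ j, Q.Z n j ω =
        ((∏ a ∈ ringCells V, zf S (lam * g (n + N0)) (g (n + N0)) a ω : ℝ) : ℂ) := by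
      intro n ω
      rw [Complex.ofReal_prod]
      exact Finset.prod_coe_sort (ringCells V)
        (fun a => ((zf S (lam * g (n + N0)) (g (n + N0)) a ω : ℝ) : ℂ))
    have hint : ∀ n, Integrable (fun ω => (eY (dL (d n) φ) ω - (k : ℂ)) * ∏ j, Q.Z n j ω) P :=
      fun n => integrable_termSq I.st Q n (fin0 n) (k : ℂ)
    have heq : ∀ n ω, ((eY (dL (d n) φ) ω - (k : ℂ)) * ∏ j, Q.Z n j ω).re = Fz S (n + N0) ω := by
      intro n ω
      rw [hprod]
      unfold eY
      rw [hYl, hre]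
    refine ⟨fun n => ?_, ?_⟩
    · have := (hint n).re
      refine this.congr (Eventually.of_forall fun ω => ?_)
      exact heq n ω
    · have h1 := (Complex.continuous_re.tendsto _).comp hmain
      rw [Complex.zero_re] at h1
      refine h1.congr fun n => ?_
      have h2 := integral_re (hint n)
      change (∫ ω, (eY (dL (d n) φ) ω - (k : ℂ)) * ∏ j, Q.Z n j ω ∂P).re = _
      rw [← RCLike.re_eq_complex_re, ← h2]
      refine integral_congr_ae (Eventually.of_forall fun ω => ?_)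
      exact heq n ω
  -- the sum
  rw [← tendsto_add_atTop_iff_nat N0]
  have hsum : ∀ n, Ring695.wardInt P A R1 lam (g (n + N0)) ψ s (dl (n + N0)) (T (n + N0)) =
      ∑ S ∈ (ringCells V).powerset.filter (fun S => Even S.card),
        2 * ∫ ω, Fz S (n + N0) ω ∂P := by
    intro n
    have h1 : ∀ ω, sym (ind (EpC (lam * g (n + N0)) (g (n + N0)) (disc 1 R1))) ω *
        (Real.cos (s * Asm695.Lin (T (n + N0)) (fun v => -lap5 (dl (n + N0)) ψ
          (pos (dl (n + N0)) v)) ω) - k) =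
        ∑ S ∈ (ringCells V).powerset.filter (fun S => Even S.card), 2 * Fz S (n + N0) ω := by
      intro ω
      have h2 := sym_ind_Ep (V := V) (lam * g (n + N0)) (g (n + N0)) ω
      change sym (ind (fun ω => Ep (lam * g (n + N0)) (g (n + N0)) V (plusE ω))) ω * _ = _
      rw [h2, Finset.sum_mul, Finset.sum_filter]
      refine Finset.sum_congr rfl fun S _ => ?_
      split_ifs with he
      · rw [he.neg_one_pow]
        simp only [hFz, hL]
        ring
      · rw [(Nat.not_even_iff_odd.1 he).neg_one_pow]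
        ring
    unfold Ring695.wardInt
    rw [← hk]
    rw [integral_congr_ae (Eventually.of_forall h1), integral_finsetSum]
    · refine Finset.sum_congr rfl fun S _ => ?_
      rw [integral_const_mul]
    · intro S hS
      rw [Finset.mem_filter] at hS
      exact ((hterm S hS.1 hS.2).1 n).const_mul 2
  refine Tendsto.congr (fun n => (hsum n).symm) ?_
  have h0 : (0 : ℝ) = ∑ S ∈ (ringCells V).powerset.filter (fun S => Even S.card), 2 * (0 : ℝ) := by
    simp
  rw [h0]
  refine tendsto_finsetSum _ fun S hS => ?_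
  rw [Finset.mem_filter] at hS
  exact ((hterm S hS.1 hS.2).2).const_mul 2

end Crest.Agent.R161.War682
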