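import Mathlib

/-!
# Abstract planar duality over `ZMod 2` (helper863, R161)

Finite types `V` (primal vertices), `F` (dual vertices = faces), `E` (edges), primal ends `a b : E → V`,
dual ends `f g : E → F`.

* `d a b σ e = σ (a e) + σ (b e)`          : primal coboundary
* `del f g η x = ∑ e, [f e = x] η e + [g e = x] η e` : sum around the face `x`
* `Exact` : `del η = 0` implies `η = d σ` for some `σ` (vanishing of `H¹`), and `del (d σ) = 0`

`card_dual` : for every `ζ : E → Bool` (open primal edges)
`2^|F| * #{σ | σ const on ζ-clusters} = #ker d * 2^#{e | ¬ ζ e} * #{τ' | τ' const along e, ¬ ζ e}`.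
-/

set_option autoImplicit false

open Finset

namespace Crest.Agent.R161.Z2dual863

variable {V F E : Type*} [Fintype V] [Fintype F] [Fintype E] [DecidableEq V] [DecidableEq F]
  [DecidableEq E]

/-- primal coboundary -/
def d (a b : E → V) (σ : V → ZMod 2) (e : E) : ZMod 2 := σ (a e) + σ (b e)

/-- sum around a face -/
def del (f g : E → F) (η : E → ZMod 2) (x : F) : ZMod 2 :=
  ∑ e, ((if f e = x then η e else 0) + (if g e = x then η e else 0))

/-- exactness in the middle of `(V → Z₂) → (E → Z₂) → (F → Z₂)` -/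
structure Exact (a b : E → V) (f g : E → F) : Prop where
  closed : ∀ (σ : V → ZMod 2) (x : F), del f g (d a b σ) x = 0
  exact : ∀ η : E → ZMod 2, (∀ x, del f g η x = 0) → ∃ σ : V → ZMod 2, ∀ e, η e = d a b σ e

/-- the sign character of `ZMod 2` -/
def sg (x : ZMod 2) : ℤ := if x = 0 then 1 else -1

lemma sg_add (x y : ZMod 2) : sg (x + y) = sg x * sg y := by
  revert x y; decide

@[simp] lemma sg_zero : sg 0 = 1 := rfl

lemma sg_sum {ι : Type*} (s : Finset ι) (w : ι → ZMod 2) : sg (∑ i ∈ s, w i) = ∏ i ∈ s, sg (w i) := by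
  classical
  induction s using Finset.induction_on with
  | empty => simp
  | insert i s hi ih => rw [Finset.sum_insert hi, Finset.prod_insert hi, sg_add, ih]

lemma sum_sg (y : ZMod 2) : ∑ x : ZMod 2, sg (x * y) = if y = 0 then 2 else 0 := by
  revert y; decide

lemma sum_sg' (y : ZMod 2) (P : Prop) [Decidable P] :
    ∑ x : ZMod 2, (if P → x = 0 then sg (x * y) else 0) =
      if P then 1 else (if y = 0 then 2 else 0) := by
  by_cases h : P
  · simp [h]
  · simp only [h, false_imp_iff, if_true, if_false]
    exact sum_sg y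

/-- orthogonality of characters -/
lemma sum_char {ι : Type*} [Fintype ι] [DecidableEq ι] (w : ι → ZMod 2) :
    ∑ t : ι → ZMod 2, sg (∑ i, t i * w i) = if (∀ i, w i = 0) then 2 ^ Fintype.card ι else 0 := by
  have h1 : ∀ t : ι → ZMod 2, sg (∑ i, t i * w i) = ∏ i, sg (t i * w i) := fun t => sg_sum _ _
  simp only [h1]
  have h2 := Finset.prod_univ_sum (fun _ : ι => (Finset.univ : Finset (ZMod 2)))
    (fun i x => sg (x * w i))
  rw [Fintype.piFinset_univ] at h2
  rw [← h2]
  simp only [sum_sg]
  split_ifs with h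
  · simp [h]
  · push Not at h
    obtain ⟨i, hi⟩ := h
    exact Finset.prod_eq_zero (Finset.mem_univ i) (if_neg hi)

omit [DecidableEq E] in
lemma pairing (f g : E → F) (η : E → ZMod 2) (t : F → ZMod 2) :
    ∑ x, t x * del f g η x = ∑ e, η e * (t (f e) + t (g e)) := by
  simp only [del, Finset.mul_sum]
  rw [Finset.sum_comm]
  refine Finset.sum_congr rfl fun e _ => ?_
  simp only [mul_add, mul_ite, mul_zero, Finset.sum_add_distrib, Finset.sum_ite_eq,
    Finset.mem_univ, if_true]
  ring

/-- primal configurations constant along the open edges -/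
def prim (a b : E → V) (ζ : E → Bool) : Finset (V → ZMod 2) :=
  Finset.univ.filter fun σ => ∀ e, ζ e = true → σ (a e) = σ (b e)

/-- dual configurations constant along the closed edges -/
def dual (f g : E → F) (ζ : E → Bool) : Finset (F → ZMod 2) :=
  Finset.univ.filter fun t => ∀ e, ζ e = false → t (f e) = t (g e)

/-- closed cochains supported on closed edges -/
def cyc (f g : E → F) (ζ : E → Bool) : Finset (E → ZMod 2) :=
  Finset.univ.filter fun η => (∀ e, ζ e = true → η e = 0) ∧ ∀ x, del f g η x = 0

/-- kernel of `d` -/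
def kerd (a b : E → V) : Finset (V → ZMod 2) :=
  Finset.univ.filter fun σ => ∀ e, σ (a e) = σ (b e)

lemma zmod_add_eq_zero (x y : ZMod 2) : x + y = 0 ↔ x = y := by
  revert x y; decide

lemma card_cyc (f g : E → F) (ζ : E → Bool) :
    (2 : ℤ) ^ Fintype.card F * (cyc f g ζ).card =
      2 ^ (Finset.univ.filter fun e => ζ e = false).card * (dual f g ζ).card := by
  -- double sum
  have hA : (2 : ℤ) ^ Fintype.card F * (cyc f g ζ).card =
      ∑ η : E → ZMod 2, ∑ t : F → ZMod 2,
        (if (∀ e, ζ e = true → η e = 0) then sg (∑ x, t x * del f g η x) else 0) := by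
    have h1 : ∀ η : E → ZMod 2, ∑ t : F → ZMod 2,
        (if (∀ e, ζ e = true → η e = 0) then sg (∑ x, t x * del f g η x) else 0) =
        if ((∀ e, ζ e = true → η e = 0) ∧ ∀ x, del f g η x = 0) then 2 ^ Fintype.card F else 0 := by
      intro η
      by_cases h : ∀ e, ζ e = true → η e = 0
      · rw [Finset.sum_congr rfl fun t _ => if_pos h]
        refine (sum_char _).trans (if_congr ?_ rfl rfl)
        exact ⟨fun h' => ⟨h, h'⟩, fun h' => h'.2⟩
      · rw [if_neg (fun h' => h h'.1)]
        exact Finset.sum_eq_zero fun t _ => if_neg h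
    rw [Finset.sum_congr rfl fun η _ => h1 η, ← Finset.sum_filter, Finset.sum_const, nsmul_eq_mul,
      mul_comm]
    rfl
  have hB : ∀ t : F → ZMod 2, ∑ η : E → ZMod 2,
        (if (∀ e, ζ e = true → η e = 0) then sg (∑ x, t x * del f g η x) else 0) =
        if (∀ e, ζ e = false → t (f e) = t (g e)) then
          2 ^ (Finset.univ.filter fun e => ζ e = false).card else 0 := by
    intro t
    have h1 : ∀ η : E → ZMod 2,
        (if (∀ e, ζ e = true → η e = 0) then sg (∑ x, t x * del f g η x) else 0) =
        ∏ e, (if (ζ e = true → η e = 0) then sg (η e * (t (f e) + t (g e))) else 0) := by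
      intro η
      rw [pairing]
      by_cases h : ∀ e, ζ e = true → η e = 0
      · rw [if_pos h, sg_sum]
        exact Finset.prod_congr rfl fun e _ => (if_pos (h e)).symm
      · rw [if_neg h]
        push Not at h
        obtain ⟨e, he, he'⟩ := h
        exact (Finset.prod_eq_zero (Finset.mem_univ e) (if_neg fun h => he' (h he))).symm
    rw [Finset.sum_congr rfl fun η _ => h1 η]
    have h2 := Finset.prod_univ_sum (fun _ : E => (Finset.univ : Finset (ZMod 2)))
      (fun e x => if (ζ e = true → x = 0) then sg (x * (t (f e) + t (g e))) else 0)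
    rw [Fintype.piFinset_univ] at h2
    rw [← h2]
    simp only [sum_sg', zmod_add_eq_zero]
    split_ifs with h
    · rw [← Finset.prod_filter_mul_prod_filter_not Finset.univ (fun e => ζ e = false)]
      rw [Finset.prod_congr rfl (g := fun _ => (2 : ℤ)), Finset.prod_const,
        Finset.prod_congr rfl (g := fun _ => (1 : ℤ)), Finset.prod_const_one, mul_one]
      · intro e he
        have := (Finset.mem_filter.1 he).2
        simp only [Bool.not_eq_false] at this
        simp [this]
      · intro e he
        have := (Finset.mem_filter.1 he).2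
        simp [this, h e this]
    · push Not at h
      obtain ⟨e, he, he'⟩ := h
      refine Finset.prod_eq_zero (Finset.mem_univ e) ?_
      simp [he, he']
  rw [hA, Finset.sum_comm, Finset.sum_congr rfl fun t _ => hB t, ← Finset.sum_filter,
    Finset.sum_const, nsmul_eq_mul, mul_comm]
  rfl

lemma card_prim {a b : E → V} {f g : E → F} (hex : Exact a b f g) (ζ : E → Bool) :
    (prim a b ζ).card = (kerd a b).card * (cyc f g ζ).card := by
  classical
  have hmap : ∀ σ ∈ prim a b ζ, d a b σ ∈ cyc f g ζ := by
    intro σ hσ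
    have h := (Finset.mem_filter.1 hσ).2
    refine Finset.mem_filter.2 ⟨Finset.mem_univ _, fun e he => ?_, hex.closed σ⟩
    exact (zmod_add_eq_zero _ _).2 (h e he)
  rw [Finset.card_eq_sum_card_fiberwise hmap]
  rw [Finset.sum_congr rfl (g := fun _ => (kerd a b).card), Finset.sum_const, smul_eq_mul, mul_comm]
  intro η hη
  obtain ⟨hη1, hη2⟩ := (Finset.mem_filter.1 hη).2
  obtain ⟨σ₀, hσ₀⟩ := hex.exact η hη2
  refine Finset.card_bij' (fun σ _ => σ + σ₀) (fun σ _ => σ + σ₀) ?_ ?_ ?_ ?_
  · intro σ hσ
    obtain ⟨-, hσ2⟩ := Finset.mem_filter.1 hσ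
    refine Finset.mem_filter.2 ⟨Finset.mem_univ _, fun e => ?_⟩
    have h1 : d a b σ e = d a b σ₀ e := by rw [hσ2, hσ₀ e]
    unfold d at h1
    have h2 : (σ (a e) + σ₀ (a e)) + (σ (b e) + σ₀ (b e)) = 0 := by
      have : (σ (a e) + σ₀ (a e)) + (σ (b e) + σ₀ (b e)) =
        (σ (a e) + σ (b e)) + (σ₀ (a e) + σ₀ (b e)) := by ring
      rw [this, h1]
      exact (zmod_add_eq_zero _ _).2 rfl
    exact (zmod_add_eq_zero _ _).1 h2
  · intro σ hσ
    have hσ2 := (Finset.mem_filter.1 hσ).2
    have hd : d a b (σ + σ₀) = η := by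
      funext e
      rw [hσ₀ e]
      unfold d
      simp only [Pi.add_apply]
      have h3 : σ (a e) + σ (b e) = 0 := (zmod_add_eq_zero _ _).2 (hσ2 e)
      calc _ = (σ (a e) + σ (b e)) + (σ₀ (a e) + σ₀ (b e)) := by ring
        _ = _ := by rw [h3, zero_add]
    refine Finset.mem_filter.2 ⟨Finset.mem_filter.2 ⟨Finset.mem_univ _, fun e he => ?_⟩, hd⟩
    have := congrFun hd e
    rw [hη1 e he] at this
    exact (zmod_add_eq_zero _ _).1 this
  · intro σ _
    funext v
    simp only [Pi.add_apply]
    rw [add_assoc, (zmod_add_eq_zero _ _).2 rfl, add_zero]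
  · intro σ _
    funext v
    simp only [Pi.add_apply]
    rw [add_assoc, (zmod_add_eq_zero _ _).2 rfl, add_zero]

/-- **planar duality for cluster counts** -/
theorem card_dual {a b : E → V} {f g : E → F} (hex : Exact a b f g) (ζ : E → Bool) :
    (2 : ℤ) ^ Fintype.card F * (prim a b ζ).card = (kerd a b).card *
      2 ^ (Finset.univ.filter fun e => ζ e = false).card * (dual f g ζ).card := by
  rw [card_prim hex ζ]
  push_cast
  have := card_cyc f g ζ
  calc _ = ((kerd a b).card : ℤ) * (2 ^ Fintype.card F * (cyc f g ζ).card) := by ring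
    _ = _ := by rw [this]; ring

end Crest.Agent.R161.Z2dual863
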